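import Vale.Agent.P269L.K.Defs

/-!
# Comparison of two presentations: the abstract leaves
-/

set_option linter.unusedSectionVars false
set_option linter.unusedVariables false

noncomputable section

namespace Vale.Agent.P269L.K

open Set Function Topology Filter Module P291Z P269 P269.Holo P269.Orb P269.Ch

/-- Finite dimensional normed spaces. -/
def AllV (p : ∀ (E : Type) [NormedAddCommGroup E] [NormedSpace ℂ E] [FiniteDimensional ℂ E], Prop) :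
    Prop := ∀ (E : Type) [NormedAddCommGroup E] [NormedSpace ℂ E] [FiniteDimensional ℂ E], p E

/-- Finite dimensional normed algebras. -/
def AllA (p : ∀ (A : Type) [NormedRing A] [NormedAlgebra ℂ A] [FiniteDimensional ℂ A], Prop) : Prop :=
  ∀ (A : Type) [NormedRing A] [NormedAlgebra ℂ A] [FiniteDimensional ℂ A], p A

/-- All roofs. -/
def AllR (p : ∀ {A A₀ A₃ W W₀ Q P₃ ι ι₀ : Type} [NormedRing A] [NormedAlgebra ℂ A] [NormedRing A₀]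
    [NormedAlgebra ℂ A₀] [NormedRing A₃] [NormedAlgebra ℂ A₃] [NormedAddCommGroup W] [NormedSpace ℂ W]
    [NormedAddCommGroup W₀] [NormedSpace ℂ W₀] [NormedAddCommGroup Q] [NormedSpace ℂ Q]
    [NormedAddCommGroup P₃] [NormedSpace ℂ P₃] [Fintype ι] [Fintype ι₀] {D : Sd A W ι}
    {D₀ : Sd A₀ W₀ ι₀} (_ : Rf A₃ Q P₃ D D₀) (_ _ : ℕ), Prop) : Prop :=
  ∀ (A A₀ A₃ W W₀ Q P₃ ι ι₀ : Type) [NormedRing A] [NormedAlgebra ℂ A] [NormedRing A₀]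
    [NormedAlgebra ℂ A₀] [NormedRing A₃] [NormedAlgebra ℂ A₃] [NormedAddCommGroup W] [NormedSpace ℂ W]
    [NormedAddCommGroup W₀] [NormedSpace ℂ W₀] [NormedAddCommGroup Q] [NormedSpace ℂ Q]
    [NormedAddCommGroup P₃] [NormedSpace ℂ P₃] [Fintype ι] [Fintype ι₀] (D : Sd A W ι)
    (D₀ : Sd A₀ W₀ ι₀) (T : Rf A₃ Q P₃ D D₀) (d d₀ N N₀ : ℕ), T.Ok d d₀ N N₀ → p T N N₀

/-- Leaf: the deformation space of a stabilisation is a product. -/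
def LStab : Prop := AllV fun Ω _ _ _ => AllV fun Γ _ _ _ => AllV fun F _ _ _ => AllV fun W _ _ _ =>
  AllV fun R _ _ _ => AllV fun R' _ _ _ => AllV fun P _ _ _ => AllV fun P' _ _ _ =>
  ∀ (S : Set W) (a : W → R) (ω : Ω) (π : Ω → W) (γ : Ω → Γ) (w : Ω → F) (b : Ω → R')
    (e : W × Γ × F → Ω) (η : W → P →L[ℂ] R) (η' : Ω → P' →L[ℂ] R') (M : Set (W × P))
    (M' : Set (Ω × P × P')), Stab S a ω π γ w b e → AnalyticAt ℂ η (π ω) → Surjective (η (π ω)) →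
    AnalyticAt ℂ η' ω → Surjective (η' ω) →
    (∀ᶠ y in 𝓝 (π ω), ∀ ξ, (y, ξ) ∈ M ↔ y ∈ S ∧ η y ξ = a y) →
    (∀ᶠ z in 𝓝 ω, ∀ ξ c, (z, ξ, c) ∈ M' ↔ η (π z) ξ = a (π z) ∧ η' z c = b z) →
    ∃ (k : ℕ) (s : Ω → P →L[ℂ] P') (ℓ : Ω → (Fin k → ℂ) →L[ℂ] P'),
      k + finrank ℂ R' = finrank ℂ P' + finrank ℂ F ∧ AnalyticAt ℂ s ω ∧ AnalyticAt ℂ ℓ ω ∧
      Injective (ℓ ω) ∧ (∀ᶠ z in 𝓝 ω, a (π z) = 0 → w z = 0 → ∀ ξ c,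
        ((z, ξ, c), (0 : ℂ)) ∈ D.BM M' ↔ ((π z, ξ), (0 : ℂ)) ∈ D.BM M ∧ ∃ t, c = s z ξ + ℓ z t) ∧
      ∀ ξ c, ((ω, ξ, c), (0 : ℂ)) ∈ D.BM M' → ∃ (t : Γ × (Fin k → ℂ)) (Φ Ψ : _),
        GIso (D.BM M') ((ω, ξ, c), 0) (D.BM M ×ˢ univ) (((π ω, ξ), 0), t) Φ Ψ ∧
          ∀ q, (Φ q).1.2 = q.2

/-- Leaf: stably isomorphic deformations have the same multiplicities. -/
def LMul : Prop := AllV fun W _ _ _ => AllV fun W₀ _ _ _ => AllV fun X _ _ _ => AllV fun T _ _ _ =>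
  AllV fun T₀ _ _ _ => ∀ (ι ι₀ : Type) [Fintype ι] [Fintype ι₀] (M : Set (W × (ι → ℂ)))
    (M₀ : Set (W₀ × (ι₀ → ℂ))) (y : W × (ι → ℂ)) (y₀ : W₀ × (ι₀ → ℂ)) (n n₀ k : ℕ) (B : Set (X × ℂ))
    (b : X) (t : T) (t₀ : T₀) (Φ Ψ Φ₀ Ψ₀ : _), MfdAt M n (y.1, 0) → MfdAt M₀ n₀ (y₀.1, 0) →
    GIso B (b, 0) (D.BM M ×ˢ univ) ((y, 0), t) Φ Ψ → (∀ q, (Φ q).1.2 = q.2) →
    GIso B (b, 0) (D.BM M₀ ×ˢ univ) ((y₀, 0), t₀) Φ₀ Ψ₀ → (∀ q, (Φ₀ q).1.2 = q.2) →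
    MfdAt {z | (z, (0 : ℂ)) ∈ D.BM M} k y → ∀ m, Tx.Mul M y m ↔ Tx.Mul M₀ y₀ m

/-- Leaf: the symmetric local models. -/
def LSm : Prop := AllR fun T N N₀ => T.HasSm N N₀

/-- Leaf: the actions are proper and the roof is a principal bundle over both sides. -/
def LTop : Prop := AllR fun {A A₀ A₃ W W₀ Q} _ _ _ _ _ _ _ _ _ _ _ _ _ _ _ _ _ _ _ {D D₀} T N N₀ =>
  T.HasSm N N₀ → (∀ _ : IsAct D.act D.Z, Orb Aˣ (Holo.Sp D.act D.Z)) ∧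
    (∀ _ : IsAct D₀.act D₀.Z, Orb A₀ˣ (Holo.Sp D₀.act D₀.Z)) ∧
    (∀ _ : IsAct T.act T.Z, Orb (A × A₀ × A₃)ˣ (Holo.Sp T.act T.Z)) ∧
    Pr T.act D.act T.Z D.Z (.fst ℂ _ _) (.fst ℂ _ _) ∧
    Pr T.act D₀.act T.Z D₀.Z (.fst ℂ _ _ ∘L .snd ℂ _ _) (.fst ℂ _ _ ∘L .snd ℂ _ _) ∧
    ∀ z ∈ T.Z, P287Q.H3.An T.Z z

/-- Leaf: cycles along a principal bundle. -/
def LPb : Prop := AllA fun A _ _ _ => AllA fun A' _ _ _ => AllV fun W _ _ _ => AllV fun W' _ _ _ =>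
  ∀ (act : A → W → W) (act' : A' → W' → W') (T : Set W) (T' : Set W') (θ : A' →L[ℂ] A)
    (f : W' →L[ℂ] W) [IsAct act T] [IsAct act' T'] [Nice (Quo act T)], Orb Aˣ (Holo.Sp act T) →
    Orb A'ˣ (Holo.Sp act' T') → ∀ hp : Pr act' act T' T θ f, ∀ h : Quo act' T' → Quo act T,
    (∀ z : T', h (Quo.mk act' z) = Quo.mk act ⟨f z, hp.mem _ z.2⟩) → IsOpenEmbedding h ∧
      ∀ m γ, U.Cy act T m γ → U.Cy act' T' (fun z => m (f z)) (res h γ)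

/-- Leaf: the pull-back of a cycle to a bundle of affine spaces. -/
def LPull : Prop := AllA fun A _ _ _ => AllV fun W _ _ _ => AllV fun P _ _ _ =>
  ∀ (act : A → W → W) (ρ : A → P → P) (T : Set W) (T' : Set (W × P)) (k : ℕ) [IsAct act T]
    [IsAct (Tx.act2 act ρ) T'], Orb Aˣ (Holo.Sp act T) →
    ∀ (ho : Orb Aˣ (Holo.Sp (Tx.act2 act ρ) T')), I.Rep ρ → ∀ ha : Aff T T' k,
    ∀ p : Quo (Tx.act2 act ρ) T' → Quo act T,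
    (∀ q : T', p (Quo.mk _ q) = Quo.mk act ⟨q.1.1, ha.mem _ q.2⟩) →
    ∀ (E : VB (spA ho)) (i : E.W →ₗ[ℂ] P) (s : Holo.Sp (Tx.act2 act ρ) T' → E.W) (hs : E.IsSec s),
      E.r = k → Injective i → (∀ q q' : Holo.Sp (Tx.act2 act ρ) T', q.val.1 = q'.val.1 →
        s q - s q' ∈ E.F q ∧ i (s q - s q') = q.val.2 - q'.val.2) →
      let t : Coch (Quo (Tx.act2 act ρ) T') := hs.eul
      ∀ m γ, U.Cy act T m γ → ∃ γ', U.Cy (Tx.act2 act ρ) T' (fun q => m q.1) γ' ∧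
        ∀ a ∈ Zc (Quo act T), pull p a * t ∈ Zc _ ∧ ev γ' (pull p a * t) = ev γ a

/-- `h` is the map of orbit spaces given by the roof. -/
def Rf.Map {A A₀ A₃ W W₀ Q P₃ ι ι₀ : Type} [NormedRing A] [NormedAlgebra ℂ A] [NormedRing A₀]
    [NormedAlgebra ℂ A₀] [NormedAddCommGroup W] [NormedSpace ℂ W] [NormedAddCommGroup W₀]
    [NormedSpace ℂ W₀] [NormedAddCommGroup P₃] [NormedSpace ℂ P₃] {D : Sd A W ι} {D₀ : Sd A₀ W₀ ι₀}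
    (T : Rf A₃ Q P₃ D D₀) (h : Quo D.act D.Z → Quo D₀.act D₀.Z) : Prop :=
  ∀ z ∈ T.Z, ∀ a b, h (Quo.mk _ ⟨z.1, a⟩) = Quo.mk _ ⟨z.2.1, b⟩

/-- Leaf: **the virtual classes correspond.** -/
def LRoof : Prop := AllR fun {_ _ _ _ _ _ _ _ _} _ _ _ _ _ _ _ _ _ _ _ _ _ _ _ _ {D D₀} T _ _ =>
  ∃ h, T.Map h ∧ IsOpenEmbedding h ∧ ∀ v v₀, D.Vir v → D₀.Vir v₀ → ∀ a, Pub.Zc a →
    Pub.supp a ⊆ range h → v (Pub.pull h a) = v₀ a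

/-- Leaf: Euler classes correspond. -/
def LEu : Prop := AllR fun {A A₀ _ W W₀ Q _ _ _} _ _ _ _ _ _ _ _ _ _ _ _ _ _ _ _ {D D₀} T _ _ =>
  AllV fun E _ _ _ => AllV fun E₀ _ _ _ => ∀ (ρ : A → E → E) (ρ₀ : A₀ → E₀ → E₀)
    (B N : W → Submodule ℂ E) (B₀ N₀ : W₀ → Submodule ℂ E₀) (B₂ : W × W₀ × Q → Submodule ℂ (E × E₀))
    (r n r₀ n₀ r₂ : ℕ), I.Rep ρ → I.Rep ρ₀ → IsFam D.act ρ D.Z ⊤ B r → IsFam D.act ρ D.Z ⊤ N n →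
    IsFam D₀.act ρ₀ D₀.Z ⊤ B₀ r₀ → IsFam D₀.act ρ₀ D₀.Z ⊤ N₀ n₀ →
    IsFam T.act (fun u c => (ρ u.1 c.1, ρ₀ u.2.1 c.2)) T.Z ⊤ B₂ r₂ → (∀ x ∈ D₀.Z, N₀ x ≤ B₀ x) →
    (∀ z ∈ T.Z, (B₂ z).map (.fst ℂ _ _) ⊔ N z.1 = B z.1 ∧
      (B₂ z).map (.snd ℂ _ _) ⊔ N₀ z.2.1 = B₀ z.2.1 ∧ ∀ c ∈ B₂ z, c.1 ∈ N z.1 ↔ c.2 ∈ N₀ z.2.1) →
    ∀ h, T.Map h → ∀ e e₀, Pub.IsLoc D.act ρ D.Z B N (fun _ => 0) e →
      Pub.IsLoc D₀.act ρ₀ D₀.Z B₀ N₀ (fun _ => 0) e₀ →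
      ∃ (c : Coch (Quo D.act D.Z)) (c₀ : Coch (Quo D₀.act D₀.Z)), c.1 = e ∧ c₀.1 = e₀ ∧
        supp (δ c) = ∅ ∧ supp (δ c₀) = ∅ ∧ hcls c = hcls (pull h c₀)

end Vale.Agent.P269L.K
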