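import Vale.Agent.P269L.G.Mul
import Vale.Agent.P269L.G.Pub
import Vale.Agent.P269L.U.Tx

/-!
# The normal cone of a germ of manifolds along an invariant set
-/

set_option linter.unusedSectionVars false

namespace Vale.Agent.P269L.K

open Set Function Topology Filter Module P291Z P287Q.H3 P269 P269.Ch P269.Holo P269.Orb

variable {A W ι : Type} [NormedRing A] [NormedAlgebra ℂ A] [NormedAddCommGroup W]
  [NormedSpace ℂ W] [Fintype ι]

/-- `M` is an invariant set which is a manifold along `Z × 0`, and `Z` is its part `u = 0`. -/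
structure Cb (act : A → W → W) (ρ : A → (ι → ℂ) → ι → ℂ) (Z : Set W) (M : Set (W × (ι → ℂ)))
    (n : ℕ) : Prop where
  isAct : IsAct act Z
  rho : IsAct ρ univ
  lin : ∀ a, IsUnit a → IsLinearMap ℂ (ρ a)
  mfd : ∀ x ∈ Z, MfdAt M n (x, 0)
  zero : ∀ x ∈ Z, ∀ᶠ y in 𝓝 x, (y, (0 : ι → ℂ)) ∈ M → y ∈ Z
  inv : ∀ a, IsUnit a → ∀ z ∈ M, Tx.act2 act ρ a z ∈ M

namespace Cb

variable [FiniteDimensional ℂ A] [FiniteDimensional ℂ W] {act : A → W → W}
  {ρ : A → (ι → ℂ) → ι → ℂ} {Z : Set W} {M : Set (W × (ι → ℂ))} {n k : ℕ} {y : W × (ι → ℂ)}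
  (h : Cb act ρ Z M n)
include h

theorem mem_cone : y ∈ Tx.Cone Z M ↔ y.1 ∈ Z ∧ (y, (0 : ℂ)) ∈ D.BM M :=
  and_congr_right fun a => D.cone_iff (h.mfd _ a) y.2

theorem near (hy : y.1 ∈ Z) : ∀ᶠ z in 𝓝 y, z ∈ Tx.Cone Z M ↔ (z, (0 : ℂ)) ∈ D.BM M := by
  filter_upwards [G.lim_near (ξ := y.2) (T.an_of_mfd (h.mfd _ hy)),
    continuousAt_fst.eventually (h.zero _ hy)] with z a b
  exact ⟨fun e => (h.mem_cone.1 e).2, fun e => h.mem_cone.2 ⟨b (a e), e⟩⟩

theorem an' (hy : y.1 ∈ Z) : An (Tx.Cone Z M) y :=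
  (G.an_lim (ξ := y.2) (T.an_of_mfd (h.mfd _ hy))).congr ((h.near hy).mono fun _ a => a.symm)

theorem an (y : W × (ι → ℂ)) (hy : y ∈ Tx.Cone Z M) : An (Tx.Cone Z M) y := h.an' hy.1

theorem lc : IsLocallyClosed (Tx.Cone Z M) := isLocallyClosed_of_an h.an

theorem rho_zero {a : A} (ha : IsUnit a) : ρ a 0 = 0 := (h.lin a ha).map_zero

theorem an_act {a : A} (ha : IsUnit a) (hy : y.1 ∈ Z) :
    AnalyticAt ℂ (fun p : A × W × (ι → ℂ) => Tx.act2 act ρ p.1 p.2) (a, y) :=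
  ((h.isAct.an a ha _ hy).comp_of_eq (analyticAt_fst.prod (analyticAt_fst.comp analyticAt_snd))
    rfl).prod ((h.rho.an a ha y.2 trivial).comp_of_eq (analyticAt_fst.prod
      (analyticAt_snd.comp analyticAt_snd)) rfl)

theorem actC : IsAct (Tx.act2 act ρ) (Tx.Cone Z M) := by
  refine ⟨fun z hz => Prod.ext (h.isAct.one _ hz.1) (h.rho.one _ trivial),
    fun a b ha hb z hz => Prod.ext (h.isAct.mul a b ha hb _ hz.1) (h.rho.mul a b ha hb _ trivial),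
    fun a ha z hz => h.mem_cone.2 ⟨h.isAct.mem a ha _ hz.1, ?_⟩, fun a ha z hz => h.an_act ha hz.1⟩
  have c : ContinuousAt (fun b : (W × (ι → ℂ)) × ℂ => (Tx.act2 act ρ a b.1, b.2)) (z, 0) :=
    (((h.an_act ha hz.1).continuousAt.comp_of_eq (continuousAt_const.prodMk continuousAt_id)
      rfl).comp_of_eq continuousAt_fst rfl).prodMk continuousAt_snd
  refine c.continuousWithinAt.mem_closure (h.mem_cone.1 hz).2 fun b hb => ⟨hb.1, ?_⟩
  have := h.inv a ha _ hb.2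
  rwa [Tx.act2, (h.lin a ha).map_smul] at this

theorem zero_mem {x : W} (hx : x ∈ Z) : (x, (0 : ι → ℂ)) ∈ Tx.Cone Z M :=
  h.mem_cone.2 ⟨hx, mem_closure_of_tendsto (f := fun t : ℂ => ((x, (0 : ι → ℂ)), t))
    (b := 𝓝[≠] 0) ((Continuous.prodMk_right _).continuousAt.tendsto.mono_left nhdsWithin_le_nhds)
    (eventually_mem_nhdsWithin.mono fun t ht => ⟨ht, by
      simpa only [smul_zero] using (h.mfd x hx).mem⟩)⟩

theorem orbC (ho : haveI := h.isAct; Orb Aˣ (Holo.Sp act Z)) :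
    haveI := h.actC; Orb Aˣ (Holo.Sp (Tx.act2 act ρ) (Tx.Cone Z M)) :=
  haveI := h.actC
  haveI := h.isAct
  haveI := FiniteDimensional.proper ℂ (W × (ι → ℂ))
  haveI : LocallyCompactSpace (Tx.Cone Z M) := h.lc.locallyCompactSpace
  haveI : Nice (Holo.Sp (Tx.act2 act ρ) (Tx.Cone Z M)) :=
    ⟨inferInstance, inferInstance, inferInstance⟩
  ho.of_map (f := fun z => Holo.Sp.of act z.val.1 z.val_mem.1)
    ((continuous_fst.comp Holo.Sp.continuous_val).subtype_mk _) fun _ _ => rfl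

/-- purity -/
theorem dim (hy : MfdAt (Tx.Cone Z M) k y) : k = n :=
  G.pure_BM (h.mfd _ hy.mem.1) (D.an_BM (h.mfd _ hy.mem.1) y.2) (h.near hy.mem.1) hy

theorem mul (hy : MfdAt (Tx.Cone Z M) k y) : ∃ N : ℕ, 0 < N ∧ ∀ m, Tx.Mul M y m ↔ m = N :=
  G.mul_ex (h.mfd _ hy.mem.1) (h.near hy.mem.1) hy

theorem mul_unique (hy : MfdAt (Tx.Cone Z M) k y) {z z' : ℂ} (a : Tx.Mul M y z)
    (b : Tx.Mul M y z') : z = z' :=
  let ⟨_, _, e⟩ := h.mul hy
  ((e z).1 a).trans ((e z').1 b).symm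

theorem anZ {x : W} (hx : x ∈ Z) : An Z x :=
  (An.preimage (f := fun y : W => (y, (0 : ι → ℂ))) (analyticAt_id.prod analyticAt_const)
    (T.an_of_mfd (h.mfd x hx))).congr ((h.zero x hx).mono fun y a =>
      ⟨a, fun b => (h.mfd y b).mem⟩)

theorem lcZ : IsLocallyClosed Z := isLocallyClosed_of_an fun _ => h.anZ

end Cb

end Vale.Agent.P269L.K
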