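import Vale.Agent.P269L.K.Gen
import Vale.Agent.P269L.I.Crv
import Vale.Agent.P269.Hdg.Bridge
import Vale.Agent.P269.Hdg.Geo

/-!
# The ideal of the section of a presentation is generated by the equations along sections
-/

set_option linter.unusedSectionVars false
set_option linter.unusedVariables false

noncomputable section

namespace Vale.Agent.P269L.K

open Set Function Topology Filter P269 P269.Holo I

variable {A B W E V P X R ι Λ κ Ω E' : Type} [NormedRing A] [NormedAlgebra ℂ A] [NormedRing B]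
  [NormedAlgebra ℂ B] [NormedAddCommGroup W] [NormedSpace ℂ W] [NormedAddCommGroup E]
  [NormedSpace ℂ E] [NormedAddCommGroup V] [NormedSpace ℂ V] [NormedAddCommGroup P] [NormedSpace ℂ P]
  [NormedAddCommGroup X] [NormedSpace ℂ X] [NormedAddCommGroup R] [NormedSpace ℂ R] [Fintype ι]
  [NormedAddCommGroup Ω] [NormedSpace ℂ Ω] [NormedAddCommGroup E'] [NormedSpace ℂ E'] {n : ℕ}
  {T : Set Ω} {ω : Ω} {g : Ω → E'}

/-- A smooth cone `K` with tangent spaces `TK`. -/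
structure Rt (K : Set X) (TK : X → Set X) : Prop where
  ne : ∀ y ∈ K, y ≠ 0
  smul : ∀ t : ℂ, t ≠ 0 → ∀ y ∈ K, t • y ∈ K
  retr : ∀ y ∈ K, ∃ r : X → X, AnalyticAt ℂ r y ∧ r y = y ∧
    (∀ᶠ z in 𝓝 y, r z ∈ K ∧ (z ∈ K → r z = z)) ∧ ∀ v ∈ TK y, fderiv ℂ r y v = v

theorem rt_ci {N c : ℕ} {F : Fin c → MvPolynomial (Fin (N + 1)) ℂ} {d : Fin c → ℕ}
    (h : SmCI F d) : Rt (ci F).cone (ci F).tan := by
  refine ⟨fun y b => b.1, fun t ht y b => ⟨smul_ne_zero ht b.1, fun k => ?_⟩, fun y b => ?_⟩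
  · exact (Hdg.eval_smul_of_hom (h.hom k) t y).trans (mul_eq_zero_of_right _ (b.2 k))
  · obtain ⟨r, a1, a2, a3⟩ := Hdg.exists_retr (F := F) ⟨h.hom, h.pos, h.li⟩ (x := y) b
    exact ⟨r, a1, a2, a3.mono fun z e => ⟨e.1, fun k => (e.2.2 k).1⟩, fun v hv =>
      (a3.self_of_nhds.2.2 b).2 v (Hdg.tan_eq y ▸ hv)⟩

/-- A holomorphic family of linear maps. -/
theorem exists_clm [FiniteDimensional ℂ E] [FiniteDimensional ℂ X] [FiniteDimensional ℂ V]
    {j : E × X → V} (hj : Differentiable ℂ j) (lin : ∀ c, IsLinearMap ℂ fun y => j (c, y)) :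
    ∃ J : E → X →L[ℂ] V, (∀ c, AnalyticAt ℂ J c) ∧ ∀ c y, J c y = j (c, y) :=
  have := FiniteDimensional.complete ℂ V
  ⟨fun c => LinearMap.toContinuousLinearMap ((lin c).mk' _), fun c => analyticAt_of_apply fun y =>
    (an_of_diff hj (c, y)).comp (f := fun c => (c, y)) (analyticAt_id.prod analyticAt_const),
    fun _ _ => rfl⟩

/-- **RED**, relative form. -/
theorem Gen.exists_rel [FiniteDimensional ℂ E] [FiniteDimensional ℂ X] [FiniteDimensional ℂ V]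
    {K : Set X} {TK : X → Set X} (hK : Rt K TK) {y₀ : X} (hy : y₀ ∈ K) {J : Ω → X →L[ℂ] V}
    {c : Ω → E} {s : Ω → V} (hJ : AnalyticAt ℂ J ω) (hi : Injective (J ω)) (hc : AnalyticAt ℂ c ω)
    (hs : AnalyticAt ℂ s ω) (h0 : s ω = J ω y₀) {H : Λ → E × V → ℂ}
    (hH : ∀ l, AnalyticAt ℂ (H l) (c ω, s ω))
    (h1 : ∀ᶠ z in 𝓝[T] ω, ∀ y ∈ K, ∀ l, H l (c z, J z y) = 0)
    (hk : ∀ w, (∀ l, fderiv ℂ (H l) (c ω, s ω) (0, w) = 0) → ∃ u ∈ TK y₀, w = J ω u)
    (a : ∀ l, Gen T ω (fun z => H l (c z, s z)) g) : ∃ y : Ω → X, AnalyticAt ℂ y ω ∧ y ω = y₀ ∧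
      (∀ᶠ z in 𝓝 ω, y z ∈ K) ∧ Gen T ω (fun z => s z - J z (y z)) g := by
  have := FiniteDimensional.complete ℂ X
  obtain ⟨r, b1, b2, b3, b4⟩ := hK.retr _ hy
  obtain ⟨Q, q1, q2⟩ := exists_an_leftInv hJ hi
  have c0 : Q ω (s ω) = y₀ := h0 ▸ q2.self_of_nhds _
  have c1 : AnalyticAt ℂ (fun z => Q z (s z)) ω := an_apply q1 hs
  have c2 : AnalyticAt ℂ (fun z => r (Q z (s z))) ω := b1.comp_of_eq c1 c0
  have c3 : r (Q ω (s ω)) = y₀ := by rw [c0, b2]
  have c4 : ∀ᶠ z in 𝓝 ω, r (Q z (s z)) ∈ K :=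
    ((c0 ▸ c1.continuousAt.tendsto).eventually b3).mono fun _ e => e.1
  have c5 := an_apply hJ c2
  refine ⟨_, c2, c3, c4, ?_⟩
  choose G d1 d2 d3 using fun l => exists_had (hH l) (hc.prod hs) (hc.prod c5) rfl
    (by rw [c3, h0])
  obtain ⟨G', e1, e2, e3⟩ := exists_had b1 c1 (an_apply q1 c5) c0 (by rw [c3, ← h0, c0])
  refine sep₂ (τ := fun l z => (G l z).comp (.inr ℂ E V)) (r := fun z => (G' z).comp (Q z))
    (fun l => an_comp (d1 l) analyticAt_const) (an_comp e1 q1) (fun u x y => ?_) (fun l => ?_)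
    (of_zero (nhdsWithin_le_nhds ?_))
  · obtain ⟨u, k, rfl⟩ := hk u fun l => d2 l ▸ x l
    rw [ContinuousLinearMap.comp_apply, q2.self_of_nhds, e2, b4 u k] at y
    rw [y, map_zero]
  · refine (a l).congr_left ?_
    filter_upwards [h1, nhdsWithin_le_nhds c4] with z x y
    have := d3 l z
    rw [x _ y, sub_zero, Prod.mk_sub_mk, sub_self] at this
    exact this
  · filter_upwards [q2, c4, (c3 ▸ c2.continuousAt.tendsto).eventually b3] with z x y w
    rw [ContinuousLinearMap.comp_apply, map_sub, ← e3, x, w.2 y, sub_self]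

variable {D : Dat A B W E V P X ι Λ n} {χ : (ι → ℕ) → B → ℂ} {K : Set X} {TK : X → Set X} {γ : ℤ}
  {π : Ω → W} {η : W → P →L[ℂ] R} {a : W → R}

/-- An analytic section of the family along `π`. -/
structure Sn (D : Dat A B W E V P X ι Λ n) (T : Set Ω) (ω : Ω) (π : Ω → W) (c : Ω → E) : Prop where
  anπ : AnalyticAt ℂ π ω
  an : AnalyticAt ℂ c ω
  mem : ω ∈ T
  ev : ∀ᶠ z in 𝓝[T] ω, π z ∈ D.S ∧ c z ∈ D.C (π z)

namespace Sn

variable {c : Ω → E} (h : Sn D T ω π c)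
include h

theorem memS : π ω ∈ D.S := (h.ev.self_of_nhdsWithin h.mem).1

theorem memC : c ω ∈ D.C (π ω) := (h.ev.self_of_nhdsWithin h.mem).2

theorem tendsto : Tendsto (fun z => (π z, c z)) (𝓝[T] ω) (𝓝[D.U] (π ω, c ω)) :=
  tendsto_nhdsWithin_iff.2 ⟨(h.anπ.prod h.an).continuousAt.tendsto.mono_left nhdsWithin_le_nhds,
    h.ev⟩

theorem tendstoS : Tendsto π (𝓝[T] ω) (𝓝[D.S] π ω) :=
  tendsto_nhdsWithin_iff.2 ⟨h.anπ.continuousAt.tendsto.mono_left nhdsWithin_le_nhds,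
    h.ev.mono fun _ e => e.1⟩

/-- Holomorphic functions on the family along the section. -/
theorem ext {F : Type} [NormedAddCommGroup F] [NormedSpace ℂ F] {s : W × E → F}
    (hs : ∃ k, Ext D.U s (π ω, c ω) k) :
    ∃ k, AnalyticAt ℂ k ω ∧ ∀ᶠ z in 𝓝[T] ω, s (π z, c z) = k z :=
  let ⟨k, b, e⟩ := hs
  ⟨fun z => k (π z, c z), b.comp (f := fun z => (π z, c z)) (h.anπ.prod h.an), h.tendsto.eventually e⟩

theorem exists_s (hF : D.Fam χ γ) :
    ∃ k, AnalyticAt ℂ k ω ∧ ∀ᶠ z in 𝓝[T] ω, D.s (π z, c z) = k z :=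
  h.ext ((hF.2.2.2 _ h.memS).2.2.2.2 _ h.memC).1

/-- Evaluation along the section. -/
theorem exists_ev [FiniteDimensional ℂ P] (hF : D.Fam χ γ) (l : Λ) : ∃ τ : Ω → P →L[ℂ] ℂ,
    AnalyticAt ℂ τ ω ∧ ∀ᶠ z in 𝓝[T] ω, ∀ κ, τ z κ = D.ev κ l (π z, c z) := by
  let b := Module.finBasis ℂ P
  choose k k1 k2 using fun i =>
    h.ext ((((hF.2.2.2 _ h.memS).2.2.2.2 _ h.memC).2.2 l).2 (b i))
  refine ⟨fun z => ∑ i, k i z • LinearMap.toContinuousLinearMap (b.coord i),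
    Finset.analyticAt_fun_sum _ fun i _ => (k1 i).smul analyticAt_const, ?_⟩
  filter_upwards [eventually_all.2 k2] with z e κ
  have := congrArg ((hF.2.2.1 l (π z, c z)).mk' _) (b.sum_repr κ)
  rw [map_sum] at this
  simpa [e, mul_comm] using this

/-- The equations along a section lie in the ideal of the section of the presentation. -/
theorem gen_H [FiniteDimensional ℂ P] [FiniteDimensional ℂ R] (hF : D.Fam χ γ)
    (h1 : AnalyticAt ℂ η (π ω)) (h2 : Surjective (η (π ω)))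
    (h3 : ∀ᶠ y in 𝓝[D.S] π ω, (∀ κ, η y κ = 0 ↔ κ ∈ D.van y) ∧ η y (D.σ y) = a y) (l : Λ) :
    Gen T ω (fun z => D.H l (c z, D.s (π z, c z))) fun z => a (π z) := by
  obtain ⟨τ, b1, b2⟩ := h.exists_ev hF l
  refine (Gen.of_ker (s := fun z => D.σ (π z)) (h1.comp h.anπ) h2 b1 ?_).congr ?_
    ((h.tendstoS.eventually h3).mono fun _ e => e.2)
  · filter_upwards [h.tendstoS.eventually h3, b2, h.ev] with z x y w κ e
    exact (y κ).trans ((x.1 κ).1 e _ w.2 l)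
  · filter_upwards [b2, h.ev] with z y w
    exact (y _).trans (((hF.2.2.2 _ w.1).2.2.2.2 _ w.2).2.2 l).1

theorem free (hF : D.Fam χ γ) : ∀ᶠ z in 𝓝[T] ω, Injective fun u => D.τ u (c z) :=
  h.ev.mono fun z e => ((hF.2.2.2 _ e.1).2.2.1.1 _ (subset_closure e.2)).1 e.2

variable [FiniteDimensional ℂ E] [FiniteDimensional ℂ X] [FiniteDimensional ℂ V]

/-- If the equations along the section lie in an ideal, the map is congruent to a map to the target. -/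
theorem exists_map (hF : D.Fam χ γ) (hE : D.Emb χ K TK) (hK : Rt K TK) {y₀ : X} (hy : y₀ ∈ K)
    (h0 : D.s (π ω, c ω) = D.j (c ω, y₀))
    (a : ∀ l, Gen T ω (fun z => D.H l (c z, D.s (π z, c z))) g) : ∃ y : Ω → X, AnalyticAt ℂ y ω ∧
      y ω = y₀ ∧ (∀ᶠ z in 𝓝 ω, y z ∈ K) ∧ Gen T ω (fun z => D.s (π z, c z) - D.j (c z, y z)) g := by
  obtain ⟨J, j1, j2⟩ := exists_clm hE.1 fun c => (hE.2.2 c).1
  obtain ⟨s, s1, s2⟩ := h.exists_s hF
  have e := (hE.2.2 _).2.2 ((h.free hF).self_of_nhdsWithin h.mem)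
  have s0 : s ω = D.j (c ω, y₀) := (s2.self_of_nhdsWithin h.mem).symm.trans h0
  obtain ⟨y, b1, b2, b3, b4⟩ := Gen.exists_rel hK hy (J := fun z => J (c z)) ((j1 _).comp h.an)
    (fun u v k => e.1 ((j2 _ _).symm.trans (k.trans (j2 _ _)))) h.an s1 (s0.trans (j2 _ _).symm)
    (fun l => an_of_diff (hE.2.1 l) _) (T := T) (by
      filter_upwards [h.free hF] with z x y hy l
      have k := (hE.2.2 _).2.2 x
      refine (k.2.1 _ fun w => hK.ne y hy (k.1 ?_)).2 ⟨y, hy, (j2 _ _).symm⟩ l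
      exact ((j2 _ _).symm.trans w).trans ((map_zero (J _)).symm.trans (j2 _ _)))
    (fun w k => by
      obtain ⟨u, k1, k2⟩ := (e.2.2 _ hy w).1 (s0 ▸ k)
      exact ⟨u, k1, k2.symm.trans (j2 _ _).symm⟩)
    fun l => (a l).congr_left (s2.mono fun z x => by rw [x])
  exact ⟨y, b1, b2, b3, b4.congr_left (s2.mono fun z x => by rw [x, j2])⟩

/-- Conversely. -/
theorem gen_H_of (hF : D.Fam χ γ) (hE : D.Emb χ K TK) (hK : Rt K TK) {y : Ω → X}
    (hy : AnalyticAt ℂ y ω) (hm : ∀ᶠ z in 𝓝[T] ω, y z ∈ K)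
    (h0 : D.s (π ω, c ω) = D.j (c ω, y ω))
    (a : Gen T ω (fun z => D.s (π z, c z) - D.j (c z, y z)) g) (l : Λ) :
    Gen T ω (fun z => D.H l (c z, D.s (π z, c z))) g := by
  have := FiniteDimensional.complete ℂ V
  obtain ⟨s, s1, s2⟩ := h.exists_s hF
  refine (Gen.had₂ (F := D.H l) (v := fun z => D.j (c z, y z)) (an_of_diff (hE.2.1 l) _) h.an s1
    ((an_of_diff hE.1 _).comp (f := fun z => (c z, y z)) (h.an.prod hy))
    (h0.symm.trans (s2.self_of_nhdsWithin h.mem))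
    (a.congr_left (s2.mono fun z x => by rw [x]))).congr_left ?_
  filter_upwards [h.free hF, hm, s2] with z x w e
  have k := (hE.2.2 _).2.2 x
  rw [e, (k.2.1 _ fun u => hK.ne _ w (k.1 (u.trans (hE.2.2 _).1.map_zero.symm))).2 ⟨_, w, rfl⟩ l,
    sub_zero]

end Sn

/-- The equations along a dense family of sections generate the ideal of the section. -/
theorem gen_a [FiniteDimensional ℂ P] [FiniteDimensional ℂ R] (hF : D.Fam χ γ) {c : κ → Ω → E}
    (h : ∀ k, Sn D T ω π (c k)) (hπ : AnalyticAt ℂ π ω) (hω : ω ∈ T)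
    (hS : ∀ᶠ z in 𝓝[T] ω, π z ∈ D.S) (hd : D.C (π ω) ⊆ closure (range fun k => c k ω))
    (h1 : AnalyticAt ℂ η (π ω)) (h2 : Surjective (η (π ω)))
    (h3 : ∀ᶠ y in 𝓝[D.S] π ω, (∀ κ, η y κ = 0 ↔ κ ∈ D.van y) ∧ η y (D.σ y) = a y)
    (b : ∀ k l, Gen T ω (fun z => D.H l (c k z, D.s (π z, c k z))) g) :
    Gen T ω (fun z => a (π z)) g := by
  have hx := hS.self_of_nhdsWithin hω
  have t : Tendsto π (𝓝[T] ω) (𝓝[D.S] π ω) :=
    tendsto_nhdsWithin_iff.2 ⟨hπ.continuousAt.tendsto.mono_left nhdsWithin_le_nhds, hS⟩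
  choose τ t1 t2 using fun q : κ × Λ => (h q.1).exists_ev hF q.2
  obtain ⟨r, r1, r2⟩ := exists_an_rightInv (L := fun z => η (π z)) (h1.comp hπ) h2
  refine Gen.sep (τ := fun q z => (τ q z).comp (r z)) (fun q => an_comp (t1 q) r1)
    (fun u e => ?_) fun q => (b q.1 q.2).congr_left ?_
  · rw [← r2.self_of_nhds u]
    refine ((h3.self_of_nhdsWithin hx).1 _).2 fun p hp l => ?_
    obtain ⟨k, k1, k2⟩ := (((hF.2.2.2 _ hx).2.2.2.2 _ hp).2.2 l).2 (r ω u)
    have k3 : ∀ᶠ y in 𝓝[D.C (π ω)] p, D.ev (r ω u) l (π ω, y) = k (π ω, y) :=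
      (tendsto_nhdsWithin_iff.2 ⟨(tendsto_inr _ _).mono_left nhdsWithin_le_nhds,
        eventually_mem_nhdsWithin.mono fun _ w => ⟨hx, w⟩⟩ :
          Tendsto (fun y => (π ω, y)) _ (𝓝[D.U] (π ω, p))).eventually k2
    have k4 : ContinuousWithinAt (fun y => D.ev (r ω u) l (π ω, y)) (D.C (π ω)) p :=
      (k1.continuousAt.comp (f := fun y => (π ω, y))
        (Continuous.prodMk_right _).continuousAt).continuousWithinAt.congr_of_eventuallyEq k3
          (k3.self_of_nhdsWithin hp)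
    have k5 := (k4.mono (range_subset_iff.2 fun k => (h k).memC)).mem_closure_image (hd hp)
    refine (closure_mono ?_).trans (isClosed_singleton (x := (0 : ℂ))).closure_subset k5
    rintro _ ⟨_, ⟨k, rfl⟩, rfl⟩
    exact ((t2 (k, l)).self_of_nhdsWithin hω _).symm.trans (e (k, l))
  · filter_upwards [t.eventually h3, t2 q, (h q.1).ev, nhdsWithin_le_nhds r2] with z x y w v
    have k := (x.1 (D.σ (π z) - r z (a (π z)))).1 (by rw [map_sub, v, x.2, sub_self]) _ w.2 q.2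
    rw [← y, map_sub, sub_eq_zero, y] at k
    exact (((hF.2.2.2 _ w.1).2.2.2.2 _ w.2).2.2 q.2).1.symm.trans k

end Vale.Agent.P269L.K
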