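import Vale.Agent.P269L.K.St
import Vale.Agent.P269L.K.Id0
import Vale.Agent.P269.Base.LF
import Vale.Agent.P269.Base.OpenA

/-!
# Presentations in normal form: the family of curves, the action on the solutions
-/

set_option linter.unusedSectionVars false
set_option linter.unusedVariables false

noncomputable section

namespace Vale.Agent.P269L.K

open Set Function Topology Filter Module P269 P269.Base P269.Holo I

theorem mfd_of_map {W : Type} [NormedAddCommGroup W] [NormedSpace ℂ W] [FiniteDimensional ℂ W]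
    {S : Set W} {x : W} {d : ℕ} {Φ : (Fin d → ℂ) → W} (h1 : AnalyticAt ℂ Φ 0)
    (h2 : Injective (fderiv ℂ Φ 0)) (h3 : map Φ (𝓝 0) = 𝓝[S] x) : MfdAt S d x := by
  have := FiniteDimensional.complete ℂ W
  obtain rfl : Φ 0 = x := tendsto_nhds_unique h1.continuousAt.tendsto
    (h3.le.trans nhdsWithin_le_nhds)
  obtain ⟨w, a, b⟩ := exists_leftInv h1 h2
  have k := (MfdAt.univ (0 : Fin d → ℂ)).iso (S' := S) h1 a (by
    filter_upwards [b, h3.le self_mem_nhdsWithin] with z e e' _ using ⟨e', e⟩)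
    (eventually_nhdsWithin_iff.1 (h3 ▸ eventually_map.2 (b.mono fun z e => ⟨trivial, by rw [e]⟩)))
  rwa [finrank_fin_fun] at k

/-- Coordinates on the image of a linear map. -/
theorem exists_cok {E F : Type} [NormedAddCommGroup E] [NormedSpace ℂ E] [NormedAddCommGroup F]
    [NormedSpace ℂ F] [FiniteDimensional ℂ F] (e : E →L[ℂ] F) :
    ∃ (k : ℕ) (q : F →L[ℂ] Fin k → ℂ), Surjective (q.comp e) ∧ ∀ v, q (e v) = 0 → e v = 0 := by
  let R := LinearMap.range (e : E →ₗ[ℂ] F)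
  obtain ⟨p, hp⟩ := R.subtype.exists_leftInverse_of_injective R.ker_subtype
  have k : ∀ v, p (e v) = ⟨e v, v, rfl⟩ := fun v => congr($hp ⟨e v, v, rfl⟩)
  refine ⟨_, ((finBasis ℂ R).equivFun.toLinearMap ∘ₗ p).toContinuousLinearMap, fun u => ?_,
    fun v hv => ?_⟩
  · obtain ⟨⟨_, v, rfl⟩, rfl⟩ := (finBasis ℂ R).equivFun.surjective u
    exact ⟨v, congrArg (finBasis ℂ R).equivFun (k v)⟩
  · exact congrArg Subtype.val ((k v).symm.trans ((finBasis ℂ R).equivFun.map_eq_zero_iff.1 hv))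

/-- A surjection that kills a subspace of the right dimension has this kernel. -/
theorem ker_iff {E : Type} [NormedAddCommGroup E] [NormedSpace ℂ E] [FiniteDimensional ℂ E] {k : ℕ}
    {η η₀ : E →L[ℂ] Fin k → ℂ} (h : Surjective η) (h₀ : Surjective η₀) {T T₀ : Submodule ℂ E}
    (a : ∀ v ∈ T, η v = 0) (b : ∀ v, η₀ v = 0 → v ∈ T₀) (c : finrank ℂ T₀ ≤ finrank ℂ T) (v : E) :
    η v = 0 ↔ v ∈ T := by
  have k1 := (η : E →ₗ[ℂ] Fin k → ℂ).finrank_range_add_finrank_ker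
  have k2 := (η₀ : E →ₗ[ℂ] Fin k → ℂ).finrank_range_add_finrank_ker
  rw [LinearMap.range_eq_top.2 h] at k1
  rw [LinearMap.range_eq_top.2 h₀] at k2
  have k3 : finrank ℂ (LinearMap.ker (η₀ : E →ₗ[ℂ] Fin k → ℂ)) ≤ finrank ℂ T₀ :=
    Submodule.finrank_mono b
  rw [Submodule.eq_of_le_of_finrank_le (S₁ := T) (S₂ := LinearMap.ker (η : E →ₗ[ℂ] Fin k → ℂ)) a
    (by omega)]
  rfl

/-- A holomorphic family of polynomials comes from a holomorphic family of forms. -/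
theorem exists_an_form {ι W : Type} [Fintype ι] {M a : ι → ℕ} [NormedAddCommGroup W]
    [NormedSpace ℂ W] {x : W} {Q : W × V M → ℂ} (h1 : ∀ y, (fun c => Q (y, c)) ∈ Pol M a)
    (h2 : ∀ c, AnalyticAt ℂ Q (x, c)) {μ₀ : Tens M a} (h0 : ∀ c, Q (x, c) = val μ₀ c) :
    ∃ μ : W → Tens M a, AnalyticAt ℂ μ x ∧ μ x = μ₀ ∧ ∀ y c, val (μ y) c = Q (y, c) := by
  obtain ⟨s, hs⟩ := exists_fin_ker fun c : V M => evL a c
  obtain ⟨k, q, q1, q2⟩ := exists_cok (evP a Subtype.val : Tens M a →L[ℂ] s → ℂ)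
  obtain ⟨i, hi⟩ := exists_rightInv q1
  have e : ∀ μ c, val (i (q (evP a Subtype.val μ))) c = val μ c := fun μ c =>
    sub_eq_zero.1 (hs (i (q (evP a Subtype.val μ)) - μ) (fun l b => congrFun
      (q2 (i (q (evP a Subtype.val μ)) - μ) (by
        rw [map_sub, map_sub, sub_eq_zero]
        exact hi _)) ⟨l, b⟩) c)
  refine ⟨fun y => i (q fun c => Q (y, c)) + (μ₀ - i (q (evP a Subtype.val μ₀))),
    ((i.analyticAt _).comp ((q.analyticAt _).comp (AnalyticAt.pi fun c => (h2 c).comp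
      (f := fun y => (y, c.1)) (analyticAt_id.prod analyticAt_const)))).add analyticAt_const, ?_,
    fun y c => ?_⟩
  · simp only [h0]
    exact add_sub_cancel _ _
  · obtain ⟨μ, hμ⟩ := h1 y
    have k : ∀ c, Q (y, c) = val μ c := fun c => (congrFun hμ c).symm
    simp only [k, val_add, val_sub, e, sub_self, add_zero]
    exact e μ c

variable {A W U X B ι Λ : Type} [NormedRing A] [NormedAlgebra ℂ A] [NormedAddCommGroup W]
  [NormedSpace ℂ W] [NormedAddCommGroup U] [NormedSpace ℂ U] [NormedAddCommGroup X] [NormedSpace ℂ X]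
  [Monoid B] [Fintype ι] {M : ι → ℕ} {r n : ℕ}
  {D : Dat A (ι → ℂ) W (V M) U (Fin r → ℂ) X ι Λ n} {sc : B → X → X} {K : Set X} {TK : X → Set X}
  {g : ℤ} {o : ι} {x : W} {c : V M} {u : A}

namespace Nf

variable (h : Nf D sc K TK g o)
include h

theorem fdA : FiniteDimensional ℂ A :=
  have := h.eqv.1.1
  .of_injective (.inl ℂ A W) LinearMap.inl_injective

theorem fdW : FiniteDimensional ℂ W :=
  have := h.eqv.1.1
  .of_injective (.inr ℂ A W) LinearMap.inr_injective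

theorem fdU : FiniteDimensional ℂ U :=
  have := h.eqv.2.2.1.1
  .of_injective (.inr ℂ A U) LinearMap.inr_injective

theorem τ_eq (t : ι → ℂ) (c : V M) : D.τ t c = t • c := by rw [h.tor]

theorem mfd (hx : x ∈ D.S) : MfdAt D.S D.d x :=
  have := h.fdW
  let ⟨_, a, b, c⟩ := (h.fam.2.2.2 x hx).2.1
  mfd_of_map a b c

theorem ext (hx : x ∈ D.S) {a : ι → ℕ} (ha : ∀ i, 4 ≤ a i) :
    Base.Ext o g D.m a (fun y : D.S => D.C y) Subtype.val ⟨x, hx⟩ := by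
  refine ⟨ha, .of_forall fun _ => continuous_subtype_val.continuousAt,
    .of_forall fun y => h.crv _ y.2, fun μ₀ b => ?_⟩
  have k := (h.fam.2.2.2 x hx).2.2.2.1 a (val μ₀)
  rw [h.tor] at k
  obtain ⟨Q, q1, q2, q3, q4⟩ := k (pol_eq.ge (val_mem _)) b
  obtain ⟨μ, m1, m2, m3⟩ := exists_an_form (fun y => pol_eq.le (q2 y)) q3 q1
  exact ⟨μ, m1, m2, (ev_sub hx (p := fun y => ∀ c ∈ D.C y, val (μ y) c = 0)).2
    ((eventually_nhdsWithin_iff.1 q4).mono fun y e b c d => (m3 y c).trans (e b c d))⟩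

/-- **The curves form a holomorphic family.** -/
theorem locFam (hx : x ∈ D.S) : LocFam o (fun y : D.S => D.C y) Subtype.val ⟨x, hx⟩ := by
  classical
  have := h.fdW
  exact (h.ext hx (a := fun _ => 4) fun _ => le_rfl).locFam

/-- A section through a smooth point. -/
theorem exists_sn (hx : x ∈ D.S) (hc : c ∈ D.C x) (hn : ¬IsNode o (D.C x) c) :
    ∃ s, Sn D D.S x id s ∧ s x = c := by
  obtain ⟨σ, a, b⟩ := (h.locFam hx).smAt hc hn
  refine ⟨fun y => σ (y, 0), ⟨analyticAt_id, b.an.comp (f := fun y => (y, 0))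
    (analyticAt_id.prod analyticAt_const), hx, eventually_nhdsWithin_iff.2 ?_⟩, a⟩
  exact ((ev_sub hx (p := fun y => σ (y, 0) ∈ D.C y)).1
    (((tendsto_inl _ (0 : ℂ)).eventually b.mem).mono fun _ e => e trivial)).mono
      fun _ e k => ⟨k, e k⟩

/-- The smooth points are dense. -/
theorem dense (hx : x ∈ D.S) (hc : c ∈ D.C x) : ∃ᶠ y in 𝓝[D.C x] c, ¬IsNode o (D.C x) y :=
  ((h.crv x hx).nod.frequently_not_node (Empty.elim : Empty → V M) hc).mono fun _ e => e.2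

theorem free (hx : x ∈ D.S) (hc : c ∈ D.C x) : Injective fun t => D.τ t c :=
  ((h.fam.2.2.2 x hx).2.2.1.1 _ (subset_closure hc)).1 hc

theorem smul_mem (hx : x ∈ D.S) (hc : c ∈ D.C x) {t : ι → ℂ} (ht : IsUnit t) : t • c ∈ D.C x :=
  (h.crv x hx).cone t (fun i => (Pi.isUnit_iff.1 ht i).ne_zero) c hc

theorem s_smul (hx : x ∈ D.S) (hc : c ∈ D.C x) {t : ι → ℂ} (ht : IsUnit t) :
    D.s (x, t • c) = I.chr D.a t • D.s (x, c) :=
  h.τ_eq t c ▸ ((h.fam.2.2.2 x hx).2.2.2.2 c hc).2.1 t ht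

theorem j_smul (t : ι → ℂ) (c : V M) (y : X) : D.j (t • c, y) = I.chr D.b t • D.j (c, y) :=
  h.τ_eq t c ▸ (h.emb.2.2 c).2.1 t y

theorem j_inj (hx : x ∈ D.S) (hc : c ∈ D.C x) : Injective fun y => D.j (c, y) :=
  ((h.emb.2.2 c).2.2 (h.free hx hc)).1

theorem s_eq (hx : x ∈ D.sol K) (hc : c ∈ D.C x) : D.s (x, c) = D.j (c, D.f x c) :=
  (h.grp x hx).1.1 c hc

theorem f_mem (hx : x ∈ D.sol K) (hc : c ∈ D.C x) : D.f x c ∈ K :=
  ((h.grp x hx).1.2.1.2.1 c hc).1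

/-- The kernel of the differential of the equations. -/
theorem ker_dH (hx : x ∈ D.sol K) (hc : c ∈ D.C x) (w : U) :
    (∀ l, fderiv ℂ (D.H l) (c, D.s (x, c)) (0, w) = 0) ↔ w ∈ D.im (TK (D.f x c)) c :=
  h.s_eq hx hc ▸ ((h.emb.2.2 c).2.2 (h.free hx.1 hc)).2.2 _ (h.f_mem hx hc) w

theorem α_mem (hu : IsUnit u) (hx : x ∈ D.S) : D.α u x ∈ D.S :=
  ((h.eqv.2.2.2.2.2.2 u hu).2.2 x hx).1

theorem C_α (hu : IsUnit u) (hx : x ∈ D.S) : D.C (D.α u x) = D.ε u '' D.C x :=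
  ((h.eqv.2.2.2.2.2.2 u hu).2.2 x hx).2.1

theorem ε_mem (hu : IsUnit u) (hx : x ∈ D.S) (hc : c ∈ D.C x) : D.ε u c ∈ D.C (D.α u x) :=
  h.C_α hu hx ▸ mem_image_of_mem _ hc

theorem s_α (hu : IsUnit u) (hx : x ∈ D.S) (hc : c ∈ D.C x) :
    D.s (D.α u x, D.ε u c) = D.ν u (D.s (x, c)) :=
  (((h.eqv.2.2.2.2.2.2 u hu).2.2 x hx).2.2.2 c hc).1

theorem ev_α (hu : IsUnit u) (hx : x ∈ D.S) (hc : c ∈ D.C x) (κ l) :
    D.ev (D.ρ u κ) l (D.α u x, D.ε u c) = D.ev κ (D.r u l) (x, c) :=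
  (((h.eqv.2.2.2.2.2.2 u hu).2.2 x hx).2.2.2 c hc).2 κ l

theorem j_ε (hu : IsUnit u) (c y) : D.j (D.ε u c, y) = D.ν u (D.j (c, y)) :=
  ((h.eqv.2.2.2.2.2.2 u hu).2.1 c).2.1 y

theorem H_ε (hu : IsUnit u) (c l w) : D.H l (D.ε u c, D.ν u w) = D.H (D.r u l) (c, w) :=
  ((h.eqv.2.2.2.2.2.2 u hu).2.1 c).2.2 l w

theorem ε_smul (hu : IsUnit u) (t : ι → ℂ) (c) : D.ε u (t • c) = t • D.ε u c :=
  h.τ_eq t c ▸ h.τ_eq t (D.ε u c) ▸ ((h.eqv.2.2.2.2.2.2 u hu).2.1 c).1 t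

theorem α_sol (hu : IsUnit u) (hx : x ∈ D.sol K) : D.α u x ∈ D.sol K := by
  refine ⟨h.α_mem hu hx.1, ?_⟩
  rw [h.C_α hu hx.1]
  rintro _ ⟨c, hc, rfl⟩
  exact ⟨_, h.f_mem hx hc, by rw [h.s_α hu hx.1 hc, h.s_eq hx hc, ← h.j_ε hu]⟩

theorem f_α (hu : IsUnit u) (hx : x ∈ D.sol K) (hc : c ∈ D.C x) :
    D.f (D.α u x) (D.ε u c) = D.f x c :=
  h.j_inj (h.α_mem hu hx.1) (h.ε_mem hu hx.1 hc) (by
    have := h.s_eq (h.α_sol hu hx) (h.ε_mem hu hx.1 hc)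
    rw [h.s_α hu hx.1 hc, h.s_eq hx hc, ← h.j_ε hu] at this
    exact this.symm)

theorem f_smul (hx : x ∈ D.sol K) (hc : c ∈ D.C x) {t : ι → ℂ} (ht : IsUnit t) :
    I.chr D.b t • D.f x (t • c) = I.chr D.a t • D.f x c :=
  h.j_inj hx.1 hc (by
    have := h.s_eq hx (h.smul_mem hx.1 hc ht)
    rw [h.s_smul hx.1 hc ht, h.s_eq hx hc, h.j_smul] at this
    exact ((h.emb.2.2 c).1.map_smul _ _).trans (this.symm.trans
      ((h.emb.2.2 c).1.map_smul _ _).symm))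

theorem ev_σ (hx : x ∈ D.S) (hc : c ∈ D.C x) (l) :
    D.ev (D.σ x) l (x, c) = D.H l (c, D.s (x, c)) :=
  (((h.fam.2.2.2 x hx).2.2.2.2 c hc).2.2 l).1

theorem mem_van (x : W) (κ) : κ ∈ (sd D K TK).van x ↔ κ ∈ D.van x := by
  refine ⟨fun b c hc l => ?_, fun b => Submodule.subset_span b⟩
  exact Submodule.span_le.2 (show D.van x ⊆ LinearMap.ker ((h.fam.2.2.1 l (x, c)).mk' _) from
    fun _ e => e c hc l) b

/-- The functions on the total space, all at once. -/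
theorem exists_evL (hx : x ∈ D.S) (hc : c ∈ D.C x) (l : Λ) :
    ∃ τ : W × V M → (Fin r → ℂ) →L[ℂ] ℂ, AnalyticAt ℂ τ (x, c) ∧
      ∀ᶠ q in 𝓝[D.U] (x, c), ∀ κ, τ q κ = D.ev κ l q :=
  Sn.exists_ev (D := D) (T := D.U) (ω := (x, c)) (π := Prod.fst) (c := Prod.snd)
    ⟨analyticAt_fst, analyticAt_snd, ⟨hx, hc⟩, self_mem_nhdsWithin⟩ h.fam l

end Nf

end Vale.Agent.P269L.K
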