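import Vale.Agent.P269L.K.Z0
import Vale.Agent.P269L.K.Fr0
import Vale.Agent.P269L.I.LCls

/-!
# The class and the evaluation maps of normal data
-/

set_option linter.all false

namespace Vale.Agent.P269L.K

open Set Function Topology Filter P291Z P269 P269.Cv P269.Base P269.Ch P269.Tf P269.Br I

variable {ι ι' B X Y : Type} [Fintype ι] [Fintype ι'] [Monoid B] [NormedAddCommGroup X]
  [NormedSpace ℂ X] [TopologicalSpace Y] {n : ℕ} {M : ι → ℕ} {M' : ι' → ℕ} {sc : B → X → X}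
  {K : Set X} {π : K → Y} {β : Pub.Bm Y}

section

variable {o : ι} {o' : ι'} {C : Set (V M)} {C' : Set (V M')} {g g' : ℤ} {m : ι → ℤ} {m' : ι' → ℤ}
  {p : Fin n → V M} {p' : Fin n → V M'} {f : V M → X} {f' : V M' → X} {φ : V M → V M'}

/-- The class is invariant under isomorphisms. -/
theorem cls_tor (h : IsCurve o g m C) (h' : IsCurve o' g' m' C') (b : Ac sc)
    (hπ : ∀ y y' : K, Same sc y.1 y'.1 → π y = π y') (hf : Hol tor sc C' K f')
    (a : Iso tor tor sc C C' p p' f f' φ) (c : Cls tor C π f β) : Cls tor C' π f' β := by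
  obtain ⟨k, γ, u, k1, k2, k3⟩ := c
  obtain ⟨Z, _, _, _, R, Nd, A, ϖ, q⟩ := h.isNodal.exists_par
  obtain ⟨Z', _, _, _, R', Nd', A', ϖ', q'⟩ := h'.isNodal.exists_par
  obtain ⟨b0, Ψ, b1, b2⟩ := cls_homeo q q' a
  obtain ⟨γ, k4, rfl⟩ := isFund_iff.1 ((U.isFund_iff (cls_fp q) γ).1 k1)
  let u' : Quo tor C' → Y := fun z => π ⟨f' z.out, (hf _ z.out.2).1⟩
  have e : u' ∘ Ψ = u := funext fun z => by
    obtain ⟨l, e⟩ := k2 z
    have e1 : Ψ z = Quo.mk tor ⟨φ z.out, (a.1 _ z.out.2).1⟩ :=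
      (congrArg Ψ (Quot.out_eq z).symm).trans (b1 _)
    exact (e.trans (hπ _ ⟨f' (Ψ z).out, (hf _ (Ψ z).out.2).1⟩ (b.trans (a.2.2.2 _ z.out.2) (Nr.hol_same hf (a.1 _ z.out.2).1
      (same_iff.2 ((cls_mk_eq q').1 (e1.symm.trans (Quot.out_eq _).symm))))))).symm
  refine ⟨b0 k, Tf.fn (push Ψ γ), u', (U.isFund_iff (cls_fp q') _).2 (isFund_fn.2 (b2 _ k4)),
    fun z => ⟨_, rfl⟩, fun y hy => ?_⟩
  obtain ⟨y, -, rfl⟩ := zc_iff.1 hy
  refine (k3 _ hy).trans ((Tf.fn_val γ (pull u y)).trans (.trans ?_ (Tf.fn_val _ (pull u' y)).symm))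
  rw [ev_push_homeo, pull_pull, ← e]
  rfl

theorem iso_ev (b : Ac sc) (hf : Hol tor sc C' K f') (hp : ∀ i, p i ∈ C) (hp' : ∀ i, p' i ∈ C')
    (a : Iso tor tor sc C C' p p' f f' φ) (i : Fin n) : Same sc (f (p i)) (f' (p' i)) :=
  b.trans (a.2.2.2 _ (hp i)) (b.symm (Nr.hol_same hf (hp' i) (a.2.2.1 i)))

end

variable {A W U Λ A' W' U' Λ' : Type} [NormedRing A] [NormedAlgebra ℂ A] [NormedAddCommGroup W]
  [NormedSpace ℂ W] [NormedAddCommGroup U] [NormedSpace ℂ U] [NormedRing A'] [NormedAlgebra ℂ A']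
  [NormedAddCommGroup W'] [NormedSpace ℂ W'] [NormedAddCommGroup U'] [NormedSpace ℂ U']
  [DecidableEq ι] [DecidableEq ι'] {r r' : ℕ} {D : Dat A (ι → ℂ) W (V M) U (Fin r → ℂ) X ι Λ n}
  {D' : Dat A' (ι' → ℂ) W' (V M') U' (Fin r' → ℂ) X ι' Λ' n} {TK : X → Set X} {g g' : ℤ} {o : ι}
  {o' : ι'} {x : W} {x' : W'}

namespace Nf

variable (h : Nf D sc K TK g o)
include h

theorem cls_iff (h' : Nf D' sc K TK g' o') (b : Ac sc)
    (hπ : ∀ y y' : K, Same sc y.1 y'.1 → π y = π y') (hx : x ∈ D.sol K) (hx' : x' ∈ D'.sol K) {φ}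
    (a : Iso I.tor I.tor sc (D.C x) (D'.C x') (D.p · x) (D'.p · x') (D.f x) (D'.f x') φ) :
    Cls D'.τ (D'.C x') π (D'.f x') β ↔ Cls D.τ (D.C x) π (D.f x) β := by
  obtain ⟨ψ, a', -⟩ := Z2.iso_symm ac_tor b (Z2.p_mem h' hx'.1) (Z2.p_mem h hx.1) (Z2.hol_f h' hx') a
  rw [h.tor, h'.tor]
  exact ⟨cls_tor (h'.crv _ hx'.1) (h.crv _ hx.1) b hπ (Z2.hol_f h hx) a',
    cls_tor (h.crv _ hx.1) (h'.crv _ hx'.1) b hπ (Z2.hol_f h' hx') a⟩

theorem isAct : Holo.IsAct D.α (D.sol K) := Eu.isAct h.eqv.1 fun _ a _ => h.α_sol a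

theorem mk_eq {x y : D.sol K} (e : Quo.mk D.α x = Quo.mk D.α y) :
    ∃ u, IsUnit u ∧ D.α u x = y :=
  haveI := h.isAct
  let ⟨u, a⟩ := (Holo.Sp.mk_eq_iff (act := D.α) (x := x) (y := y)).1 e
  ⟨u, u.isUnit, congrArg Holo.Sp.val a⟩

theorem cont_f [FiniteDimensional ℂ X] (i : Fin n) :
    ContinuousOn (fun x => D.f x (D.p i x)) (D.sol K) := fun x hx => by
  have := h.fdU
  obtain ⟨J, j1, j2⟩ := exists_clm h.emb.1 fun c => (h.emb.2.2 c).1
  have pm := Z2.p_mem h hx.1 i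
  obtain ⟨l, l1, l2⟩ := exists_an_leftInv (j1 (D.p i x)) fun a b e =>
    h.j_inj hx.1 pm ((j2 _ a).symm.trans (e.trans (j2 _ b)))
  obtain ⟨s, s1, s2⟩ := ((h.fam.2.2.2 x hx.1).2.2.2.2 _ pm).1
  have c := (h.fam.2.1 i).continuous
  have t : Tendsto (fun y => (y, D.p i y)) (𝓝[D.sol K] x) (𝓝[D.U] (x, D.p i x)) :=
    (continuous_id.prodMk c).continuousWithinAt.tendsto_nhdsWithin fun y a =>
      ⟨a.1, Z2.p_mem h a.1 i⟩
  have e : ∀ᶠ y in 𝓝[D.sol K] x, D.f y (D.p i y) = l (D.p i y) (s (y, D.p i y)) := by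
    filter_upwards [t.eventually s2, nhdsWithin_le_nhds (c.continuousAt.eventually l2),
      self_mem_nhdsWithin] with y a b d
    rw [← a, h.s_eq d (Z2.p_mem h d.1 i), ← j2, b]
  exact ContinuousWithinAt.congr_of_eventuallyEq (((l1.continuousAt.comp c.continuousAt).clm_apply
    (s1.continuousAt.comp_of_eq (continuous_id.prodMk c).continuousAt rfl)).continuousWithinAt) e
    (e.self_of_nhdsWithin hx)

/-- The evaluation maps are continuous. -/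
theorem cont_ev [FiniteDimensional ℂ X] (b : Ac sc) (hπ : ∀ y y' : K, Same sc y.1 y'.1 → π y = π y')
    (cπ : Continuous π) (i : Fin n) (u : Quo D.α (D.sol K) → Y) (hu : ∀ y, ∃ a,
      u y = π ⟨D.f (Pub.pick D.α (D.sol K) y) (D.p i (Pub.pick D.α (D.sol K) y)), a⟩) :
    Continuous u := by
  refine isQuotientMap_quot_mk.continuous_iff.2 (Continuous.congr (cπ.comp
    ((h.cont_f i).restrict.subtype_mk fun x => h.f_mem x.2 (Z2.p_mem h x.2.1 i))) fun x => ?_)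
  obtain ⟨a, e⟩ := hu (Quo.mk _ x)
  obtain ⟨v, c, d⟩ := h.mk_eq (Quot.out_eq (Quo.mk D.α x)).symm
  have k := Z2.iso_act h b c x.2
  rw [d] at k
  exact (hπ _ _ (iso_ev b (Z2.hol_f h (Quot.out _ : D.sol K).2) (Z2.p_mem h x.2.1)
    (Z2.p_mem h (Quot.out _ : D.sol K).2.1) k i)).trans e.symm

end Nf

end Vale.Agent.P269L.K
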