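import Vale.Agent.P269L.K.St

/-!
# The dimension count of the roof
-/

set_option linter.unusedSectionVars false
set_option linter.unusedVariables false
set_option maxSynthPendingDepth 3

noncomputable section

namespace Vale.Agent.P269L.K

open Set Function Topology Filter Module MvPolynomial P291Z P269 P269.Ch P269.Base P269.Holo I

variable {N c : ℕ} {F : Fin c → MvPolynomial (Fin (N + 1)) ℂ} {A W U ι Λ : Type} [NormedRing A]
  [NormedAlgebra ℂ A] [NormedAddCommGroup W] [NormedSpace ℂ W] [NormedAddCommGroup U]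
  [NormedSpace ℂ U] [Fintype ι] [DecidableEq ι] {M : ι → ℕ} {r n : ℕ} {s : Su A W U ι Λ M r n F}

theorem Su.frk_clm {X Y : Type} [NormedAddCommGroup X] [NormedSpace ℂ X] [NormedAddCommGroup Y]
    [NormedSpace ℂ Y] [FiniteDimensional ℂ X] [FiniteDimensional ℂ Y] :
    finrank ℂ (X →L[ℂ] Y) = finrank ℂ X * finrank ℂ Y :=
  (LinearMap.toContinuousLinearMap (𝕜 := ℂ) (E := X) (F' := Y)).finrank_eq.symm.trans
    (finrank_linearMap ℂ ℂ X Y)

theorem Su.hA_eq (hs : s.Ok) {x : W} (hx : x ∈ s.D.S) :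
    (s.hA : ℤ) = ∑ i, s.D.a i * s.D.m i + 1 - s.g :=
  Int.toNat_of_nonneg ((hs.nf.crv x hx).hilbert _ (ne_iff.2 hs.nf.fam.1) ▸ Int.natCast_nonneg _)

theorem Su.finrank_Fld (hs : s.Ok) {x₀ : s.ch.W (Fin n)} (h : x₀ ∈ s.D₀.S) :
    (finrank ℂ s.ch.Fld : ℤ) = finrank ℂ (Vv s.ch) * (∑ i, s.ch.m i + 1 - s.g) := by
  rw [finrank_pi_fintype, finrank_pi_fintype, Nat.cast_sum, Nat.cast_sum, Finset.sum_mul]
  refine Finset.sum_congr rfl fun j _ => ?_
  rw [Su.frk_clm, Su.frk_clm, finrank_fin_fun, finrank_self, mul_one, Nat.cast_mul,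
    h_eq₁ h (hs.num.a_ne _), hs.ea, hs.eg]
  simp [dg]

/-- **The dimension count.** -/
theorem Su.dim (hs : s.Ok) {x : W} (hx : x ∈ s.D.S) {x₀ : s.ch.W (Fin n)} (h : x₀ ∈ s.D₀.S) :
    s.D.d + finrank ℂ s.ch.Fld + finrank ℂ (s.ch.A (Fin n)) =
      s.D₀.d + finrank ℂ U * s.hA + finrank ℂ A := by
  have a := (hs.nf.fam.2.2.2 x hx).1
  have b := (hs.nf₀.fam.2.2.2 x₀ h).1
  have e : ∑ i, (s.D₀.a i : ℤ) * s.D₀.m i = ∑ i, s.ch.m i :=
    Finset.sum_congr rfl fun i _ => one_mul _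
  rw [e, ← Su.finrank_Fld hs h] at b
  rw [← Su.hA_eq hs hx] at a
  zify
  linear_combination a - b

end Vale.Agent.P269L.K
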