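import Vale.Agent.P269L.K.St
import Vale.Agent.P269.Base.Open

/-!
# Hilbert points of a holomorphic family
-/

set_option linter.unusedSectionVars false
set_option linter.unusedVariables false
set_option maxSynthPendingDepth 3

noncomputable section

namespace Vale.Agent.P269L.K.Ex5

open Set Function Topology Filter Module P291Z P269 P269.Ch P269.Base P269.Holo I

section

variable {ι : Type} [Fintype ι] {M a : ι → ℕ} {g : ℤ} {m : ι → ℤ} {o : ι} {n : ℕ}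
  {T P : Type} [TopologicalSpace T] [NormedAddCommGroup P] [NormedSpace ℂ P]
  [FiniteDimensional ℂ P] {C : T → Set (V M)} {π : T → P} {t₀ : T} {Γ : Set (V M)}

theorem toNat_dg (h0 : IsCurve o g m Γ) (ha : a ≠ 0) :
    ((∑ i, a i * m i + 1 - g).toNat : ℤ) = dg m a + 1 - g :=
  Int.toNat_of_nonneg (((Int.natCast_nonneg _).trans (h0.finrank_Hs ha).le :))

/-- A curve has framed Hilbert points. -/
theorem exists_hp (h0 : IsCurve o g m Γ) (ha : a ≠ 0) (hn : (n : ℤ) = dg m a + 1 - g) :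
    ∃ Q : Tens M a →L[ℂ] Fin n → ℂ, HP Q Γ := by
  obtain ⟨y, h1, h2, h3⟩ := h0.exists_ev ha hn
  exact ⟨evP a y, h2, fun μ => ⟨fun e => h3 μ (congrFun e), fun e => funext fun k => e _ (h1 k).1⟩⟩

theorem jc_eq [DecidableEq ι] (h0 : IsCurve o g m Γ) (ha : ∀ i, 3 ≤ a i) {Q : Tens M a →L[ℂ] Fin n → ℂ}
    (h : HP Q Γ) : jc Q = Γ :=
  Set.ext fun c => ⟨fun b => by_contra fun e =>
    let ⟨μ, d, k⟩ := h0.cut ha b.1 e
    k (b.2 μ ((h.2 μ).2 d)), fun b => ⟨h0.ne_zero c b, fun μ e => (h.2 μ).1 e c b⟩⟩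

/-- Framed Hilbert points extend to a holomorphic family. -/
theorem exists_hol_hp (hf : LocFam o C π t₀) (h0 : IsCurve o g m (C t₀)) (ha : a ≠ 0)
    (hn : (n : ℤ) = dg m a + 1 - g) {Q₀ : Tens M a →L[ℂ] Fin n → ℂ} (hQ : HP Q₀ (C t₀)) :
    ∃ Q : P → Tens M a →L[ℂ] Fin n → ℂ, AnalyticAt ℂ Q (π t₀) ∧ Q (π t₀) = Q₀ ∧
      ∀ᶠ t in 𝓝 t₀, HP (Q (π t)) (C t) := by
  obtain ⟨y, h1, h2⟩ := hf.exists_ev h0 ha hn
  obtain ⟨i, hi⟩ := exists_rightInv (l := evP a fun k => y k (π t₀)) h2.self_of_nhds.2.1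
  have h3 : ∀ μ, Q₀ (i (evP a (fun k => y k (π t₀)) μ)) = Q₀ μ := fun μ => by
    rw [← sub_eq_zero, ← map_sub]
    refine (hQ.2 _).2 (h2.self_of_nhds.2.2 _ (Pol.isSec (val_mem _)) fun k => ?_)
    rw [← evP_apply (y := fun k => y k (π t₀)), map_sub, hi, sub_self, Pi.zero_apply]
  have h4 : Surjective (Q₀.comp i) := fun e =>
    let ⟨μ, hμ⟩ := hQ.1 e
    ⟨_, (h3 μ).trans hμ⟩
  have h5 : Injective (Q₀.comp i) :=
    (LinearMap.injective_iff_surjective (f := (Q₀.comp i).toLinearMap)).2 h4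
  refine ⟨fun p => (Q₀.comp i).comp (evP a fun k => y k p), an_comp analyticAt_const
    ((analyticAt_evP _).comp (f := fun q k => y k q) (AnalyticAt.pi fun k => (h1 k).1)),
    ContinuousLinearMap.ext h3, h2.mono fun t ht => ⟨h4.comp ht.2.1, fun μ => ?_⟩⟩
  rw [ContinuousLinearMap.comp_apply, map_eq_zero_iff _ h5]
  exact ⟨fun e => ht.2.2 _ (Pol.isSec (val_mem _)) (congrFun e),
    fun e => funext fun k => e _ (ht.1 k)⟩

end

variable {N c : ℕ} {F : Fin c → MvPolynomial (Fin (N + 1)) ℂ} {A W U ι Λ : Type} [NormedRing A]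
  [NormedAlgebra ℂ A] [NormedAddCommGroup W] [NormedSpace ℂ W] [NormedAddCommGroup U]
  [NormedSpace ℂ U] [Fintype ι] [DecidableEq ι] {M : ι → ℕ} {r n : ℕ} {s : Su A W U ι Λ M r n F}
  {x : s.D.S} {θ : W → s.ch.W (Fin n)} {Γ : s.D.S → Set (V s.MM)} {lk : s.D.S → V s.MM → ℂ}

theorem four_ne : (fun _ => 4 : ι ⊕ Option Unit → ℕ) ≠ 0 := fun e => by
  simpa using congrFun e (.inr none)

theorem e₃_ne : s.e₃ ≠ 0 := fun e => by simpa [bH] using congrFun e (.inr none)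

theorem hh_eq {o} {G : Set (V s.MM)} (h : IsCurve o s.g s.mm G) {e : ι ⊕ Option Unit → ℕ}
    (he : e ≠ 0) : (s.hh e : ℤ) = dg s.mm e + 1 - s.g := toNat_dg h he

/-- A joint curve has Hilbert points. -/
theorem exists_Q {o} {G : Set (V s.MM)} (h : IsCurve o s.g s.mm G) :
    ∃ Q : s.Q, HP Q.1 G ∧ HP Q.2 G :=
  let ⟨Q₁, a⟩ := exists_hp h four_ne (hh_eq h four_ne)
  let ⟨Q₂, b⟩ := exists_hp h e₃_ne (hh_eq h e₃_ne)
  ⟨(Q₁, Q₂), a, b⟩

/-- **The Hilbert points of the lift.** -/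
theorem exists_Qf [FiniteDimensional ℂ W] (h : s.Th x θ Γ lk) {Q₀ : s.Q} (h1 : HP Q₀.1 (Γ x))
    (h2 : HP Q₀.2 (Γ x)) : ∃ Qf : W → s.Q, Qf x = Q₀ ∧ AnalyticAt ℂ Qf x ∧
      ∀ᶠ y : s.D.S in 𝓝 x, HP (Qf y).1 (Γ y) ∧ HP (Qf y).2 (Γ y) ∧ jc (Qf y).1 = Γ y := by
  have h0 := h.cur.self_of_nhds
  obtain ⟨Q₁, a1, a2, a3⟩ := exists_hol_hp h.fam h0 four_ne (hh_eq h0 four_ne) h1
  obtain ⟨Q₂, b1, b2, b3⟩ := exists_hol_hp h.fam h0 e₃_ne (hh_eq h0 e₃_ne) h2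
  refine ⟨fun w => (Q₁ w, Q₂ w), Prod.ext a2 b2, a1.prod b1, ?_⟩
  filter_upwards [a3, b3, h.cur] with y c1 c2 c3 using
    ⟨c1, c2, jc_eq c3 (fun _ => by norm_num) c1⟩

end Vale.Agent.P269L.K.Ex5
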