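import Vale.Agent.P269L.K.Fr0
import Vale.Agent.P269.Map.Hol
import Vale.Agent.P269.Base.FMer

/-!
# The third section of the local model
-/

set_option linter.unusedSectionVars false
set_option linter.unusedVariables false
set_option maxSynthPendingDepth 3

noncomputable section

namespace Vale.Agent.P269L.K.Ex5

open Set Function Topology Filter Module P291Z P269 P269.Ch P269.Base P269.Holo I

/-- Interpolation of vector valued sections in a family. -/
theorem exists_int {ι : Type} [Fintype ι] {M a : ι → ℕ} {g : ℤ} {m : ι → ℤ} {o : ι}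
    {T P : Type} [TopologicalSpace T] [NormedAddCommGroup P] [NormedSpace ℂ P]
    [FiniteDimensional ℂ P] {C : T → Set (V M)} {π : T → P} {t₀ : T} (U : Type)
    [NormedAddCommGroup U] [NormedSpace ℂ U] (h : LocFam o C π t₀)
    (h0 : IsCurve o g m (C t₀)) (ha : a ≠ 0) :
    ∃ (n : ℕ) (y : Fin n → P → V M) (β : Fin n → P → Tens M a),
      (∀ k, AnalyticAt ℂ (y k) (π t₀) ∧ AnalyticAt ℂ (β k) (π t₀)) ∧
      ∀ᶠ t in 𝓝 t₀, (∀ k, y k (π t) ∈ C t) ∧ ∀ f : V M → U,
        (∀ s : ι → ℂ, (∀ i, s i ≠ 0) → ∀ c ∈ C t, f (s • c) = Base.chr a s • f c) →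
        (∀ c ∈ C t, ∃ q, AnalyticAt ℂ q c ∧ ∀ᶠ z in 𝓝[C t] c, f z = q z) →
        ∀ c ∈ C t, f c = ∑ k, val (β k (π t)) c • f (y k (π t)) := by
  obtain ⟨y, h1, h2⟩ := h.exists_ev h0 ha (h0.finrank_Hs ha)
  obtain ⟨i, hi⟩ := exists_rightInv (l := evP a fun k => y k (π t₀)) h2.self_of_nhds.2.1
  have h5 : AnalyticAt ℂ (fun q => (evP a fun k => y k q).comp i) (π t₀) :=
    an_comp ((analyticAt_evP _).comp (f := fun q k => y k q) (AnalyticAt.pi fun k => (h1 k).1))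
      analyticAt_const
  have h6 : Bijective ((evP a fun k => y k (π t₀)).comp i) :=
    ⟨fun u v e => (hi u).symm.trans (e.trans (hi v)), fun u => ⟨u, hi u⟩⟩
  refine ⟨_, y, fun k q => i (((evP a fun k => y k q).comp i).inverse (Pi.single k 1)),
    fun k => ⟨(h1 k).1, (i.analyticAt _).comp (an_apply ((analyticAt_clm_inverse h6).comp
      (f := fun q => (evP a fun k => y k q).comp i) h5) analyticAt_const)⟩, ?_⟩
  filter_upwards [h2, h.cont.self_of_nhds.eventually (eventually_bijective h5.continuousAt h6)]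
    with t b1 b4
  refine ⟨b1.1, fun f f1 f2 c hc => SeparatingDual.eq_iff_forall_dual_eq (R := ℂ) |>.2 fun l => ?_⟩
  have b2 : IsSec o (C t) a fun c => l (f c) := isSec_of_hol
    (fun s a1 c a2 => by simp only [f1 s a1 c a2, map_smul, smul_eq_mul]) fun c hc =>
      let ⟨q, a1, a2⟩ := f2 c hc
      ⟨fun z => l (q z), (l.analyticAt _).comp a1, a2.mono fun z e => congrArg l e⟩
  have b3 := sub_eq_zero.1 (b1.2.2 _ (b2.sub (Pol.isSec (val_mem
    (i (((evP a fun k => y k (π t)).comp i).inverse fun k => l (f (y k (π t)))))))) (fun k =>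
    sub_eq_zero.2 (congrFun ((isInvertible_of_bijective b4).self_apply_inverse
      fun k => l (f (y k (π t)))) k).symm) c hc)
  rw [b3, pi_eq_sum_univ' fun k => l (f (y k (π t)))]
  simp only [map_sum, map_smul, val_sum, val_smul', smul_eq_mul, mul_comm]

section

variable {A W U X B ι Λ : Type} [NormedRing A] [NormedAlgebra ℂ A] [NormedAddCommGroup W]
  [NormedSpace ℂ W] [NormedAddCommGroup U] [NormedSpace ℂ U] [NormedAddCommGroup X] [NormedSpace ℂ X]
  [Monoid B] [Fintype ι] {M : ι → ℕ} {r n : ℕ}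
  {D : Dat A (ι → ℂ) W (V M) U (Fin r → ℂ) X ι Λ n} {sc : B → X → X} {K : Set X} {TK : X → Set X}
  {g : ℤ} {o : ι} {x : W} {c : V M}

theorem hol_s (h : Nf D sc K TK g o) (hx : x ∈ D.S) (hc : c ∈ D.C x) :
    ∃ k, AnalyticAt ℂ k c ∧ ∀ᶠ z in 𝓝[D.C x] c, D.s (x, z) = k z :=
  Sn.exists_s (D := D) (T := D.C x) (ω := c) (π := fun _ => x) (c := id)
    ⟨analyticAt_const, analyticAt_id, hc, eventually_mem_nhdsWithin.mono fun _ e => ⟨hx, e⟩⟩ h.fam

end

variable {N c : ℕ} {F : Fin c → MvPolynomial (Fin (N + 1)) ℂ} {A W U ι Λ : Type} [NormedRing A]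
  [NormedAlgebra ℂ A] [NormedAddCommGroup W] [NormedSpace ℂ W] [NormedAddCommGroup U]
  [NormedSpace ℂ U] [Fintype ι] [DecidableEq ι] {M : ι → ℕ} {r n : ℕ} {s : Su A W U ι Λ M r n F}
  {x : s.D.S} {θ : W → s.ch.W (Fin n)} {Γ : s.D.S → Set (V s.MM)} {lk : s.D.S → V s.MM → ℂ}

theorem chr_e₃ {t : ι ⊕ Option Unit → ℂ} (ht : ∀ i, t i ≠ 0) :
    Base.chr s.e₃ t = I.chr s.D.a (fun i => t (.inl i)) * I.chr bH (fun i => t (.inr i)) ∧
    chz (Sum.elim (fun i => (s.D.a i : ℤ) - s.D.b i) fun o : Option Unit => o.elim 1 fun _ => -1) t *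
      (I.chr (fun _ => 1) (fun i => t (.inr i)) * I.chr s.D.b fun i => t (.inl i)) =
      Base.chr s.e₃ t := by
  have e : Base.chr s.e₃ t = I.chr s.D.a (fun i => t (.inl i)) * I.chr bH (fun i => t (.inr i)) :=
    Fintype.prod_sum_type _
  refine ⟨e, e ▸ ?_⟩
  have e1 : (∏ i, t (.inl i) ^ ((s.D.a i : ℤ) - s.D.b i)) * ∏ i, t (.inl i) ^ s.D.b i =
      ∏ i, t (.inl i) ^ s.D.a i := by
    rw [← Finset.prod_mul_distrib]
    exact Finset.prod_congr rfl fun i _ => by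
      rw [zpow_sub₀ (ht _), zpow_natCast, zpow_natCast, div_mul_cancel₀ _ (pow_ne_zero _ (ht _))]
  have := ht (.inr (some ()))
  simp only [chz, I.chr, Fintype.prod_sum_type, Sum.elim_inl, Sum.elim_inr, ← e1, bH,
    Fintype.prod_option, Finset.univ_unique, Finset.prod_singleton, Option.elim, zpow_one, pow_one,
    zpow_neg, pow_zero, PUnit.default_eq_unit]
  field_simp

/-- The third equation is a section near the point. -/
theorem dl_sec (hs : s.Ok) (h : s.Th x θ Γ lk) : ∀ᶠ y in 𝓝 x, ∀ X μ,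
    let f := fun q => s.dl q (lk y q) (s.D.s (y, s.L q)) (s.D₀.s (setX (θ y) X, s.R q)) μ
    (∀ t : ι ⊕ Option Unit → ℂ, (∀ i, t i ≠ 0) → ∀ q ∈ Γ y, f (t • q) = Base.chr s.e₃ t • f q) ∧
      ∀ q ∈ Γ y, ∃ k, AnalyticAt ℂ k q ∧ ∀ᶠ z in 𝓝[Γ y] q, f z = k z := by
  have := hs.nf.fdW
  have := hs.nf.fdU
  obtain ⟨J, j1, j2⟩ := exists_clm hs.nf.emb.1 fun c => (hs.nf.emb.2.2 c).1
  filter_upwards [h.lnk.eventually h.fam ⟨nofun, nofun⟩, h.base, h.left, h.right]
    with y a1 a2 a3 a4 X μ f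
  have b1 : ∀ q ∈ Γ y, s.L q ∈ s.D.C y := fun q e => a3.1 ▸ mem_image_of_mem _ e
  have b2 : ∀ q ∈ Γ y, s.R q ∈ s.D₀.C (setX (θ y) X) := fun q e =>
    show s.R q ∈ crv (θ y) from a4.1 ▸ mem_image_of_mem _ e
  have b3 : setX (θ y) X ∈ s.D₀.S := a2
  refine ⟨fun t ht q hq => ?_, fun q hq => ?_⟩
  · have c1 : s.L (t • q) = (fun i => t (.inl i)) • s.L q := rfl
    have c2 : s.R (t • q) = (fun i => t (.inr i)) • s.R q := rfl
    have c3 := hs.nf.s_smul y.2 (b1 q hq) (t := fun i => t (.inl i))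
      (Pi.isUnit_iff.2 fun i => (ht _).isUnit)
    have c4 := hs.nf₀.s_smul b3 (b2 q hq) (t := fun i => t (.inr i))
      (Pi.isUnit_iff.2 fun i => (ht _).isUnit)
    have c5 : ∀ (z : ℂ) e₀, s.ap (z • e₀) μ = z • s.ap e₀ μ := fun _ _ => rfl
    simp only [f, Su.dl]
    rw [c1, c2, c3, c4, c5, hs.nf.j_smul, ← j2, ← j2, map_smul, val_smul,
      a1.hom.self_of_nhds t ht q hq]
    simp only [smul_sub, smul_smul]
    refine congrArg₂ (· - ·) (congrArg (· • _) ?_) (congrArg (· • _) ?_)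
    · rw [← (chr_e₃ (s := s) ht).2]
      change _ * _ * (_ * I.chr (fun _ => 1) fun i => t (.inr i)) = _
      ring
    · rw [(chr_e₃ (s := s) ht).1]
      change (I.chr bH fun i => t (.inr i)) * _ * _ = _
      ring
  · obtain ⟨Φ, c1, c2⟩ := a1.reg q hq nofun
    obtain ⟨k, c3, c4⟩ := hol_s hs.nf y.2 (b1 q hq)
    obtain ⟨k₀, c5, c6⟩ := hol_s hs.nf₀ b3 (b2 q hq)
    have c7 := c5.comp (s.R.analyticAt q)
    refine ⟨fun z => s.dl z (Φ (y, z)) (k (s.L z)) (k₀ (s.R z)) μ, ?_, ?_⟩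
    · simp only [Su.dl, ← j2]
      exact ((c1.comp (f := fun z => (y.1, z)) (analyticAt_const.prod analyticAt_id)).fun_smul
        (an_apply ((j1 _).comp (s.L.analyticAt q)) (AnalyticAt.pi fun j =>
          an_apply (analyticAt_pi_iff.1 c7 j) analyticAt_const))).sub
        (((analyticAt_val μ _).comp (s.R.analyticAt q)).fun_smul (c3.comp (s.L.analyticAt q)))
    · filter_upwards [nhdsWithin_le_nhds ((tendsto_inr y q).eventually c2), self_mem_nhdsWithin,
        (tendsto_nhdsWithin_iff.2 ⟨s.L.continuous.continuousAt.mono_left nhdsWithin_le_nhds,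
          eventually_mem_nhdsWithin.mono b1⟩).eventually c4,
        (tendsto_nhdsWithin_iff.2 ⟨s.R.continuous.continuousAt.mono_left nhdsWithin_le_nhds,
          eventually_mem_nhdsWithin.mono b2⟩).eventually c6] with z d1 d2 d3 d4
      simp only [f, d3, d4]
      rw [show lk y z = Φ (y, z) from d1 d2]

variable (s) in
/-- The fields applied to a test form and evaluated. -/
def gg (u : ∀ l, s.ch.E l →L[ℂ] ℂ) : s.ch.Fld →L[ℂ] s.Tf →L[ℂ] Fin (N + 1) → ℂ :=
  LinearMap.toContinuousLinearMap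
    { toFun X := .pi fun j => u (some j) ∘L X j ∘L s.cs j
      map_add' X Y := by ext; simp
      map_smul' z X := by ext; simp }

variable (s) in
/-- A term of the constant part. -/
def vv (c : V s.ch.M) (b : Fin (s.hh s.e₃) → ℂ) (e : U) : s.P₃ :=
  (evL bH c).smulRight ((ContinuousLinearMap.apply ℂ ℂ b).smulRight (-e))

theorem vv_apply (c b) (e : U) (μ u) : vv s c b e μ u = val μ c • u b • -e := rfl

variable (s) in
/-- A term of the linear part. -/
def ll (b : Fin (s.hh s.e₃) → ℂ) (J : (Fin (N + 1) → ℂ) →L[ℂ] U) (u : ∀ l, s.ch.E l →L[ℂ] ℂ) :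
    s.ch.Fld →L[ℂ] s.P₃ :=
  ContinuousLinearMap.compL ℂ _ _ _
    (ContinuousLinearMap.smulRightL ℂ _ U (ContinuousLinearMap.apply ℂ ℂ b) ∘L J) ∘L gg s u

theorem ll_apply (b) (J : (Fin (N + 1) → ℂ) →L[ℂ] U) (u X μ w) :
    ll s b J u X μ w = w b • J fun j => u (some j) (X j (s.cs j μ)) := rfl

section

variable {P : Type} [NormedAddCommGroup P] [NormedSpace ℂ P] {p : P}
  {b : P → Fin (s.hh s.e₃) → ℂ} (hb : AnalyticAt ℂ b p)
include hb

theorem an_vv {c : P → V s.ch.M} {e : P → U} (hc : AnalyticAt ℂ c p) (he : AnalyticAt ℂ e p) :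
    AnalyticAt ℂ (fun w => vv s (c w) (b w) (e w)) p :=
  analyticAt_of_apply fun μ => analyticAt_of_apply fun u => by
    simp only [vv_apply]
    exact ((analyticAt_val μ _).comp hc).fun_smul (((u.analyticAt _).comp hb).fun_smul he.neg)

theorem an_ll {J : P → (Fin (N + 1) → ℂ) →L[ℂ] U} {u : P → ∀ l, s.ch.E l →L[ℂ] ℂ}
    (hJ : AnalyticAt ℂ J p) (hu : AnalyticAt ℂ u p) :
    AnalyticAt ℂ (fun w => ll s (b w) (J w) (u w)) p :=
  analyticAt_of_apply fun X => analyticAt_of_apply fun μ => analyticAt_of_apply fun v => by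
    simp only [ll_apply]
    exact ((v.analyticAt _).comp hb).fun_smul (an_apply hJ (AnalyticAt.pi fun j =>
      an_apply (analyticAt_pi_iff.1 hu (some j)) analyticAt_const))

end

/-- **The third section depends holomorphically on the point and affinely on the fields.** -/
theorem exists_vL (hs : s.Ok) (h : s.Th x θ Γ lk) {Qf : W → s.Q} (anQ : AnalyticAt ℂ Qf x) :
    ∃ (v : W → s.P₃) (Lf : W → s.ch.Fld →L[ℂ] s.P₃), AnalyticAt ℂ v x ∧ AnalyticAt ℂ Lf x ∧
      ∀ᶠ y : s.D.S in 𝓝 x, ∀ X, ∀ q ∈ Γ y, ∀ u, Evl (Qf y).2 q u → ∀ μ,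
        (v y + Lf y X) μ u =
          s.dl q (lk y q) (s.D.s (y, s.L q)) (s.D₀.s (setX (θ y) X, s.R q)) μ := by
  have := hs.nf.fdW
  have := hs.nf.fdU
  obtain ⟨J, j1, j2⟩ := exists_clm hs.nf.emb.1 fun c => (hs.nf.emb.2.2 c).1
  obtain ⟨m, y, β, h1, h2⟩ := exists_int (a := s.e₃) U h.fam h.cur.self_of_nhds fun e => by
    simpa [bH] using congrFun e (.inr none)
  obtain ⟨Uu, u1, u2⟩ := exists_evU h.base.self_of_nhds.1
  have b1 : ∀ k, ∀ᶠ t : s.D.S in 𝓝 x, t.1 ∈ s.D.S ∧ s.L (y k t) ∈ s.D.C t := fun k => by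
    filter_upwards [h2, h.left] with t a1 a3 using ⟨t.2, a3.1 ▸ mem_image_of_mem _ (a1.1 k)⟩
  have c1 : ∀ k, Tendsto (fun t : s.D.S => y k t) (𝓝 x) (𝓝 (y k x)) := fun k =>
    (h1 k).1.continuousAt.tendsto.comp continuous_subtype_val.continuousAt
  choose Φ p1 p2 using fun k => h.lnk.reg _ (h2.self_of_nhds.1 k) nofun
  choose S s1 s2 using fun k => Sn.exists_s (D := s.D) (T := s.D.S) (ω := x) (π := id)
    (c := fun w => s.L (y k w)) ⟨analyticAt_id, (s.L.analyticAt _).comp (h1 k).1, x.2,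
      (map_nhds_subtype_val x).ge (b1 k)⟩ hs.nf.fam
  have an1 : ∀ k, AnalyticAt ℂ (fun w => (Qf w).2 (β k w)) x := fun k =>
    an_apply (analyticAt_snd.comp anQ) (h1 k).2
  have an2 : ∀ k, AnalyticAt ℂ (fun w => s.R (y k w)) x := fun k =>
    (s.R.analyticAt _).comp (h1 k).1
  have an3 : ∀ k, AnalyticAt ℂ (fun w => Φ k (w, y k w) • J (s.L (y k w))) x := fun k =>
    ((p1 k).comp (f := fun w => (w, y k w)) (analyticAt_id.prod (h1 k).1)).fun_smul
      ((j1 _).comp ((s.L.analyticAt _).comp (h1 k).1))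
  have an4 : ∀ k, AnalyticAt ℂ (fun w => Uu (θ w, s.R (y k w))) x := fun k =>
    (u1 _).comp (f := fun w => (θ w, s.R (y k w))) (h.an.prod (an2 k))
  refine ⟨_, _, Finset.analyticAt_fun_sum Finset.univ fun k _ => an_vv (an1 k) (an2 k) (s1 k),
    Finset.analyticAt_fun_sum Finset.univ fun k _ => an_ll (an1 k) (an3 k) (an4 k), ?_⟩
  filter_upwards [h2, dl_sec hs h, h.base, h.right,
    (h.an.continuousAt.tendsto.comp continuous_subtype_val.continuousAt).eventually u2,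
    eventually_all.2 fun k => (tendsto_id.prodMk_nhds (c1 k)).eventually (p2 k),
    eventually_all.2 fun k => Tendsto.eventually (map_nhds_subtype_val x).le (s2 k)]
    with t a1 a2 a3 a4 a5 a6 a7 X q hq u hu μ
  refine Eq.trans ?_ (a1.2 _ (a2 X μ).1 (a2 X μ).2 q hq).symm
  simp only [add_apply, sum_apply, ← Finset.sum_add_distrib, vv_apply, ll_apply]
  refine Finset.sum_congr rfl fun k _ => ?_
  have e1 : uu (setX (θ t) X) (s.R (y k t)) = Uu (θ t, s.R (y k t)) :=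
    uu_eq (x := θ t) a3 (a5 _ (a4.1 ▸ mem_image_of_mem _ (a1.1 k)))
  have e2 : s.ap (s.D₀.s (setX (θ t) X, s.R (y k t))) μ =
      fun j => Uu (θ t, s.R (y k t)) (some j) (X j (s.cs j μ)) := by
    rw [← e1]
    rfl
  rw [Su.dl, e2, ← j2, show lk t (y k t) = Φ k (t, y k t) from a6 k (a1.1 k),
    show s.D.s (t, s.L (y k t)) = S k t from a7 k, hu, smul_sub, sub_eq_neg_add, smul_neg, smul_neg,
    smul_comm, smul_apply]

end Vale.Agent.P269L.K.Ex5
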