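import Vale.Agent.P269L.K.Ex1
import Vale.Agent.P269L.K.Ex4q
import Vale.Agent.P269L.K.Ex5

/-!
# Every point of the roof has local data
-/

set_option linter.unusedSectionVars false
set_option maxSynthPendingDepth 3

namespace Vale.Agent.P269L.K

open Set Function Topology Filter P269 P269.Ch P269.Holo P269.Base I Ex4

variable {N c : ℕ} {F : Fin c → MvPolynomial (Fin (N + 1)) ℂ} {A W U ι Λ : Type} [NormedRing A]
  [NormedAlgebra ℂ A] [NormedAddCommGroup W] [NormedSpace ℂ W] [NormedAddCommGroup U]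
  [NormedSpace ℂ U] [Fintype ι] [DecidableEq ι] {M : ι → ℕ} {r n : ℕ}

/-- **Local data exist at every point of the roof, and the roof covers the solutions.** -/
theorem Su.hasEx (s : Su A W U ι Λ M r n F) (hs : s.Ok) (h : s.HasTh) : s.HasEx := by
  have := Eu.fdW hs.nf.eqv.1
  have key : ∀ x (hx : x ∈ s.Z), ∃ θ Γ lk, Lnk s ⟨x, hx.1⟩ θ Γ lk := fun x hx =>
    let ⟨_, _, _, a⟩ := h x hx
    let ⟨_, b⟩ := exists_lnk hs hx a
    ⟨_, _, _, b⟩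
  refine ⟨fun x hx => ?_, fun z hz => ?_⟩
  · obtain ⟨θ, Γ, lk, a⟩ := key x hx
    obtain ⟨Q, b⟩ := Ex5.exists_Q a.th.cur.self_of_nhds
    exact ⟨(x, θ x, Q), ⟨hx, a.mem₀, _, a.jt hs, b⟩, rfl⟩
  · obtain ⟨h1, h2, G, h3, h4, h5⟩ := id hz
    obtain ⟨_, _, _, a⟩ := key _ h1
    obtain ⟨θ, Γ, lk, b, e, rfl⟩ := a.move hs h2 h3
    obtain ⟨Qf, k1, k2, k3⟩ := Ex5.exists_Qf b.th h4 h5
    obtain ⟨v, Lf, k4, k5, k6⟩ := Ex5.exists_vL hs b.th k2
    exact ⟨h1.1, θ, Γ, lk, Qf, v, Lf, hz, b.th, e, k1, e ▸ b.link, k2, k4, k5, k3, k6⟩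

end Vale.Agent.P269L.K
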