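import Vale.Agent.P269L.K.Fr1

/-!
# Presentations in normal form give good data
-/

set_option linter.unusedSectionVars false
set_option linter.unusedVariables false

noncomputable section

namespace Vale.Agent.P269L.K

open Set Function Topology Filter Module P269 P269.Base P269.Holo I

variable {A W U X B ι Λ : Type} [NormedRing A] [NormedAlgebra ℂ A] [NormedAddCommGroup W]
  [NormedSpace ℂ W] [NormedAddCommGroup U] [NormedSpace ℂ U] [NormedAddCommGroup X] [NormedSpace ℂ X]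
  [Monoid B] [Fintype ι] {M : ι → ℕ} {r n k : ℕ}
  {D : Dat A (ι → ℂ) W (V M) U (Fin r → ℂ) X ι Λ n} {sc : B → X → X} {K : Set X} {TK : X → Set X}
  {g : ℤ} {o : ι} {x : W} {c : V M} {u : A} {κ κ' : Fin r → ℂ} {w w' : U} {t : ι → ℂ}

theorem rep_inv {act : A → W → W} (h : I.Rep act) (hu : IsUnit u) (x : W) :
    act ↑hu.unit⁻¹ (act u x) = x ∧ act u (act ↑hu.unit⁻¹ x) = x :=
  ⟨by rw [← (((h.2.2 _ (Units.isUnit _)).2 x).2 u hu), hu.val_inv_mul, h.2.1],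
    by rw [← (((h.2.2 u hu).2 x).2 _ (Units.isUnit _)), hu.mul_val_inv, h.2.1]⟩

namespace Nf

variable (h : Nf D sc K TK g o)
include h

theorem s_ne (hK : Tg K TK k) (hx : x ∈ D.sol K) (hc : c ∈ D.C x) : D.s (x, c) ≠ 0 := fun e =>
  hK.ne _ (h.f_mem hx hc) (h.j_inj hx.1 hc
    (((h.s_eq hx hc).symm.trans e).trans (h.emb.2.2 c).1.map_zero.symm))

theorem ev_s_ne (hK : Tg K TK k) (hx : x ∈ D.sol K) :
    ∀ᶠ y in 𝓝[D.S] x, ∀ c ∈ D.C y, D.s (y, c) ≠ 0 := by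
  refine eventually_nhdsWithin_iff.2 ((ev_sub hx.1 (p := fun y => ∀ c ∈ D.C y, D.s (y, c) ≠ 0)).1
    ((h.locFam hx.1).compact (p := fun q => D.s (q.1.1, q.2) ≠ 0) (fun c hc => ?_)
      (.of_forall fun y t ht c hc e e' => e ?_)))
  · obtain ⟨s, s1, s2⟩ := ((h.fam.2.2.2 x hx.1).2.2.2.2 c hc).1
    filter_upwards [(tendsto_pm (u := (Subtype.val : D.S → W)) (x := ⟨x, hx.1⟩)
      continuous_subtype_val.continuousAt c).eventually ((eventually_nhdsWithin_iff.1 s2).and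
        (s1.continuousAt.eventually_ne
          (s2.self_of_nhdsWithin ⟨hx.1, hc⟩ ▸ h.s_ne hK hx hc)))] with q b d
    exact (b.1 ⟨q.1.2, d⟩).trans_ne b.2
  · exact (h.s_smul y.2 hc (Pi.isUnit_iff.2 fun i => (ht i).isUnit)).trans (by rw [e', smul_zero])

/-- Near a solution the solutions are the zeros of the section. -/
theorem ev_zero (hK : Tg K TK k) (hx : x ∈ D.sol K) :
    ∀ᶠ y in 𝓝[D.S] x, y ∈ D.sol K ↔ D.σ y ∈ D.van y := by
  filter_upwards [h.ev_s_ne hK hx, self_mem_nhdsWithin] with y a hy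
  have b := fun c hc => ((h.emb.2.2 c).2.2 (h.free hy hc)).2.1 _ (a c hc)
  exact ⟨fun e c hc l => (h.ev_σ hy hc l).trans ((b c hc).2 (e.2 c hc) l),
    fun e => ⟨hy, fun c hc => (b c hc).1 fun l => (h.ev_σ hy hc l).symm.trans (e c hc l)⟩⟩

theorem van_of_smooth (hx : x ∈ D.S)
    (a : ∀ c ∈ D.C x, ¬IsNode o (D.C x) c → ∀ l, D.ev κ l (x, c) = 0) : κ ∈ D.van x := by
  intro c hc l
  obtain ⟨τ, t1, t2⟩ := h.exists_evL hx hc l
  have k : Tendsto (fun y => (x, y)) (𝓝[D.C x] c) (𝓝[D.U] (x, c)) :=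
    tendsto_nhdsWithin_iff.2 ⟨(tendsto_inr _ _).mono_left nhdsWithin_le_nhds,
      eventually_mem_nhdsWithin.mono fun _ w => ⟨hx, w⟩⟩
  rw [← t2.self_of_nhdsWithin ⟨hx, hc⟩, ← mem_singleton_iff]
  exact (isClosed_singleton (x := (0 : ℂ))).mem_of_frequently_of_tendsto
    (f := fun y => τ (x, y) κ) (((h.dense hx hc).and_eventually ((k.eventually t2).and
      self_mem_nhdsWithin)).mono fun y b => (b.2.1 κ).trans (a y b.2.2 b.1 l))
    ((an_apply t1 analyticAt_const).continuousAt.tendsto.comp (tendsto_nhdsWithin_iff.1 k).1)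

/-- **Frames by evaluation along sections.** -/
theorem exists_fr (hx : x ∈ D.sol K) :
    ∃ (m : ℕ) (η : W → (Fin r → ℂ) →L[ℂ] Fin m → ℂ) (a : _), (sd D K TK).Fr x η a := by
  have := h.fdU
  choose s s1 s2 using fun c : {c // c ∈ D.C x ∧ ¬IsNode o (D.C x) c} =>
    h.exists_sn hx.1 c.2.1 c.2.2
  choose τ t1 t2 using fun q : _ × Λ => (s1 q.1).exists_ev h.fam q.2
  choose b b1 b2 using fun c => (s1 c).exists_s h.fam
  obtain ⟨T, hT⟩ := exists_fin_ker fun q => τ q x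
  obtain ⟨m, p, p1, p2⟩ := exists_cok (ContinuousLinearMap.pi fun q : T => τ q x)
  have a : AnalyticAt ℂ (fun y => p.comp (.pi fun q : T => τ q y)) x :=
    an_comp analyticAt_const (analyticAt_of_apply fun v => AnalyticAt.pi fun l =>
      an_apply (t1 l) analyticAt_const)
  refine ⟨m, _, fun y => p fun q : T => D.H q.1.2 (s q.1.1 y, b q.1.1 y), a,
    (p.analyticAt _).comp (AnalyticAt.pi fun q => (an_of_diff (h.emb.2.1 _) _).comp
      (f := fun y => (s q.1.1 y, b q.1.1 y)) ((s1 _).an.prod (b1 _))), p1, ?_⟩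
  filter_upwards [eventually_all.2 fun q : T => (t2 q).and ((b2 q.1.1).and (s1 q.1.1).ev),
    nhdsWithin_le_nhds (eventually_surjective a.continuousAt p1), (h.grp x hx).2.1,
    self_mem_nhdsWithin] with y c1 c2 c3 hy
  refine ⟨ker_iff c2 p1 (T₀ := (sd D K TK).van x) (fun v hv => ?_) (fun v hv => ?_) c3.ge,
    congrArg p (funext fun q => ?_)⟩
  · exact (congrArg p (funext fun q => ((c1 q).1 v).trans
      ((h.mem_van y v).1 hv _ (c1 q).2.2.2 _))).trans p.map_zero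
  · refine (h.mem_van x v).2 (h.van_of_smooth hx.1 fun c hc hn l => ?_)
    have := hT v (fun q e => congrFun (p2 v hv) ⟨q, e⟩) (⟨c, hc, hn⟩, l)
    rwa [(t2 _).self_of_nhdsWithin hx.1, s2] at this
  · exact ((c1 q).1 _).trans ((h.ev_σ hy (c1 q).2.2.2 _).trans (by rw [← (c1 q).2.1]; rfl))

theorem van_α (hu : IsUnit u) (hx : x ∈ D.S) (a : κ ∈ D.van x) : D.ρ u κ ∈ D.van (D.α u x) := by
  intro c hc l
  obtain ⟨c, b, rfl⟩ := (h.C_α hu hx).le hc
  exact (h.ev_α hu hx b κ l).trans (a c b _)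

theorem σ_α (hu : IsUnit u) (hx : x ∈ D.S) :
    D.σ (D.α u x) - D.ρ u (D.σ x) ∈ D.van (D.α u x) := by
  intro c hc l
  obtain ⟨c, b, rfl⟩ := (h.C_α hu hx).le hc
  rw [(h.fam.2.2.1 l _).map_sub, h.ev_α hu hx b, h.ev_σ hx b, h.ev_σ (h.α_mem hu hx) hc,
    h.s_α hu hx b, h.H_ε hu, sub_self]

theorem pt_α (hu : IsUnit u) (hx : x ∈ D.S) (hc : c ∈ D.C x) (a : Pt D x c κ w) :
    Pt D (D.α u x) (D.ε u c) (D.ρ u κ) (D.ν u w) := fun l => by
  have := h.fdU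
  let ν : U →L[ℂ] U := LinearMap.toContinuousLinearMap ((h.eqv.2.2.1.2.2 u hu).1.mk' _)
  let ε : V M →L[ℂ] V M := LinearMap.toContinuousLinearMap ((h.eqv.2.1.2.2 u hu).1.mk' _)
  have e : D.H (D.r u l) = D.H l ∘ ε.prodMap ν := funext fun q => (h.H_ε hu q.1 l q.2).symm
  rw [h.ev_α hu hx hc, a, h.s_α hu hx hc, e, fderiv_comp _ (h.emb.2.1 l _)
    (ε.prodMap ν).differentiableAt, (ε.prodMap ν).fderiv]
  exact congrArg (fderiv ℂ (D.H l) _) (Prod.ext ε.map_zero rfl)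

theorem pw_α (hu : IsUnit u) (hx : x ∈ D.S) (hc : c ∈ D.C x) (a : PwH D x c κ) :
    PwH D (D.α u x) (D.ε u c) (D.ρ u κ) :=
  let ⟨w, b⟩ := a
  ⟨D.ν u w, fun t ht => h.ε_smul hu t c ▸ (h.eqv.2.2.1.2.2 u hu).1.map_smul _ w ▸
    h.pt_α hu hx (h.smul_mem hx hc ht) (b t ht)⟩

theorem hol_ε (hu : IsUnit u) (hx : x ∈ D.S) :
    Hol D.τ D.τ (D.C x) (D.C (D.α u x)) (D.ε u) := fun c hc =>
  ⟨h.ε_mem hu hx hc, fun t ht => ⟨t, ht, ((h.eqv.2.2.2.2.2.2 u hu).2.1 c).1 t⟩, D.ε u,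
    (((h.eqv.2.1.2.2 u hu).2 c).1).comp (f := fun c => (u, c))
      (analyticAt_const.prod analyticAt_id),
    .of_forall fun y => ⟨1, isUnit_one, (h.eqv.2.2.2.2.1.2.1 _).symm⟩⟩

/-- The elements of the group are isomorphisms of stable maps. -/
theorem iso_ε (h1 : ∀ y ∈ K, sc 1 y = y) (hu : IsUnit u) (hx : x ∈ D.sol K) :
    Iso D.τ D.τ sc (D.C x) (D.C (D.α u x)) (D.p · x) (D.p · (D.α u x)) (D.f x) (D.f (D.α u x))
      (D.ε u) := by
  have one : ∀ {c c'}, c' = c → Same D.τ c c' := fun e =>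
    ⟨1, isUnit_one, e.trans (h.eqv.2.2.2.2.1.2.1 _).symm⟩
  refine ⟨h.hol_ε hu hx.1, ⟨D.ε ↑hu.unit⁻¹, ?_, fun c _ => one (rep_inv h.eqv.2.1 hu c).1,
    fun c _ => one (rep_inv h.eqv.2.1 hu c).2⟩, fun i => ?_, fun c hc => ⟨1, isUnit_one,
      (h.f_α hu hx hc).trans (h1 _ (h.f_mem hx hc)).symm⟩⟩
  · have := h.hol_ε (Units.isUnit hu.unit⁻¹) (h.α_mem hu hx.1)
    rwa [(rep_inv h.eqv.1 hu x).1] at this
  · have a := h.eqv.2.2.2.2.2.2 u hu
    exact ⟨_, Units.isUnit (a.1 i).unit⁻¹, (rep_inv h.eqv.2.2.2.2.1 (a.1 i) _).1.symm.trans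
      (congrArg _ ((a.2.2 x hx.1).2.2.1 i).symm)⟩

theorem fin_stab (h1 : ∀ y ∈ K, sc 1 y = y) (hx : x ∈ D.sol K) :
    {u | IsUnit u ∧ D.α u x = x}.Finite := by
  obtain ⟨-, ⟨-, -, Φ, a⟩, b⟩ := (h.grp x hx).1
  have iso : ∀ u, IsUnit u ∧ D.α u x = x → Iso D.τ D.τ sc (D.C x) (D.C x) (D.p · x) (D.p · x)
      (D.f x) (D.f x) (D.ε u) := fun u e => by
    have := h.iso_ε h1 e.1 hx
    rwa [e.2] at this
  choose! ψ c d using fun u e => a _ (iso u e)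
  refine .of_finite_image (f := ψ) (Φ.finite_toSet.subset (image_subset_iff.2 c))
    fun u e v e' k => ?_
  refine (b x hx _ (iso u e)).unique ⟨e.1, e.2, fun c _ => ⟨1, isUnit_one,
    (h.eqv.2.2.2.2.1.2.1 _).symm⟩⟩ ⟨e'.1, e'.2, fun y hy => ?_⟩
  have k1 := d u e y hy
  have k2 := d v e' y hy
  rw [h.tor] at k1 k2 ⊢
  exact same_orb.2 ((same_orb.1 k2).symm.trans (k ▸ same_orb.1 k1))

/-- **A presentation in normal form gives good data.** -/
theorem gd (hK : Tg K TK k) (h1 : ∀ y ∈ K, sc 1 y = y) : (sd D K TK).Gd D.d where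
  act := h.eqv.1
  rep := h.eqv.2.2.2.1
  invS u hu x hx := h.α_mem hu hx
  sub x hx := hx.1
  invZ u hu x hx := h.α_sol hu hx
  invV u hu x hx κ a := (h.mem_van _ _).2 (h.van_α hu hx ((h.mem_van _ _).1 a))
  invσ u hu x hx := (h.mem_van _ _).2 (h.σ_α hu hx)
  invO u hu x hx κ a := (h.mem_obs hK (h.α_sol hu hx)).2 fun c hc => by
    obtain ⟨c, b, rfl⟩ := (h.C_α hu hx.1).le hc
    exact h.pw_α hu hx.1 b ((h.mem_obs hK hx).1 a c b)
  zero x hx := (h.ev_zero hK hx).mono fun y e => e.trans (h.mem_van _ _).symm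
  mfd x hx := h.mfd hx.1
  fr x hx := h.exists_fr hx
  le x hx κ a := (h.mem_obs hK hx).2 fun c hc => ⟨0, fun t ht l => by
    rw [(h.mem_van _ _).1 a _ (h.smul_mem hx.1 hc ht), smul_zero, Prod.mk_zero_zero, map_zero]⟩
  clo := h.isClosed_obs hK
  fin x hx := h.fin_stab h1 hx

end Nf

theorem ci_one {N c : ℕ} (F : Fin c → MvPolynomial (Fin (N + 1)) ℂ) (y) : (ci F).act 1 y = y :=
  funext fun j => by simp [Tgt.act]

/-- The case of a complete intersection. -/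
theorem Nf.gd_ci {N c : ℕ} {F : Fin c → MvPolynomial (Fin (N + 1)) ℂ} {d : Fin c → ℕ}
    {D : Dat A (ι → ℂ) W (V M) U (Fin r → ℂ) (Fin (N + 1) → ℂ) ι Λ n}
    (h : Nf D (ci F).act (ci F).cone (ci F).tan g o) (hF : SmCI F d) :
    (sd D (ci F).cone (ci F).tan).Gd D.d :=
  h.gd (tg_ci hF) fun y _ => ci_one F y

end Vale.Agent.P269L.K
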