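import Vale.Agent.P269L.K.Fr0

/-!
# Presentations in normal form: the obstruction spaces are given by conditions at the points
-/

set_option linter.unusedSectionVars false
set_option linter.unusedVariables false

noncomputable section

namespace Vale.Agent.P269L.K

open Set Function Topology Filter Module P269 P269.Base P269.Holo I

variable {A W U X B ι Λ : Type} [NormedRing A] [NormedAlgebra ℂ A] [NormedAddCommGroup W]
  [NormedSpace ℂ W] [NormedAddCommGroup U] [NormedSpace ℂ U] [NormedAddCommGroup X] [NormedSpace ℂ X]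
  [Monoid B] [Fintype ι] {M : ι → ℕ} {r n k : ℕ}
  {D : Dat A (ι → ℂ) W (V M) U (Fin r → ℂ) X ι Λ n} {sc : B → X → X} {K : Set X} {TK : X → Set X}
  {g : ℤ} {o : ι} {x : W} {c : V M} {u : A} {κ κ' : Fin r → ℂ} {w w' : U} {t : ι → ℂ}

/-- The tangent spaces of the cone `K` have constant rank and are invariant. -/
structure Tg (K : Set X) (TK : X → Set X) (k : ℕ) : Prop where
  ne : ∀ y ∈ K, y ≠ 0
  rk : ∀ y ∈ K, finrank ℂ (Submodule.span ℂ (TK y)) = k
  smul : ∀ y ∈ K, ∀ z : ℂ, z ≠ 0 → TK y ⊆ TK (z • y)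

theorem tg_ci {N c : ℕ} {F : Fin c → MvPolynomial (Fin (N + 1)) ℂ} {d : Fin c → ℕ}
    (h : SmCI F d) : Tg (ci F).cone (ci F).tan (N + 1 - c) := by
  refine ⟨fun y b => b.1, fun y b => ?_, fun y b z hz v hv k => ?_⟩
  · let J : Matrix (Fin c) (Fin (N + 1)) ℂ := .of fun k j => MvPolynomial.eval y
      (MvPolynomial.pderiv j (F k))
    have e : (ci F).tan y = LinearMap.ker J.mulVecLin := Set.ext fun v => by
      simp [Tgt.tan, ci, J, funext_iff, Matrix.mulVec, dotProduct, mul_comm]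
    have k1 := J.mulVecLin.finrank_range_add_finrank_ker
    have k2 : J.rank = c := (LinearIndependent.rank_matrix (h.li y b)).trans (Fintype.card_fin c)
    rw [e, Submodule.span_eq]
    rw [finrank_fin_fun, ← Matrix.rank, k2] at k1
    omega
  · refine (Finset.sum_congr rfl fun j _ => ?_).trans
      ((Finset.mul_sum _ _ (z ^ (d k - 1))).symm.trans (mul_eq_zero_of_right _ (hv k)))
    rw [mul_left_comm]
    exact congrArg _ (Hdg.eval_smul_of_hom (h.hom k).pderiv z y)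

theorem chr_ne' {a : ι → ℕ} (ht : IsUnit t) : I.chr a t ≠ 0 :=
  Finset.prod_ne_zero_iff.2 fun i _ => pow_ne_zero _ (Pi.isUnit_iff.1 ht i).ne_zero

variable (D x c) in
/-- The common kernel of the differentials of the equations. -/
def kr : Submodule ℂ U :=
  ⨅ l, LinearMap.ker (((fderiv ℂ (D.H l) (c, D.s (x, c))).comp (.inr ℂ _ U) : U →L[ℂ] ℂ) : U →ₗ[ℂ] ℂ)

theorem mem_kr : w ∈ kr D x c ↔ ∀ l, fderiv ℂ (D.H l) (c, D.s (x, c)) (0, w) = 0 :=
  Submodule.mem_iInf _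

theorem Pt.sub_mem (a : Pt D x c κ w) (b : Pt D x c κ w') : w - w' ∈ kr D x c :=
  mem_kr.2 fun l => by
    rw [← sub_self (0 : V M), ← Prod.mk_sub_mk, map_sub, ← a l, ← b l, sub_self]

theorem Pt.of_sub (a : Pt D x c κ w) (b : w - w' ∈ kr D x c) : Pt D x c κ w' := fun l => by
  have := mem_kr.1 b l
  rw [← sub_self (0 : V M), ← Prod.mk_sub_mk, map_sub, sub_eq_zero] at this
  exact (a l).trans this

variable (D x c κ) in
/-- Along the orbit of `c` the function `κ` is the differential applied to a homogeneous vector. -/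
def PwH : Prop := ∃ w, ∀ t, IsUnit t → Pt D x (t • c) κ (I.chr D.a t • w)

namespace Nf

variable (h : Nf D sc K TK g o)
include h

theorem kr_iff (hx : x ∈ D.sol K) (hc : c ∈ D.C x) : w ∈ kr D x c ↔ w ∈ D.im (TK (D.f x c)) c :=
  mem_kr.trans (h.ker_dH hx hc w)

theorem pt_add (a : Pt D x c κ w) (b : Pt D x c κ' w') : Pt D x c (κ + κ') (w + w') := fun l => by
  rw [(h.fam.2.2.1 l _).map_add, a l, b l, ← map_add, Prod.mk_add_mk, add_zero]

theorem pt_smul (a : Pt D x c κ w) (z : ℂ) : Pt D x c (z • κ) (z • w) := fun l => by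
  rw [(h.fam.2.2.1 l _).map_smul, a l, ← map_smul, Prod.smul_mk, smul_zero]

theorem finrank_kr (hK : Tg K TK k) (hx : x ∈ D.sol K) (hc : c ∈ D.C x) :
    finrank ℂ (kr D x c) = k := by
  have e : kr D x c = (Submodule.span ℂ (TK (D.f x c))).map ((h.emb.2.2 c).1.mk' _) := by
    rw [← Submodule.span_image, ← (kr D x c).span_eq]
    exact congrArg _ (Set.ext fun w => h.kr_iff hx hc)
  rw [e, ← (Submodule.equivMapOfInjective _ (h.j_inj hx.1 hc) _).finrank_eq, hK.rk _ (h.f_mem hx hc)]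

theorem kr_smul (hK : Tg K TK k) (hx : x ∈ D.sol K) (hc : c ∈ D.C x) (ht : IsUnit t)
    (hw : w ∈ kr D x c) : w ∈ kr D x (t • c) := by
  obtain ⟨v, hv, rfl⟩ := (h.kr_iff hx hc).1 hw
  have e : D.f x (t • c) = ((I.chr D.b t)⁻¹ * I.chr D.a t) • D.f x c := by
    rw [mul_smul, ← h.f_smul hx hc ht, inv_smul_smul₀ (chr_ne' ht)]
  have : D.j (t • c, v) ∈ kr D x (t • c) := (h.kr_iff hx (h.smul_mem hx.1 hc ht)).2 ⟨v, e ▸ hK.smul _ (h.f_mem hx hc) _
    (mul_ne_zero (inv_ne_zero (chr_ne' ht)) (chr_ne' ht)) hv, rfl⟩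
  exact (Submodule.smul_mem_iff _ (chr_ne' ht)).1 (h.j_smul t c v ▸ this)

/-- The differentials of the equations on the total space. -/
theorem exists_dH (hx : x ∈ D.S) (hc : c ∈ D.C x) : ∃ L : Λ → W × V M → U →L[ℂ] ℂ,
    (∀ l, AnalyticAt ℂ (L l) (x, c)) ∧ ∀ᶠ q in 𝓝[D.U] (x, c), ∀ l w,
      L l q w = fderiv ℂ (D.H l) (q.2, D.s q) (0, w) := by
  have := h.fdU
  obtain ⟨s, s1, s2⟩ := ((h.fam.2.2.2 x hx).2.2.2.2 c hc).1
  exact ⟨fun l q => (fderiv ℂ (D.H l) (q.2, s q)).comp (.inr ℂ _ U), fun l => an_comp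
    ((an_of_diff (h.emb.2.1 l) _).fderiv.comp (f := fun q : W × V M => (q.2, s q))
      (analyticAt_snd.prod s1)) analyticAt_const, s2.mono fun q e l w => by rw [e]; rfl⟩

/-- **A holomorphic solution operator** for the condition `Pt`. -/
theorem exists_sol (hK : Tg K TK k) (hx : x ∈ D.sol K) (hc : c ∈ D.C x) :
    ∃ G : W × V M → (Fin r → ℂ) →L[ℂ] U, AnalyticAt ℂ G (x, c) ∧ ∀ᶠ q in 𝓝[D.U] (x, c),
      q.1 ∈ D.sol K → ∀ κ w, Pt D q.1 q.2 κ w → Pt D q.1 q.2 κ (G q κ) := by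
  have := h.fdU
  obtain ⟨L, l1, l2⟩ := h.exists_dH hx.1 hc
  choose τ t1 t2 using h.exists_evL hx.1 hc
  obtain ⟨s, hs⟩ := exists_fin_ker fun l => L l (x, c)
  obtain ⟨m, p, p1, p2⟩ := exists_cok (ContinuousLinearMap.pi fun l : s => L l (x, c))
  have a : AnalyticAt ℂ (fun q => p.comp (.pi fun l : s => L l q)) (x, c) :=
    an_comp analyticAt_const (analyticAt_of_apply fun v => AnalyticAt.pi fun l =>
      an_apply (l1 l) analyticAt_const)
  obtain ⟨R, r1, r2⟩ := exists_an_rightInv a p1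
  refine ⟨fun q => (R q).comp (p.comp (.pi fun l : s => τ l q)), an_comp r1 (an_comp
    analyticAt_const (analyticAt_of_apply fun v => AnalyticAt.pi fun l =>
      an_apply (t1 l) analyticAt_const)), ?_⟩
  filter_upwards [l2, eventually_all.2 fun l : s => t2 l, nhdsWithin_le_nhds r2,
    self_mem_nhdsWithin] with q b1 b2 b3 b4 b5 κ w e
  refine e.of_sub ((ker_iff (fun v => ⟨_, b3 v⟩) p1 (T₀ := kr D x c) (fun v hv => ?_)
    (fun v hv => mem_kr.2 fun l => ?_)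
    ((h.finrank_kr hK hx hc).trans (h.finrank_kr hK b5 b4.2).symm).le _).1 ?_)
  · exact (congrArg p (funext fun l => (b1 l v).trans (mem_kr.1 hv l))).trans p.map_zero
  · exact (l2.self_of_nhdsWithin ⟨hx.1, hc⟩ l v).symm.trans
      (hs v (fun l b => congrFun (p2 v hv) ⟨l, b⟩) l)
  · rw [map_sub, sub_eq_zero]
    exact (congrArg p (funext fun l => (b1 l w).trans ((e l).symm.trans (b2 l κ).symm))).trans
      (b3 _).symm

/-- A field of solutions that is homogeneous is a section of the normal bundle. -/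
theorem nm_of (hK : Tg K TK k) (hx : x ∈ D.sol K) {e : V M → U}
    (h1 : ∀ c ∈ D.C x, Pt D x c κ (e c))
    (h2 : ∀ c ∈ D.C x, ∀ t, IsUnit t → e (t • c) - I.chr D.a t • e c ∈ kr D x (t • c)) :
    D.Nm I.chr TK x e := fun c hc => by
  refine ⟨fun t ht => ?_, ?_⟩
  · rw [h.τ_eq]
    exact (h.kr_iff hx (h.smul_mem hx.1 hc ht)).1 (h2 c hc t ht)
  · obtain ⟨G, a, b⟩ := h.exists_sol hK hx hc
    refine ⟨fun y => G (x, y) κ, an_apply (a.comp (f := fun y => (x, y))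
      (analyticAt_const.prod analyticAt_id)) analyticAt_const, ?_⟩
    filter_upwards [(tendsto_nhdsWithin_iff.2 ⟨(tendsto_inr _ _).mono_left nhdsWithin_le_nhds,
      eventually_mem_nhdsWithin.mono fun _ w => ⟨hx.1, w⟩⟩ :
        Tendsto (fun y => (x, y)) (𝓝[D.C x] c) (𝓝[D.U] (x, c))).eventually b,
      self_mem_nhdsWithin] with y d hy
    exact (h.kr_iff hx hy).1 ((h1 y hy).sub_mem (d hx κ _ (h1 y hy)))

theorem obs_iff_pw (hK : Tg K TK k) (hx : x ∈ D.sol K) :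
    (∃ e, D.Nm I.chr TK x e ∧ D.Df x κ e) ↔ ∀ c ∈ D.C x, PwH D x c κ := by
  refine ⟨fun ⟨e, a, b⟩ c hc => ⟨e c, fun t ht => ?_⟩, fun a => ?_⟩
  · have := (a c hc).1 t ht
    rw [h.τ_eq] at this
    exact Pt.of_sub (b _ (h.smul_mem hx.1 hc ht)) ((h.kr_iff hx (h.smul_mem hx.1 hc ht)).2 this)
  · choose! e he using a
    have b : ∀ c ∈ D.C x, Pt D x c κ (e c) := fun c hc => by
      simpa [I.chr] using he c hc 1 isUnit_one
    exact ⟨e, h.nm_of hK hx b fun c hc t ht =>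
      (b _ (h.smul_mem hx.1 hc ht)).sub_mem (he c hc t ht), b⟩

/-- **The obstruction space, pointwise.** -/
theorem mem_obs (hK : Tg K TK k) (hx : x ∈ D.sol K) :
    κ ∈ (sd D K TK).obs x ↔ ∀ c ∈ D.C x, PwH D x c κ := by
  refine ⟨fun a => ?_, fun a => Submodule.subset_span ((h.obs_iff_pw hK hx).2 a)⟩
  refine Submodule.span_induction (fun _ b => (h.obs_iff_pw hK hx).1 b)
    (fun c hc => ⟨0, fun t _ l => ?_⟩) (fun _ _ _ _ a b c hc => ?_) (fun z _ _ a c hc => ?_) a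
  · rw [(h.fam.2.2.1 l _).map_zero, smul_zero, Prod.mk_zero_zero, map_zero]
  · obtain ⟨v, a⟩ := a c hc
    obtain ⟨w, b⟩ := b c hc
    exact ⟨v + w, fun t ht => smul_add (I.chr D.a t) v w ▸ h.pt_add (a t ht) (b t ht)⟩
  · obtain ⟨v, a⟩ := a c hc
    exact ⟨z • v, fun t ht => smul_comm z (I.chr D.a t) v ▸ h.pt_smul (a t ht) z⟩

theorem mem_obs' (hK : Tg K TK k) (hx : x ∈ D.sol K) :
    κ ∈ (sd D K TK).obs x ↔ ∃ e, D.Nm I.chr TK x e ∧ D.Df x κ e :=
  (h.mem_obs hK hx).trans (h.obs_iff_pw hK hx).symm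

/-- The condition `PwH` is closed. -/
theorem pw_lim (hK : Tg K TK k) (hx : x ∈ D.sol K) (hc : c ∈ D.C x) {α : Type} {F : Filter α}
    [F.NeBot] {y : α → W} {d : α → V M} {ξ : α → Fin r → ℂ} (h1 : Tendsto y F (𝓝 x))
    (h2 : Tendsto d F (𝓝 c)) (h3 : Tendsto ξ F (𝓝 κ))
    (h4 : ∀ᶠ a in F, y a ∈ D.sol K ∧ d a ∈ D.C (y a) ∧ PwH D (y a) (d a) (ξ a)) : PwH D x c κ := by
  obtain ⟨G, g1, g2⟩ := h.exists_sol hK hx hc
  refine ⟨G (x, c) κ, fun t ht l => ?_⟩
  have hc' := h.smul_mem hx.1 hc ht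
  obtain ⟨L, l1, l2⟩ := h.exists_dH hx.1 hc'
  obtain ⟨τ, t1, t2⟩ := h.exists_evL hx.1 hc' l
  have k1 : Tendsto (fun a => (y a, d a)) F (𝓝[D.U] (x, c)) :=
    tendsto_nhdsWithin_iff.2 ⟨h1.prodMk_nhds h2, h4.mono fun a e => ⟨e.1.1, e.2.1⟩⟩
  have k2 : Tendsto (fun a => (y a, t • d a)) F (𝓝[D.U] (x, t • c)) :=
    tendsto_nhdsWithin_iff.2 ⟨h1.prodMk_nhds (tendsto_smul tendsto_const_nhds h2),
      h4.mono fun a e => ⟨e.1.1, h.smul_mem e.1.1 e.2.1 ht⟩⟩
  have k3 := (tendsto_nhdsWithin_iff.1 k2).1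
  rw [← t2.self_of_nhdsWithin ⟨hx.1, hc'⟩, ← l2.self_of_nhdsWithin ⟨hx.1, hc'⟩]
  refine tendsto_nhds_unique_of_eventuallyEq (l := F)
    ((isBoundedBilinearMap_apply.continuous.tendsto _).comp
      ((t1.continuousAt.tendsto.comp k3).prodMk_nhds h3))
    ((isBoundedBilinearMap_apply.continuous.tendsto _).comp
      (((l1 l).continuousAt.tendsto.comp k3).prodMk_nhds
        (((isBoundedBilinearMap_apply.continuous.tendsto _).comp ((g1.continuousAt.tendsto.comp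
          (tendsto_nhdsWithin_iff.1 k1).1).prodMk_nhds h3)).const_smul _))) ?_
  filter_upwards [h4, k1.eventually g2, k2.eventually l2, k2.eventually t2] with a ⟨b1, b2, w, b3⟩
    b4 b5 b6
  have b7 : Pt D (y a) (d a) (ξ a) w := by simpa [I.chr] using b3 1 isUnit_one
  refine (b6 _).trans (((b3 t ht).of_sub ?_ l).trans (b5 _ _).symm)
  rw [← smul_sub]
  exact Submodule.smul_mem _ _ (h.kr_smul hK b1 b2 ht (b7.sub_mem (b4 b1 _ _ b7)))

/-- It is enough to test at the smooth points. -/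
theorem pw_of_smooth (hK : Tg K TK k) (hx : x ∈ D.sol K)
    (a : ∀ c ∈ D.C x, ¬IsNode o (D.C x) c → PwH D x c κ) (hc : c ∈ D.C x) : PwH D x c κ :=
  have := frequently_iff_neBot.1 (h.dense hx.1 hc)
  h.pw_lim hK hx hc (F := 𝓝[D.C x] c ⊓ 𝓟 {y | ¬IsNode o (D.C x) y}) (d := id) tendsto_const_nhds
    (inf_le_left.trans nhdsWithin_le_nhds) tendsto_const_nhds (by
      filter_upwards [mem_inf_of_left self_mem_nhdsWithin, mem_inf_of_right (mem_principal_self _)]
        with y b d using ⟨hx, b, a y b d⟩)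

theorem isClosed_obs (hK : Tg K TK k) :
    IsClosed {z : D.sol K × (Fin r → ℂ) | z.2 ∈ (sd D K TK).obs z.1} := by
  refine isClosed_of_closure_subset fun z hz => (h.mem_obs hK z.1.2).2 fun c hc =>
    h.pw_of_smooth hK z.1.2 (fun c hc hn => ?_) hc
  obtain ⟨s, a, rfl⟩ := h.exists_sn z.1.2.1 hc hn
  have := mem_closure_iff_nhdsWithin_neBot.1 hz
  have t : Tendsto (fun z' : D.sol K × (Fin r → ℂ) => z'.1.1)
      (𝓝[{z | z.2 ∈ (sd D K TK).obs z.1}] z) (𝓝 z.1.1) :=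
    ((continuous_subtype_val.comp continuous_fst).tendsto z).mono_left nhdsWithin_le_nhds
  refine h.pw_lim hK z.1.2 hc t (a.an.continuousAt.tendsto.comp t)
    ((continuous_snd.tendsto z).mono_left nhdsWithin_le_nhds) ?_
  filter_upwards [(tendsto_nhdsWithin_iff.2 ⟨t, .of_forall fun y => y.1.2.1⟩).eventually a.ev,
    self_mem_nhdsWithin] with y b d
  exact ⟨y.1.2, b.2, (h.mem_obs hK y.1.2).1 d _ b.2⟩

end Nf

end Vale.Agent.P269L.K
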