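import Vale.Agent.P269L.K.Ob36b
import Vale.Agent.P269L.K.Fr1

/-!
# The obstruction spaces of the roof: basic facts
-/

set_option linter.unusedSectionVars false
set_option linter.unusedVariables false
set_option maxSynthPendingDepth 3

noncomputable section

namespace Vale.Agent.P269L.K

open Set Function Topology Filter Module P269 P269.Ch P269.Base P269.Holo I

namespace Ob

variable {ι T T' P E : Type} [Fintype ι] {M : ι → ℕ} [TopologicalSpace T'] [NormedAddCommGroup P]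
  [NormedSpace ℂ P] [NormedAddCommGroup E] [NormedSpace ℂ E] {𝓕 : Filter T} {o : ι}
  {C : T' → Set (V M)} {π : T' → P} {t : T'} {c : V M}

theorem lsc (h : LocFam o C π t) (hc : c ∈ C t) {U : Set (V M)} (hU : U ∈ 𝓝 c) :
    ∀ᶠ s in 𝓝 t, ∃ c' ∈ C s, c' ∈ U := by
  have hπ := h.cont.self_of_nhds
  rcases h.chart c hc with ⟨σ, rfl, k⟩ | ⟨τ, σ, rfl, a, b, k⟩
  · filter_upwards [(Continuous.prodMk_left (0 : ℂ)).continuousAt.eventually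
      (k.mem.and ((k.tendsto hπ).eventually hU))] with s e
    exact ⟨_, e.1 trivial, e.2⟩
  · have e := k.mem.and ((k.tendsto hπ).eventually hU)
    rw [nhds_prod_eq] at e
    obtain ⟨p, hp, q, hq, e⟩ := eventually_prod_iff.1 e
    obtain ⟨ε, h1, h2⟩ := Metric.eventually_nhds_iff.1 hq
    have t1 : Tendsto (fun s => τ (π s)) (𝓝 t) (𝓝 0) := b ▸ a.continuousAt.tendsto.comp hπ
    filter_upwards [hp, t1.eventually (Metric.ball_mem_nhds 0 (mul_pos h1 h1))] with s e1 e2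
    obtain ⟨z, hz⟩ := IsAlgClosed.exists_eq_mul_self (τ (π s))
    have e3 : dist (z, z) (0 : ℂ × ℂ) < ε := by
      rw [dist_zero_right, hz, norm_mul] at e2
      simpa using abs_lt_of_sq_lt_sq' (by simpa [sq] using e2) h1.le |>.2
    exact ⟨_, (e e1 (h2 e3)).1 hz.symm, (e e1 (h2 e3)).2⟩

/-- A filter of points on the nearby curves. -/
theorem exists_flt [𝓕.NeBot] (h : LocFam o C π t) (hc : c ∈ C t) {y : T → T'}
    (hy : Tendsto y 𝓕 (𝓝 t)) : ∃ 𝓖 : Filter (T × V M), 𝓖.NeBot ∧ Tendsto Prod.fst 𝓖 𝓕 ∧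
      Tendsto Prod.snd 𝓖 (𝓝 c) ∧ ∀ᶠ p in 𝓖, p.2 ∈ C (y p.1) := by
  refine ⟨𝓕 ×ˢ 𝓝 c ⊓ 𝓟 {p | p.2 ∈ C (y p.1)}, frequently_iff_neBot.1 (frequently_iff.2 fun hU => ?_),
    tendsto_fst.mono_left inf_le_left, tendsto_snd.mono_left inf_le_left,
    mem_inf_of_right (mem_principal_self _)⟩
  obtain ⟨a, ha, b, hb, e⟩ := mem_prod_iff.1 hU
  obtain ⟨n, h1, c', h2, h3⟩ := ((show ∀ᶠ n in 𝓕, n ∈ a from ha).and
    (hy.eventually (lsc h hc hb))).exists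
  exact ⟨(n, c'), e ⟨h1, h3⟩, h2⟩

theorem tend_sc {l : T → ℂ} {v : T → E} {a : E} {l₀ : ℂ} (hv : Tendsto v 𝓕 (𝓝 a)) (ha : a ≠ 0)
    (h : Tendsto (fun q => l q • v q) 𝓕 (𝓝 (l₀ • a))) : Tendsto l 𝓕 (𝓝 l₀) := by
  obtain ⟨f, hf⟩ := SeparatingDual.exists_ne_zero (R := ℂ) ha
  have k := (f.continuous.tendsto _).comp hv
  have := ((f.continuous.tendsto _).comp h).div k hf
  rw [map_smul, smul_eq_mul, mul_div_cancel_right₀ _ hf] at this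
  refine this.congr' ?_
  filter_upwards [k.eventually_ne hf] with q e
  simp only [Pi.div_apply, comp_apply, map_smul, smul_eq_mul] at e ⊢
  exact mul_div_cancel_right₀ _ e

variable {e : ι → ℕ} {k : ℕ}

theorem exists_fac [𝓕.NeBot] [FiniteDimensional ℂ E] [FiniteDimensional ℂ P] {Q : T → E →L[ℂ] P}
    {Q₀ : E →L[ℂ] P} {v : T → E →L[ℂ] ℂ} {v₀ : E →L[ℂ] ℂ} {u₀ : P →L[ℂ] ℂ} (hQ : Tendsto Q 𝓕 (𝓝 Q₀))
    (hv : Tendsto v 𝓕 (𝓝 v₀)) (hs : Surjective Q₀) (h0 : ∀ μ, u₀ (Q₀ μ) = v₀ μ)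
    (h : ∀ᶠ n in 𝓕, ∀ μ, Q n μ = 0 → v n μ = 0) :
    ∃ u : T → P →L[ℂ] ℂ, Tendsto u 𝓕 (𝓝 u₀) ∧ ∀ᶠ n in 𝓕, ∀ μ, u n (Q n μ) = v n μ := by
  obtain ⟨r, r1, r2⟩ := exists_an_rightInv (L := fun z : E →L[ℂ] P => z) (ω := Q₀) analyticAt_id hs
  have : u₀ = v₀.comp (r Q₀) := ContinuousLinearMap.ext fun y => by
    rw [ContinuousLinearMap.comp_apply, ← h0, r2.self_of_nhds]
  refine ⟨fun n => (v n).comp (r (Q n)), this ▸ tend_comp hv (r1.continuousAt.tendsto.comp hQ), ?_⟩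
  filter_upwards [h, hQ.eventually r2] with n a b μ
  exact sub_eq_zero.1 ((map_sub _ _ _).symm.trans
    (a (r (Q n) (Q n μ) - μ) (by rw [map_sub, b, sub_self])))

/-- The evaluations along a filter. -/
theorem exists_evl [𝓕.NeBot] {Q : T → Tens M e →L[ℂ] Fin k → ℂ} {Q₀ : Tens M e →L[ℂ] Fin k → ℂ}
    {q : T → V M} {u₀ : (Fin k → ℂ) →L[ℂ] ℂ} (hQ : Tendsto Q 𝓕 (𝓝 Q₀)) (hq : Tendsto q 𝓕 (𝓝 c))
    (hs : Surjective Q₀) (h0 : Evl Q₀ c u₀) (h : ∀ᶠ n in 𝓕, ∀ μ, Q n μ = 0 → val μ (q n) = 0) :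
    ∃ u : T → (Fin k → ℂ) →L[ℂ] ℂ, Tendsto u 𝓕 (𝓝 u₀) ∧ ∀ᶠ n in 𝓕, Evl (Q n) (q n) (u n) :=
  exists_fac (v := fun n => Base.evL e (q n)) hQ ((analyticAt_evL c).continuousAt.tendsto.comp hq)
    hs h0 h

theorem locFam_jc {g : ℤ} {m : ι → ℤ} {Q : P → Tens M (fun _ => 4) →L[ℂ] Fin k → ℂ}
    [FiniteDimensional ℂ P] (hπ : ∀ᶠ s in 𝓝 t, ContinuousAt π s) (hQ : AnalyticAt ℂ Q (π t))
    (h : ∀ᶠ s in 𝓝 t, IsCurve o g m (C s) ∧ HP (Q (π s)) (C s)) : LocFam o C π t := by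
  classical
  exact (ext_of_hilb (fun _ => le_rfl) hπ hQ h.self_of_nhds.2.1
    (fun μ a => (h.self_of_nhds.2.2 μ).2 a) (h.mono fun s a => ⟨a.1, fun μ => (a.2.2 μ).1⟩)).locFam

end Ob

section

variable {A W U X B ι Λ T : Type} [NormedRing A] [NormedAlgebra ℂ A] [NormedAddCommGroup W]
  [NormedSpace ℂ W] [NormedAddCommGroup U] [NormedSpace ℂ U] [NormedAddCommGroup X] [NormedSpace ℂ X]
  [Monoid B] [Fintype ι] {M : ι → ℕ} {r n : ℕ}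
  {D : Dat A (ι → ℂ) W (V M) U (Fin r → ℂ) X ι Λ n} {sc : B → X → X} {K : Set X} {TK : X → Set X}
  {g : ℤ} {o : ι} {x : W} {c : V M} {𝓕 : Filter T} {p : T → W × V M}

namespace Nf

variable (h : Nf D sc K TK g o)
include h

theorem tend_s (hx : x ∈ D.S) (hc : c ∈ D.C x) (hp : Tendsto p 𝓕 (𝓝[D.U] (x, c))) :
    Tendsto (fun n => D.s (p n)) 𝓕 (𝓝 (D.s (x, c))) := by
  obtain ⟨k, k1, k2⟩ := ((h.fam.2.2.2 x hx).2.2.2.2 c hc).1
  rw [k2.self_of_nhdsWithin ⟨hx, hc⟩]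
  exact (k1.continuousAt.tendsto.comp (hp.mono_right nhdsWithin_le_nhds)).congr'
    ((hp.eventually k2).mono fun _ e => e.symm)

theorem tend_ev [𝓕.NeBot] (hx : x ∈ D.S) (hc : c ∈ D.C x) (hp : Tendsto p 𝓕 (𝓝[D.U] (x, c)))
    {κ : T → Fin r → ℂ} {κ₀ : Fin r → ℂ} (hκ : Tendsto κ 𝓕 (𝓝 κ₀)) (l : Λ) :
    Tendsto (fun n => D.ev (κ n) l (p n)) 𝓕 (𝓝 (D.ev κ₀ l (x, c))) := by
  obtain ⟨τ, k1, k2⟩ := h.exists_evL hx hc l
  rw [← k2.self_of_nhdsWithin ⟨hx, hc⟩]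
  exact (Ob.tend_app (k1.continuousAt.tendsto.comp (hp.mono_right nhdsWithin_le_nhds)) hκ).congr'
    ((hp.eventually k2).mono fun _ e => e _)

theorem tend_f [𝓕.NeBot] [FiniteDimensional ℂ X] (hx : x ∈ D.sol K) (hc : c ∈ D.C x)
    (hp : Tendsto p 𝓕 (𝓝[D.U] (x, c))) (hs : ∀ᶠ n in 𝓕, (p n).1 ∈ D.sol K) :
    Tendsto (fun n => D.f (p n).1 (p n).2) 𝓕 (𝓝 (D.f x c)) := by
  have := h.fdU
  obtain ⟨J, j1, j2⟩ := exists_clm h.emb.1 fun c => (h.emb.2.2 c).1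
  obtain ⟨ρ, r1, r2⟩ := exists_an_leftInv (j1 c) fun u v e =>
    h.j_inj hx.1 hc ((j2 _ _).symm.trans (e.trans (j2 _ _)))
  have t := (continuous_snd.tendsto _).comp (hp.mono_right nhdsWithin_le_nhds)
  have := Ob.tend_app (r1.continuousAt.tendsto.comp t) (h.tend_s hx.1 hc hp)
  rw [h.s_eq hx hc, ← j2, r2.self_of_nhds] at this
  refine this.congr' ?_
  filter_upwards [hs, t.eventually r2, hp.eventually self_mem_nhdsWithin] with n a b d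
  rw [show D.s (p n) = _ from h.s_eq a d.2, ← j2]
  exact b _

end Nf

end

variable {N c : ℕ} {F : Fin c → MvPolynomial (Fin (N + 1)) ℂ} {A W U ι Λ : Type} [NormedRing A]
  [NormedAlgebra ℂ A] [NormedAddCommGroup W] [NormedSpace ℂ W] [NormedAddCommGroup U]
  [NormedSpace ℂ U] [Fintype ι] [DecidableEq ι] {M : ι → ℕ} {r n : ℕ}

namespace Su

variable {s : Su A W U ι Λ M r n F}

variable (s) in
/-- The test form as a linear map. -/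
def apL (μ : s.Tf) : Vv s.ch →L[ℂ] Fin (N + 1) → ℂ :=
  .pi fun j => (ContinuousLinearMap.apply ℂ ℂ (s.cs j μ)).comp (.proj j)

theorem apL_apply (μ : s.Tf) (w : Vv s.ch) : s.apL μ w = s.ap w μ := rfl

variable (s) in
/-- The roof is good at `z`. -/
structure Cv (z : W × s.ch.W (Fin n) × s.Q) : Prop where
  cur : IsCurve (.inl s.o) s.g s.mm (jc z.2.2.1)
  hp₁ : HP z.2.2.1 (jc z.2.2.1)
  hp₃ : HP z.2.2.2 (jc z.2.2.1)
  left : s.L '' jc z.2.2.1 = s.D.C z.1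
  right : s.R '' jc z.2.2.1 = crv z.2.1
  link : ∀ q ∈ jc z.2.2.1, ∃ l : ℂ, l ≠ 0 ∧ s.D.f z.1 (s.L q) = l • fld z.2.1 (s.R q)

theorem HasEx.cv (h : s.HasEx) {z} (hz : z ∈ s.rf.Z) : s.Cv z := by
  obtain ⟨hz, θ, Γ, lk, Qf, v, Lf, E⟩ := h.2 z hz
  obtain ⟨a, b, e⟩ := E.hp.self_of_nhds
  rw [E.eqQ] at a b e
  rw [← e] at a b
  exact ⟨e ▸ E.th.cur.self_of_nhds, a, b, e ▸ E.th.left.self_of_nhds.1,
    e ▸ E.eqθ ▸ E.th.right.self_of_nhds.1, e ▸ fun q hq => ⟨_, E.th.ne q hq, E.link q hq⟩⟩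

namespace Ok

variable (h : s.Ok)
include h

theorem rt : Rt (ci F).cone (ci F).tan := let ⟨_, a⟩ := h.sm; rt_ci a

theorem ap_j (μ : s.Tf) (e y) : s.ap (s.D₀.j (e, y)) μ = val μ e • y := funext fun j =>
  (congrArg (y j * ·) ((h.cs j).2 μ e)).trans (mul_comm _ _)

theorem tw : Ob.Tw s.D s.D₀ (ci F).cone (ci F).tan s.apL fun μ => val μ :=
  ⟨⟨_, h.nf.emb⟩, ⟨_, h.nf₀.emb⟩, h.rt, analyticAt_val, h.ap_j⟩

/-- **The obstruction space of the roof, pointwise.** -/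
theorem mem_ob {z κ} : κ ∈ s.rf.ob z ↔ ∀ q ∈ jc z.2.2.1, ∀ u, Evl z.2.2.2 q u → ∀ l : ℂ,
    s.D.f z.1 (s.L q) = l • fld z.2.1 (s.R q) → ∃ e e₀, Pt s.D z.1 (s.L q) κ.1 e ∧
      Pt s.D₀ z.2.1 (s.R q) κ.2.1 e₀ ∧ ∀ μ, κ.2.2 μ u = s.dl q l e e₀ μ := by
  refine ⟨fun a => ?_, fun a => Submodule.subset_span a⟩
  have j := fun c => (h.nf.emb.2.2 c).1
  refine Submodule.span_induction (fun _ b => b) (fun q _ u _ l _ => ⟨0, 0, fun k => ?_, fun k => ?_,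
    fun μ => ?_⟩) (fun _ _ _ _ a b q hq u hu l hl => ?_) (fun t _ _ a q hq u hu l hl => ?_) a
  · exact (h.nf.fam.2.2.1 k _).map_zero.trans (map_zero _).symm
  · exact (h.nf₀.fam.2.2.1 k _).map_zero.trans (map_zero _).symm
  · rw [dl, ← apL_apply, map_zero, (j _).map_zero, smul_zero, smul_zero, sub_zero]
    rfl
  · obtain ⟨e, e₀, a1, a2, a3⟩ := a q hq u hu l hl
    obtain ⟨e', e₀', b1, b2, b3⟩ := b q hq u hu l hl
    refine ⟨_, _, h.nf.pt_add a1 b1, h.nf₀.pt_add a2 b2, fun μ =>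
      (congrArg₂ (· + ·) (a3 μ) (b3 μ)).trans ?_⟩
    simp only [dl, ← apL_apply, map_add, (j _).map_add, smul_add]
    abel
  · obtain ⟨e, e₀, a1, a2, a3⟩ := a q hq u hu l hl
    refine ⟨_, _, h.nf.pt_smul a1 t, h.nf₀.pt_smul a2 t, fun μ =>
      (congrArg (t • ·) (a3 μ)).trans ?_⟩
    simp only [dl, ← apL_apply, map_smul, (j _).map_smul, smul_sub, smul_comm t]

end Ok

end Su

end Vale.Agent.P269L.K
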