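import Vale.Agent.P269L.K.Tr
import Vale.Agent.P269L.K.Ob36c
import Vale.Agent.P269L.K.Fr

/-!
# The obstruction spaces of the roof are invariant
-/

set_option linter.unusedSectionVars false
set_option maxSynthPendingDepth 3

noncomputable section

namespace Vale.Agent.P269L.K.Iv

open Set Function Topology Filter Module MvPolynomial P269 P269.Ch P269.Base P269.Holo I Tr

variable {N c : ℕ} {F : Fin c → MvPolynomial (Fin (N + 1)) ℂ} {A W U ι Λ : Type} [NormedRing A]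
  [NormedAlgebra ℂ A] [NormedAddCommGroup W] [NormedSpace ℂ W] [NormedAddCommGroup U]
  [NormedSpace ℂ U] [Fintype ι] [DecidableEq ι] {M : ι → ℕ} {r n : ℕ}
  {s : Su A W U ι Λ M r n F} {u : A} {u₀ : s.ch.A (Fin n)} (hs : s.Ok)
include hs

theorem mv_surj (hu : IsUnit u) (hu₀ : IsUnit u₀) : Surjective (mv s u u₀) := fun q => by
  obtain ⟨u, rfl⟩ := hu
  obtain ⟨u₀, rfl⟩ := hu₀
  refine ⟨mv s u⁻¹.1 u₀⁻¹.1 q, funext fun i => ?_⟩
  rcases i with i | i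
  · exact congrFun (Z2.rep_inv' (Z2.rε hs.nf) u (s.L q)) i
  · exact congrFun (Z2.rep_inv' (Z2.rε hs.nf₀) u₀ (s.R q)) i

theorem ne_mv (hu : IsUnit u) {q : V s.MM} (h : ∀ i, mv s u u₀ q i ≠ 0) (i) : q i ≠ 0 := fun e => by
  refine h i ?_
  rcases i with i | i
  · exact (Z2.eps_apply hs.nf hu (s.L q) i).symm.trans ((congrArg _ e).trans (map_zero _))
  · exact (congrArg (u₀.1 i) e).trans (map_zero _)

/-- **The field `invo` of the roof.** -/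
theorem invo (hE : s.HasEx)
    (csq : ∀ j (u : s.ch.A (Fin n)) μ, s.cs j (sub u _ μ) = sub u _ (s.cs j μ)) :
    ∀ u, IsUnit u → ∀ z ∈ s.rf.Z, ∀ c ∈ s.rf.ob z, s.rf.ρ u c ∈ s.rf.ob (s.rf.act u z) := by
  rintro ⟨u, u₀, g⟩ hu z hz κ hκ
  obtain ⟨h1, hu⟩ := Prod.isUnit_iff.1 hu
  obtain ⟨h2, -⟩ := Prod.isUnit_iff.1 hu
  refine hs.mem_ob.2 fun q' hq v hv l hl => ?_
  obtain ⟨q, rfl⟩ := mv_surj hs h1 h2 q'
  have m : q ∈ jc z.2.2.1 := ⟨ne_mv hs h1 hq.1, (sb_surj hs h1 h2 _).forall.2 fun μ e =>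
    (val_sb hs h1 _ μ q).trans (hq.2 μ ((congrArg g.1 e).trans (map_zero _)))⟩
  have a : s.L q ∈ s.D.C z.1 := (hE.cv hz).left.le (mem_image_of_mem _ m)
  have b : s.R q ∈ s.D₀.C z.2.1 := (hE.cv hz).right.le (mem_image_of_mem _ m)
  obtain ⟨e, e₀, k1, k2, k3⟩ := hs.mem_ob.1 hκ q m (v ∘L g.2) ((sb_surj hs h1 h2 _).forall.2
    fun μ => (hv μ).trans (val_sb hs h1 _ μ q).symm) l ((Z2.f_act hs.nf h1 hz.1 a).symm.trans
      (hl.trans (congrArg (l • ·) (Z2.f_act hs.nf₀ h2 hz.2.1 b))))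
  refine ⟨_, _, hs.nf.pt_α h1 hz.1.1 a k1, hs.nf₀.pt_α h2 hz.2.1.1 b k2, fun μ => ?_⟩
  have n := (hs.nf.eqv.2.2.1.2.2 u h1).1
  refine (s.ρ₃_apply _ _ _ _).trans ((Z2.rep_fd hs.nf.eqv.2.2.1 h1 _).trans ?_)
  rw [k3, Su.dl, n.map_sub, n.map_smul, n.map_smul, ← ((hs.nf.eqv.2.2.2.2.2.2 u h1).2.1 _).2.1]
  exact congrArg (fun y => l • s.D.j (_, y) - _) (funext fun j => congrArg (e₀ j) (csq j u₀ μ))

end Vale.Agent.P269L.K.Iv
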