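import Vale.Agent.P269L.K.Ob27a

/-!
# The obstruction space of the roof: surjectivity and ranks
-/

set_option linter.unusedSectionVars false
set_option linter.unusedVariables false
set_option maxSynthPendingDepth 3

noncomputable section

namespace Vale.Agent.P269L.K.O7

open Set Function Topology Filter Module MvPolynomial P269 P269.Ch P269.Cv.Dict I

section

variable {F F₁ F₂ A W U X B ι ι' Λ Y₂ P₂ P₃ : Type} [NormedAddCommGroup F] [NormedSpace ℂ F]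
  [NormedAddCommGroup F₂] [NormedSpace ℂ F₂] [NormedRing A] [NormedAlgebra ℂ A]
  [NormedAddCommGroup W] [NormedSpace ℂ W] [NormedAddCommGroup U] [NormedSpace ℂ U]
  [NormedAddCommGroup X] [NormedSpace ℂ X] [Monoid B] [Fintype ι] [Fintype ι'] {M : ι → ℕ}
  {M' : ι' → ℕ} {r n k : ℕ} [AddCommGroup Y₂] [Module ℂ Y₂] [AddCommGroup P₂] [Module ℂ P₂]
  [AddCommGroup P₃] [Module ℂ P₃] [FiniteDimensional ℂ F] [FiniteDimensional ℂ F₂]
  {D : Dat A (ι → ℂ) W (V M) U (Fin r → ℂ) X ι Λ n} {sc : B → X → X} {K : Set X}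
  {TK : X → Set X} {g g' : ℤ} {o : ι} {x : W} {Γ : Set (V M')} {pr : V M' →L[ℂ] V M} {ρ : ι → ι'}
  {a a₁ a₂ : ι' → ℕ} {o' : ι'} {m : ι' → ℤ} {T : V M' → Submodule ℂ (U × F₂)}
  {A₂ : V M' → F₂ →ₗ[ℂ] Y₂} {ℓ : V M' → U × F₂ →L[ℂ] F} {E₂ : P₂ →ₗ[ℂ] V M' → Y₂}
  {E₃ : P₃ →ₗ[ℂ] V M' → F}

theorem unit_ext (h : Injective ρ) {t : ι → ℂ} (ht : IsUnit t) : IsUnit (extend ρ t 1) :=
  isUnit_t.2 fun i => by
    by_cases v : ∃ j, ρ j = i
    · obtain ⟨j, rfl⟩ := v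
      exact h.extend_apply t 1 j ▸ isUnit_t.1 ht j
    · simp [extend_apply' _ _ _ v]

/-- **The projection to one side has the image `obs`.** -/
theorem side (h : Nf D sc K TK g o) (hK : Tg K TK k) (hx : x ∈ D.sol K) (p : Pj Γ (D.C x) pr ρ)
    (ha : ∀ t, chr a₁ t = chr D.a fun i => t (ρ i))
    (l : Lk Γ a a₁ a₂ T (fun q => dH D x (pr q)) A₂ ℓ) (hC : IsCurve o' g' m Γ) (h0 : a₂ ≠ 0)
    (h3 : Fm Γ a E₃) (h2 : ∀ e, Hm Γ a₂ e → (∀ c ∈ Γ, ∃ k, AnalyticAt ℂ k c ∧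
      ∀ᶠ y in 𝓝[Γ] c, A₂ y (e y - k y) = 0) → ∃ ξ, ∀ c ∈ Γ, E₂ ξ c = A₂ c (e c))
    (h4 : ∀ t : ι → ℂ, chr a₂ (extend ρ t 1) = 1 ∧ ∀ q, A₂ (extend ρ t 1 • q) = A₂ q ∧
      ∀ ξ, E₂ ξ (extend ρ t 1 • q) = E₂ ξ q) (ξ) :
    ξ ∈ (sd D K TK).obs x ↔
      ∃ κ ∈ Pw Γ (fun q => dH D x (pr q)) A₂ ℓ (nev x h pr) E₂ E₃, κ.1 = ξ := by
  have := h.fdU
  refine ⟨fun u => ?_, ?_⟩
  · obtain ⟨e, e1, e2⟩ := (h.mem_obs' hK hx).1 u
    exact l.sur hC h0 h3 h2 (nup h hx p ha e1) fun c hc =>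
      funext fun i => e2 _ (p.img.le ⟨c, hc, rfl⟩) i
  · rintro ⟨κ, u, rfl⟩
    refine (h.mem_obs hK hx).2 fun c hc => ?_
    obtain ⟨q, hq, rfl⟩ := p.img.ge hc
    obtain ⟨w, hw⟩ := l.orb h3 u hq
    refine ⟨w, fun t ht => ?_⟩
    have u : (fun i => extend ρ t 1 (ρ i)) = t := funext fun i => p.inj.extend_apply _ _ _
    have := hw _ (unit_ext p.inj ht) (p.cone q hq _ (unit_ext p.inj ht)) (h4 t).1
      ((h4 t).2 q).1 (((h4 t).2 q).2 _)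
    rw [ha, u] at this
    rw [← u, ← p.eqv, u]
    exact (npt h).2 this

end

variable {N c : ℕ} {F : Fin c → MvPolynomial (Fin (N + 1)) ℂ} {A W U ι Λ : Type} [NormedRing A]
  [NormedAlgebra ℂ A] [NormedAddCommGroup W] [NormedSpace ℂ W] [NormedAddCommGroup U]
  [NormedSpace ℂ U] [Fintype ι] [DecidableEq ι] {M : ι → ℕ} {r n : ℕ} {s : Su A W U ι Λ M r n F}

theorem tan_sm {y v : Fin (N + 1) → ℂ} (a : ℂ) (h : v ∈ (ci F).tan y) : a • v ∈ (ci F).tan y :=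
  fun k => by simp only [Pi.smul_apply, smul_eq_mul, mul_assoc, ← Finset.mul_sum, h k, mul_zero]

variable (s) in
/-- The third equation as a linear map. -/
def lam [FiniteDimensional ℂ U] (J : V M → (Fin (N + 1) → ℂ) →L[ℂ] U) (p : ℂ × V s.MM) : U × Vv s.ch →L[ℂ] s.Tf →L[ℂ] U :=
  LinearMap.toContinuousLinearMap
    { toFun := fun w => p.1 • J (s.L p.2) ∘L (.pi fun j => w.2 j ∘L s.cs j) -
        (Base.evL bH (s.R p.2)).smulRight w.1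
      map_add' := fun v w => ContinuousLinearMap.ext fun μ => by
        have : (ContinuousLinearMap.pi fun j => (v + w).2 j ∘L s.cs j) μ =
          (ContinuousLinearMap.pi fun j => v.2 j ∘L s.cs j) μ +
            (ContinuousLinearMap.pi fun j => w.2 j ∘L s.cs j) μ := rfl
        simp only [_root_.sub_apply, add_apply, smul_apply, ContinuousLinearMap.comp_apply, this, map_add,
          ContinuousLinearMap.smulRight_apply, Prod.fst_add, smul_add]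
        abel
      map_smul' := fun a w => ContinuousLinearMap.ext fun μ => by
        have : (ContinuousLinearMap.pi fun j => (a • w).2 j ∘L s.cs j) μ =
          a • (ContinuousLinearMap.pi fun j => w.2 j ∘L s.cs j) μ := rfl
        simp only [_root_.sub_apply, smul_apply, ContinuousLinearMap.comp_apply, this, map_smul,
          ContinuousLinearMap.smulRight_apply, Prod.smul_fst, RingHom.id_apply, smul_sub,
          smul_comm a] }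

variable [FiniteDimensional ℂ U] {J : V M → (Fin (N + 1) → ℂ) →L[ℂ] U}

theorem lam_apply (hJ : ∀ c y, J c y = s.D.j (c, y)) (p w μ) :
    lam s J p w μ = s.dl p.2 p.1 w.1 w.2 μ :=
  congrArg (p.1 • · - _) (hJ _ _)

theorem an_lam (hJ : ∀ c, AnalyticAt ℂ J c) (p) : AnalyticAt ℂ (lam s J) p :=
  Holo.analyticAt_of_apply fun w => Holo.analyticAt_of_apply fun μ =>
    (analyticAt_fst.smul (Holo.an_apply ((hJ _).comp ((s.L.analyticAt _).comp analyticAt_snd))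
      (analyticAt_const (v := s.ap w.2 μ)))).sub
      (((an_val μ _).comp ((s.R.analyticAt _).comp analyticAt_snd)).smul analyticAt_const)

theorem ap_j (hs : s.Ok) (c₀ y μ) : s.ap (s.D₀.j (c₀, y)) μ = val μ c₀ • y :=
  funext fun j => (congrArg (y j * ·) ((hs.cs j).2 μ c₀)).trans (mul_comm _ _)

variable {z : W × s.ch.W (Fin n) × s.Q} {hz : z.1 ∈ s.D.S} {θ Γ lk Qf v Lf} (hs : s.Ok)
  (e : s.Ex z hz θ Γ lk Qf v Lf)
include hs e

theorem pjL : Pj (Γ ⟨z.1, hz⟩) (s.D.C z.1) s.L .inl :=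
  have := hs.nf.fdW
  have l := e.th.left.self_of_nhds
  have p := pj_of e.th.fam Sum.inl_injective l.2
  ⟨p.inj, l.1, l.2, fun _ _ => rfl, (hs.nf.crv _ hz).ne_zero, p.cone, l.1 ▸ p.sec⟩

theorem pjR : Pj (Γ ⟨z.1, hz⟩) (s.D₀.C z.2.1) s.R .inr :=
  have := hs.nf.fdW
  have l := e.th.right.self_of_nhds
  have l' : s.R '' Γ ⟨z.1, hz⟩ = s.D₀.C z.2.1 := l.1.trans (congrArg crv e.eqθ)
  have p := pj_of e.th.fam₀ Sum.inr_injective l.2
  ⟨p.inj, l', l.2, fun _ _ => rfl, (hs.nf₀.crv _ e.mem.2.1.1).ne_zero, p.cone, l' ▸ p.sec⟩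

theorem link (h1 : ∀ c, AnalyticAt ℂ J c) (hJ : ∀ c y, J c y = s.D.j (c, y)) :
    Lk (Γ ⟨z.1, hz⟩) s.e₃ (Sum.elim s.D.a 0) (Sum.elim 0 fun _ => 1)
      (fun q => (LinearMap.ker (dH s.D₀ z.2.1 (s.R q))).comap (.snd ℂ _ _) ⊓
        LinearMap.ker (lam s J (lk ⟨z.1, hz⟩ q, q)).toLinearMap)
      (fun q => dH s.D z.1 (s.L q)) (fun q => dH s.D₀ z.2.1 (s.R q))
      fun q => lam s J (lk ⟨z.1, hz⟩ q, q) := by
  obtain ⟨dg, hd⟩ := hs.sm
  have hK := tg_ci hd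
  have p := pjL hs e
  have p₀ := pjR hs e
  have m := fun q hq => p.img.le ⟨q, hq, rfl⟩
  have m₀ := fun q hq => p₀.img.le ⟨q, hq, rfl⟩
  have hx := e.mem.1
  have hx₀ := e.mem.2.1
  have l0 := e.th.ne
  have v1 := fun q hq => exists_val_one (a := bH) (p₀.ne _ (m₀ q hq))
  have lin := fun c => (hs.nf.emb.2.2 c).1
  have k0 : ∀ q ∈ Γ ⟨z.1, hz⟩, ∀ w η, lam s J (lk ⟨z.1, hz⟩ q, q) (w, s.D₀.j (s.R q, η)) = 0 ↔
      s.D.j (s.L q, lk ⟨z.1, hz⟩ q • η) = w := fun q hq w η => by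
    simp only [ContinuousLinearMap.ext_iff, lam_apply hJ, Su.dl, ap_j hs, (lin _).map_smul,
      zero_apply, smul_comm (lk _ q), ← smul_sub]
    obtain ⟨μ, hμ⟩ := v1 q hq
    exact ⟨fun k => by simpa [hμ, sub_eq_zero] using k μ, fun k μ => by rw [k, sub_self, smul_zero]⟩
  have hl : ∀ q ∈ Γ ⟨z.1, hz⟩, ∀ t, IsUnit t → ∀ w : U × Vv s.ch,
      lam s J (lk ⟨z.1, hz⟩ (t • q), t • q) (chr (Sum.elim s.D.a 0) t • w.1,
        chr (Sum.elim 0 fun _ => 1) t • w.2) = chr s.e₃ t • lam s J (lk ⟨z.1, hz⟩ q, q) w := by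
    refine fun q hq t ht w => ContinuousLinearMap.ext fun μ => ?_
    have ht' := isUnit_t.1 ht
    have : s.ap (chr (Sum.elim 0 fun _ => 1) t • w.2) μ =
      chr (Sum.elim 0 fun _ => 1) t • s.ap w.2 μ := rfl
    simp only [smul_apply, lam_apply hJ, Su.dl, this, p.eqv, p₀.eqv, hs.nf.j_smul, val_smul,
      (lin _).map_smul, e.th.lnk.hom.self_of_nhds t ht' q hq, smul_sub, smul_smul]
    congr 2
    · have := chr_ne (a := s.D.b) (isUnit_t.2 fun i => ht' (.inl i))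
      have := ht' (.inr (some ()))
      simp only [chr, Base.chz, Fintype.prod_sum_type, Sum.elim_inl, Sum.elim_inr,
        zpow_sub₀ (ht' _), Finset.prod_div_distrib, zpow_natCast, Fintype.prod_option, bH,
        Fintype.prod_unique, Option.elim, Pi.zero_apply] at *
      field_simp
      simp
    · simp only [chr, Fintype.prod_sum_type, Sum.elim_inl, Sum.elim_inr, Pi.zero_apply, pow_zero,
        Finset.prod_const_one]
      ring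
  refine ⟨fun q hq w => (nker hs.nf hx (m q hq)).trans ⟨?_, ?_⟩, fun q hq w => ⟨fun k => ?_,
    fun ⟨_, k⟩ => k.1⟩, fun q hq w k => k.2, fun q hq w k => ?_, fun q hq w k => ?_, fun q hq => ?_,
    fun q hq t ht w k => ⟨?_, (hl q hq t ht w).trans (by rw [show lam s J _ w = 0 from k.2,
      smul_zero])⟩, hl⟩
  · rintro ⟨η, k, rfl⟩
    refine ⟨_, (nker hs.nf₀ hx₀ (m₀ q hq)).2 ⟨(lk ⟨z.1, hz⟩ q)⁻¹ • η, tan_sm _ ?_, rfl⟩,
      (k0 q hq _ _).2 (by rw [smul_inv_smul₀ (l0 q hq)])⟩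
    have := hK.smul _ (hs.nf.f_mem hx (m q hq)) _ (inv_ne_zero (l0 q hq)) k
    rwa [e.link q hq, inv_smul_smul₀ (l0 q hq)] at this
  · rintro ⟨w', k, k'⟩
    obtain ⟨η, u, rfl⟩ := (nker hs.nf₀ hx₀ (m₀ q hq)).1 k
    exact ⟨_, e.link q hq ▸ hK.smul _ (hs.nf₀.f_mem hx₀ (m₀ q hq)) _ (l0 q hq) (tan_sm _ u),
      (k0 q hq _ _).1 k'⟩
  · obtain ⟨η, -, rfl⟩ := (nker hs.nf₀ hx₀ (m₀ q hq)).1 k
    exact ⟨_, k, (k0 q hq _ _).2 rfl⟩
  · rw [← (hs.nf₀.emb.2.2 (s.R q)).1.map_zero, k0 q hq, smul_zero] at k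
    exact k.symm.trans (lin _).map_zero
  · refine funext fun j => ContinuousLinearMap.ext fun μ => ?_
    obtain ⟨μ, rfl⟩ := (hs.cs j).1.2 μ
    have := DFunLike.congr_fun k μ
    rw [lam_apply hJ, Su.dl, smul_zero, sub_zero, zero_apply, smul_eq_zero_iff_right (l0 q hq),
      ← (lin (s.L q)).map_zero] at this
    exact congrFun (hs.nf.j_inj hz (m q hq) this) j
  · obtain ⟨Φ, f1, f2⟩ := e.th.lnk.reg q hq fun k => k.elim
    refine ⟨fun y => lam s J (Φ (z.1, y), y), (an_lam h1 _).comp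
      ((f1.comp_of_eq (analyticAt_const.prod analyticAt_id) rfl).prod analyticAt_id), ?_⟩
    filter_upwards [nhdsWithin_le_nhds ((Continuous.prodMk_right _).continuousAt.eventually f2),
      self_mem_nhdsWithin] with y u hy
    rw [u hy]
  · have := hs.nf₀.kr_smul hK hx₀ (m₀ q hq) (isUnit_t.2 fun i => isUnit_t.1 ht (.inr i))
      (mem_kr.2 (congrFun k.1))
    rw [← p₀.eqv] at this
    exact (LinearMap.ker (dH s.D₀ z.2.1 (s.R (t • q)))).smul_mem _ (funext (mem_kr.1 this))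

theorem ob_eq (hJ : ∀ c y, J c y = s.D.j (c, y)) {u : V s.MM → (Fin (s.hh s.e₃) → ℂ) →L[ℂ] ℂ}
    (hu : ∀ q ∈ Γ ⟨z.1, hz⟩, ∀ v, Evl z.2.2.2 q v ↔ v = u q) :
    s.rf.ob z = Pw (Γ ⟨z.1, hz⟩) (fun q => dH s.D z.1 (s.L q)) (fun q => dH s.D₀ z.2.1 (s.R q))
      (fun q => lam s J (lk ⟨z.1, hz⟩ q, q)) (nev z.1 hs.nf s.L) (nev z.2.1 hs.nf₀ s.R) (ev3 u) := by
  obtain ⟨dg, hd⟩ := hs.sm
  have hj : jc z.2.2.1 = Γ ⟨z.1, hz⟩ := e.eqQ ▸ e.hp.self_of_nhds.2.2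
  refine (congrArg _ (Set.ext fun κ => .trans ?_ mem_Pw.symm)).trans (Submodule.span_eq _)
  rw [mem_ofPred_eq, hj]
  refine forall₂_congr fun q hq => ⟨fun k => ?_, fun ⟨w, w1, w2, w3⟩ v hv l hl => ?_⟩
  · obtain ⟨w, w₀, w1, w2, w3⟩ := k _ ((hu q hq _).2 rfl) _ (e.link q hq)
    exact ⟨(w, w₀), (npt _).1 w1, (npt _).1 w2, ContinuousLinearMap.ext fun μ =>
      (lam_apply hJ _ _ _).trans (w3 μ).symm⟩
  · obtain rfl := (hu q hq v).1 hv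
    obtain rfl : l = lk ⟨z.1, hz⟩ q := smul_left_injective ℂ ((tg_ci hd).ne _ (hs.nf₀.f_mem e.mem.2.1
      ((pjR hs e).img.le ⟨q, hq, rfl⟩))) (hl.symm.trans (e.link q hq))
    exact ⟨w.1, w.2, (npt _).2 w1, (npt _).2 w2, fun μ =>
      (DFunLike.congr_fun w3 μ).symm.trans (lam_apply hJ _ _ _)⟩

theorem main : (∀ ξ, ξ ∈ s.sd₁.obs z.1 ↔ ∃ c ∈ s.rf.ob z, c.1 = ξ) ∧
    (∀ ξ, ξ ∈ s.sd₀.obs z.2.1 ↔ ∃ c ∈ s.rf.ob z, c.2.1 = ξ) ∧
    finrank ℂ (s.rf.ob z) = finrank ℂ (s.sd₁.obs z.1) + finrank ℂ s.ch.Fld +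
      finrank ℂ (s.sd₀.van z.2.1) ∧
    finrank ℂ (s.rf.ob z) = finrank ℂ (s.sd₀.obs z.2.1) + finrank ℂ U * s.hA +
      finrank ℂ (s.sd₁.van z.1) := by
  obtain ⟨dg, hd⟩ := hs.sm
  obtain ⟨J, j1, j2⟩ := exists_clm hs.nf.emb.1 fun c => (hs.nf.emb.2.2 c).1
  have hQ : HP z.2.2.2 (Γ ⟨z.1, hz⟩) := e.eqQ ▸ e.hp.self_of_nhds.2.1
  obtain ⟨u, u1, u2, u3⟩ := hp_ev hQ
  have hC := e.th.cur.self_of_nhds
  have hK := tg_ci hd
  have p := pjL hs e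
  have p₀ := pjR hs e
  have hx := e.mem.1
  have hx₀ := e.mem.2.1
  have l := link hs e j1 j2
  have h3 := hp_fm (F := U) (T := s.Tf) hQ hC (fun k => by simpa [bH] using congrFun k (.inr none))
    u1 u2 fun q hq => (u3 q hq _).2 rfl
  have t0 : (0 : Fin (N + 1) → ℂ) ∈ ⋂ y, (ci F).tan y := mem_iInter.2 fun y k => by simp
  have c1 : ∀ t : ι ⊕ Option Unit → ℂ, chr (Sum.elim s.D.a 0) t = chr s.D.a fun i => t (.inl i) :=
    fun t => by simp [chr]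
  have c0 : ∀ t : ι ⊕ Option Unit → ℂ, chr (Sum.elim 0 fun _ => 1) t =
      chr s.D₀.a fun i => t (.inr i) := fun t => by simp [chr, dat]
  obtain ⟨i, hi⟩ := hs.nf.fam.1
  have a1 : Sum.elim s.D.a (0 : Option Unit → ℕ) ≠ 0 := fun k => hi (congrFun k (.inl i))
  have a0 : Sum.elim (0 : ι → ℕ) (fun _ : Option Unit => 1) ≠ 0 := fun k =>
    one_ne_zero (congrFun k (.inr none))
  have d1 := ndown hs.nf hx p c1 t0
  have d0 := ndown hs.nf₀ hx₀ p₀ c0 t0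
  have x1 : ∀ t : ι → ℂ, (fun i => extend Sum.inl t (1 : ι ⊕ Option Unit → ℂ) (.inr i)) = 1 :=
    fun t => funext fun i => extend_apply' _ _ _ (by simp)
  have x0 : ∀ t : Option Unit → ℂ, (fun i => extend Sum.inr t (1 : ι ⊕ Option Unit → ℂ) (.inl i)) = 1 :=
    fun t => funext fun i => extend_apply' _ _ _ (by simp)
  have s1 := side hs.nf hK hx p c1 l hC a0 h3 d0 fun t => ⟨by rw [c0, x1]; simp [chr],
    fun q => ⟨by simp only [p₀.eqv, x1, one_smul], fun ξ => funext fun k =>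
      congrArg (fun y => s.D₀.ev ξ k (_, y)) (by rw [p₀.eqv, x1, one_smul])⟩⟩
  have s0 := side hs.nf₀ hK hx₀ p₀ c0 l.symm hC a1 h3 d1 fun t => ⟨by rw [c1, x0]; simp [chr],
    fun q => ⟨by simp only [p.eqv, x0, one_smul], fun ξ => funext fun k =>
      congrArg (fun y => s.D.ev ξ k (_, y)) (by rw [p.eqv, x0, one_smul])⟩⟩
  obtain ⟨n0, E0, f0, m0⟩ := exists_fm (F := Vv s.ch) hC a0
  obtain ⟨n1, E1, f1, m1⟩ := exists_fm (F := U) hC a1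
  rw [ob_eq hs e j2 u3]
  refine ⟨s1, fun ξ => (s0 ξ).trans ⟨fun ⟨κ, k, k'⟩ => ⟨(κ.2.1, κ.1, κ.2.2), pw_swap.1 k, k'⟩,
    fun ⟨κ, k, k'⟩ => ⟨_, pw_swap.2 k, k'⟩⟩, (l.rk h3 d0 f0 p.cone (fun _ => nvan _ hx₀ p₀) s1).trans ?_,
    pw_rk.trans ((l.symm.rk h3 d1 f1 p.cone (fun _ => nvan _ hx p) s0).trans ?_)⟩
  · congr 2
    have b := (hs.sol.le hx₀).1
    have k : ∀ j, (finrank ℂ (Tens s.ch.M (s.ch.b j) →L[ℂ] s.ch.E (some j)) : ℤ) =
        finrank ℂ (Tens s.ch.M (s.ch.b j) →L[ℂ] ℂ) * (∑ i, s.ch.m i + 1 - s.g) := fun j => by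
      rw [← LinearMap.toContinuousLinearMap.finrank_eq, ← LinearMap.toContinuousLinearMap.finrank_eq,
        finrank_linearMap, finrank_linearMap, finrank_fin_fun, Nat.cast_mul,
        h_eq₁ b (hs.num.a_ne _), hs.ea, hs.eg]
      simp [Base.dg]
    rw [finrank_fin_fun, ← Nat.cast_inj (R := ℤ), m0, finrank_pi_fintype, finrank_pi_fintype]
    simp [k, Finset.sum_mul]
  · congr 2
    have k := (hs.nf.crv _ hz).hilbert s.D.a (ne_iff.2 ⟨i, hi⟩)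
    rw [finrank_fin_fun, ← Nat.cast_inj (R := ℤ), m1, Su.hA, Nat.cast_mul,
      Int.toNat_of_nonneg (k ▸ Int.natCast_nonneg _)]
    simp

omit e [FiniteDimensional ℂ U] in
/-- **Surjectivity and ranks.** -/
theorem ob (he : s.HasEx) (hz : z ∈ s.rf.Z) :
    (∀ ξ, ξ ∈ s.sd₁.obs z.1 ↔ ∃ c ∈ s.rf.ob z, c.1 = ξ) ∧
    (∀ ξ, ξ ∈ s.sd₀.obs z.2.1 ↔ ∃ c ∈ s.rf.ob z, c.2.1 = ξ) ∧
    finrank ℂ (s.rf.ob z) = finrank ℂ (s.sd₁.obs z.1) + finrank ℂ s.ch.Fld +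
      finrank ℂ (s.sd₀.van z.2.1) ∧
    finrank ℂ (s.rf.ob z) = finrank ℂ (s.sd₀.obs z.2.1) + finrank ℂ U * s.hA +
      finrank ℂ (s.sd₁.van z.1) :=
  have := hs.nf.fdU
  let ⟨_, _, _, _, _, _, _, e⟩ := he.2 z hz
  main hs e

end Vale.Agent.P269L.K.O7
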