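import Vale.Agent.P269L.K.Ob36c

/-!
# The obstruction spaces of the roof: closedness and limits
-/

set_option linter.unusedSectionVars false
set_option linter.unusedVariables false
set_option maxSynthPendingDepth 3

noncomputable section

namespace Vale.Agent.P269L.K

open Set Function Topology Filter Module P269 P269.Ch P269.Base P269.Holo I

theorem Nf.H_eq {A W U X B ι Λ : Type} [NormedRing A] [NormedAlgebra ℂ A] [NormedAddCommGroup W]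
    [NormedSpace ℂ W] [NormedAddCommGroup U] [NormedSpace ℂ U] [NormedAddCommGroup X]
    [NormedSpace ℂ X] [Monoid B] [Fintype ι] {M : ι → ℕ} {r n : ℕ}
    {D : Dat A (ι → ℂ) W (V M) U (Fin r → ℂ) X ι Λ n} {sc : B → X → X} {K : Set X} {TK : X → Set X}
    {g : ℤ} {o : ι} {x : W} {c : V M} (h : Nf D sc K TK g o) (hx : x ∈ D.S) (hc : c ∈ D.C x) {t : ℂ}
    {κ} (e : D.σ x - t • κ ∈ (sd D K TK).van x) (l : Λ) :
    D.H l (c, D.s (x, c)) = t • D.ev κ l (x, c) := by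
  have := (h.mem_van _ _).1 e c hc l
  rwa [(h.fam.2.2.1 l _).map_sub, (h.fam.2.2.1 l _).map_smul, h.ev_σ hx hc, sub_eq_zero] at this

variable {N c : ℕ} {F : Fin c → MvPolynomial (Fin (N + 1)) ℂ} {A W U ι Λ T : Type} [NormedRing A]
  [NormedAlgebra ℂ A] [NormedAddCommGroup W] [NormedSpace ℂ W] [NormedAddCommGroup U]
  [NormedSpace ℂ U] [Fintype ι] [DecidableEq ι] {M : ι → ℕ} {r n : ℕ}

namespace Su

variable {s : Su A W U ι Λ M r n F}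

theorem tend_ap {𝓕 : Filter T} [𝓕.NeBot] [FiniteDimensional ℂ U] {κ : T → s.P₃} {κ₀ : s.P₃} {u u₀}
    (hκ : Tendsto κ 𝓕 (𝓝 κ₀)) (hu : Tendsto u 𝓕 (𝓝 u₀)) (μ : s.Tf) :
    Tendsto (fun n => κ n μ (u n)) 𝓕 (𝓝 (κ₀ μ u₀)) :=
  Ob.tend_app (Ob.tend_app hκ tendsto_const_nhds) hu

theorem an_setX2 (p : s.ch.W (Fin n) × s.ch.Fld) : AnalyticAt ℂ (fun p => setX p.1 p.2) p :=
  Ch.W.an_iff.2 ⟨Ch.W.an_Q (x := Prod.fst) analyticAt_fst, Ch.W.an_p (x := Prod.fst) analyticAt_fst,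
    Ch.W.an_Ξ (x := Prod.fst) analyticAt_fst,
    fun j => analyticAt_pi_iff.1 analyticAt_snd j⟩

namespace Ok

variable (h : s.Ok)
include h

theorem im_iff {x x₀ q} {l : ℂ} {κ : (Fin r → ℂ) × (Fin s.r₀ → ℂ) × s.P₃} {u} (hx : x ∈ s.Z)
    (hx₀ : x₀ ∈ s.Z₀) (hc : s.L q ∈ s.D.C x) (hc₀ : s.R q ∈ crv x₀)
    (hl : s.D.f x (s.L q) = l • fld x₀ (s.R q)) :
    Ob.Im s.D s.D₀ s.apL (fun μ => val μ) (s.L q) (s.R q) l (s.D.j (s.L q, l • fld x₀ (s.R q)))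
      (s.D₀.j (s.R q, fld x₀ (s.R q))) (fun k => s.D.ev κ.1 k (x, s.L q))
      (fun k => s.D₀.ev κ.2.1 k (x₀, s.R q)) (fun μ => κ.2.2 μ u) ↔
    ∃ e e₀, Pt s.D x (s.L q) κ.1 e ∧ Pt s.D₀ x₀ (s.R q) κ.2.1 e₀ ∧
      ∀ μ, κ.2.2 μ u = s.dl q l e e₀ μ := by
  rw [← hl, ← h.nf.s_eq hx hc, show s.D₀.j (s.R q, fld x₀ (s.R q)) = _ from (h.nf₀.s_eq hx₀ hc₀).symm]
  rfl

theorem l_ne {x c} {l : ℂ} {y} (hx : x ∈ s.Z) (hc : c ∈ s.D.C x) (hl : s.D.f x c = l • y) : l ≠ 0 :=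
  fun e => h.rt.ne _ (h.nf.f_mem hx hc) (by rw [hl, e, zero_smul])

theorem bpf {x₀ c} (hx : x₀ ∈ s.D₀.S) (hc : c ∈ crv x₀) : ∃ μ : s.Tf, val μ c = 1 :=
  exists_pol_one ((h.nf₀.crv _ hx).ne_zero c hc) _

/-- **The obstruction spaces form a closed family.** -/
theorem clo (hE : s.HasEx) :
    IsClosed {q : s.rf.Z × (Fin r → ℂ) × (Fin s.r₀ → ℂ) × s.P₃ | q.2 ∈ s.rf.ob q.1} := by
  have := h.nf.fdW
  have := h.nf.fdU
  have := h.nf₀.fdW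
  have := h.nf₀.fdU
  refine isClosed_of_closure_subset fun a ha => h.mem_ob.2 fun q hq u hu l hl => ?_
  have := mem_closure_iff_comap_neBot.1 ha
  have t : Tendsto (Subtype.val : {q : s.rf.Z × (Fin r → ℂ) × (Fin s.r₀ → ℂ) × s.P₃ |
    q.2 ∈ s.rf.ob q.1} → _) _ (𝓝 a) := tendsto_comap
  have cv := fun z : s.rf.Z => hE.cv z.2
  have mL := fun (z : s.rf.Z) q hq => (cv z).left.subset (mem_image_of_mem s.L hq : s.L q ∈ _)
  have mR := fun (z : s.rf.Z) q hq => (cv z).right.subset (mem_image_of_mem s.R hq : s.R q ∈ _)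
  obtain ⟨𝓖, _, g1, g2, g3⟩ := Ob.exists_flt (Ob.locFam_jc (C := fun z : s.rf.Z => jc z.1.2.2.1)
    (π := Subtype.val) (t := a.1) (Q := fun p => p.2.2.1)
    (.of_forall fun _ => continuous_subtype_val.continuousAt)
    (analyticAt_fst.comp (analyticAt_snd.comp analyticAt_snd))
    (.of_forall fun z => ⟨(cv z).cur, (cv z).hp₁⟩)) hq
    ((continuous_fst.tendsto a).comp t)
  have t0 := t.comp g1
  have tz := ((continuous_subtype_val.comp continuous_fst).tendsto a).comp t0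
  have tκ := (continuous_snd.tendsto a).comp t0
  obtain ⟨v, v1, v2⟩ := Ob.exists_evl
    (((continuous_snd.comp (continuous_snd.comp continuous_snd)).tendsto _).comp tz) g2
    (cv a.1).hp₃.1 hu (g3.mono fun p b μ e => ((cv _).hp₃.2 μ).1 e _ b)
  have tL := (s.L.continuous.tendsto q).comp g2
  have tR := (s.R.continuous.tendsto q).comp g2
  have p1 : Tendsto (fun p => (p.1.1.1.1.1, s.L p.2)) 𝓖 (𝓝[s.D.U] (a.1.1.1, s.L q)) :=
    tendsto_nhdsWithin_iff.2 ⟨((continuous_fst.tendsto _).comp tz).prodMk_nhds tL,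
      g3.mono fun p b => ⟨p.1.1.1.2.1.1, mL _ _ b⟩⟩
  have p0 : Tendsto (fun p => (p.1.1.1.1.2.1, s.R p.2)) 𝓖 (𝓝[s.D₀.U] (a.1.1.2.1, s.R q)) :=
    tendsto_nhdsWithin_iff.2 ⟨(((continuous_fst.comp continuous_snd).tendsto _).comp tz).prodMk_nhds
      tR, g3.mono fun p b => ⟨p.1.1.1.2.2.1.1, mR _ _ b⟩⟩
  have ty := h.nf₀.tend_f a.1.2.2.1 (mR _ _ hq) p0 (.of_forall fun p => p.1.1.1.2.2.1)
  have y0 := h.nf₀.f_mem a.1.2.2.1 (mR _ _ hq)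
  obtain ⟨k, hk⟩ := (g3.mono fun p b => (cv _).link _ b).choice
  have tk : Tendsto k 𝓖 (𝓝 l) := Ob.tend_sc ty (h.rt.ne _ y0)
    ((hl ▸ h.nf.tend_f a.1.2.1 (mL _ _ hq) p1 (.of_forall fun p => p.1.1.1.2.1) :
      Tendsto _ _ (𝓝 (l • fld _ _))).congr' (hk.mono fun p b => b.2))
  obtain ⟨μ, hμ⟩ := h.bpf a.1.2.2.1.1 (mR _ _ hq)
  refine (h.im_iff a.1.2.1 a.1.2.2.1 (mL _ _ hq) (mR _ _ hq) hl).1 (h.tw.clo tL tR tk
    (h.l_ne a.1.2.1 (mL _ _ hq) hl)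
    (h.nf.tend_ev a.1.2.1.1 (mL _ _ hq) p1 ((continuous_fst.tendsto _).comp tκ))
    (h.nf₀.tend_ev a.1.2.2.1.1 (mR _ _ hq) p0
      (((continuous_fst.comp continuous_snd).tendsto _).comp tκ))
    (tend_ap (((continuous_snd.comp continuous_snd).tendsto _).comp tκ) v1)
    (g3.mono fun p b => h.nf.free p.1.1.1.2.1.1 (mL _ _ b))
    (g3.mono fun p b => h.nf₀.free p.1.1.1.2.2.1.1 (mR _ _ b))
    (h.nf₀.free a.1.2.2.1.1 (mR _ _ hq)) ⟨μ, hμ ▸ one_ne_zero⟩ y0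
    (tendsto_nhdsWithin_iff.2 ⟨ty, g3.mono fun p b => h.nf₀.f_mem p.1.1.1.2.2.1 (mR _ _ b)⟩) ?_)
  filter_upwards [g3, hk, v2] with p b d e
  exact (h.im_iff p.1.1.1.2.1 p.1.1.1.2.2.1 (mL _ _ b) (mR _ _ b) d.2).2
    (h.mem_ob.1 p.1.2 _ b _ e _ d.2)

/-- **Limits of the deformation to the normal cone lie in the obstruction space.** -/
theorem lim {F₀ : Type} [NormedAddCommGroup F₀] [NormedSpace ℂ F₀] {z hz θ Γ lk Qf v Lf}
    (E : s.Ex z hz θ Γ lk Qf v Lf) {X : W → s.ch.Fld} (hX : AnalyticAt ℂ X z.1)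
    (b : F₀ →L[ℂ] s.ch.Fld) (hZ : ∀ᶠ y in 𝓝[s.Z] z.1, (y, s.sec θ Qf X (y, b 0)) ∈ s.rf.Z) :
    ∀ᶠ y in 𝓝[s.Z] z.1, ∀ κ, (((y, 0), κ), (0 : ℂ)) ∈ P269L.D.BM (s.rf.M (s.D.S ×ˢ univ) Prod.fst
      (fun ω : W × F₀ => (s.sec θ Qf X (ω.1, b ω.2)).1) fun ω => s.del v Lf X (ω.1, b ω.2)) →
        κ ∈ s.rf.ob (y, s.sec θ Qf X (y, b 0)) := by
  have := h.nf.fdW
  have := h.nf.fdU
  have := h.nf₀.fdW
  have := h.nf₀.fdU
  have := FiniteDimensional.complete ℂ W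
  have e0 := (E.th.cur.and (E.th.base.and (E.th.left.and (E.th.right.and
    (E.hp.and E.del))))).eventually_nhds
  rw [nhds_subtype_eq_comap, eventually_comap] at e0
  filter_upwards [hZ, nhdsWithin_le_nhds e0, nhdsWithin_le_nhds E.th.an.eventually_analyticAt,
    nhdsWithin_le_nhds hX.eventually_analyticAt, nhdsWithin_le_nhds E.anQ.eventually_analyticAt]
    with y yZ e1 aθ aX aQ κ hκ
  refine h.mem_ob.2 fun q hq u hu l hl => ?_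
  have e1 := e1 ⟨y, yZ.1.1⟩ rfl
  have e2 := e1.self_of_nhds
  have hq : q ∈ Γ ⟨y, yZ.1.1⟩ := e2.2.2.2.2.1.2.2.subset hq
  have qL := e2.2.2.1.1.subset (mem_image_of_mem _ hq)
  have qR := e2.2.2.2.1.1.subset (mem_image_of_mem _ hq)
  have := mem_closure_iff_comap_neBot.1 hκ
  let Y := {p : ((W × F₀) × (Fin r → ℂ) × (Fin s.r₀ → ℂ) × s.P₃) × ℂ |
    p.2 ≠ 0 ∧ (p.1.1, p.2 • p.1.2) ∈ s.rf.M (s.D.S ×ˢ univ) Prod.fst
      (fun ω : W × F₀ => (s.sec θ Qf X (ω.1, b ω.2)).1) fun ω => s.del v Lf X (ω.1, b ω.2)}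
  have t : Tendsto (Subtype.val : Y → _) _ (𝓝 (((y, 0), κ), (0 : ℂ))) := tendsto_comap
  have ty := ((continuous_fst.comp (continuous_fst.comp continuous_fst)).tendsto _).comp t
  have ts := (tendsto_subtype_rng (x := (⟨y, yZ.1.1⟩ : s.D.S))
    (f := fun p : Y => ⟨p.1.1.1.1, p.2.2.1.1⟩)).2 ty
  obtain ⟨𝓖, _, g1, g2, g3⟩ := Ob.exists_flt (Ob.locFam_jc (C := Γ) (π := Subtype.val)
    (t := ⟨y, yZ.1.1⟩) (Q := fun p => (Qf p).1)
    (.of_forall fun _ => continuous_subtype_val.continuousAt) (analyticAt_fst.comp aQ)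
    (e1.mono fun _ a => ⟨a.1, a.2.2.2.2.1.1⟩)) hq ts
  have g4 := (ts.comp g1).eventually e1
  have t0 := t.comp g1
  have ty := ty.comp g1
  have tw := ((continuous_snd.comp (continuous_fst.comp continuous_fst)).tendsto _).comp t0
  have tκ := ((continuous_snd.comp continuous_fst).tendsto _).comp t0
  have tt := (continuous_snd.tendsto _).comp t0
  obtain ⟨w, v1, v2⟩ := Ob.exists_evl ((analyticAt_snd.comp aQ).continuousAt.tendsto.comp ty) g2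
    e2.2.2.2.2.1.2.1.1 hu ((g3.and g4).mono fun p a μ e => (a.2.2.2.2.2.1.2.1.2 μ).1 e _ a.1)
  have tL := (s.L.continuous.tendsto q).comp g2
  have tR := (s.R.continuous.tendsto q).comp g2
  have mL := (g3.and g4).mono fun p a => a.2.2.2.1.1.subset (mem_image_of_mem _ a.1)
  have mR := (g3.and g4).mono fun p a => a.2.2.2.2.1.1.subset (mem_image_of_mem _ a.1)
  have p1 : Tendsto (fun p => (p.1.1.1.1.1, s.L p.2)) 𝓖 (𝓝[s.D.U] (y, s.L q)) :=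
    tendsto_nhdsWithin_iff.2 ⟨ty.prodMk_nhds tL, mL.mono fun p a => ⟨p.1.2.2.1.1, a⟩⟩
  have p0 : Tendsto (fun p => ((s.sec θ Qf X (p.1.1.1.1.1, b p.1.1.1.1.2)).1, s.R p.2)) 𝓖
      (𝓝[s.D₀.U] ((s.sec θ Qf X (y, b 0)).1, s.R q)) :=
    tendsto_nhdsWithin_iff.2 ⟨((an_setX2 (θ y, X y + b 0)).continuousAt.tendsto.comp
      ((aθ.continuousAt.tendsto.comp ty).prodMk_nhds ((aX.continuousAt.tendsto.comp ty).add
        ((b.continuous.tendsto _).comp tw)))).prodMk_nhds tR,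
      (g4.and mR).mono fun p a => ⟨a.1.2.1, a.2⟩⟩
  have y0 := h.nf₀.f_mem yZ.2.1 qR
  have s1 := h.nf.tend_s yZ.1.1 qL p1
  have s0 := h.nf₀.tend_s yZ.2.1.1 qR p0
  rw [h.nf.s_eq yZ.1 qL, hl] at s1
  rw [h.nf₀.s_eq yZ.2.1 qR] at s0
  have tδ := tend_ap (((continuous_snd.comp continuous_snd).tendsto _).comp tκ) v1
  have e3 : ∀ᶠ p in 𝓖, ∀ μ, s.dl p.2 (lk ⟨p.1.1.1.1.1, p.1.2.2.1.1⟩ p.2) (s.D.s (p.1.1.1.1.1, s.L p.2))
      (s.D₀.s ((s.sec θ Qf X (p.1.1.1.1.1, b p.1.1.1.1.2)).1, s.R p.2)) μ =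
        p.1.1.2 • p.1.1.1.2.2.2 μ (w p) := by
    filter_upwards [g3, g4, v2] with p a d e μ
    exact (d.2.2.2.2.2 _ _ a _ e μ).symm.trans congr($(p.1.2.2.2.2.2) μ (w p))
  obtain ⟨μ, hμ⟩ := h.bpf yZ.2.1.1 qR
  have jl := (h.nf.emb.2.2 (s.L q)).1
  have tk : Tendsto (fun p => lk ⟨p.1.1.1.1.1, p.1.2.2.1.1⟩ p.2) 𝓖 (𝓝 l) := by
    have k1 := (h.nf.emb.1.continuous.tendsto _).comp (tL.prodMk_nhds
      (((s.apL μ).continuous.tendsto _).comp s0))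
    have k2 := (tt.smul (tδ μ)).add
      (((analyticAt_val μ _).continuousAt.tendsto.comp tR).smul s1)
    rw [apL_apply, h.ap_j, hμ, one_smul] at k1
    rw [hμ, one_smul, jl.map_smul, show ((((y, (0 : F₀)), κ), (0 : ℂ))).2 = 0 from rfl, zero_smul,
      zero_add] at k2
    exact Ob.tend_sc k1 (fun e => h.rt.ne _ y0 (h.nf.j_inj yZ.1.1 qL (e.trans jl.map_zero.symm)))
      (k2.congr' (e3.mono fun p a => (sub_eq_iff_eq_add.1 (a μ)).symm))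
  refine (h.im_iff yZ.1 yZ.2.1 qL qR hl).1 (h.tw.lim tL tR tk (h.l_ne yZ.1 qL hl)
    (h.nf.tend_ev yZ.1.1 qL p1 ((continuous_fst.tendsto _).comp tκ))
    (h.nf₀.tend_ev yZ.2.1.1 qR p0 (((continuous_fst.comp continuous_snd).tendsto _).comp tκ)) tδ
    (mL.mono fun p a => h.nf.free p.1.2.2.1.1 a)
    ((p0.eventually self_mem_nhdsWithin).mono fun p a => h.nf₀.free a.1 a.2)
    (h.nf₀.free yZ.2.1.1 qR) ⟨μ, hμ ▸ one_ne_zero⟩ y0 (t := fun p => p.1.1.2) s1 s0 ?_)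
  filter_upwards [e3, mL, p0.eventually self_mem_nhdsWithin] with p a d e
  exact ⟨p.1.2.1, h.nf.H_eq p.1.2.2.1.1 d p.1.2.2.2.1, h.nf₀.H_eq e.1 e.2 p.1.2.2.2.2.1, a⟩

end Ok

end Su

end Vale.Agent.P269L.K
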