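import Vale.Agent.P269L.I.St
import Vale.Agent.P269L.U.Tx
import Vale.Agent.P269L.D.Main
import Vale.Agent.P269L.G.Pub

/-!
# Comparison of two presentations: the abstract frame
-/

set_option linter.unusedSectionVars false
set_option linter.unusedVariables false

noncomputable section

namespace Vale.Agent.P269L.K

open Set Function Topology Filter Module P291Z P269 P269.Holo P269.Orb P269.Ch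

section

variable {Ω Ω' E E' W Γ F R R' : Type} [NormedAddCommGroup Ω] [NormedSpace ℂ Ω]
  [NormedAddCommGroup Ω'] [NormedSpace ℂ Ω'] [NormedAddCommGroup E] [NormedSpace ℂ E]
  [NormedAddCommGroup E'] [NormedSpace ℂ E'] [NormedAddCommGroup W] [NormedSpace ℂ W]
  [NormedAddCommGroup Γ] [NormedSpace ℂ Γ] [NormedAddCommGroup F] [NormedSpace ℂ F]
  [NormedAddCommGroup R] [NormedSpace ℂ R] [NormedAddCommGroup R'] [NormedSpace ℂ R']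

/-- On the germ of `T` at `ω` the components of `f` lie in the ideal of the components of `g`. -/
def Gen (T : Set Ω) (ω : Ω) (f : Ω → E) (g : Ω → E') : Prop :=
  ∃ A : Ω → E' →L[ℂ] E, AnalyticAt ℂ A ω ∧ ∀ᶠ z in 𝓝[T] ω, f z = A z (g z)

/-- Mutually inverse holomorphic maps of germs of sets. -/
structure GIso (B : Set Ω) (b : Ω) (B' : Set Ω') (b' : Ω') (Φ : Ω → Ω') (Ψ : Ω' → Ω) : Prop where
  an : AnalyticAt ℂ Φ b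
  an' : AnalyticAt ℂ Ψ b'
  eq : Φ b = b'
  eq' : Ψ b' = b
  ev : ∀ᶠ z in 𝓝[B] b, Φ z ∈ B' ∧ Ψ (Φ z) = z
  ev' : ∀ᶠ z in 𝓝[B'] b', Ψ z ∈ B ∧ Φ (Ψ z) = z

/-- `(π, γ, w)` identifies the germ of `Ω` with `S × Γ × F`, and the ideals `(a ∘ π, w)` and
`(a ∘ π, b)` agree. -/
structure Stab (S : Set W) (a : W → R) (ω : Ω) (π : Ω → W) (γ : Ω → Γ) (w : Ω → F) (b : Ω → R')
    (ι : W × Γ × F → Ω) : Prop where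
  iso : GIso univ ω (S ×ˢ univ) (π ω, γ ω, 0) (fun z => (π z, γ z, w z)) ι
  ana : AnalyticAt ℂ a (π ω)
  anb : AnalyticAt ℂ b ω
  zero : a (π ω) = 0
  g1 : Gen univ ω b fun z => (a (π z), w z)
  g2 : Gen univ ω w fun z => (a (π z), b z)

end

/-- The data that define a virtual class. -/
structure Sd (A W ι : Type) where
  act : A → W → W
  ρ : A → (ι → ℂ) → ι → ℂ
  S : Set W
  Z : Set W
  van : W → Submodule ℂ (ι → ℂ)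
  obs : W → Submodule ℂ (ι → ℂ)
  σ : W → ι → ℂ

variable {A A₀ A₃ W W₀ Q P₃ F F₀ R R₀ ι ι₀ : Type} [NormedRing A] [NormedAlgebra ℂ A] [NormedRing A₀]
  [NormedAlgebra ℂ A₀] [NormedRing A₃] [NormedAlgebra ℂ A₃] [NormedAddCommGroup W] [NormedSpace ℂ W]
  [NormedAddCommGroup W₀] [NormedSpace ℂ W₀] [NormedAddCommGroup Q] [NormedSpace ℂ Q]
  [NormedAddCommGroup P₃] [NormedSpace ℂ P₃] [NormedAddCommGroup F] [NormedSpace ℂ F]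
  [NormedAddCommGroup F₀] [NormedSpace ℂ F₀] [NormedAddCommGroup R] [NormedSpace ℂ R]
  [NormedAddCommGroup R₀] [NormedSpace ℂ R₀] [Fintype ι] [Fintype ι₀]

namespace Sd

variable (D : Sd A W ι)

/-- The representatives of the section. -/
abbrev M : Set (W × (ι → ℂ)) := Tx.Rp D.S (fun x => (D.van x : Set (ι → ℂ))) D.σ id

/-- The cone. -/
abbrev C : Set (W × (ι → ℂ)) := Tx.Cone D.Z D.M

/-- The virtual class of the text. -/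
def Vir (v : Pub.Bm (Quo D.act D.Z)) : Prop :=
  Tx.VirE D.act D.ρ D.S D.Z univ (fun x => (D.van x : Set (ι → ℂ)))
    (fun x => (D.obs x : Set (ι → ℂ))) D.σ id D.ρ v

/-- A holomorphic frame `η` of `P / van` near `x`, in which the section is `a`. -/
structure Fr (x : W) (η : W → (ι → ℂ) →L[ℂ] R) (a : W → R) : Prop where
  an : AnalyticAt ℂ η x
  ana : AnalyticAt ℂ a x
  surj : Surjective (η x)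
  ev : ∀ᶠ y in 𝓝[D.S] x, (∀ κ, η y κ = 0 ↔ κ ∈ D.van y) ∧ η y (D.σ y) = a y

/-- Good data; `d` is the dimension of `S`. -/
structure Gd (d : ℕ) : Prop where
  act : I.Rep D.act
  rep : I.Rep D.ρ
  invS : ∀ u, IsUnit u → ∀ x ∈ D.S, D.act u x ∈ D.S
  sub : D.Z ⊆ D.S
  invZ : ∀ u, IsUnit u → ∀ x ∈ D.Z, D.act u x ∈ D.Z
  invV : ∀ u, IsUnit u → ∀ x ∈ D.S, ∀ κ ∈ D.van x, D.ρ u κ ∈ D.van (D.act u x)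
  invσ : ∀ u, IsUnit u → ∀ x ∈ D.S, D.σ (D.act u x) - D.ρ u (D.σ x) ∈ D.van (D.act u x)
  invO : ∀ u, IsUnit u → ∀ x ∈ D.Z, ∀ κ ∈ D.obs x, D.ρ u κ ∈ D.obs (D.act u x)
  zero : ∀ x ∈ D.Z, ∀ᶠ y in 𝓝[D.S] x, y ∈ D.Z ↔ D.σ y ∈ D.van y
  mfd : ∀ x ∈ D.Z, MfdAt D.S d x
  fr : ∀ x ∈ D.Z, ∃ (r : ℕ) (η : W → (ι → ℂ) →L[ℂ] Fin r → ℂ) (a : _), D.Fr x η a
  le : ∀ x ∈ D.Z, D.van x ≤ D.obs x
  clo : IsClosed {z : D.Z × (ι → ℂ) | z.2 ∈ D.obs z.1}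
  fin : ∀ x ∈ D.Z, {u | IsUnit u ∧ D.act u x = x}.Finite

/-- The action on the zero set is proper and the ranks are constant. -/
structure Prp : Prop where
  prop : ∀ _ : IsAct D.act D.Z, ProperSMul Aˣ (Holo.Sp D.act D.Z)
  rk : ∃ v r : ℕ, ∀ x ∈ D.Z, finrank ℂ (D.van x) = v ∧ finrank ℂ (D.obs x) = r

end Sd

variable (A₃ Q P₃) in
/-- The data of a roof over two presentations. -/
structure Rf (D : Sd A W ι) (D₀ : Sd A₀ W₀ ι₀) where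
  aq : A × A₀ × A₃ → Q → Q
  ρ₃ : A × A₀ × A₃ → P₃ → P₃
  O : Set Q
  Z : Set (W × W₀ × Q)
  ob : W × W₀ × Q → Submodule ℂ ((ι → ℂ) × (ι₀ → ℂ) × P₃)

namespace Rf

variable {D : Sd A W ι} {D₀ : Sd A₀ W₀ ι₀} (T : Rf A₃ Q P₃ D D₀)

/-- The action on the points. -/
def act (u : A × A₀ × A₃) (z : W × W₀ × Q) : W × W₀ × Q :=
  (D.act u.1 z.1, D₀.act u.2.1 z.2.1, T.aq u z.2.2)

/-- The action on the vectors. -/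
def ρ (u : A × A₀ × A₃) (c : (ι → ℂ) × (ι₀ → ℂ) × P₃) : (ι → ℂ) × (ι₀ → ℂ) × P₃ :=
  (D.ρ u.1 c.1, D₀.ρ u.2.1 c.2.1, T.ρ₃ u c.2.2)

/-- The representatives of the three sections over a space `Ω` of parameters. -/
def M {Ω : Type} (_ : Rf A₃ Q P₃ D D₀) (B : Set Ω) (π : Ω → W) (π₀ : Ω → W₀) (δ : Ω → P₃) :
    Set (Ω × (ι → ℂ) × (ι₀ → ℂ) × P₃) :=
  {q | q.1 ∈ B ∧ D.σ (π q.1) - q.2.1 ∈ D.van (π q.1) ∧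
    D₀.σ (π₀ q.1) - q.2.2.1 ∈ D₀.van (π₀ q.1) ∧ δ q.1 = q.2.2.2}

/-- The local model over the point `x`, as the geometry provides it. -/
structure Lm (x : W) (ς : W × F₀ → W₀ × Q) (δ : W × F₀ → P₃) (w₀ : W × F₀ → F)
    (η : W → (ι → ℂ) →L[ℂ] R) (a : W → R) (η₀ : W₀ → (ι₀ → ℂ) →L[ℂ] R₀) (a₀ : W₀ → R₀) : Prop where
  fr : D.Fr x η a
  fr₀ : D₀.Fr (ς (x, 0)).1 η₀ a₀
  anς : AnalyticAt ℂ ς (x, 0)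
  anδ : AnalyticAt ℂ δ (x, 0)
  anw : AnalyticAt ℂ w₀ (x, 0)
  memS : ∀ᶠ ω in 𝓝[D.S ×ˢ univ] (x, 0), (ς ω).1 ∈ D₀.S
  memZ : ∀ᶠ y in 𝓝[D.Z] x, (y, ς (y, 0)) ∈ T.Z
  g1 : Gen (D.S ×ˢ univ) (x, 0) (fun ω => (a₀ (ς ω).1, δ ω)) fun ω => (a ω.1, ω.2)
  g2 : Gen (D.S ×ˢ univ) (x, 0) (fun ω => ω.2) fun ω => (a ω.1, δ ω)
  g3 : Gen (D.S ×ˢ univ) (x, 0) (fun ω => (a ω.1, δ ω)) fun ω => (a₀ (ς ω).1, w₀ ω)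
  g4 : Gen (D.S ×ˢ univ) (x, 0) w₀ fun ω => (a₀ (ς ω).1, δ ω)
  ker : ∀ v ∈ I.Tan D.S x, ∀ e u₀, fderiv ℂ (fun ω => (ς ω).1) (x, 0) (v, e) =
    fderiv ℂ (D₀.act · (ς (x, 0)).1) 1 u₀ → fderiv ℂ δ (x, 0) (v, e) = 0 →
      ∃ u, v = fderiv ℂ (D.act · x) 1 u
  lim : ∀ᶠ y in 𝓝[D.Z] x, ∀ c, (((y, 0), c), (0 : ℂ)) ∈
    P269L.D.BM (T.M (D.S ×ˢ univ) Prod.fst (fun ω => (ς ω).1) δ) → c ∈ T.ob (y, ς (y, 0))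

/-- A roof; `N`, `N₀` are the ranks of the kernels of the maps of obstruction bundles. -/
structure Ok (d d₀ N N₀ : ℕ) : Prop where
  gd : D.Gd d
  gd₀ : D₀.Gd d₀
  prp : D₀.Prp
  repq : I.Rep T.aq
  rep₃ : I.Rep T.ρ₃
  invO : ∀ u, IsUnit u → ∀ q ∈ T.O, T.aq u q ∈ T.O
  prop₃ : ∀ _ : IsAct (fun u => T.aq (1, 1, u)) T.O,
    ProperSMul A₃ˣ (Holo.Sp (fun u => T.aq (1, 1, u)) T.O)
  mem : ∀ z ∈ T.Z, z.1 ∈ D.Z ∧ z.2.1 ∈ D₀.Z ∧ z.2.2 ∈ T.O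
  inv : ∀ u, IsUnit u → ∀ z ∈ T.Z, T.act u z ∈ T.Z
  onto : ∀ x ∈ D.Z, ∃ z ∈ T.Z, z.1 = x
  t1 : ∀ z ∈ T.Z, ∀ z' ∈ T.Z, z.1 = z'.1 → ∃! u : A₀ × A₃, IsUnit u ∧ T.act (1, u) z = z'
  t0 : ∀ z ∈ T.Z, ∀ z' ∈ T.Z, z.2.1 = z'.2.1 →
    ∃! u : A × A₃, IsUnit u ∧ T.act (u.1, 1, u.2) z = z'
  clo : IsClosed {q : T.Z × (ι → ℂ) × (ι₀ → ℂ) × P₃ | q.2 ∈ T.ob q.1}
  invo : ∀ u, IsUnit u → ∀ z ∈ T.Z, ∀ c ∈ T.ob z, T.ρ u c ∈ T.ob (T.act u z)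
  sur : ∀ z ∈ T.Z, ∀ ξ, ξ ∈ D.obs z.1 ↔ ∃ c ∈ T.ob z, c.1 = ξ
  sur₀ : ∀ z ∈ T.Z, ∀ ξ, ξ ∈ D₀.obs z.2.1 ↔ ∃ c ∈ T.ob z, c.2.1 = ξ
  rk : ∀ z ∈ T.Z, finrank ℂ (T.ob z) = finrank ℂ (D.obs z.1) + N₀ + finrank ℂ (D₀.van z.2.1)
  rk₀ : ∀ z ∈ T.Z, finrank ℂ (T.ob z) = finrank ℂ (D₀.obs z.2.1) + N + finrank ℂ (D.van z.1)
  dim : d + N₀ + finrank ℂ A₀ = d₀ + N + finrank ℂ A
  loc : ∀ z ∈ T.Z, ∃ (r r₀ : ℕ) (ς : W × (Fin N₀ → ℂ) → W₀ × Q) (δ : _)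
    (w₀ : _ → Fin N → ℂ) (η : W → (ι → ℂ) →L[ℂ] Fin r → ℂ) (a : _)
    (η₀ : W₀ → (ι₀ → ℂ) →L[ℂ] Fin r₀ → ℂ) (a₀ : _), ς (z.1, 0) = z.2 ∧ T.Lm z.1 ς δ w₀ η a η₀ a₀

/-- The symmetric local model at the point `ζ ω`. -/
structure Sm {Ω Γ Γ₀ : Type} [NormedAddCommGroup Ω] [NormedSpace ℂ Ω] [NormedAddCommGroup Γ]
    [NormedSpace ℂ Γ] [NormedAddCommGroup Γ₀] [NormedSpace ℂ Γ₀] (ω : Ω) (ζ : Ω → W × W₀ × Q)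
    (ϱ : W × W₀ × Q → Ω) (δ : Ω → P₃) (γ : Ω → Γ) (w : Ω → F₀) (e : W × Γ × F₀ → Ω) (γ₀ : Ω → Γ₀)
    (w₀ : Ω → F) (e₀ : W₀ × Γ₀ × F → Ω) (η : W → (ι → ℂ) →L[ℂ] R) (a : W → R)
    (η₀ : W₀ → (ι₀ → ℂ) →L[ℂ] R₀) (a₀ : W₀ → R₀) : Prop where
  fr : D.Fr (ζ ω).1 η a
  fr₀ : D₀.Fr (ζ ω).2.1 η₀ a₀
  st : Stab D.S a ω (fun z => (ζ z).1) γ w (fun z => (a₀ (ζ z).2.1, δ z)) e
  st₀ : Stab D₀.S a₀ ω (fun z => (ζ z).2.1) γ₀ w₀ (fun z => (a (ζ z).1, δ z)) e₀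
  iso : GIso {z | a (ζ z).1 = 0 ∧ w z = 0} ω T.Z (ζ ω) ζ ϱ
  dim₀ : finrank ℂ Γ₀ = finrank ℂ A + finrank ℂ A₃
  lim : ∀ᶠ z in 𝓝[{z | a (ζ z).1 = 0 ∧ w z = 0}] ω, ∀ c, ((z, c), (0 : ℂ)) ∈
    P269L.D.BM (T.M univ (fun z => (ζ z).1) (fun z => (ζ z).2.1) δ) → c ∈ T.ob (ζ z)

/-- Every point has a symmetric local model. -/
def HasSm (N N₀ : ℕ) : Prop := ∀ z ∈ T.Z, ∃ (n k k₀ r r₀ : ℕ) (ω : Fin n → ℂ) (ζ ϱ δ : _)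
  (γ : _ → Fin k → ℂ) (w : _ → Fin N₀ → ℂ) (e : _) (γ₀ : _ → Fin k₀ → ℂ) (w₀ : _ → Fin N → ℂ) (e₀ : _)
  (η : W → (ι → ℂ) →L[ℂ] Fin r → ℂ) (a : _) (η₀ : W₀ → (ι₀ → ℂ) →L[ℂ] Fin r₀ → ℂ) (a₀ : _),
    ζ ω = z ∧ T.Sm ω ζ ϱ δ γ w e γ₀ w₀ e₀ η a η₀ a₀

/-- The third cone. -/
def C : Set ((W × W₀ × Q) × (ι → ℂ) × (ι₀ → ℂ) × P₃) :=
  {q | q.1 ∈ T.Z ∧ q.2 ∈ T.ob q.1 ∧ (q.1.1, q.2.1) ∈ D.C}

end Rf

section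

variable {A' W' P' : Type} [NormedRing A'] [NormedAlgebra ℂ A'] [NormedAddCommGroup W']
  [NormedSpace ℂ W'] [NormedAddCommGroup P'] [NormedSpace ℂ P']

/-- `f : T' → T` is a principal bundle for the kernel of `θ` over an invariant open part of `T`. -/
structure Pr (act' : A' → W' → W') (act : A → W → W) (T' : Set W') (T : Set W) (θ : A' →L[ℂ] A)
    (f : W' →L[ℂ] W) : Prop where
  one : θ 1 = 1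
  mul : ∀ u u', θ (u * u') = θ u * θ u'
  mem : ∀ z ∈ T', f z ∈ T
  eqv : ∀ u, IsUnit u → ∀ z ∈ T', f (act' u z) = act (θ u) (f z)
  tr : ∀ z ∈ T', ∀ z' ∈ T', ∀ u, IsUnit u → f z' = act u (f z) →
    ∃! u', IsUnit u' ∧ θ u' = u ∧ act' u' z = z'
  lift : ∀ u, IsUnit u → ∃ u', IsUnit u' ∧ θ u' = u
  sec : ∀ z ∈ T', ∃ s : W → W', AnalyticAt ℂ s (f z) ∧ s (f z) = z ∧
    ∀ᶠ y in 𝓝[T] (f z), s y ∈ T' ∧ f (s y) = y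

/-- `T' → T` is a holomorphic bundle of affine spaces of dimension `k`. -/
structure Aff (T : Set W) (T' : Set (W × P')) (k : ℕ) : Prop where
  mem : ∀ q ∈ T', q.1 ∈ T
  loc : ∀ y ∈ T, ∃ (s : W → P') (ℓ : W → (Fin k → ℂ) →L[ℂ] P'), AnalyticAt ℂ s y ∧
    AnalyticAt ℂ ℓ y ∧ Injective (ℓ y) ∧
      ∀ᶠ y' in 𝓝[T] y, ∀ c, (y', c) ∈ T' ↔ ∃ e, c = s y' + ℓ y' e

end

end Vale.Agent.P269L.K
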