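import Vale.Agent.P269L.K.Cv
import Vale.Agent.P269L.K.Defs

/-!
# The cone of good data
-/

set_option linter.all false

namespace Vale.Agent.P269L.K

open Set Function Topology Filter Module P291Z P287Q.H3 P269 P269.Ch P269.Holo P269.Orb

variable {A W R ι : Type} [NormedRing A] [NormedAlgebra ℂ A] [NormedAddCommGroup W]
  [NormedSpace ℂ W] [NormedAddCommGroup R] [NormedSpace ℂ R] [Fintype ι]

section rep

variable {act : A → W → W} (h : I.Rep act)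
include h

theorem rep_fdA : FiniteDimensional ℂ A :=
  haveI := h.1
  Module.Finite.of_surjective (LinearMap.fst ℂ A W) Prod.fst_surjective

theorem rep_fdW : FiniteDimensional ℂ W :=
  haveI := h.1
  Module.Finite.of_surjective (LinearMap.snd ℂ A W) Prod.snd_surjective

theorem rep_isAct : IsAct act univ :=
  ⟨fun x _ => h.2.1 x, fun a b ha hb x _ => ((h.2.2 a ha).2 x).2 b hb, fun _ _ _ _ => trivial,
    fun a ha x _ => ((h.2.2 a ha).2 x).1⟩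

theorem rep_lin (a : A) (ha : IsUnit a) : IsLinearMap ℂ (act a) := (h.2.2 a ha).1

theorem rep_inj {a : A} (ha : IsUnit a) : Injective (act a) := by
  obtain ⟨g, rfl⟩ := ha
  refine LeftInverse.injective (g := act (g⁻¹ : Aˣ)) fun x => ?_
  rw [← ((h.2.2 _ g⁻¹.isUnit).2 x).2 _ g.isUnit, g.inv_mul, h.2.1]

/-- invariant families of subspaces have invariant rank -/
theorem rep_rank {W' : Type} [NormedAddCommGroup W'] [NormedSpace ℂ W'] {ρ : A → W' → W'}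
    (h' : I.Rep ρ) {S : Set W} (hS : ∀ u, IsUnit u → ∀ x ∈ S, act u x ∈ S)
    {B : W → Submodule ℂ W'} (hB : ∀ u, IsUnit u → ∀ x ∈ S, ∀ κ ∈ B x, ρ u κ ∈ B (act u x))
    {u : A} (hu : IsUnit u) {x : W} (hx : x ∈ S) : finrank ℂ (B (act u x)) = finrank ℂ (B x) := by
  haveI := rep_fdW h'
  have k : ∀ u, IsUnit u → ∀ x ∈ S, finrank ℂ (B x) ≤ finrank ℂ (B (act u x)) := fun u hu x hx => by
    rw [← finrank_map_of_inj (f := (rep_lin h' u hu).mk' _) fun w _ e =>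
      rep_inj h' hu (e.trans (rep_lin h' u hu).map_zero.symm)]
    exact Submodule.finrank_mono (by rintro _ ⟨w, hw, rfl⟩; exact hB u hu x hx w hw)
  obtain ⟨g, rfl⟩ := hu
  refine le_antisymm ((k _ g⁻¹.isUnit _ (hS _ g.isUnit x hx)).trans_eq ?_) (k _ g.isUnit x hx)
  rw [← ((h.2.2 _ g⁻¹.isUnit).2 x).2 _ g.isUnit, g.inv_mul, h.2.1]

end rep

theorem orb_of [FiniteDimensional ℂ W] {P : Type} [NormedAddCommGroup P] [NormedSpace ℂ P]
    [FiniteDimensional ℂ P] {act : A → W → W} {ρ : A → P → P} {Z : Set W} {C : Set (W × P)}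
    [IsAct act Z] [IsAct (Tx.act2 act ρ) C] (ho : Orb Aˣ (Holo.Sp act Z))
    (hl : IsLocallyClosed C) (hs : ∀ y ∈ C, y.1 ∈ Z) : Orb Aˣ (Holo.Sp (Tx.act2 act ρ) C) :=
  haveI := FiniteDimensional.proper ℂ (W × P)
  haveI : LocallyCompactSpace C := hl.locallyCompactSpace
  haveI : Nice (Holo.Sp (Tx.act2 act ρ) C) := ⟨inferInstance, inferInstance, inferInstance⟩
  ho.of_map (f := fun z => Holo.Sp.of act z.val.1 (hs _ z.val_mem))
    ((continuous_fst.comp Holo.Sp.continuous_val).subtype_mk _) fun _ _ => rfl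

namespace Sd

variable {D : Sd A W ι} {x : W} {η : W → (ι → ℂ) →L[ℂ] R} {a : W → R} {d : ℕ}

theorem Fr.ev_M (h : D.Fr x η a) :
    ∀ᶠ y in 𝓝 x, ∀ ξ, (y, ξ) ∈ D.M ↔ y ∈ D.S ∧ η y ξ = a y :=
  (eventually_nhdsWithin_iff.1 h.ev).mono fun y b ξ => and_congr_right fun c =>
    ((b c).1 _).symm.trans (by rw [id, map_sub, (b c).2, sub_eq_zero, eq_comm])

theorem Fr.rank [FiniteDimensional ℂ R] (h : D.Fr x η a) :
    ∀ᶠ y in 𝓝[D.S] x, finrank ℂ R + finrank ℂ (D.van y) = Fintype.card ι := by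
  filter_upwards [h.ev, (eventually_surjective h.an.continuousAt h.surj).filter_mono
    nhdsWithin_le_nhds] with y b c
  have k := LinearMap.finrank_range_add_finrank_ker (η y : (ι → ℂ) →ₗ[ℂ] R)
  rwa [LinearMap.range_eq_top.2 c, finrank_top, show LinearMap.ker (η y : (ι → ℂ) →ₗ[ℂ] R) =
    D.van y from Submodule.ext b.1, finrank_fintype_fun_eq_card] at k

namespace Gd

variable (h : D.Gd d)
include h

theorem fdA : FiniteDimensional ℂ A := rep_fdA h.act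

theorem fdW : FiniteDimensional ℂ W := rep_fdW h.act

theorem isAct : IsAct D.act D.Z := (rep_isAct h.act).mono (subset_univ _) h.invZ

theorem zero_a (hx : x ∈ D.Z) (f : D.Fr x η a) : a x = 0 :=
  let b := f.ev.self_of_nhdsWithin (h.sub hx)
  b.2.symm.trans ((b.1 _).2 (((h.zero x hx).self_of_nhdsWithin (h.sub hx)).1 hx))

theorem rank_ev (hx : x ∈ D.Z) :
    ∀ᶠ y in 𝓝[D.S] x, finrank ℂ (D.van y) = finrank ℂ (D.van x) := by
  obtain ⟨r, η, a, f⟩ := h.fr x hx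
  have := f.rank.self_of_nhdsWithin (h.sub hx)
  exact f.rank.mono fun y b => by omega

theorem mfdM (hx : x ∈ D.Z) : MfdAt D.M (d + finrank ℂ (D.van x)) (x, 0) := by
  haveI := h.fdW
  haveI := FiniteDimensional.complete ℂ W
  obtain ⟨r, η, a, f⟩ := h.fr x hx
  have k := f.rank.self_of_nhdsWithin (h.sub hx)
  refine ((h.mfd x hx).prod (MfdAt.univ (0 : ι → ℂ))).sub (Φ := fun p => η p.1 p.2 - a p.1)
    ((an_apply (f.an.comp_of_eq (analyticAt_fst (p := (x, (0 : ι → ℂ)))) rfl) analyticAt_snd).sub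
      (f.ana.comp_of_eq analyticAt_fst rfl)) (by simp [h.zero_a hx f]) (fun b _ => ?_)
    ((continuousAt_fst.eventually f.ev_M).mono fun p e => (e p.2).trans
      ⟨fun c => ⟨⟨c.1, trivial⟩, sub_eq_zero.2 c.2⟩, fun c => ⟨c.1.1, sub_eq_zero.1 c.2⟩⟩)
    (by rw [finrank_fintype_fun_eq_card ℂ (η := ι)]; omega)
  obtain ⟨ξ, rfl⟩ := f.surj b
  refine Submodule.subset_span ⟨fun ε => (x, ε • ξ), ⟨analyticAt_const.prod
    (analyticAt_id.smul analyticAt_const), by simp, .of_forall fun _ => ⟨h.sub hx, trivial⟩⟩, ?_⟩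
  simpa using (((hasDerivAt_id (0 : ℂ)).smul_const (η x ξ)).sub_const (a x)).deriv

theorem invM (u : A) (hu : IsUnit u) (z : W × (ι → ℂ)) (hz : z ∈ D.M) :
    Tx.act2 D.act D.ρ u z ∈ D.M := by
  refine ⟨h.invS u hu _ hz.1, ?_⟩
  have e := add_mem (h.invσ u hu _ hz.1) (h.invV u hu _ hz.1 _ hz.2)
  rwa [(rep_lin h.rep u hu).map_sub, sub_add_sub_cancel] at e

theorem cbv (v : ℕ) : haveI := h.fdA; haveI := h.fdW
    Cb D.act D.ρ {x ∈ D.Z | finrank ℂ (D.van x) = v} D.M (d + v) :=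
  ⟨(rep_isAct h.act).mono (subset_univ _) fun u hu x hx => ⟨h.invZ u hu x hx.1,
      (rep_rank h.act h.rep h.invS h.invV hu (h.sub hx.1)).trans hx.2⟩, rep_isAct h.rep,
    rep_lin h.rep, fun x hx => hx.2 ▸ h.mfdM hx.1, fun x hx =>
      (eventually_nhdsWithin_iff.1 ((h.zero x hx.1).and (h.rank_ev hx.1))).mono fun y b c =>
        ⟨(b c.1).1.2 (by simpa using c.2), (b c.1).2.trans hx.2⟩, h.invM⟩

theorem mem_cone {y : W × (ι → ℂ)} : y ∈ D.C ↔ y.1 ∈ D.Z ∧ (y, (0 : ℂ)) ∈ P269L.D.BM D.M :=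
  haveI := h.fdW
  and_congr_right fun a => P269L.D.cone_iff (h.mfdM a) y.2

theorem near {y : W × (ι → ℂ)} (hy : y.1 ∈ D.Z) :
    ∀ᶠ z in 𝓝 y, z ∈ D.C ↔ (z, (0 : ℂ)) ∈ P269L.D.BM D.M :=
  haveI := h.fdA
  haveI := h.fdW
  ((h.cbv _).near ⟨hy, rfl⟩).mono fun _ b =>
    ⟨fun c => (h.mem_cone.1 c).2, fun c => ⟨(b.2 c).1.1, (b.2 c).2⟩⟩

theorem an (y : W × (ι → ℂ)) (hy : y ∈ D.C) : An D.C y :=
  haveI := h.fdW
  (P269L.D.an_BM (h.mfdM hy.1) y.2).preimage (f := fun z => (z, (0 : ℂ)))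
    (analyticAt_id.prod analyticAt_const) |>.congr ((h.near hy.1).mono fun _ a => a.symm)

theorem invC (u : A) (hu : IsUnit u) (y : W × (ι → ℂ)) (hy : y ∈ D.C) :
    Tx.act2 D.act D.ρ u y ∈ D.C :=
  haveI := h.fdA
  haveI := h.fdW
  let b := (h.cbv _).actC.mem u hu y ⟨⟨hy.1, rfl⟩, hy.2⟩
  ⟨b.1.1, b.2⟩

theorem actC : IsAct (Tx.act2 D.act D.ρ) D.C :=
  ⟨fun z _ => Prod.ext (h.act.2.1 _) (h.rep.2.1 _), fun a b ha hb z _ =>
    Prod.ext (((h.act.2.2 a ha).2 _).2 b hb) (((h.rep.2.2 a ha).2 _).2 b hb), h.invC,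
    fun a ha z _ => (((h.act.2.2 a ha).2 z.1).1.comp_of_eq (analyticAt_fst.prod
      (analyticAt_fst.comp analyticAt_snd)) rfl).prod (((h.rep.2.2 a ha).2 z.2).1.comp_of_eq
        (analyticAt_fst.prod (analyticAt_snd.comp analyticAt_snd)) rfl)⟩

theorem zero_mem (hx : x ∈ D.Z) : (x, 0) ∈ D.C :=
  haveI := h.fdA
  haveI := h.fdW
  ⟨hx, ((h.cbv _).zero_mem ⟨hx, rfl⟩).2⟩

theorem dim {y : W × (ι → ℂ)} {k : ℕ} (hy : MfdAt D.C k y) : k = d + finrank ℂ (D.van y.1) :=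
  haveI := h.fdW
  G.pure_BM (h.mfdM hy.mem.1) (P269L.D.an_BM (h.mfdM hy.mem.1) y.2) (h.near hy.mem.1) hy

theorem mul {y : W × (ι → ℂ)} {k : ℕ} (hy : MfdAt D.C k y) :
    ∃ N : ℕ, 0 < N ∧ ∀ m, Tx.Mul D.M y m ↔ m = N :=
  haveI := h.fdW
  G.mul_ex (h.mfdM hy.mem.1) (h.near hy.mem.1) hy

theorem vir_sub {b} (hb : D.Vir b) (y : W × (ι → ℂ)) (hy : y ∈ D.C) : y.2 ∈ D.obs y.1 :=
  hb.2.2.2.2.1 y hy

/-- the rank of `van` is constant -/
theorem rank_const (ho : haveI := h.isAct; Orb Aˣ (Holo.Sp D.act D.Z)) {b} (hb : D.Vir b) :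
    ∃ v, ∀ x ∈ D.Z, finrank ℂ (D.van x) = v := by
  haveI := h.fdA
  haveI := h.fdW
  haveI := h.isAct
  haveI := h.actC
  have o := orb_of (ρ := D.ρ) ho (isLocallyClosed_of_an h.an) fun y hy => hy.1
  haveI := o.proper
  haveI : LocallyCompactSpace D.C := o.nice.lc
  obtain ⟨-, -, -, -, -, β, e, π, h5, -⟩ := hb
  obtain ⟨γ, -, d', -, k⟩ := (U.isCyc_iff o.finite_stabilizer).1 h5
  refine ⟨finrank ℂ A + d' - d, fun x hx => ?_⟩
  obtain ⟨y, k1, k2⟩ := ((mem_closure_iff_frequently.1 ((stReg _ _ _ (h.an _ (h.zero_mem hx))).1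
    |>.self_of_nhds (h.zero_mem hx))).and_eventually (continuousAt_fst.eventually
      (eventually_nhdsWithin_iff.1 (h.rank_ev hx)))).exists
  simp only [mem_iUnion] at k1
  obtain ⟨j, -, k1⟩ := k1
  obtain ⟨r, φ, k3, -, k4⟩ := U.slice_of_mfd o.finite_stabilizer k1
  have := (k r φ k3).1
  have := h.dim k1
  have : _ = finrank ℂ (D.van x) := k2 (h.sub (MfdAt.mem k1).1)
  omega

theorem cn (ho : haveI := h.isAct; Orb Aˣ (Holo.Sp D.act D.Z)) {r : ℕ}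
    (hr : ∀ x ∈ D.Z, finrank ℂ (D.obs x) = r) (hs : ∀ y ∈ D.C, y.2 ∈ D.obs y.1) :
    Cn D.act D.ρ D.Z D.C D.obs r :=
  ⟨h.isAct, rep_isAct h.rep, rep_lin h.rep, ho,
    ⟨fun _ _ => le_top, h.clo, hr, fun x hx u hu => h.invO u hu x hx⟩, h.invC,
    isLocallyClosed_of_an h.an, fun y hy => ⟨hy.1, hs y hy⟩, fun _ => h.zero_mem⟩

/-- the class of the text -/
theorem vir_zb {r : ℕ} (c : Cn D.act D.ρ D.Z D.C D.obs r) {b} (hb : D.Vir b) :
    haveI := h.fdA; haveI := h.fdW; haveI := c.actC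
    ∃ γ, U.Cy (Tx.act2 D.act D.ρ) D.C (Tx.Mul D.M) γ ∧ b = Tf.fn (c.zb γ) := by
  haveI := h.fdA
  haveI := h.fdW
  obtain ⟨-, -, -, -, -, β, e, π, h5, h6, h7, h8, h9⟩ := hb
  simp only [Submodule.span_eq] at h6
  exact c.of_text h5 h6 h7 h8 h9

end Gd

end Sd

end Vale.Agent.P269L.K
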