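import Vale.Agent.P269L.I.St
import Vale.Agent.P269.Br.GWb
import Vale.Agent.P269.Pub.T3

/-!
# Comparison of the integrals of the text along an open embedding
-/

set_option linter.all false

namespace Vale.Agent.P269L.K

open Set Function Topology Filter P291Z P269 P269.Ch P269.Tf P269.Br

theorem igd_val {X Y : Type} {n : ℕ} (q : X → Prop) (m : Fin n → ℕ) (e : Fin n → Coch X)
    (u : Fin n → X → Y) (a : Fin n → Coch Y) :
    Pub.cup (Pub.ind q) (Pub.prd (List.ofFn fun i => Pub.cup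
      (Pub.prd (List.replicate (m i) fun w => -(e i).1 w)) (Pub.pull (u i) (a i).1))) =
      (ind {y | q y} * (List.ofFn fun i => (-e i) ^ m i * pull (u i) (a i)).prod).1 := by
  rw [val_mul, val_ofFn, val_ind]
  simp only [val_mul, val_pow]
  rfl

theorem pull_ind {X Y : Type} (h : X → Y) (B : Set Y) : pull h (ind B) = ind (h ⁻¹' B) := by
  rw [ind_eq_fn, pull_fn, ind_eq_fn]
  rfl

theorem supp_ind {X : Type} [TopologicalSpace X] {B R : Set X} (hR : IsClosed R) (h : B ⊆ R) :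
    supp (ind B) ⊆ R := fun x hx => by
  by_contra k
  rw [ind_eq_fn] at hx
  exact mem_Van.1 (fn_van.2 ((hR.isOpen_compl.eventually_mem k).mono fun y b =>
    indicator_of_notMem (fun c => b (h c)) (1 : X → ℂ))) hx

theorem ev_igd {X X₀ Y : Type} [TopologicalSpace X] [TopologicalSpace X₀] [TopologicalSpace Y]
    [Nice X] [CompactSpace X] {h : X → X₀} (hc : Continuous h) (w : BM X) {q : X → Prop}
    {q₀ : X₀ → Prop} (hq : ∀ y, q₀ (h y) ↔ q y) (h1 : supp (δ (ind {y | q y})) = ∅) {n : ℕ}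
    (m : Fin n → ℕ) {c : Fin n → Coch X} {c₀ : Fin n → Coch X₀} (c3 : ∀ i, supp (δ (c i)) = ∅)
    (c4 : ∀ i, supp (δ (c₀ i)) = ∅) (c5 : ∀ i, hcls (c i) = hcls (pull h (c₀ i)))
    {u : Fin n → X → Y} {u₀ : Fin n → X₀ → Y} (cu : ∀ i, Continuous (u i))
    (hu : ∀ i, u₀ i ∘ h = u i) {b : Fin n → Coch Y} (hb : ∀ i, supp (δ (b i)) = ∅) :
    ev w (ind {y | q y} * (List.ofFn fun i => (-c i) ^ m i * pull (u i) (b i)).prod) =
      ev w (pull h (ind {y | q₀ y} *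
        (List.ofFn fun i => (-c₀ i) ^ m i * pull (u₀ i) (b i)).prod)) := by
  have k1 : Crs (Homeomorph.refl X) (ind {y | q y} *
      (List.ofFn fun i => (-c i) ^ m i * pull (u i) (b i)).prod) (ind {y | q y} *
      (List.ofFn fun i => (-pull h (c₀ i)) ^ m i * pull (u i) (b i)).prod) :=
    Crs.mul ⟨h1, h1, congrArg hcls (pull_id _).symm⟩ (Crs.prod fun i => Crs.mul (Crs.pow
      ⟨cocycle_neg (c3 i), cocycle_neg (cocycle_pull hc (c4 i)), (hcls_neg (c3 i)).trans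
        ((congrArg (-·) (c5 i)).trans ((hcls_neg (cocycle_pull hc (c4 i))).symm.trans
          (congrArg hcls (pull_id _).symm)))⟩ _) ⟨cocycle_pull (cu i) (hb i),
        cocycle_pull (cu i) (hb i), congrArg hcls (pull_id _).symm⟩)
  refine (k1.ev w).trans ((ev_push_homeo _ _ _).trans (congrArg (ev w) ((pull_id _).trans ?_)))
  rw [map_mul, map_list_prod, List.map_ofFn, pull_ind]
  refine congrArg₂ (· * ·) (congrArg ind (Set.ext fun y => (hq y).symm))
    (congrArg (fun f => (List.ofFn f).prod) (funext fun i => ?_))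
  rw [comp_apply, map_mul, map_pow, map_neg, pull_pull, hu]

variable {A W P E A₀ W₀ P₀ E₀ Y : Type} [NormedRing A] [NormedAlgebra ℂ A] [NormedAddCommGroup W]
  [NormedSpace ℂ W] [NormedAddCommGroup E] [NormedSpace ℂ E] [NormedAddCommGroup P]
  [NormedSpace ℂ P] [NormedRing A₀] [NormedAlgebra ℂ A₀] [NormedAddCommGroup W₀]
  [NormedSpace ℂ W₀] [NormedAddCommGroup E₀] [NormedSpace ℂ E₀] [NormedAddCommGroup P₀]
  [NormedSpace ℂ P₀] [TopologicalSpace Y] {n : ℕ} {act : A → W → W} {ρ : A → P → P}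
  {S sol : Set W} {van obs : W → Set P} {σ : W → P} {q : W → Prop}
  {val : Fin n → W → Y → Prop} {ρ' : Fin n → A → E → E} {T D : Fin n → W → Set E}
  {act₀ : A₀ → W₀ → W₀} {ρ₀ : A₀ → P₀ → P₀} {S₀ sol₀ : Set W₀} {van₀ obs₀ : W₀ → Set P₀}
  {σ₀ : W₀ → P₀} {q₀ : W₀ → Prop} {val₀ : Fin n → W₀ → Y → Prop} {ρ₀' : Fin n → A₀ → E₀ → E₀}
  {T₀ D₀ : Fin n → W₀ → Set E₀}

/-- The locus of the class is open and closed as soon as the integral of one exists. -/
theorem ind_cocycle {z : ℂ} (h : I.Intg act ρ S sol van obs σ q val ρ' T D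
    (fun _ => (0, Pub.unit)) z) : supp (δ (ind {y : Quo act sol | q (Pub.pick act sol y)})) = ∅ := by
  obtain ⟨v, u, e, -, -, -, -, k, -⟩ := h
  have k1 := igd_val (fun y => q (Pub.pick act sol y)) (fun _ => 0) (fun _ => 0) u fun _ => 1
  simp only [pow_zero, map_one, mul_one, List.ofFn_const, List.prod_replicate, one_pow] at k1
  exact (zc_val.1 (k1 ▸ k :)).2

/-- **The integrals agree.** -/
theorem intg_eq [Nice (Quo act sol)] [T2Space (Quo act₀ sol₀)] {h : Quo act sol → Quo act₀ sol₀}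
    (hc : Continuous h)
    (hV : ∀ v v₀, Tx.VirE act ρ S sol univ van obs σ id ρ v →
      Tx.VirE act₀ ρ₀ S₀ sol₀ univ van₀ obs₀ σ₀ id ρ₀ v₀ → ∀ a, Pub.Zc a → Pub.supp a ⊆ range h →
        v (Pub.pull h a) = v₀ a)
    (hq : ∀ y, q₀ (Pub.pick act₀ sol₀ (h y)) ↔ q (Pub.pick act sol y))
    (hr : ∀ y, q₀ (Pub.pick act₀ sol₀ y) → y ∈ range h)
    (hu : ∀ i y z z₀, val i (Pub.pick act sol y) z → val₀ i (Pub.pick act₀ sol₀ (h y)) z₀ → z₀ = z)
    (cu : ∀ i (u : Quo act sol → Y), (∀ y, val i (Pub.pick act sol y) (u y)) → Continuous u)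
    (he : ∀ i e e₀, Pub.IsEuler act (ρ' i) sol (T i) (D i) e →
      Pub.IsEuler act₀ (ρ₀' i) sol₀ (T₀ i) (D₀ i) e₀ →
      ∃ (c : Coch (Quo act sol)) (c₀ : Coch (Quo act₀ sol₀)), c.1 = e ∧ c₀.1 = e₀ ∧
        supp (δ c) = ∅ ∧ supp (δ c₀) = ∅ ∧ hcls c = hcls (pull h c₀))
    (h1 : supp (δ (ind {y : Quo act sol | q (Pub.pick act sol y)})) = ∅)
    {l : Fin n → ℕ × Pub.Co Y} (hl : ∀ i, Pub.Zc (l i).2) {z z₀ : ℂ}
    (a : I.Intg act ρ S sol van obs σ q val ρ' T D l z)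
    (a₀ : I.Intg act₀ ρ₀ S₀ sol₀ van₀ obs₀ σ₀ q₀ val₀ ρ₀' T₀ D₀ l z₀) : z = z₀ := by
  choose b hb e1 using fun i => zc_iff.1 (hl i)
  obtain ⟨m, rfl⟩ : ∃ m : Fin n → ℕ, l = fun i => (m i, (b i).1) :=
    ⟨fun i => (l i).1, funext fun i => Prod.ext rfl (e1 i).symm⟩
  obtain ⟨v, u, e, a1, a2, a3, a4, -, rfl⟩ := a
  obtain ⟨v₀, u₀, e₀, b1, b2, b3, -, b5, rfl⟩ := a₀
  choose c c₀ c1 c2 c3 c4 c5 using fun i => he i _ _ (a3 i) (b3 i)
  obtain rfl := funext c1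
  obtain rfl := funext c2
  haveI : CompactSpace (Quo act sol) := a4
  have e1 := igd_val (fun y => q (Pub.pick act sol y)) m c u b
  have e2 := igd_val (fun y => q₀ (Pub.pick act₀ sol₀ y)) m c₀ u₀ b
  refine (congrArg v e1).trans (.trans ?_ ((hV v v₀ a1 b1 _ ((congrArg Pub.Zc e2).mp b5)
    (((supp_mul _ _).trans inter_subset_left).trans
      (supp_ind (isCompact_range hc).isClosed hr))).trans (congrArg v₀ e2).symm))
  obtain ⟨-, -, -, -, -, β, e, π, -, -, -, k, -⟩ := a1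
  obtain ⟨w, rfl⟩ := (isBM_iff (X := Quo act sol)).1 k
  exact (Tf.fn_val w _).trans ((ev_igd hc w hq h1 m c3 c4 c5 (fun i => cu i _ (a2 i))
    (fun i => funext fun y => hu i y _ _ (a2 i y) (b2 i _)) fun i => (hb i).2).trans
    (Tf.fn_val w (pull h _)).symm)

end Vale.Agent.P269L.K
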