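import Vale.Agent.P269L.K.Cls
import Vale.Agent.P269L.K.Int0
import Vale.Agent.P269L.K.Gd
import Vale.Agent.P269L.I.LIsoG

/-!
# The integrals of two normal presentations agree
-/

set_option linter.all false
set_option maxSynthPendingDepth 3

namespace Vale.Agent.P269L.K

open Set Function Topology Filter MvPolynomial P291Z P269 P269.Base P269.Ch P269.Tf I

section

variable {ι ι' B X Y : Type} [Fintype ι] [Fintype ι'] [Monoid B] [NormedAddCommGroup X]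
  [NormedSpace ℂ X] [TopologicalSpace Y] {n : ℕ} {M : ι → ℕ} {M' : ι' → ℕ} {sc : B → X → X}
  {K : Set X} {π : K → Y} {β : Pub.Bm Y} {A W U Λ A' W' U' Λ' : Type} [NormedRing A]
  [NormedAlgebra ℂ A] [NormedAddCommGroup W] [NormedSpace ℂ W] [NormedAddCommGroup U]
  [NormedSpace ℂ U] [NormedRing A'] [NormedAlgebra ℂ A'] [NormedAddCommGroup W'] [NormedSpace ℂ W']
  [NormedAddCommGroup U'] [NormedSpace ℂ U'] [DecidableEq ι] [DecidableEq ι'] {r r' : ℕ}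
  {D : Dat A (ι → ℂ) W (V M) U (Fin r → ℂ) X ι Λ n}
  {D' : Dat A' (ι' → ℂ) W' (V M') U' (Fin r' → ℂ) X ι' Λ' n} {TK : X → Set X} {g g' : ℤ} {o : ι}
  {o' : ι'}

theorem Nf.vir (h : Nf D sc K TK g o) {v} (a : Tx.VirE D.α D.ρ D.S (D.sol K) univ D.van
    (fun x => {κ | ∃ e, D.Nm I.chr TK x e ∧ D.Df x κ e}) D.σ id D.ρ v) : (sd D K TK).Vir v := by
  have e : (fun x => ((sd D K TK).van x : Set (Fin r → ℂ))) = D.van :=
    funext fun x => Set.ext fun κ => h.mem_van x κ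
  unfold Sd.Vir
  rw [e]
  obtain ⟨a1, a2, a3, a4, a5, β, e, π, a6, a7, a8⟩ := a
  refine ⟨a1, a2, a3, a4, fun y hy => Submodule.subset_span (a5 y hy), β, e, π, a6, ?_, a8⟩
  simp only [Submodule.span_eq]
  exact a7

variable (D D' K) in
/-- The Euler classes of the tangent lines correspond under `φ`. -/
def Psi (φ : Quo D.α (D.sol K) → Quo D'.α (D'.sol K)) : Prop :=
  ∀ i e e', Pub.IsEuler D.α (fun u c => D.τ (D.t i u) (D.ε u c)) (D.sol K)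
      (fun x => Tan (D.C x) (D.p i x)) (fun x => dir D.τ (D.p i x)) e →
    Pub.IsEuler D'.α (fun u c => D'.τ (D'.t i u) (D'.ε u c)) (D'.sol K)
      (fun x => Tan (D'.C x) (D'.p i x)) (fun x => dir D'.τ (D'.p i x)) e' →
    ∃ (c : Coch (Quo D.α (D.sol K))) (c' : Coch (Quo D'.α (D'.sol K))), c.1 = e ∧ c'.1 = e' ∧
      supp (δ c) = ∅ ∧ supp (δ c') = ∅ ∧ hcls c = hcls (pull φ c')

theorem Nf.itg_eq [FiniteDimensional ℂ X] (h : Nf D sc K TK g o) (h' : Nf D' sc K TK g' o')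
    (b : Ac sc) (hπ : ∀ y y' : K, Same sc y.1 y'.1 → π y = π y') (cπ : Continuous π)
    [Nice (Quo D.α (D.sol K))] [T2Space (Quo D'.α (D'.sol K))]
    {φ : Quo D.α (D.sol K) → Quo D'.α (D'.sol K)} (hc : Continuous φ)
    (hm : ∀ x : D.sol K, ∃ x' : D'.sol K, φ (Quo.mk _ x) = Quo.mk _ x' ∧ ∃ ψ, Iso I.tor I.tor sc
      (D.C x) (D'.C x') (D.p · x) (D'.p · x') (D.f x) (D'.f x') ψ)
    (hV : ∀ v v', (sd D K TK).Vir v → (sd D' K TK).Vir v' → ∀ a, Pub.Zc a → Pub.supp a ⊆ range φ →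
      v (Pub.pull φ a) = v' a)
    (occ : ∀ x' : D'.sol K, Cls D'.τ (D'.C x') π (D'.f x') β → Quo.mk _ x' ∈ range φ)
    (psi : Psi K D D' φ) {z₁ : ℂ} (h1 : Itg D K TK π β (fun _ => (0, Pub.unit)) z₁)
    {l : Fin n → ℕ × Pub.Co Y} (hl : ∀ i, Pub.Zc (l i).2) {z z' : ℂ} (a : Itg D K TK π β l z)
    (a' : Itg D' K TK π β l z') : z = z' := by
  have k : ∀ y : Quo D.α (D.sol K), ∃ ψ, Iso I.tor I.tor sc (D.C y.out) (D'.C (φ y).out)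
      (D.p · y.out) (D'.p · (φ y).out) (D.f y.out) (D'.f (φ y).out) ψ := fun y => by
    obtain ⟨x', e, ψ, c⟩ := hm y.out
    obtain ⟨u, u1, u2⟩ := h'.mk_eq (e.symm.trans ((congrArg φ (Quot.out_eq y)).trans
      (Quot.out_eq (φ y)).symm))
    have d := Z2.iso_act h' b u1 x'.2
    rw [u2] at d
    exact ⟨_, Nr.iso_comp ac_tor ac_tor ac_tor b (Z2.sat h' x'.2.1) (Z2.p_mem h' x'.2.1) c d⟩
  refine intg_eq hc (fun v v' c c' => hV v v' (h.vir c) (h'.vir c')) (fun y => ?_)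
    (fun y c => Quot.out_eq y ▸ occ y.out c) (fun i y w w' ⟨_, c⟩ ⟨_, c'⟩ => ?_)
    (fun i u c => h.cont_ev b hπ cπ i u c) psi (ind_cocycle h1) hl a a'
  · obtain ⟨ψ, c⟩ := k y
    exact h.cls_iff h' b hπ y.out.2 (φ y).out.2 c
  · obtain ⟨ψ, d⟩ := k y
    exact c'.trans ((hπ _ _ (iso_ev b (Z2.hol_f h' (φ y).out.2) (Z2.p_mem h y.out.2.1)
      (Z2.p_mem h' (φ y).out.2.1) d i)).symm.trans c.symm)

end

variable {N c : ℕ} {F : Fin c → MvPolynomial (Fin (N + 1)) ℂ} {A W U ι Λ : Type} [NormedRing A]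
  [NormedAlgebra ℂ A] [NormedAddCommGroup W] [NormedSpace ℂ W] [NormedAddCommGroup U]
  [NormedSpace ℂ U] [Fintype ι] [DecidableEq ι] {M : ι → ℕ} {r n : ℕ}

/-- **The integrals of a presentation and of the chart agree.** -/
theorem Su.itg_eq {s : Su A W U ι Λ M r n F} (hs : s.Ok) {d d₀ m m₀ : ℕ} (hO : s.rf.Ok d d₀ m m₀)
    (hS : LSm) (hT : LTop) (hR : LRoof) (psi : ∀ φ, s.rf.Map φ → Psi (ci F).cone s.D s.D₀ φ)
    {β : Pub.Bm (ci F).X} (occ : ∀ x₀ ∈ s.Z₀, Cls tor (crv x₀) (Quo.mk (ci F).act) (fld x₀) β →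
      ∃ z ∈ s.rf.Z, z.2.1 = x₀) {z₁ : ℂ}
    (h1 : Itg s.D (ci F).cone (ci F).tan (Quo.mk (ci F).act) β (fun _ => (0, Pub.unit)) z₁)
    {l : Fin n → ℕ × Pub.Co (ci F).X} (hl : ∀ i, Pub.Zc (l i).2) {z z₀ : ℂ}
    (a : Itg s.D (ci F).cone (ci F).tan (Quo.mk (ci F).act) β l z)
    (a₀ : Itg s.D₀ (ci F).cone (ci F).tan (Quo.mk (ci F).act) β l z₀) : z = z₀ := by
  obtain ⟨o, o₀, -⟩ := hT _ _ _ _ _ _ _ _ _ _ _ _ _ _ _ _ hO (hS _ _ _ _ _ _ _ _ _ _ _ _ _ _ _ _ hO)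
  obtain ⟨φ, h2, h3, h4⟩ := hR _ _ _ _ _ _ _ _ _ _ _ _ _ _ _ _ hO
  have i := hO.gd.isAct
  have i₀ := hO.gd₀.isAct
  haveI : Nice (Quo s.D.α s.Z) := (presA (o i)).nice
  haveI : Nice (Quo s.D₀.α s.Z₀) := (presA (o₀ i₀)).nice
  refine hs.nf.itg_eq (π := Quo.mk (ci F).act) hs.nf₀ (ac_ci F) (fun _ _ e => Quot.sound e)
    continuous_quot_mk h3.continuous (fun x => ?_) h4 (fun x₀ e => ?_) (psi φ h2) h1 hl a a₀
  · obtain ⟨z, hz, e⟩ := hO.onto _ x.2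
    obtain ⟨x, hx⟩ := x
    obtain rfl : z.1 = x := e
    obtain ⟨Γ, ⟨ψ, k, -⟩, -⟩ := hz.2.2
    exact ⟨⟨z.2.1, hz.2.1⟩, h2 z hz _ _, ψ, k⟩
  · obtain ⟨z, hz, e⟩ := occ _ x₀.2 e
    obtain ⟨x₀, hx⟩ := x₀
    obtain rfl : z.2.1 = x₀ := e
    exact ⟨_, h2 z hz hz.1 _⟩

end Vale.Agent.P269L.K
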