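import Vale.Agent.P269L.K.LSm1

/-!
# Symmetric local models
-/

set_option linter.unusedSectionVars false
set_option linter.unusedVariables false

noncomputable section

namespace Vale.Agent.P269L.K

open Set Function Topology Filter Module P291Z P269 P269.Holo P269.Orb P269.Ch

namespace Sy

variable {A A₀ A₃ W W₀ Q P₃ F F₀ R R₀ ι ι₀ E : Type} [NormedRing A] [NormedAlgebra ℂ A]
  [NormedRing A₀] [NormedAlgebra ℂ A₀] [NormedRing A₃] [NormedAlgebra ℂ A₃] [NormedAddCommGroup W]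
  [NormedSpace ℂ W] [NormedAddCommGroup W₀] [NormedSpace ℂ W₀] [NormedAddCommGroup Q] [NormedSpace ℂ Q]
  [NormedAddCommGroup P₃] [NormedSpace ℂ P₃] [NormedAddCommGroup F] [NormedSpace ℂ F]
  [NormedAddCommGroup F₀] [NormedSpace ℂ F₀] [NormedAddCommGroup R] [NormedSpace ℂ R]
  [NormedAddCommGroup R₀] [NormedSpace ℂ R₀] [Fintype ι] [Fintype ι₀]
  [NormedAddCommGroup E] [NormedSpace ℂ E]
  {D : Sd A W ι} {D₀ : Sd A₀ W₀ ι₀} {T : Rf A₃ Q P₃ D D₀} {d d₀ N N₀ : ℕ}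

variable (A₀ A₃) in
/-- The point of the local model. -/
def ka (φ : E → W) (z : E × F₀ × A₀ × A₃) : W × F₀ := (φ z.1, z.2.1)

variable (T) in
/-- The map to the space of the roof. -/
def ze (φ : E → W) (ς : W × F₀ → W₀ × Q) (z : E × F₀ × A₀ × A₃) : W × W₀ × Q :=
  (φ z.1, D₀.act z.2.2.1 (ς (ka A₀ A₃ φ z)).1, T.aq (1, z.2.2) (ς (ka A₀ A₃ φ z)).2)

variable (T) in
/-- The third section. -/
def de (φ : E → W) (δ : W × F₀ → P₃) (z : E × F₀ × A₀ × A₃) : P₃ :=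
  T.ρ₃ (1, z.2.2) (δ (ka A₀ A₃ φ z))

/-- A parametrisation. -/
structure Par (S : Set W) (x : W) (φ : E → W) (r : W → E) : Prop where
  an : AnalyticAt ℂ φ 0
  an' : AnalyticAt ℂ r x
  eq : φ 0 = x
  eq' : r x = 0
  mem : ∀ s, φ s ∈ S
  ev : ∀ᶠ s in 𝓝 0, r (φ s) = s
  ev' : ∀ᶠ y in 𝓝[S] x, φ (r y) = y

variable {x : W} {ς : W × F₀ → W₀ × Q}
  {δ : W × F₀ → P₃} {w₀ : W × F₀ → F} {η : W → (ι → ℂ) →L[ℂ] R} {a : W → R}
  {η₀ : W₀ → (ι₀ → ℂ) →L[ℂ] R₀} {a₀ : W₀ → R₀} {φ : E → W} {r : W → E}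

theorem ze_eq (h : T.Ok d d₀ N N₀) (z : E × F₀ × A₀ × A₃) :
    ze T φ ς z = T.act (1, z.2.2) (φ z.1, ς (ka A₀ A₃ φ z)) :=
  Prod.ext (h.gd.act.2.1 _).symm rfl

theorem an22 (z : E × F₀ × A₀ × A₃) : AnalyticAt ℂ (fun z : E × F₀ × A₀ × A₃ => z.2.2) z :=
  analyticAt_snd.comp analyticAt_snd

theorem an21 (z : E × F₀ × A₀ × A₃) : AnalyticAt ℂ (fun z : E × F₀ × A₀ × A₃ => z.2.1) z :=
  analyticAt_fst.comp analyticAt_snd

section

variable (h : T.Ok d d₀ N N₀) (m : T.Lm x ς δ w₀ η a η₀ a₀) (hz : (x, ς (x, 0)) ∈ T.Z)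
  (p : Par D.S x φ r)
include p

theorem ka_pt : ka A₀ A₃ φ ((0, 0, 1) : E × F₀ × A₀ × A₃) = (x, 0) := Prod.ext p.eq rfl

theorem an_phi : AnalyticAt ℂ (fun z : E × F₀ × A₀ × A₃ => φ z.1) (0, 0, 1) :=
  p.an.comp_of_eq analyticAt_fst rfl

theorem an_ka : AnalyticAt ℂ (ka A₀ A₃ φ) ((0, 0, 1) : E × F₀ × A₀ × A₃) := (an_phi p).prod (an21 _)

theorem tend_ka : Tendsto (ka A₀ A₃ φ) (𝓝 ((0, 0, 1) : E × F₀ × A₀ × A₃)) (𝓝[D.S ×ˢ univ] (x, 0)) :=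
  tendsto_nhdsWithin_iff.2 ⟨(an_ka p).continuousAt.tendsto.mono_right (congrArg 𝓝 (ka_pt p)).le,
    .of_forall fun z => ⟨p.mem _, trivial⟩⟩

theorem gen_ka {X X' : Type} [NormedAddCommGroup X] [NormedSpace ℂ X] [NormedAddCommGroup X']
    [NormedSpace ℂ X'] {f : W × F₀ → X} {g : W × F₀ → X'} (k : Gen (D.S ×ˢ univ) (x, 0) f g) :
    Gen univ ((0, 0, 1) : E × F₀ × A₀ × A₃) (fun z => f (ka A₀ A₃ φ z)) fun z => g (ka A₀ A₃ φ z) :=
  k.comp (an_ka p) (ka_pt p) (.of_forall fun z => ⟨p.mem _, trivial⟩)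

theorem fderiv_ka (v : E × F₀ × A₀ × A₃) :
    fderiv ℂ (ka A₀ A₃ φ) (0, 0, 1) v = (fderiv ℂ φ 0 v.1, v.2.1) :=
  have : HasFDerivAt (ka A₀ A₃ φ) _ ((0, 0, 1) : E × F₀ × A₀ × A₃) :=
    (HasFDerivAt.comp (f := Prod.fst) _ p.an.differentiableAt.hasFDerivAt hasFDerivAt_fst).prodMk
      hasFDerivAt_snd.fst
  congr($this.fderiv v)

include h

theorem ze_pt : ze T φ ς (0, 0, 1) = (x, ς (x, 0)) := by
  rw [ze_eq h, ka_pt p, p.eq]
  exact act_one h _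

include m

theorem an_sig : AnalyticAt ℂ (fun z => ς (ka A₀ A₃ φ z)) ((0, 0, 1) : E × F₀ × A₀ × A₃) :=
  m.anς.comp_of_eq (an_ka p) (ka_pt p)

theorem an_ze : AnalyticAt ℂ (ze T φ ς) (0, 0, 1) :=
  funext (ze_eq (φ := φ) (ς := ς) h) ▸ act_an h (analyticAt_const.prod (an22 _))
    ((an_phi p).prod (an_sig h m p)) isUnit_one

theorem an_de : AnalyticAt ℂ (de T φ δ) (0, 0, 1) :=
  rep_an h.rep₃ (analyticAt_const.prod (an22 _)) (m.anδ.comp_of_eq (an_ka p) (ka_pt p)) isUnit_one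

theorem an_a : AnalyticAt ℂ (fun z => a (ze T φ ς z).1) (0, 0, 1) :=
  m.fr.ana.comp_of_eq (an_phi p) p.eq

theorem an_b : AnalyticAt ℂ (fun z => a₀ (ze T φ ς z).2.1) (0, 0, 1) :=
  m.fr₀.ana.comp_of_eq (f := fun z => (ze T φ ς z).2.1)
    (analyticAt_fst.comp (analyticAt_snd.comp (an_ze h m p))) (by rw [ze_pt h p])

variable [FiniteDimensional ℂ R₀]

theorem gen_b : Gen univ (0, 0, 1) (fun z => a₀ (ze T φ ς z).2.1) (fun z => a₀ (ς (ka A₀ A₃ φ z)).1) ∧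
    Gen univ (0, 0, 1) (fun z => a₀ (ς (ka A₀ A₃ φ z)).1) fun z => a₀ (ze T φ ς z).2.1 :=
  fr_act h.gd₀ m.fr₀ (analyticAt_fst.comp (an22 _)) (analyticAt_fst.comp (an_sig h m p)) rfl
    (by rw [ka_pt p]) ((tend_ka p).eventually m.memS)

theorem gen_d : Gen univ (0, 0, 1) (de T φ δ) (fun z => δ (ka A₀ A₃ φ z)) ∧
    Gen univ (0, 0, 1) (fun z => δ (ka A₀ A₃ φ z)) (de T φ δ) :=
  rep_gen h.rep₃ (analyticAt_const.prod (an22 _)) isUnit_one _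

include hz

theorem a_zero : a x = 0 :=
  have k := (h.mem _ hz).1
  ((fr_zero h.gd m.fr k).self_of_nhdsWithin (h.gd.sub k)).1 k

theorem a0_zero : a₀ (ς (x, 0)).1 = 0 :=
  have k := (h.mem _ hz).2.1
  ((fr_zero h.gd₀ m.fr₀ k).self_of_nhdsWithin (h.gd₀.sub k)).1 k

theorem d_zero : δ (x, 0) = 0 :=
  m.g1.snd.eq_zero ⟨p.eq ▸ p.mem 0, trivial⟩ (by simp [a_zero h m hz p])

theorem w_zero : w₀ (x, 0) = 0 :=
  m.g4.eq_zero ⟨p.eq ▸ p.mem 0, trivial⟩ (Prod.ext (a0_zero h m hz p) (d_zero h m hz p))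

theorem de_zero : de T φ δ (0, 0, 1) = 0 :=
  (gen_d h m p).1.eq_zero trivial (by rw [ka_pt p, d_zero h m hz p])

theorem st : Stab D.S a (0, 0, 1) (fun z => (ze T φ ς z).1) (fun z => z.2.2) (fun z => z.2.1)
    (fun z => (a₀ (ze T φ ς z).2.1, de T φ δ z)) fun q => (r q.1, q.2.2, q.2.1) := by
  have t : Tendsto Prod.fst (𝓝[D.S ×ˢ univ] (φ 0, (1 : A₀ × A₃), (0 : F₀))) (𝓝[D.S] x) :=
    p.eq ▸ continuous_fst.continuousWithinAt.tendsto_nhdsWithin fun _ e => e.1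
  refine ⟨⟨(an_phi p).prod ((an22 _).prod (an21 _)), (p.an'.comp_of_eq analyticAt_fst p.eq).prod
    ((analyticAt_snd.comp analyticAt_snd).prod (analyticAt_fst.comp analyticAt_snd)), rfl,
    Prod.ext p.ev.self_of_nhds rfl, nhdsWithin_le_nhds ((continuous_fst.continuousAt.tendsto.eventually
      p.ev).mono fun z e => ⟨⟨p.mem _, trivial⟩, Prod.ext e rfl⟩),
    (t.eventually p.ev').mono fun q e => ⟨trivial, Prod.ext e rfl⟩⟩,
    show AnalyticAt ℂ a (φ 0) from p.eq.symm ▸ m.fr.ana,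
    (an_b h m p).prod (an_de h m p), (congrArg a p.eq).trans (a_zero h m hz p),
    ((gen_b h m p).1.trans (gen_ka p m.g1).fst).prod ((gen_d h m p).1.trans (gen_ka p m.g1).snd),
    (gen_ka p m.g2).trans (Gen.left.prod ((gen_d h m p).2.trans Gen.right.inr))⟩

theorem g1' : Gen univ (0, 0, 1) (fun z => (a (ze T φ ς z).1, de T φ δ z))
    fun z => (a₀ (ze T φ ς z).2.1, w₀ (ka A₀ A₃ φ z)) :=
  ((gen_ka p m.g3).fst.prod ((gen_d h m p).1.trans (gen_ka p m.g3).snd)).trans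
    ((gen_b h m p).2.inl.prod Gen.right)

theorem st₀ [FiniteDimensional ℂ E] [FiniteDimensional ℂ F] [FiniteDimensional ℂ F₀]
    (hd : finrank ℂ E + finrank ℂ F₀ + finrank ℂ A₀ = d₀ + finrank ℂ F + finrank ℂ A) :
    ∃ (γ₀ : _ → A × A₃) (e₀ : _), Stab D₀.S a₀ (0, 0, 1) (fun z => (ze T φ ς z).2.1) γ₀
      (fun z => w₀ (ka A₀ A₃ φ z)) (fun z => (a (ze T φ ς z).1, de T φ δ z)) e₀ := by
  have := rep_finL h.gd.act
  have := rep_finL h.gd₀.act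
  have := fin₃ h
  have := rep_finR h.gd.act
  have := rep_finR h.gd₀.act
  have := FiniteDimensional.complete ℂ A₀
  obtain ⟨m1, m2, -⟩ := h.mem _ hz
  have e0 : (ze T φ ς (0, 0, 1)).2.1 = (ς (x, 0)).1 := by rw [ze_pt h p]
  obtain ⟨q, hq⟩ := ContinuousLinearMap.HasLeftInverse.of_injective_of_finiteDimensional
    (orbit_inj (rep_isAct h.gd.act h.gd.invZ) m1 (h.gd.fin _ m1))
  have a1 : AnalyticAt ℂ (fun z => (ze T φ ς z).2.1) (0, 0, 1) :=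
    analyticAt_fst.comp (analyticAt_snd.comp (an_ze h m p))
  have a2 : AnalyticAt ℂ (fun z => w₀ (ka A₀ A₃ φ z)) (0, 0, 1) :=
    m.anw.comp_of_eq (an_ka p) (ka_pt p)
  have a3 : HasFDerivAt (fun z : E × F₀ × A₀ × A₃ => (q (φ z.1), z.2.2.2)) _ (0, 0, 1) :=
    (q.hasFDerivAt.comp _ (p.an.differentiableAt.hasFDerivAt.comp ((0, 0, 1) : E × F₀ × A₀ × A₃)
      hasFDerivAt_fst)).prodMk (hasFDerivAt_snd.comp _ (hasFDerivAt_snd.comp _ hasFDerivAt_snd))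
  have a4 : w₀ (ka A₀ A₃ φ (0, 0, 1)) = 0 := by rw [ka_pt p, w_zero h m hz p]
  have a5 : a₀ (ze T φ ς (0, 0, 1)).2.1 = 0 := e0 ▸ a0_zero h m hz p
  suffices k : ∃ e₀, GIso univ (0, 0, 1) (D₀.S ×ˢ univ) ((ze T φ ς (0, 0, 1)).2.1, (q (φ 0), 1), 0)
      (fun z : E × F₀ × A₀ × A₃ => ((ze T φ ς z).2.1, (q (φ z.1), z.2.2.2), w₀ (ka A₀ A₃ φ z))) e₀ from
    let ⟨e₀, k⟩ := k
    ⟨fun z => (q (φ z.1), z.2.2.2), e₀, k, e0.symm ▸ m.fr₀.ana, (an_a h m p).prod (an_de h m p), a5,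
      g1' h m hz p,
      (gen_ka p m.g4).trans ((gen_b h m p).2.inl.prod ((gen_d h m p).2.trans Gen.right.inr))⟩
  refine exists_giso (γ := fun z : E × F₀ × A₀ × A₃ => (q (φ z.1), z.2.2.2))
    (e0.symm ▸ h.gd₀.mfd _ m2) a1
    (((q.analyticAt _).comp (an_phi p)).prod (analyticAt_snd.comp (an22 _))) a2
    (by
      filter_upwards [(tend_ka p).eventually m.memS, (analyticAt_fst.comp (an22 _)).continuousAt.eventually
        (Units.isOpen.eventually_mem (isUnit_one (M := A₀)))] with z b c using h.gd₀.invS _ c _ b) a4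
    (by simp only [finrank_prod]; omega) fun v b1 b2 b3 => ?_
  have c1 : fderiv ℂ (fun z => (a₀ (ze T φ ς z).2.1, w₀ (ka A₀ A₃ φ z))) (0, 0, 1) v = 0 := by
    rw [((an_b h m p).differentiableAt.hasFDerivAt.prodMk a2.differentiableAt.hasFDerivAt).fderiv,
      fderiv_comp_an (f := fun z => (ze T φ ς z).2.1) (e0.symm ▸ m.fr₀.ana) a1]
    simp [b1, b3]
  have c0 := (an_b h m p).prod a2
  have c2 := gen_fderiv ((gen_d h m p).2.trans (g1' h m hz p).snd) c0 (Prod.ext a5 a4) c1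
  have c3 := gen_fderiv (((gen_ka p m.g2).trans (Gen.left.prod (gen_d h m p).2.inr)).trans
    (g1' h m hz p)) c0 (Prod.ext a5 a4) c1
  rw [show fderiv ℂ (fun z : E × F₀ × A₀ × A₃ => (ka A₀ A₃ φ z).2) (0, 0, 1) = _ from
    (hasFDerivAt_snd (𝕜 := ℂ) (p := ((0, 0, 1) : E × F₀ × A₀ × A₃))).fst.fderiv] at c3
  replace c3 : v.2.1 = 0 := c3
  rw [fderiv_comp_an (f := ka A₀ A₃ φ) (by rw [ka_pt p]; exact m.anδ) (an_ka p), ka_pt p,
    ContinuousLinearMap.comp_apply,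
    fderiv_ka p] at c2
  have c4 := (rep_fderiv h.gd₀.act (analyticAt_fst.comp (an22 _))
    (analyticAt_fst.comp (an_sig h m p)) rfl v).symm.trans b1
  have c5 : AnalyticAt ℂ (fun ω => (ς ω).1) (x, 0) := analyticAt_fst.comp m.anς
  rw [show fderiv ℂ (Prod.fst ∘ fun z : E × F₀ × A₀ × A₃ => z.2.2) (0, 0, 1) = _ from
    (hasFDerivAt_fst.comp _ (hasFDerivAt_snd.comp _ hasFDerivAt_snd)).fderiv,
    show fderiv ℂ (Prod.fst ∘ fun z => ς (ka A₀ A₃ φ z)) (0, 0, 1) = _ from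
      fderiv_comp_an (g := fun ω => (ς ω).1) (f := ka A₀ A₃ φ) (by rwa [ka_pt p]) (an_ka p),
    comp_apply, ka_pt p] at c4
  replace c4 : fderiv ℂ (D₀.act · (ς (x, 0)).1) 1 v.2.2.1 +
    fderiv ℂ (fun ω => (ς ω).1) (x, 0) (fderiv ℂ (ka A₀ A₃ φ) (0, 0, 1) v) = 0 := c4
  rw [fderiv_ka p] at c4
  obtain ⟨u, hu⟩ := m.ker _ (p.eq ▸ fderiv_mem_Tan p.an (.of_forall p.mem) v.1) _ (-v.2.2.1)
    (by rw [map_neg]; exact eq_neg_of_add_eq_zero_right c4) c2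
  rw [a3.fderiv] at b2
  have d1 : q (fderiv ℂ φ 0 v.1) = 0 := congrArg Prod.fst b2
  have d3 : v.2.2.2 = 0 := congrArg Prod.snd b2
  have d2 : fderiv ℂ φ 0 v.1 = 0 := by rw [hu, ← hq u, ← hu, d1, map_zero]
  rw [d2, c3, Prod.mk_zero_zero, map_zero, add_zero] at c4
  exact Prod.ext (injective_fderiv_of_leftInv (p.eq.symm ▸ p.an') p.an p.ev (d2.trans (map_zero _).symm))
    (Prod.ext c3 (Prod.ext (orbit_inj (rep_isAct h.gd₀.act h.gd₀.invZ) m2 (h.gd₀.fin _ m2)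
      (c4.trans (map_zero _).symm)) d3))

theorem ev_Z : ∀ᶠ z in 𝓝[{z | a (ze T φ ς z).1 = 0 ∧ z.2.1 = 0}] (0, 0, 1), φ z.1 ∈ D.Z :=
  eventually_nhdsWithin_iff.2 (((tendsto_nhdsWithin_iff.2 ⟨p.eq ▸ (an_phi p).continuousAt.tendsto,
    .of_forall fun z => p.mem _⟩).eventually (fr_zero h.gd m.fr (h.mem _ hz).1)).mono
      fun z e b => e.2 b.1)

theorem tend_Z : Tendsto (fun z => φ z.1) (𝓝[{z | a (ze T φ ς z).1 = 0 ∧ z.2.1 = 0}] (0, 0, 1))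
    (𝓝[D.Z] x) :=
  tendsto_nhdsWithin_iff.2 ⟨p.eq ▸ (an_phi p).continuousAt.tendsto.mono_left nhdsWithin_le_nhds,
    ev_Z h m hz p⟩

theorem ev_unit : ∀ᶠ z : E × F₀ × A₀ × A₃ in 𝓝 (0, 0, 1), IsUnit z.2.2 := by
  have := rep_finL h.gd₀.act
  have := fin₃ h
  have := FiniteDimensional.complete ℂ (A₀ × A₃)
  exact (an22 _).continuousAt.eventually (Units.isOpen.eventually_mem isUnit_one)

theorem iso [FiniteDimensional ℂ E] : ∃ ϱ,
    GIso {z | a (ze T φ ς z).1 = 0 ∧ z.2.1 = 0} (0, 0, 1) T.Z (ze T φ ς (0, 0, 1))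
    (ze T φ ς) ϱ := by
  have := rep_finL h.gd₀.act
  have := fin₃ h
  have := rep_finR h.gd.act
  have := rep_finR h.gd₀.act
  have := rep_finR h.repq
  have a0 : AnalyticAt ℂ (fun y : E × A₀ × A₃ => (y.1, (0 : F₀), y.2)) (0, 1) :=
    analyticAt_fst.prod (analyticAt_const.prod analyticAt_snd)
  have a1 : AnalyticAt ℂ (fun y : E × A₀ × A₃ => ze T φ ς (y.1, 0, y.2)) (0, 1) :=
    (an_ze h m p).comp_of_eq a0 rfl
  obtain ⟨g, b1, b2⟩ := exists_leftInv a1 ((injective_iff_map_eq_zero _).2 fun v e => by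
    have c1 := a1.differentiableAt.hasFDerivAt.fst.unique
      (HasFDerivAt.comp (f := Prod.fst) _ p.an.differentiableAt.hasFDerivAt hasFDerivAt_fst)
    have c2 : v.1 = 0 := injective_fderiv_of_leftInv (p.eq.symm ▸ p.an') p.an p.ev
      (((congr($c1 v)).symm.trans (congrArg Prod.fst e)).trans (map_zero _).symm)
    rw [show v = (0, v.2) from Prod.ext c2 rfl, ← fderiv_inr a1] at e
    simp only [ze_eq h, ka, p.eq] at e
    exact Prod.ext c2 (orbit_inj' h hz (e.trans (map_zero _).symm)))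
  have b0 : g (ze T φ ς (0, 0, 1)) = (0, 1) := b2.self_of_nhds
  refine ⟨fun y => ((g y).1, 0, (g y).2), an_ze h m p, a0.comp_of_eq b1 b0, rfl, by rw [b0], ?_, ?_⟩
  · filter_upwards [self_mem_nhdsWithin, (tend_Z h m hz p).eventually m.memZ,
      nhdsWithin_le_nhds (ev_unit h m hz p), nhdsWithin_le_nhds
        ((analyticAt_fst.prod (an22 _)).continuousAt.eventually b2)] with ⟨s, e, u⟩ c1 c2 c3 c4
    obtain rfl : e = 0 := c1.2
    exact ⟨by rw [ze_eq h]; exact h.inv _ (unit3 c3) _ c2, by rw [show g _ = _ from c4]⟩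
  · rw [ze_pt h p]
    obtain ⟨u, c1, c2⟩ := exists_tr h hz (s := fun y => ς (y, 0))
      (m.anς.continuousAt.comp_of_eq (by fun_prop) rfl) rfl m.memZ
    have t1 : Tendsto Prod.fst (𝓝[T.Z] (x, ς (x, 0))) (𝓝[D.S] x) :=
      continuous_fst.continuousWithinAt.tendsto_nhdsWithin fun q b => h.gd.sub (h.mem q b).1
    have t2 := ((p.eq' ▸ p.an'.continuousAt.tendsto :).comp
      (t1.mono_right nhdsWithin_le_nhds)).prodMk_nhds c1
    filter_upwards [self_mem_nhdsWithin, c2, t1.eventually p.ev', t2.eventually b2,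
      t1.eventually (fr_zero h.gd m.fr (h.mem _ hz).1)] with q d1 d2 d3 d4 d5
    have d6 : ze T φ ς (r q.1, 0, u q) = q := by simpa only [ze_eq h, ka, d3] using d2
    have d7 : g q = (r q.1, u q) := (congrArg g d6).symm.trans d4
    rw [d7]
    exact ⟨⟨d6.symm ▸ d5.1 (h.mem q d1).1, rfl⟩, d6⟩

theorem lim : ∀ᶠ z in 𝓝[{z | a (ze T φ ς z).1 = 0 ∧ z.2.1 = 0}] (0, 0, 1), ∀ c, ((z, c), (0 : ℂ)) ∈
    P269L.D.BM (T.M univ (fun z => (ze T φ ς z).1) (fun z => (ze T φ ς z).2.1) (de T φ δ)) →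
      c ∈ T.ob (ze T φ ς z) := by
  have := rep_finL h.repq
  have := rep_finL h.gd₀.act
  have := rep_finR h.gd.act
  have := FiniteDimensional.complete ℂ (A × A₀ × A₃)
  have := FiniteDimensional.complete ℂ A₀
  have := FiniteDimensional.complete ℂ W
  filter_upwards [self_mem_nhdsWithin, (tend_Z h m hz p).eventually (m.memZ.and m.lim),
    nhdsWithin_le_nhds ((ev_unit h m hz p).and ((tend_ka p).eventually m.memS)).eventually_nhds,
    nhdsWithin_le_nhds (an_phi p).eventually_analyticAt] with ⟨s, e, u⟩ c1 c2 c3 c4 c b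
  obtain rfl : e = 0 := c1.2
  have k := c3.self_of_nhds.1
  have k0 := (Prod.isUnit_iff.1 k).1
  have a0 : AnalyticAt ℂ (fun q : ((E × F₀ × A₀ × A₃) × (ι → ℂ) × (ι₀ → ℂ) × P₃) × ℂ => q.1.1)
      (((s, 0, u), c), 0) := analyticAt_fst.comp analyticAt_fst
  have a1 : AnalyticAt ℂ (fun q : ((E × F₀ × A₀ × A₃) × (ι → ℂ) × (ι₀ → ℂ) × P₃) × ℂ => q.1.2)
      (((s, 0, u), c), 0) := analyticAt_snd.comp analyticAt_fst
  have a2 := ((((c4.prod (an21 _)).comp_of_eq a0 rfl).prod ((analyticAt_fst.comp a1).prod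
    ((rep_an h.gd₀.rep (an_inv (analyticAt_fst.comp ((an22 _).comp a0)) k0)
      (analyticAt_fst.comp (analyticAt_snd.comp a1)) k0.ringInverse).prod
    (rep_an h.rep₃ (an_inv (analyticAt_const.prod ((an22 _).comp a0)) (unit3 k))
      (analyticAt_snd.comp (analyticAt_snd.comp a1)) (unit3 k).ringInverse)))).prod
      analyticAt_snd).continuousAt
  have c5 := h.invo _ (unit3 k) _ c2.1 _ (c2.2 _ (mem_closure_of_frequently_of_tendsto
    (((mem_closure_iff_frequently.1 b).and_eventually (a0.continuousAt.eventually c3)).mono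
      fun q ⟨⟨q1, _, q2, q3, q4⟩, q5, q6⟩ => ⟨q1, ⟨p.mem _, trivial⟩, q2, ?_, ?_⟩) a2))
  · rw [ze_eq h]
    refine cast (congrArg (· ∈ _) ?_) c5
    exact Prod.ext (h.gd.rep.2.1 _) (Prod.ext (rep_inv' h.gd₀.rep k0 _) (rep_inv' h.rep₃ (unit3 k) _))
  · have l := (Prod.isUnit_iff.1 q5).1
    have l' := h.gd₀.rep.2.2 _ l
    refine van_inv h.gd₀ l q6 ?_
    have := sub_mem q3 (h.gd₀.invσ _ l _ q6)
    rw [l'.1.map_sub]
    simp only [Prod.smul_fst, Prod.smul_snd, comp_apply, l'.1.map_smul, rep_inv' h.gd₀.rep l]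
    simpa [ze, ka] using this
  · have l := unit3 (A := A) q5
    refine (rep_inv h.rep₃ l _).symm.trans ((congrArg _ q4).trans ?_)
    exact (h.rep₃.2.2 _ l.ringInverse).1.map_smul _ _

end

end Sy

open Sy in
theorem lSm : LSm := fun A A₀ A₃ W W₀ Q P₃ ι ι₀ _ _ _ _ _ _ _ _ _ _ _ _ _ _ _ _ D D₀ T d d₀ N N₀ h z hz => by
  have := rep_finL h.gd.act
  have := rep_finL h.gd₀.act
  have := fin₃ h
  obtain ⟨r, r₀, ς, δ, w₀, η, a, η₀, a₀, e, m⟩ := h.loc z hz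
  have hz' : (z.1, ς (z.1, 0)) ∈ T.Z := e ▸ hz
  obtain ⟨φ, ρ, p1, p2, p3, p4, p5, p6, p7⟩ := exists_par (h.gd.mfd _ (h.mem z hz).1)
  have p : Par D.S z.1 φ ρ := ⟨p1, p2, p3, p4, p5, p6, p7⟩
  obtain ⟨γ₀, e₀, k⟩ := st₀ h m hz' p (by simpa using h.dim)
  obtain ⟨ϱ, k'⟩ := iso h m hz' p
  have s : T.Sm (0, 0, 1) (ze T φ ς) ϱ (de T φ δ) (fun z => z.2.2) (fun z => z.2.1)
      (fun q => (ρ q.1, q.2.2, q.2.1)) γ₀ (fun z => w₀ (ka A₀ A₃ φ z)) e₀ η a η₀ a₀ :=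
    ⟨by rw [ze_pt h p]; exact m.fr, by rw [ze_pt h p]; exact m.fr₀,
      st h m hz' p, k, k', finrank_prod (R := ℂ),
      lim h m hz' p⟩
  let L := (ContinuousLinearEquiv.ofFinrankEq (finrank_fin_fun ℂ) :
    _ ≃L[ℂ] (Fin d → ℂ) × (Fin N₀ → ℂ) × A₀ × A₃)
  rw [← L.apply_symm_apply (0, 0, 1)] at s
  exact ⟨_, _, _, r, r₀, _, _, _, _, _, _, _, _, _, _, η, a, η₀, a₀,
    by rw [L.apply_symm_apply, ze_pt h p, e], sm_comp L
      (ContinuousLinearEquiv.ofFinrankEq (finrank_fin_fun ℂ).symm)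
      (ContinuousLinearEquiv.ofFinrankEq (finrank_fin_fun ℂ).symm) s⟩

end Vale.Agent.P269L.K
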