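import Vale.Agent.P269L.K.Ab
import Vale.Agent.P269.Holo.Etale

/-!
# Cycles along a principal bundle
-/

set_option linter.unusedSectionVars false

namespace Vale.Agent.P269L.K

open Set Function Topology Filter Module P291Z P269 P269.Holo P269.Orb P269.Ch

section

variable {A A' W W' : Type} [NormedRing A] [NormedAlgebra ℂ A] [NormedRing A'] [NormedAlgebra ℂ A']
  [NormedAddCommGroup W] [NormedSpace ℂ W] [NormedAddCommGroup W'] [NormedSpace ℂ W']
  {act : A → W → W} {act' : A' → W' → W'} {T : Set W} {T' : Set W'} {θ : A' →L[ℂ] A}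
  {f : W' →L[ℂ] W} [IsAct act T] [IsAct act' T'] [FiniteDimensional ℂ A] [FiniteDimensional ℂ A']

theorem Pr.surj (h : Pr act' act T' T θ f) : Surjective θ := by
  have := FiniteDimensional.complete ℂ A
  refine LinearMap.range_eq_top.1 ((θ : A' →ₗ[ℂ] A).range.eq_top_of_nonempty_interior' ⟨1, ?_⟩)
  exact mem_interior.2 ⟨_, fun u hu => let ⟨v, _, e⟩ := h.lift u hu; ⟨v, e⟩, Units.isOpen, isUnit_one⟩

theorem Pr.et (h : Pr act' act T' T θ f) : Et act' act T' T θ f :=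
  have k : ∀ x ∈ T', ∀ y ∈ T', f x = f y → ∃! a, IsUnit a ∧ θ a = 1 ∧ act' a x = y :=
    fun x a y b e => h.tr x a y b 1 isUnit_one (e.symm.trans (IsAct.one _ (h.mem x a)).symm)
  ⟨h.one, h.mul, h.surj, h.lift, h.mem, fun x _ => ⟨f, f.analyticAt x, .of_forall fun _ => rfl⟩,
    h.eqv, fun x a y b e => (k x a y b e).exists, free_of_unique h.one k⟩

theorem Pr.bun (h : Pr act' act T' T θ f) (o : Orb A'ˣ (Holo.Sp act' T')) :
    Bun act' act T' T θ f :=
  haveI := o.proper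
  ⟨h.et, h.et.rig_of_proper, h.sec⟩

end

theorem lPb : LPb := by
  intro A _ _ _ A' _ _ _ W _ _ _ W' _ _ _ act act' T T' θ f _ _ _ o o' hp h e
  have b := (hp.bun o').pb
  have := isQuo_sp.nice o'
  have k := b.isOpenEmbedding isQuo_sp isQuo_sp (F := h) fun t => e t
  refine ⟨k, fun m γ ⟨d, h1, h2⟩ => ⟨d, h1.res h, fun r φ hφ => ?_⟩⟩
  obtain ⟨h3, μ, h4, h5⟩ := h2 r _ (isSlice_iff.2 (b.push (isSlice_iff.1 hφ)))
  exact ⟨h3, μ, U.Vl.res k (isQuo_sp.cont.continuousAt.comp hφ.cont)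
    (h4.congr (.of_forall fun z => (e _).symm)), b.toTor.stab_eq (φ 0) ▸ h5⟩

end Vale.Agent.P269L.K
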