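import Vale.Agent.P269L.K.Top0

/-!
# The roof is a principal bundle over both sides, and all actions are proper
-/

set_option linter.all false

namespace Vale.Agent.P269L.K

namespace Tp

open Set Function Topology Filter Module P291Z P287Q.H3 P269 P269.Holo P269.Orb

variable {A A₀ A₃ W W₀ Q P₃ ι ι₀ : Type} [NormedRing A] [NormedAlgebra ℂ A] [NormedRing A₀]
  [NormedAlgebra ℂ A₀] [NormedRing A₃] [NormedAlgebra ℂ A₃] [NormedAddCommGroup W] [NormedSpace ℂ W]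
  [NormedAddCommGroup W₀] [NormedSpace ℂ W₀] [NormedAddCommGroup Q] [NormedSpace ℂ Q]
  [NormedAddCommGroup P₃] [NormedSpace ℂ P₃] [Fintype ι] [Fintype ι₀]
  {D : Sd A W ι} {D₀ : Sd A₀ W₀ ι₀} {T : Rf A₃ Q P₃ D D₀} {d d₀ N N₀ : ℕ}

theorem unit3 {u : A × A₀ × A₃} : IsUnit u ↔ IsUnit u.1 ∧ IsUnit u.2.1 ∧ IsUnit u.2.2 :=
  Prod.isUnit_iff.trans (and_congr_right fun _ => Prod.isUnit_iff)

variable (h : T.Ok d d₀ N N₀)
include h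

theorem rep : I.Rep T.act := by
  haveI := rep_fdA h.repq
  haveI := rep_fdW h.repq
  haveI := rep_fdW h.gd.act
  haveI := rep_fdW h.gd₀.act
  refine ⟨inferInstance, fun z => Prod.ext (h.gd.act.2.1 _) (Prod.ext (h.gd₀.act.2.1 _)
    (h.repq.2.1 _)), fun u hu => ?_⟩
  have a := h.gd.act.2.2 _ (unit3.1 hu).1
  have b := h.gd₀.act.2.2 _ (unit3.1 hu).2.1
  have c := h.repq.2.2 _ hu
  refine ⟨⟨fun x y => Prod.ext (a.1.map_add _ _) (Prod.ext (b.1.map_add _ _) (c.1.map_add _ _)),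
    fun s x => Prod.ext (a.1.map_smul _ _) (Prod.ext (b.1.map_smul _ _) (c.1.map_smul _ _))⟩,
    fun z => ⟨?_, fun v hv => Prod.ext ((a.2 _).2 _ (unit3.1 hv).1)
      (Prod.ext ((b.2 _).2 _ (unit3.1 hv).2.1) ((c.2 _).2 _ hv))⟩⟩
  exact ((a.2 z.1).1.comp_of_eq ((analyticAt_fst.comp analyticAt_fst).prod
    (analyticAt_fst.comp analyticAt_snd)) rfl).prod (((b.2 z.2.1).1.comp_of_eq
      (((analyticAt_fst.comp analyticAt_snd).comp analyticAt_fst).prod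
        ((analyticAt_fst.comp analyticAt_snd).comp analyticAt_snd)) rfl).prod
      ((c.2 z.2.2).1.comp_of_eq (analyticAt_fst.prod
        ((analyticAt_snd.comp analyticAt_snd).comp analyticAt_snd)) rfl))

theorem act_mul {u v : A × A₀ × A₃} (hu : IsUnit u) (hv : IsUnit v) (z) :
    T.act (u * v) z = T.act u (T.act v z) := (((rep h).2.2 u hu).2 z).2 v hv

theorem act_an {u : A × A₀ × A₃} (hu : IsUnit u) (z) : AnalyticAt ℂ (uncurry T.act) (u, z) :=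
  (((rep h).2.2 u hu).2 z).1

theorem pr1 : Pr T.act D.act T.Z D.Z (.fst ℂ _ _) (.fst ℂ _ _) := by
  refine ⟨rfl, fun _ _ => rfl, fun z hz => (h.mem z hz).1, fun _ _ _ _ => rfl,
    fun z hz z' hz' u hu e => ?_, fun u hu => ⟨(u, 1), Prod.isUnit_iff.2 ⟨hu, isUnit_one⟩, rfl⟩,
    fun z hz => ?_⟩
  · have k : IsUnit ((u, 1) : A × A₀ × A₃) := Prod.isUnit_iff.2 ⟨hu, isUnit_one⟩
    have m : ∀ v : A₀ × A₃, IsUnit v → T.act (u, v) z = T.act (1, v) (T.act (u, 1) z) :=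
      fun v hv => by
        rw [← act_mul h (Prod.isUnit_iff.2 ⟨isUnit_one, hv⟩) k, Prod.mk_mul_mk, one_mul, mul_one]
    obtain ⟨v, ⟨a, b⟩, c⟩ := h.t1 _ (h.inv _ k z hz) z' hz' e.symm
    refine ⟨(u, v), ⟨Prod.isUnit_iff.2 ⟨hu, a⟩, rfl, (m v a).trans b⟩, ?_⟩
    rintro ⟨_, v'⟩ ⟨a', rfl, b'⟩
    exact Prod.ext rfl (c v' ⟨(Prod.isUnit_iff.1 a').2, (m v' (Prod.isUnit_iff.1 a').2).symm.trans b'⟩)
  · obtain ⟨r, r₀, ς, δ, w₀, η, a, η₀, a₀, e, k⟩ := h.loc z hz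
    exact ⟨fun y => (y, ς (y, 0)), analyticAt_id.prod (k.anς.comp_of_eq
      (analyticAt_id.prod analyticAt_const) rfl), Prod.ext rfl e, k.memZ.mono fun y a => ⟨a, rfl⟩⟩

section sm

variable {Ω Γ Γ₀ F F₀ R R₀ : Type} [NormedAddCommGroup Ω] [NormedSpace ℂ Ω] [NormedAddCommGroup Γ]
  [NormedSpace ℂ Γ] [NormedAddCommGroup Γ₀] [NormedSpace ℂ Γ₀] [NormedAddCommGroup F]
  [NormedSpace ℂ F] [NormedAddCommGroup F₀] [NormedSpace ℂ F₀] [NormedAddCommGroup R]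
  [NormedSpace ℂ R] [NormedAddCommGroup R₀] [NormedSpace ℂ R₀] {ω : Ω} {ζ : Ω → W × W₀ × Q}
  {ϱ : W × W₀ × Q → Ω} {δ : Ω → P₃} {γ : Ω → Γ} {w : Ω → F₀} {e : W × Γ × F₀ → Ω} {γ₀ : Ω → Γ₀}
  {w₀ : Ω → F} {e₀ : W₀ × Γ₀ × F → Ω} {η : W → (ι → ℂ) →L[ℂ] R} {a : W → R}
  {η₀ : W₀ → (ι₀ → ℂ) →L[ℂ] R₀} {a₀ : W₀ → R₀}
  (s : T.Sm ω ζ ϱ δ γ w e γ₀ w₀ e₀ η a η₀ a₀) (hz : ζ ω ∈ T.Z)
include s hz

theorem sm_sec : ∃ t : W₀ → W × W₀ × Q, AnalyticAt ℂ t (ζ ω).2.1 ∧ t (ζ ω).2.1 = ζ ω ∧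
    ∀ᶠ y in 𝓝[D₀.Z] (ζ ω).2.1, t y ∈ T.Z ∧ (t y).2.1 = y := by
  have a1 : AnalyticAt ℂ (fun y : W₀ => (y, γ₀ ω, (0 : F))) (ζ ω).2.1 :=
    analyticAt_id.prod analyticAt_const
  have a2 : AnalyticAt ℂ (fun y => e₀ (y, γ₀ ω, 0)) (ζ ω).2.1 := s.st₀.iso.an'.comp_of_eq a1 rfl
  have a3 : Tendsto (fun y => e₀ (y, γ₀ ω, 0)) (𝓝 (ζ ω).2.1) (𝓝 ω) := by
    simpa only [s.st₀.iso.eq'] using a2.continuousAt.tendsto
  refine ⟨fun y => ζ (e₀ (y, γ₀ ω, 0)), s.iso.an.comp_of_eq a2 s.st₀.iso.eq',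
    congrArg ζ s.st₀.iso.eq', eventually_nhdsWithin_iff.2 ?_⟩
  filter_upwards [a1.continuousAt.eventually (eventually_nhdsWithin_iff.1 s.st₀.iso.ev'),
    a3.eventually ((gen_zero s.st₀.g1).and ((gen_zero s.st.g2).and
      (eventually_nhdsWithin_iff.1 s.iso.ev))), zero_ev h.gd₀ (h.mem _ hz).2.1 s.fr₀] with y b c k hy
  have b1 := (b ⟨h.gd₀.sub hy, trivial⟩).2
  have b2 : (ζ (e₀ (y, γ₀ ω, 0))).2.1 = y := congrArg Prod.fst b1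
  have b3 : a₀ (ζ (e₀ (y, γ₀ ω, 0))).2.1 = 0 := b2.symm ▸ k hy
  have b4 := Prod.ext_iff.1 (c.1 (Prod.ext b3 (congrArg (fun q => q.2.2) b1)))
  exact ⟨(c.2.2 ⟨b4.1, c.2.1 (Prod.ext b4.1 (Prod.ext b3 b4.2))⟩).1, b2⟩

theorem sm_an [FiniteDimensional ℂ R] [FiniteDimensional ℂ F₀] : An T.Z (ζ ω) := by
  haveI := rep_fdW (rep h)
  exact gIso_an s.iso ((an_zero (s.st.ana.comp_of_eq (analyticAt_fst.comp s.iso.an) rfl)).inter
    (an_zero ((analyticAt_snd.comp analyticAt_snd).comp s.st.iso.an)))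

theorem sm_rec : ∀ᶠ y in 𝓝 (ζ ω), y ∈ T.Z → ζ (e₀ (y.2.1, γ₀ (ϱ y), 0)) = y := by
  have a3 : Tendsto ϱ (𝓝 (ζ ω)) (𝓝 ω) := by
    simpa only [s.iso.eq'] using s.iso.an'.continuousAt.tendsto
  have a4 := s.st₀.iso.ev
  rw [nhdsWithin_univ] at a4
  filter_upwards [eventually_nhdsWithin_iff.1 s.iso.ev',
    a3.eventually ((gen_zero s.st.g1).and ((gen_zero s.st₀.g2).and a4))] with y b c hy
  have b1 := b hy
  have b2 := Prod.ext_iff.1 (c.1 (Prod.ext b1.1.1 b1.1.2))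
  have b3 := c.2.2.2
  simp only [c.2.1 (Prod.ext b2.1 (Prod.ext b1.1.1 b2.2)), b1.2] at b3
  rw [b3, b1.2]

theorem sm_loc [FiniteDimensional ℂ Γ₀] {V : Set (A × A₃)} (hV : V ∈ 𝓝 1) :
    ∀ᶠ q in 𝓝 (ζ ω, ζ ω), q.1 ∈ T.Z → q.2 ∈ T.Z → q.1.2.1 = q.2.2.1 →
      ∀ u : A × A₃, IsUnit u → T.act (u.1, 1, u.2) q.1 = q.2 → u ∈ V := by
  haveI := h.gd.fdA
  haveI := rep_fdA h.repq
  haveI := rep_fdW (rep h)
  haveI : FiniteDimensional ℂ A₃ := Module.Finite.of_surjective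
    (LinearMap.snd ℂ A₀ A₃ ∘ₗ LinearMap.snd ℂ A _) (Prod.snd_surjective.comp Prod.snd_surjective)
  haveI := FiniteDimensional.complete ℂ (A × A₃)
  haveI := FiniteDimensional.complete ℂ (W × W₀ × Q)
  haveI := FiniteDimensional.complete ℂ Γ₀
  set z := ζ ω with hzz
  let c : A × A₃ → W × W₀ × Q → W × W₀ × Q := fun u => T.act (u.1, 1, u.2)
  have un : ∀ {u : A × A₃}, IsUnit u → IsUnit ((u.1, 1, u.2) : A × A₀ × A₃) := fun a =>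
    unit3.2 ⟨(Prod.isUnit_iff.1 a).1, isUnit_one, (Prod.isUnit_iff.1 a).2⟩
  have c1 : ∀ y, c 1 y = y := (rep h).2.1
  have c2 : ∀ u y, (c u y).2.1 = y.2.1 := fun u y => h.gd₀.act.2.1 _
  have can : ∀ u, IsUnit u → ∀ y, AnalyticAt ℂ (fun p : (A × A₃) × W × W₀ × Q => c p.1 p.2) (u, y) :=
    fun u hu y => (act_an h (un hu) y).comp_of_eq (((analyticAt_fst.comp analyticAt_fst).prod
      (analyticAt_const.prod (analyticAt_snd.comp analyticAt_fst))).prod analyticAt_snd) rfl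
  haveI : IsAct c T.Z := ⟨fun y _ => c1 y, fun u v hu hv y _ => by
    have := act_mul h (un hu) (un hv) y
    simp only [Prod.mk_mul_mk, mul_one] at this
    exact this,
    fun u hu => h.inv _ (un hu), fun u hu y _ => can u hu y⟩
  have i1 : Injective (fderiv ℂ (fun u => c u z) 1) := by
    have := Holo.Sp.inf_injective (x := Holo.Sp.of c z hz) (.of_forall fun g k => Units.ext
      ((h.t0 z hz z hz rfl).unique ⟨g.isUnit, congrArg Holo.Sp.val k⟩ ⟨isUnit_one, c1 z⟩))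
    rwa [Holo.Sp.inf_eq] at this
  have g0 : AnalyticAt ℂ (fun y => γ₀ (ϱ y)) z :=
    ((analyticAt_fst.comp analyticAt_snd).comp s.st₀.iso.an).comp_of_eq s.iso.an' s.iso.eq'
  let Ψ : (A × A₃) × W × W₀ × Q → Γ₀ := fun p => γ₀ (ϱ (c p.1 p.2))
  have Ψan : AnalyticAt ℂ Ψ (1, z) := g0.comp_of_eq (can 1 isUnit_one z) (c1 z)
  have Ψ1 : Ψ (1, z) = γ₀ (ϱ z) := by simp only [Ψ, c1]
  have Ψ0 : Ψ (1, z) = γ₀ ω := Ψ1.trans (congrArg γ₀ s.iso.eq')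
  have rc : ∀ᶠ y in 𝓝 z, y ∈ T.Z → ζ (e₀ (y.2.1, γ₀ (ϱ y), 0)) = y := sm_rec h s hz
  have ct : Tendsto (fun p : (A × A₃) × W × W₀ × Q => c p.1 p.2) (𝓝 (1, z)) (𝓝 z) := by
    simpa only [c1] using (can 1 isUnit_one z).continuousAt.tendsto
  have eu : ∀ᶠ u : A × A₃ in 𝓝 1, IsUnit u := Units.isOpen.mem_nhds isUnit_one
  have l1 : AnalyticAt ℂ (fun u : A × A₃ => (u, z)) 1 := analyticAt_id.prod analyticAt_const
  have l2 : AnalyticAt ℂ (fun u => Ψ (u, z)) 1 := Ψan.comp_of_eq l1 rfl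
  have i2 : Injective (fderiv ℂ (fun u => Ψ (u, z)) 1) := by
    have m : AnalyticAt ℂ (fun g => ζ (e₀ (z.2.1, g, 0))) (Ψ (1, z)) := by
      rw [Ψ0]
      exact s.iso.an.comp_of_eq (s.st₀.iso.an'.comp_of_eq (analyticAt_const.prod
        (analyticAt_id.prod analyticAt_const)) rfl) s.st₀.iso.eq'
    have k : (fun u => c u z) =ᶠ[𝓝 1] fun u => ζ (e₀ (z.2.1, Ψ (u, z), 0)) := by
      filter_upwards [eu, (ct.comp l1.continuousAt.tendsto).eventually rc] with u b k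
      exact (k (h.inv _ (un b) z hz)).symm.trans (by simp only [Function.comp, c2, Ψ])
    rw [k.fderiv_eq, fderiv_comp_an (g := fun g => ζ (e₀ (z.2.1, g, 0)))
      (f := fun u => Ψ (u, z)) m l2] at i1
    exact Injective.of_comp (f := fderiv ℂ (fun g => ζ (e₀ (z.2.1, g, 0))) (Ψ (1, z))) i1
  have i3 : Surjective (fderiv ℂ (fun u => Ψ (u, z)) 1) :=
    (LinearMap.injective_iff_surjective_of_finrank_eq_finrank
      (f := (fderiv ℂ (fun u => Ψ (u, z)) 1 : A × A₃ →ₗ[ℂ] Γ₀))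
      (by rw [finrank_prod, s.dim₀])).1 i2
  have st := Ψan.hasStrictFDerivAt.prodMk
    (ContinuousLinearMap.snd ℂ (A × A₃) (W × W₀ × Q)).hasStrictFDerivAt
  have mp := st.map_nhds_eq_of_surj (LinearMap.range_eq_top.2 fun q => by
    obtain ⟨u, hu⟩ := i3 (q.1 - fderiv ℂ Ψ (1, z) (0, q.2))
    refine ⟨(u, q.2), Prod.ext ?_ rfl⟩
    rw [fderiv_comp_an (f := fun u => (u, z)) Ψan l1,
      (hasFDerivAt_prodMk_left (1 : A × A₃) z).fderiv] at hu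
    show fderiv ℂ Ψ (1, z) (u, q.2) = q.1
    rw [show (u, q.2) = (u, 0) + (0, q.2) by simp, map_add]
    exact eq_sub_iff_add_eq.1 hu)
  have ev : ∀ᶠ p : (A × A₃) × W × W₀ × Q in 𝓝 (1, z), (p.1 ∈ V ∧ IsUnit p.1) ∧
      (c p.1 p.2 ∈ T.Z → ζ (e₀ ((c p.1 p.2).2.1, Ψ p, 0)) = c p.1 p.2) :=
    ((continuousAt_fst (p := ((1 : A × A₃), z))).eventually
      (Eventually.and (p := fun u => u ∈ V) hV eu)).and (ct.eventually rc)
  have ev2 : ∀ᶠ q in 𝓝 (Ψ (1, z), z), ∃ v, (v ∈ V ∧ IsUnit v) ∧ Ψ (v, q.2) = q.1 ∧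
      (c v q.2 ∈ T.Z → ζ (e₀ ((c v q.2).2.1, Ψ (v, q.2), 0)) = c v q.2) :=
    mem_of_superset (mp ▸ image_mem_map ev) (by
      rintro _ ⟨p, b, rfl⟩
      exact ⟨p.1, b.1, rfl, b.2⟩)
  have tq : Tendsto (fun q : (W × W₀ × Q) × W × W₀ × Q => (γ₀ (ϱ q.2), q.1)) (𝓝 (z, z))
      (𝓝 (Ψ (1, z), z)) := by
    rw [Ψ1]
    exact (g0.continuousAt.tendsto.comp (continuousAt_snd (p := (z, z)))).prodMk_nhds
      (continuousAt_fst (p := (z, z)))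
  filter_upwards [tq.eventually ev2, (continuousAt_snd (p := (z, z))).eventually rc]
  rintro ⟨y, y'⟩ ⟨v, b1, b5, b2⟩ b4 k1 k2 k3 u hu k4
  dsimp only at b5 b2 b4 k1 k2 k3 k4
  have b6 := b2 (h.inv _ (un b1.2) _ k1)
  rw [c2, b5, k3, b4 k2] at b6
  exact (h.t0 _ k1 _ k2 k3).unique ⟨hu, k4⟩ ⟨b1.2, b6.symm⟩ ▸ b1.1

end sm

variable (hs : T.HasSm N N₀)
include hs

theorem pr0 : Pr T.act D₀.act T.Z D₀.Z (.fst ℂ _ _ ∘L .snd ℂ _ _) (.fst ℂ _ _ ∘L .snd ℂ _ _) := by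
  refine ⟨rfl, fun _ _ => rfl, fun z hz => (h.mem z hz).2.1, fun _ _ _ _ => rfl,
    fun z hz z' hz' u hu e => ?_, fun u hu => ⟨(1, u, 1), unit3.2 ⟨isUnit_one, hu, isUnit_one⟩, rfl⟩,
    fun z hz => ?_⟩
  · have k : IsUnit ((1, u, 1) : A × A₀ × A₃) := unit3.2 ⟨isUnit_one, hu, isUnit_one⟩
    have m : ∀ v : A × A₃, IsUnit v →
        T.act (v.1, u, v.2) z = T.act (v.1, 1, v.2) (T.act (1, u, 1) z) := fun v hv => by
      rw [← act_mul h (unit3.2 ⟨(Prod.isUnit_iff.1 hv).1, isUnit_one, (Prod.isUnit_iff.1 hv).2⟩) k]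
      simp only [Prod.mk_mul_mk, one_mul, mul_one]
    obtain ⟨v, ⟨a, b⟩, c⟩ := h.t0 _ (h.inv _ k z hz) z' hz' e.symm
    refine ⟨(v.1, u, v.2), ⟨unit3.2 ⟨(Prod.isUnit_iff.1 a).1, hu, (Prod.isUnit_iff.1 a).2⟩, rfl,
      (m v a).trans b⟩, ?_⟩
    rintro ⟨g, _, g₃⟩ ⟨a', rfl, b'⟩
    have a'' : IsUnit (g, g₃) := Prod.isUnit_iff.2 ⟨(unit3.1 a').1, (unit3.1 a').2.2⟩
    rw [← c (g, g₃) ⟨a'', (m _ a'').symm.trans b'⟩]
    rfl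
  · obtain ⟨n, k, k₀, r, r₀, ω, ζ, ϱ, δ, γ, w, e, γ₀, w₀, e₀, η, a, η₀, a₀, rfl, s⟩ := hs z hz
    exact sm_sec h s hz

theorem an (z) (hz : z ∈ T.Z) : An T.Z z := by
  obtain ⟨n, k, k₀, r, r₀, ω, ζ, ϱ, δ, γ, w, e, γ₀, w₀, e₀, η, a, η₀, a₀, rfl, s⟩ := hs z hz
  exact sm_an h s hz

theorem prU : PrU T.act T.Z := by
  intro I U u p z z' hz hz' hm h1 h2
  haveI := h.gd₀.isAct
  have c := (continuous_fst.comp continuous_snd : Continuous fun y : W × W₀ × Q => y.2.1)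
  obtain ⟨u₀, hu₀, k0⟩ := prU_of (h.prp.prop this) I U (fun i => (u i).2.1) (fun i => (p i).2.1) _ _
    (h.mem z hz).2.1 (h.mem z' hz').2.1 (hm.mono fun i a => ⟨(unit3.1 a.1).2.1, (h.mem _ a.2).2.1⟩)
    ((c.tendsto _).comp h1) ((c.tendsto _).comp h2)
  have k1 : z'.2.1 = D₀.act u₀ z.2.1 := tendsto_nhds_unique ((c.tendsto _).comp h2)
    ((((h.gd₀.act.2.2 _ hu₀).2 _).1.continuousAt.tendsto).comp
      (k0.prodMk_nhds ((c.tendsto _).comp h1)))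
  obtain ⟨⟨g, _, g₃⟩, ⟨k2, rfl, k3⟩, -⟩ := (pr0 h hs).tr z hz z' hz' u₀ hu₀ k1
  obtain ⟨⟨g, rfl⟩, -, ⟨g₃, rfl⟩⟩ := unit3.1 k2
  have k4 : Tendsto (fun i => T.act (g, (u i).2.1, g₃) (p i)) U (𝓝 z') :=
    k3 ▸ (act_an h k2 z).continuousAt.tendsto.comp
      ((tendsto_const_nhds.prodMk_nhds (k0.prodMk_nhds tendsto_const_nhds)).prodMk_nhds h1)
  have k5 : Tendsto (fun i => ((u i).1 * ↑g⁻¹, (u i).2.2 * ↑g₃⁻¹)) U (𝓝 1) := tendsto_def.2 fun V hV => by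
    obtain ⟨n, k, k₀, r, r₀, ω, ζ, ϱ, δ, γ, w, e, γ₀, w₀, e₀, η, a, η₀, a₀, rfl, s⟩ := hs z' hz'
    filter_upwards [(k4.prodMk_nhds h2).eventually (sm_loc h s hz' hV), hm] with i b m
    have m1 := unit3.1 m.1
    have m2 : IsUnit ((g, (u i).2.1, g₃) : A × A₀ × A₃) := unit3.2 ⟨g.isUnit, m1.2.1, g₃.isUnit⟩
    refine b (h.inv _ m2 _ m.2) (h.inv _ m.1 _ m.2) rfl _
      (Prod.isUnit_iff.2 ⟨m1.1.mul g⁻¹.isUnit, m1.2.2.mul g₃⁻¹.isUnit⟩) ?_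
    rw [← act_mul h (unit3.2 ⟨m1.1.mul g⁻¹.isUnit, isUnit_one, m1.2.2.mul g₃⁻¹.isUnit⟩) m2]
    simp only [Prod.mk_mul_mk, one_mul, Units.inv_mul_cancel_right]
  refine ⟨_, k2, Tendsto.prodMk_nhds ?_ (k0.prodMk_nhds ?_)⟩
  · simpa using ((continuous_fst.tendsto _).comp k5).mul_const (g : A)
  · simpa using ((continuous_snd.tendsto _).comp k5).mul_const (g₃ : A₃)

end Tp

open Tp P287Q.H3 in
theorem lTop : LTop := by
  intro A A₀ A₃ W W₀ Q P₃ ι ι₀ _ _ _ _ _ _ _ _ _ _ _ _ _ _ _ _ D D₀ T d d₀ N N₀ h hs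
  exact ⟨fun _ => orb_rep h.gd.act (prU_down (pr1 h) h.onto h.gd.invZ (prU h hs))
      (isLocallyClosed_of_an fun _ => anZ h.gd) h.gd.fin,
    fun i => orb_rep h.gd₀.act (prU_of (h.prp.prop i)) (isLocallyClosed_of_an fun _ => anZ h.gd₀)
      h.gd₀.fin,
    fun _ => orb_rep (rep h) (prU h hs) (isLocallyClosed_of_an (an h hs)) fun z hz =>
      fin_up (pr1 h) hz (h.gd.fin _ (h.mem z hz).1), pr1 h, pr0 h hs, an h hs⟩

end Vale.Agent.P269L.K
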