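import Vale.Agent.P269L.K.Psi
import Vale.Agent.P269L.K.Int
import Vale.Agent.P269L.K.Pb
import Vale.Agent.P269L.K.LSm
import Vale.Agent.P269L.K.Top

/-!
# The cotangent line classes correspond: the final form
-/

set_option linter.all false
set_option maxSynthPendingDepth 3

namespace Vale.Agent.P269L.K

open MvPolynomial P269

variable {N c : ℕ} {F : Fin c → MvPolynomial (Fin (N + 1)) ℂ} {A W U ι Λ : Type} [NormedRing A]
  [NormedAlgebra ℂ A] [NormedAddCommGroup W] [NormedSpace ℂ W] [NormedAddCommGroup U]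
  [NormedSpace ℂ U] [Fintype ι] [DecidableEq ι] {M : ι → ℕ} {r n : ℕ} {s : Su A W U ι Λ M r n F}

theorem Su.psi (hs : s.Ok) (hE : s.HasEx) {d d₀ m m₀ : ℕ} (hO : s.rf.Ok d d₀ m m₀) (φ)
    (hφ : s.rf.Map φ) : Psi (ci F).cone s.D s.D₀ φ := fun i e e₀ he he₀ =>
  Ps.psi hs hE hO (lEu lSm lTop lPb) i φ hφ e e₀ he he₀

end Vale.Agent.P269L.K
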