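import Vale.Agent.P269L.G.Mul

/-!
# The multiplicity of the cone is invariant under isomorphisms of deformations and products
-/

set_option linter.unusedSectionVars false

namespace Vale.Agent.P269L.K

open Set Function Topology Filter P287Q P269.Holo
open Vale.Agent.P298.H941 (O)
open Vale.Agent.P277Z.Oka Vale.Agent.P269L.L

section gen

variable {E E' E'' F Y Y' : Type} [NormedAddCommGroup E] [NormedSpace ℂ E] [NormedAddCommGroup E']
  [NormedSpace ℂ E'] [NormedAddCommGroup E''] [NormedSpace ℂ E''] [NormedAddCommGroup F]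
  [NormedSpace ℂ F] [NormedAddCommGroup Y] [NormedSpace ℂ Y] [NormedAddCommGroup Y']
  [NormedSpace ℂ Y']

/-- `Φ` is an isomorphism of the germ of `B'` at `x'` with the germ of `B` at `x`, with inverse `Ψ`. -/
structure LI (B' : Set E') (B : Set E) (x' : E') (x : E) (Φ : E' → E) (Ψ : E → E') : Prop where
  an : AnalyticAt ℂ Φ x'
  an' : AnalyticAt ℂ Ψ x
  pt : Φ x' = x
  pt' : Ψ x = x'
  fw : ∀ᶠ z in 𝓝 x', z ∈ B' → Φ z ∈ B ∧ Ψ (Φ z) = z
  fr : ∀ᶠ z in 𝓝 x, z ∈ B → Ψ z ∈ B' ∧ Φ (Ψ z) = z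

namespace LI

variable {B'' : Set E''} {B' C' : Set E'} {B C : Set E} {x'' : E''} {x' : E'} {x : E} {Φ : E' → E}
  {Ψ : E → E'} {Φ' : E'' → E'} {Ψ' : E' → E''} (h : LI B' B x' x Φ Ψ)
include h

theorem symm : LI B B' x x' Ψ Φ := ⟨h.an', h.an, h.pt', h.pt, h.fr, h.fw⟩

theorem tendsto : Tendsto Φ (𝓝 x') (𝓝 x) := h.pt ▸ h.an.continuousAt.tendsto

theorem tendsto' : Tendsto Ψ (𝓝 x) (𝓝 x') := h.symm.tendsto

theorem trans (k : LI B'' B' x'' x' Φ' Ψ') :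
    LI B'' B x'' x (fun z => Φ (Φ' z)) fun z => Ψ' (Ψ z) :=
  ⟨h.an.comp_of_eq k.an k.pt, k.an'.comp_of_eq h.an' h.pt', k.pt.symm ▸ h.pt, h.pt'.symm ▸ k.pt', by
    filter_upwards [k.fw, k.tendsto.eventually h.fw] with z a b c
    exact ⟨(b (a c).1).1, by rw [(b (a c).1).2, (a c).2]⟩, by
    filter_upwards [h.fr, h.tendsto'.eventually k.fr] with z a b c
    exact ⟨(b (a c).1).1, by rw [(b (a c).1).2, (a c).2]⟩⟩

theorem prod (T : Set F) (f : F) :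
    LI (B' ×ˢ T) (B ×ˢ T) (x', f) (x, f) (fun z => (Φ z.1, z.2)) fun z => (Ψ z.1, z.2) :=
  ⟨(h.an.comp_of_eq analyticAt_fst rfl).prod analyticAt_snd,
    (h.an'.comp_of_eq analyticAt_fst rfl).prod analyticAt_snd, congrArg (·, f) h.pt,
    congrArg (·, f) h.pt', ((continuous_fst.tendsto (x', f)).eventually h.fw).mono fun _ a b =>
      ⟨⟨(a b.1).1, b.2⟩, Prod.ext (a b.1).2 rfl⟩,
    ((continuous_fst.tendsto (x, f)).eventually h.fr).mono fun _ a b =>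
      ⟨⟨(a b.1).1, b.2⟩, Prod.ext (a b.1).2 rfl⟩⟩

theorem congr (e' : ∀ᶠ z in 𝓝 x', z ∈ B' ↔ z ∈ C') (e : ∀ᶠ z in 𝓝 x, z ∈ B ↔ z ∈ C) :
    LI C' C x' x Φ Ψ :=
  ⟨h.an, h.an', h.pt, h.pt', by
    filter_upwards [h.fw, e', h.tendsto.eventually e] with z a b c d
    exact ⟨c.1 (a (b.2 d)).1, (a (b.2 d)).2⟩, by
    filter_upwards [h.fr, e, h.tendsto'.eventually e'] with z a b c d
    exact ⟨c.1 (a (b.2 d)).1, (a (b.2 d)).2⟩⟩

theorem mfd [CompleteSpace E] [CompleteSpace E'] {n : ℕ} (k : MfdAt B' n x') : MfdAt B n x :=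
  h.pt ▸ k.iso h.an (h.pt.symm ▸ h.an') h.fw (h.pt.symm ▸ h.fr)

theorem eventually [CompleteSpace E] [CompleteSpace E'] :
    ∀ᶠ z in 𝓝 x', z ∈ B' → LI B' B z (Φ z) Φ Ψ := by
  filter_upwards [h.an.eventually_analyticAt, h.tendsto.eventually h.an'.eventually_analyticAt,
    h.fw.eventually_nhds, h.tendsto.eventually h.fr.eventually_nhds] with z a b c d e
  exact ⟨a, b, rfl, (c.self_of_nhds e).2, c, d⟩

end LI

/-- A factor of a manifold is a manifold. -/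
theorem mfd_of_prod [CompleteSpace E] [FiniteDimensional ℂ F] {C : Set E} {x : E} {f : F} {n : ℕ}
    (h : MfdAt (C ×ˢ univ) n (x, f)) : ∃ k, k + Module.finrank ℂ F = n ∧ MfdAt C k x := by
  have := FiniteDimensional.complete ℂ F
  obtain ⟨k, a, b⟩ := h.sub' (Z := C ×ˢ {f}) (f := fun p => p.2 - f)
    ⟨_, analyticAt_snd.sub analyticAt_const, .of_forall fun _ _ => rfl⟩ (sub_self _)
    (fun b _ => Submodule.subset_span ⟨fun ε => (x, f + ε • b),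
      ⟨analyticAt_const.prod (analyticAt_const.add (analyticAt_id.smul analyticAt_const)),
        by simp, .of_forall fun _ => ⟨h.mem.1, trivial⟩⟩, by
          simpa using ((hasDerivAt_id (0 : ℂ)).smul_const b).deriv⟩)
    (.of_forall fun p => ⟨fun e => ⟨⟨e.1, trivial⟩, sub_eq_zero.2 e.2⟩,
      fun e => ⟨e.1.1, sub_eq_zero.1 e.2⟩⟩)
  exact ⟨k, a, b.iso (F := Prod.fst) (G := fun s => (s, f)) analyticAt_fst
    (analyticAt_id.prod analyticAt_const) (.of_forall fun _ e => ⟨e.1, Prod.ext rfl e.2.symm⟩)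
    (.of_forall fun _ e => ⟨⟨e, rfl⟩, rfl⟩)⟩

theorem cov_card {B U : Set E} {π : E → Y} {N : ℕ} {y : Y} (h : Cov B U π N y) :
    {z | z ∈ U ∧ z ∈ B ∧ π z = y}.encard = N := by
  obtain ⟨φ, -, a, b⟩ := h
  rw [show {z | z ∈ U ∧ z ∈ B ∧ π z = y} = (fun k => φ k y) '' univ from
    Set.ext fun z => (b.self_of_nhds z).trans (by simp [eq_comm]), a.encard_image]
  simp

/-- The number of sheets is invariant. -/
theorem sheets_eq [FiniteDimensional ℂ Y'] {B : Set E} {B' : Set E'} {x : E} {x' : E'} {f : F}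
    {π : E → Y} {π' : E' → Y'} {N N' : ℕ} {Φ : E' → E × F} {Ψ : E × F → E'}
    (h : LI B' (B ×ˢ univ) x' (x, f) Φ Ψ) (s : Sheets B x π N) (s' : Sheets B' x' π' N')
    {θ : Y' → Y × F} (hθ : AnalyticAt ℂ θ (π' x')) (hi : Injective θ) (h0 : θ (π' x') = (π x, f))
    {κ : Y → Y'} (hκ : Tendsto κ (𝓝 (π x)) (𝓝 (π' x'))) (hκ' : ∀ y, (θ (κ y)).1 = y)
    (e : ∀ᶠ z in 𝓝 x', z ∈ B' → θ (π' z) = (π (Φ z).1, (Φ z).2)) : N = N' := by
  obtain ⟨δ, a1, a2, U₀, a3, a4, a5⟩ := s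
  obtain ⟨δ', b1, b2, U₀', b3, -, b5⟩ := s'
  have t : Tendsto θ (𝓝 (π' x')) (𝓝 (π x, f)) := h0 ▸ hθ.continuousAt.tendsto
  have t1 := (continuous_fst.tendsto _).comp t
  have c1 : AnalyticAt ℂ (fun y => δ (θ y).1) (π' x') :=
    a1.comp_of_eq (analyticAt_fst.comp hθ) (congrArg Prod.fst h0)
  have c2 : ∃ᶠ y in 𝓝 (π' x'), δ' y * δ (θ y).1 ≠ 0 := fun b => by
    have k := (gm_eq_zero (b1.fun_mul c1)).2 (b.mono fun _ => not_not.1)
    rw [gm_mul b1 c1, mul_eq_zero, gm_eq_zero b1, gm_eq_zero c1] at k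
    exact k.elim b2 fun k => a2 ((hκ.eventually k).mono fun y l => by rwa [hκ'] at l)
  let U' := U₀' ∩ {z | (Φ z).1 ∈ U₀ ∧ (z ∈ B' → Φ z ∈ B ×ˢ univ ∧ Ψ (Φ z) = z) ∧
    (z ∈ B' → θ (π' z) = (π (Φ z).1, (Φ z).2))}
  have d1 : U' ∈ 𝓝 x' := inter_mem b3
    (((((continuous_fst.tendsto _).comp h.tendsto).eventually a3).and (h.fw.and e)))
  obtain ⟨U, d2, V, d3, d4⟩ := mem_prod_iff.1 (nhds_prod_eq.ge ((h.tendsto'.eventually d1).and h.fr))
  obtain ⟨y, k1, k2, k3, k4, k5⟩ := (c2.and_eventually ((b5 U' d1 inter_subset_left).and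
    ((t1.eventually (a5 _ (inter_mem d2 a3) inter_subset_right)).and
    ((t1.eventually (a4 _ (inter_mem d2 a3))).and
    (((continuous_snd.tendsto _).comp t).eventually d3))))).exists
  have m := cov_card (k3 (right_ne_zero_of_mul k1))
  have m' := cov_card (k2 (left_ne_zero_of_mul k1))
  refine Nat.cast_injective (R := ℕ∞) (m.symm.trans (.trans ?_ m'))
  refine le_antisymm (encard_le_encard_of_injOn (f := fun z => Ψ (z, (θ y).2)) (fun z c => ?_)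
    fun z c z' c' l => ?_) (encard_le_encard_of_injOn (f := fun z => (Φ z).1) (fun z c => ?_)
    fun z c z' c' l => ?_)
  · obtain ⟨n1, n2⟩ := d4 (mk_mem_prod c.1.1 k5)
    obtain ⟨n3, n4⟩ := n2 ⟨c.2.1, trivial⟩
    exact ⟨n1, n3, hi ((n1.2.2.2 n3).trans (by rw [n4]; exact Prod.ext c.2.2 rfl))⟩
  · exact congrArg Prod.fst (((d4 (mk_mem_prod c.1.1 k5)).2 ⟨c.2.1, trivial⟩).2.symm.trans
      ((congrArg Φ l).trans ((d4 (mk_mem_prod c'.1.1 k5)).2 ⟨c'.2.1, trivial⟩).2))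
  · have n1 := (c.1.2.2.1 c.2.1).1.1
    have n2 : π (Φ z).1 = (θ y).1 := by rw [← c.2.2, c.1.2.2.2 c.2.1]
    exact ⟨k4 _ c.1.2.1 n1 n2, n1, n2⟩
  · have n : ∀ z ∈ {z | z ∈ U' ∧ z ∈ B' ∧ π' z = y}, (Φ z).2 = (θ y).2 := fun z c => by
      rw [← c.2.2, c.1.2.2.2 c.2.1]
    rw [← (c.1.2.2.1 c.2.1).2, ← (c'.1.2.2.1 c'.2.1).2,
      show Φ z = Φ z' from Prod.ext l ((n z c).trans (n z' c').symm)]

end gen

section cone

variable {W W' F ι ι' : Type} [NormedAddCommGroup W] [NormedSpace ℂ W] [FiniteDimensional ℂ W]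
  [NormedAddCommGroup W'] [NormedSpace ℂ W'] [FiniteDimensional ℂ W'] [NormedAddCommGroup F]
  [NormedSpace ℂ F] [FiniteDimensional ℂ F] [Fintype ι] [Fintype ι'] {M C : Set (W × (ι → ℂ))}
  {M' C' : Set (W' × (ι' → ℂ))} {y : W × (ι → ℂ)} {y' : W' × (ι' → ℂ)} {n n' k : ℕ} {f : F}
  {Φ : (W' × (ι' → ℂ)) × ℂ → ((W × (ι → ℂ)) × ℂ) × F}
  {Ψ : ((W × (ι → ℂ)) × ℂ) × F → (W' × (ι' → ℂ)) × ℂ}

/-- The isomorphism of the special fibres. -/
theorem li_cone (hC : ∀ᶠ z in 𝓝 y, z ∈ C ↔ (z, (0 : ℂ)) ∈ D.BM M)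
    (hC' : ∀ᶠ z in 𝓝 y', z ∈ C' ↔ (z, (0 : ℂ)) ∈ D.BM M')
    (h : LI (D.BM M') (D.BM M ×ˢ univ) (y', 0) ((y, 0), f) Φ Ψ)
    (hε : ∀ᶠ z in 𝓝 (y', (0 : ℂ)), z ∈ D.BM M' → (Φ z).1.2 = z.2) :
    LI C' (C ×ˢ univ) y' (y, f) (fun z => ((Φ (z, 0)).1.1, (Φ (z, 0)).2))
      fun z => (Ψ ((z.1, 0), z.2)).1 := by
  have a : AnalyticAt ℂ (fun z : W' × (ι' → ℂ) => Φ (z, 0)) y' :=
    h.an.comp_of_eq (analyticAt_id.prod analyticAt_const) rfl
  have b0 : AnalyticAt ℂ (fun z : (W × (ι → ℂ)) × F => ((z.1, (0 : ℂ)), z.2)) (y, f) :=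
    (analyticAt_fst.prod analyticAt_const).prod analyticAt_snd
  have b := h.an'.comp_of_eq b0 rfl
  have t := (Continuous.prodMk_left (0 : ℂ)).tendsto y'
  refine ⟨(analyticAt_fst.comp (analyticAt_fst.comp a)).prod (analyticAt_snd.comp a),
    analyticAt_fst.comp b, by rw [h.pt], by rw [h.pt'], ?_, ?_⟩
  · filter_upwards [hC', t.eventually h.fw, t.eventually hε, (((continuous_fst.comp
      continuous_fst).tendsto _).comp (h.tendsto.comp t)).eventually hC] with z c1 c2 c3 c4 c5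
    have e : (((Φ (z, 0)).1.1, (0 : ℂ)), (Φ (z, 0)).2) = Φ (z, 0) :=
      Prod.ext (Prod.ext rfl (c3 (c1.1 c5)).symm) rfl
    exact ⟨⟨c4.2 (congrArg Prod.fst e ▸ (c2 (c1.1 c5)).1.1 :), trivial⟩,
      congrArg Prod.fst ((congrArg Ψ e).trans (c2 (c1.1 c5)).2)⟩
  · have t' := b0.continuousAt.tendsto
    filter_upwards [(continuous_fst.tendsto (y, f)).eventually hC, t'.eventually h.fr,
      (h.tendsto'.comp t').eventually hε, ((continuous_fst.tendsto _).comp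
        (h.tendsto'.comp t')).eventually hC'] with z c1 c2 c3 c4 c5
    obtain ⟨c6, c7⟩ := c2 ⟨c1.1 c5.1, trivial⟩
    have e : ((Ψ ((z.1, 0), z.2)).1, (0 : ℂ)) = Ψ ((z.1, 0), z.2) :=
      Prod.ext rfl ((congrArg (·.1.2) c7).symm.trans (c3 c6))
    exact ⟨c4.2 (e ▸ c6 :), by rw [e, c7]⟩

/-- **The multiplicity is invariant under isomorphisms of the deformations and products.** -/
theorem mul_iff (hM : MfdAt M n (y.1, 0)) (hM' : MfdAt M' n' (y'.1, 0))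
    (hCB : ∀ᶠ z in 𝓝 y, z ∈ C ↔ (z, (0 : ℂ)) ∈ D.BM M) (hC : MfdAt C k y)
    (h : LI (D.BM M') (D.BM M ×ˢ univ) (y', 0) ((y, 0), f) Φ Ψ)
    (hε : ∀ᶠ z in 𝓝 (y', (0 : ℂ)), z ∈ D.BM M' → (Φ z).1.2 = z.2) (m : ℂ) :
    Tx.Mul M' y' m ↔ Tx.Mul M y m := by
  obtain ⟨p, q, g⟩ := D.par_of_mfd hC
  obtain ⟨ρ, h1, h2⟩ := D.rho_ex hM y.2
  obtain ⟨ρ', h1', h2'⟩ := D.rho_ex hM' y'.2
  have pa : AnalyticAt ℂ p (q y) := g.q0.symm ▸ g.pa
  have p0 : p (q y) = y := g.q0.symm ▸ g.p0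
  have u1 : ∀ᶠ u in 𝓝 (q y), (p u, (0 : ℂ)) ∈ D.BM M ∧ q (p u) = u := g.q0.symm ▸ by
    filter_upwards [g.ev_mem, g.qp, (g.tp.mono_right nhdsWithin_le_nhds).eventually hCB]
      with u a b c using ⟨c.1 a, b⟩
  have u2 : ∀ᶠ z in 𝓝 (y, (0 : ℂ)), z ∈ D.BM M → z.2 = 0 → z = (p (q z.1), 0) := by
    filter_upwards [(continuous_fst.tendsto (y, (0 : ℂ))).eventually
      (hCB.and (eventually_nhdsWithin_iff.1 g.pq))] with z a b c
    have e : (z.1, (0 : ℂ)) = z := Prod.ext rfl c.symm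
    exact Prod.ext (a.2 (a.1.2 (e.symm ▸ b))).symm c
  obtain ⟨N, -, -, -, h4, h5⟩ := L.count' (x := (y, (0 : ℂ))) (w := fun b => q b.1)
    (s := fun u => (p u, (0 : ℂ))) (D.an_BM hM y.2) (g.qa.comp_of_eq analyticAt_fst rfl)
    analyticAt_snd rfl (.of_forall fun _ => D.dense_BM) (pa.prod analyticAt_const)
    (Prod.ext p0 rfl) (u1.mono fun _ a => ⟨a.1, rfl, a.2⟩) u2 ρ h1 h2
  have e0 : (q (Φ (y', 0)).1.1, (Φ (y', 0)).2) = (q y, f) := by rw [h.pt]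
  have a0 : AnalyticAt ℂ (fun u : (Fin k → ℂ) × F => ((p u.1, (0 : ℂ)), u.2)) (q y, f) :=
    ((pa.comp_of_eq analyticAt_fst rfl).prod analyticAt_const).prod analyticAt_snd
  have e1 : ((p (q y), (0 : ℂ)), f) = ((y, 0), f) := by rw [p0]
  have t0 := a0.continuousAt.tendsto.mono_right (congrArg 𝓝 e1).le
  obtain ⟨N', -, -, -, h4', h5'⟩ := L.count' (x := (y', (0 : ℂ)))
    (w := fun b => (q (Φ b).1.1, (Φ b).2)) (s := fun u => Ψ ((p u.1, 0), u.2)) (D.an_BM hM' y'.2)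
    ((g.qa.comp_of_eq (analyticAt_fst.comp (analyticAt_fst.comp h.an))
      (congrArg (·.1.1) h.pt)).prod (analyticAt_snd.comp h.an))
    analyticAt_snd rfl (.of_forall fun _ => D.dense_BM)
    (e0.symm ▸ h.an'.comp_of_eq a0 e1) (by rw [e0]; exact (congrArg Ψ e1).trans h.pt')
    (e0.symm ▸ by
      filter_upwards [(continuous_fst.tendsto (q y, f)).eventually u1, t0.eventually h.fr,
        (h.tendsto'.comp t0).eventually hε] with u a b c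
      obtain ⟨b1, b2⟩ := b ⟨a.1, trivial⟩
      exact ⟨b1, (c b1).symm.trans (congrArg (·.1.2) b2), by rw [b2, a.2]⟩)
    (by
      filter_upwards [h.fw, hε, ((continuous_fst.tendsto _).comp h.tendsto).eventually u2]
        with z a b c d e
      exact (a d).2.symm.trans (congrArg Ψ (Prod.ext (c (a d).1.1 ((b d).trans e)) rfl)))
    ρ' h1' h2'
  obtain rfl := sheets_eq h h5 h5' (θ := fun v => ((v.1.1, v.2), v.1.2))
    (((analyticAt_fst.comp analyticAt_fst).prod analyticAt_snd).prod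
      (analyticAt_snd.comp analyticAt_fst))
    (fun a b c => Prod.ext (Prod.ext (congrArg (·.1.1) c) (congrArg (·.2) c)) (congrArg (·.1.2) c))
    (by simp only [h.pt]) (κ := fun v => ((v.1, f), v.2))
    (Continuous.tendsto' (by fun_prop) _ _ (by simp only [h.pt])) (fun _ => rfl)
    (hε.mono fun z a b => by simp only [a b])
  exact (h4' m).trans (h4 m).symm

/-- The same at a smooth point of the larger cone. -/
theorem mul_iff' (hM : MfdAt M n (y.1, 0)) (hM' : MfdAt M' n' (y'.1, 0))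
    (hCB : ∀ᶠ z in 𝓝 y, z ∈ C ↔ (z, (0 : ℂ)) ∈ D.BM M)
    (hCB' : ∀ᶠ z in 𝓝 y', z ∈ C' ↔ (z, (0 : ℂ)) ∈ D.BM M') (hC : MfdAt C' k y')
    (h : LI (D.BM M') (D.BM M ×ˢ univ) (y', 0) ((y, 0), f) Φ Ψ)
    (hε : ∀ᶠ z in 𝓝 (y', (0 : ℂ)), z ∈ D.BM M' → (Φ z).1.2 = z.2) (m : ℂ) :
    Tx.Mul M' y' m ↔ Tx.Mul M y m :=
  haveI := FiniteDimensional.complete ℂ W
  haveI := FiniteDimensional.complete ℂ W'
  haveI := FiniteDimensional.complete ℂ F
  let ⟨_, _, a⟩ := mfd_of_prod ((li_cone hCB hCB' h hε).mfd hC)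
  mul_iff hM hM' hCB a h hε m

end cone

end Vale.Agent.P269L.K
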