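import Vale.Agent.P269L.U.Tx

/-!
# The Thom pull-back along a bundle of affine spaces: the topological part
-/

set_option linter.all false

namespace Vale.Agent.P269L.K

open Set Function Topology Filter P291Z P269 P269.Holo P269.Orb P269.Ch unitInterval

section top

variable {Y : Ch.Sp} {E : VB Y} {s : Y.T → E.W} {k d : ℕ} {T X : Type} [TopologicalSpace T]
  [TopologicalSpace X]

/-- The parametrizations of the fibres in which the section is linear. -/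
def fch (pr : Y.T → T) (s : Y.T → E.W) (k r : ℕ) (φ : (Fin r → ℂ) → Y.T) : Prop :=
  r = k ∧ Continuous φ ∧ ∃ ℓ : (Fin r → ℂ) →L[ℂ] E.W, Injective ℓ ∧
    ∀ a, pr (φ a) = pr (φ 0) ∧ s (φ a) = ℓ a

theorem isVB_aff (hs : E.IsSec s) (hr : E.r = k) {pr : Y.T → T} (hc : Continuous pr)
    (hF : ∀ q q', pr q = pr q' → E.F q = E.F q')
    (hi : ∀ q q', pr q = pr q' → s q = s q' → q = q')
    (hl : ∀ x, ∃ (N : Set T) (Φ : N × (Fin k → ℂ) → Y.T) (j : N → (Fin k → ℂ) →L[ℂ] E.W), x ∈ N ∧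
      IsOpen N ∧ IsEmbedding Φ ∧ range Φ = pr ⁻¹' N ∧ (∀ w, pr (Φ w) = w.1) ∧
      (∀ w, s (Φ w) = j w.1 w.2) ∧ ∀ y, Injective (j y)) :
    IsVB k pr {q | s q = 0} (fch pr s k) := by
  refine ⟨hc, fun x => ?_, fun _ _ h => h.1, ?_⟩
  · obtain ⟨N, Φ, j, h1, h2, h3, h4, h5, h6, h7⟩ := hl x
    exact ⟨N, Φ, h1, ⟨h2, ⟨h3, h4 ▸ h2.preimage hc⟩, h4, h5, fun w => by
      rw [mem_setOf_eq, h6, map_eq_zero_iff _ (h7 _)]⟩, fun y => ⟨rfl,
        h3.continuous.comp (Continuous.prodMk_right y), j y, h7 y,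
        fun a => ⟨(h5 _).trans (h5 (y, 0)).symm, h6 _⟩⟩⟩
  · have rg : ∀ (φ : (Fin k → ℂ) → Y.T) (ℓ : (Fin k → ℂ) →L[ℂ] E.W), Injective ℓ →
        (∀ a, pr (φ a) = pr (φ 0) ∧ s (φ a) = ℓ a) → ℓ.toLinearMap.range = E.F (φ 0) :=
      fun φ ℓ h1 h2 => Submodule.eq_of_le_of_finrank_eq (by
        rintro _ ⟨a, rfl⟩
        exact (hF _ _ (h2 a).1).le ((h2 a).2 ▸ hs.mem (φ a) :)) (by
          rw [LinearMap.finrank_range_of_inj h1, Module.finrank_fin_fun, E.rank, hr])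
    rintro φ φ' ⟨-, -, ℓ, h1, h2⟩ ⟨-, -, ℓ', h1', h2'⟩ e
    let γ := (LinearEquiv.ofInjective ℓ.toLinearMap h1).trans ((LinearEquiv.ofEq _ _
      ((rg φ ℓ h1 h2).trans ((hF _ _ e).trans (rg φ' ℓ' h1' h2').symm))).trans
        (LinearEquiv.ofInjective ℓ'.toLinearMap h1').symm)
    have hγ : ∀ a, ℓ' (γ a) = ℓ a := fun a =>
      congrArg Subtype.val ((LinearEquiv.ofInjective ℓ'.toLinearMap h1').apply_symm_apply _)
    exact ⟨γ, funext fun a => hi _ _ ((h2 a).1.trans (e.trans (h2' _).1.symm))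
      ((h2 a).2.trans ((hγ a).symm.trans (h2' _).2.symm))⟩

/-- **The Thom pull-back exists.** -/
theorem exists_pull [MulAction Y.G T] (hs : E.IsSec s) (hr : E.r = k) (ho : Orb Y.G T) {π : T → X}
    (hπ : IsQuo Y.G π) {pr : Y.T → T} (he : ∀ (g : Y.G) q, pr (g • q) = g • pr q)
    (h : IsVB k pr {q | s q = 0} (fch pr s k)) {p : Y.X → X} (hp : ∀ q, p (Y.π q) = π (pr q))
    {γ : BM X} (hγ : BM.IsDeg (2 * d) γ) : Continuous p ∧ ∃ γ', BM.IsDeg (2 * (d + k : ℕ)) γ' ∧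
      ∀ a ∈ Zc X, pull p a * hs.eul ∈ Zc _ ∧ ev γ' (pull p a * hs.eul) = ev γ a := by
  have := hπ.nice ho
  have h1 := IsOVB.of_equivariant ho h he (by
    rintro g φ ⟨h1, h2, ℓ, h3, h4⟩
    exact ⟨h1, h2.const_smul g, lin E.W g ∘L ℓ, (MulAction.injective g).comp h3, fun a =>
      ⟨by rw [he, he, (h4 a).1], by rw [hs.eqv, (h4 a).2]; rfl⟩⟩) Y.isQuo hπ hp
  have hd : IsDeg (2 * k) hs.eul := hr ▸ hs.isCo.deg
  have h2 := h1.isThom_of hs.isCo.cocycle hs.isCo.supp hd fun x => by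
    obtain ⟨_, h2, h3⟩ := h1.exists_chart x
    obtain ⟨φ, ⟨-, h4, ℓ, h5, h6⟩, rfl⟩ := id h2
    refine ⟨_, h2, h3, ((locCo_iff_cls (cocycle_pull (h1.chart_cont h2) hs.isCo.cocycle)
      (h1.supp_chart hs.isCo.supp h2)).1 (locCo_eul_one hs hr
        (.of_forall fun _ => h4.continuousAt) ((h6 0).2.trans (map_zero ℓ)) (L := ℓ) ?_ h5)).trans
          (one_smul _ _)⟩
    rw [show (fun z => s (φ z)) = ℓ from funext fun a => (h6 a).2]
    exact ℓ.hasFDerivAt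
  let e := LinearEquiv.ofBijective _ (h1.thom_iso h2)
  refine ⟨h1.cont, γ ∘ₗ e.symm.toLinearMap, BM.isDeg_iff.2 fun j hj c hc => ?_, fun a ha =>
    ⟨pull_mul_Zc h1.cont h2.1 (h1.thom_prop h2) ha, ?_⟩⟩
  · obtain ⟨b, rfl⟩ := e.surjective c
    have h3 := Hc.comp_map (f := e.toLinearMap)
      (fun _ _ => Hc.pullMul_deg h1.cont h2.1 (h1.thom_prop h2) hd) (2 * d) b
    rw [show Hc.comp _ (e.toLinearMap b) = 0 from Hc.comp_of_ne hc (by push_cast at hj; omega)] at h3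
    show γ (e.symm (e b)) = 0
    rw [e.symm_apply_apply, ← hγ.comp, e.map_eq_zero_iff.1 h3.symm, map_zero]
  · rw [ev_eq, ev_eq, ← Hc.pullMul_cls h1.cont h2.1 (h1.thom_prop h2) ha]
    exact congrArg γ (e.symm_apply_apply _)

/-- The local coefficient of the product with the Euler cocycle. -/
theorem locCo_pull (hs : E.IsSec s) (hr : E.r = k) {p : Y.X → X} (hp : Continuous p)
    {ψ : (Fin d → ℂ) → X} (hψ : PCh ψ) {a : Coch X} (ha : supp (δ a) = ∅) (ha' : supp a ⊆ {ψ 0})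
    (hc : LocCo (pull ψ a) 1) {Φ : (Fin d → ℂ) × (Fin k → ℂ) → Y.T}
    {j : (Fin d → ℂ) → (Fin k → ℂ) →L[ℂ] E.W} (hΦ : ∀ᶠ v in 𝓝 0, Injective (j v) ∧ ∀ w,
      ContinuousAt Φ (v, w) ∧ p (Y.π (Φ (v, w))) = ψ v ∧ s (Φ (v, w)) = j v w) :
    LocCo (pull (fun z => Y.π (Φ (splitL d k z))) (pull p a * hs.eul)) 1 := by
  have c : ∀ v w, ContinuousAt Φ (v, w) →
      ContinuousAt (fun z => Y.π (Φ (splitL d k z))) (Fin.append v w) := fun v w h =>
    Y.cont.continuousAt.comp (h.comp_of_eq (splitL d k).continuous.continuousAt (splitL_append _ _))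
  have h0 := hΦ.self_of_nhds
  rw [map_mul, ← mul_one (1 : ℂ)]
  refine LocCo.mul ?_ ?_ ((show IsDeg (2 * k) hs.eul from hr ▸ hs.isCo.deg).pull _) ?_ ?_
  · filter_upwards [hΦ, hψ] with v h1 h2
    have h3 := hp.continuousAt.comp (c v 0 (h1.2 0).1)
    rw [pull_pull, δ_pull]
    refine ⟨Van.pull h3 (supp_eq_empty.1 ha _), fun h4 => Van.pull h3 fun h5 => h4 (h2.2 ?_)⟩
    have h6 : p (Y.π (Φ (splitL d k (Fin.append v 0)))) = ψ 0 := ha' h5
    rwa [splitL_append, (h1.2 0).2.1] at h6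
  · filter_upwards [(continuous_fst.tendsto' (0 : (Fin d → ℂ) × (Fin k → ℂ)) 0 rfl).eventually hΦ]
      with w h1
    have h3 := c w.1 w.2 (h1.2 _).1
    rw [δ_pull]
    refine ⟨Van.pull h3 (supp_eq_empty.1 hs.isCo.cocycle _), fun h4 => Van.pull h3 fun h5 => h4 ?_⟩
    have h6 := hs.mem_zeros.1 (hs.isCo.supp h5)
    rwa [splitL_append, (h1.2 _).2.2, map_eq_zero_iff _ h1.1] at h6
  · rw [pull_pull, pull_pull]
    exact hc.pull_congr (hΦ.mono fun v h => by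
      simp only [comp_apply, splitL_append, (h.2 0).2.1])
  · rw [pull_pull]
    refine (locCo_eul_one hs hr (φ := fun w => Φ (0, w)) (.of_forall fun w =>
      (h0.2 w).1.comp (f := fun w => (0, w)) (by fun_prop)) ((h0.2 0).2.2.trans (map_zero _))
      (L := j 0) ?_ h0.1).pull_congr (.of_forall fun w => by simp only [comp_apply, splitL_append])
    rw [show (fun z => s (Φ (0, z))) = j 0 from funext fun a => (h0.2 a).2.2]
    exact (j 0).hasFDerivAt

/-- A continuous shear is a positive germ. -/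
theorem posGerm_shear {e : (Fin d → ℂ) → Fin k → ℂ} (h0 : e 0 = 0)
    (hc : ∀ᶠ v in 𝓝 0, ContinuousAt e v) :
    PosGerm fun z => (splitL d k).symm ((splitL d k z).1, e (splitL d k z).1 + (splitL d k z).2) := by
  let H : I × (Fin (d + k) → ℂ) → Fin (d + k) → ℂ := fun w => (splitL d k).symm
    ((splitL d k w.2).1, ((w.1 : ℝ) : ℂ) • e (splitL d k w.2).1 + (splitL d k w.2).2)
  have c1 : Continuous fun z => (splitL d k z).1 := by fun_prop
  have h1 : ∀ᶠ z in 𝓝 0, ∀ t, ContinuousAt H (t, z) ∧ (H (t, z) = 0 → z = 0) := by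
    filter_upwards [(c1.tendsto' 0 0 (by simp)).eventually hc] with z hz t
    have c2 : ContinuousAt (fun w : I × (Fin (d + k) → ℂ) => e (splitL d k w.2).1) (t, z) :=
      ContinuousAt.comp (g := e) hz (c1.comp continuous_snd).continuousAt
    have c3 : Continuous fun w : I × (Fin (d + k) → ℂ) => ((w.1 : ℝ) : ℂ) := by fun_prop
    refine ⟨(splitL d k).symm.continuous.continuousAt.comp ((c1.comp continuous_snd).continuousAt.prodMk
      ((c3.continuousAt.smul c2).add (by fun_prop))), fun h => ?_⟩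
    obtain ⟨h2, h3⟩ := Prod.mk_eq_zero.1 ((splitL d k).symm.map_eq_zero_iff.1 h)
    rw [h2, h0, smul_zero, zero_add] at h3
    exact (splitL d k).map_eq_zero_iff.1 (Prod.ext h2 h3)
  have h2 : ∀ z, H (1, z) = (splitL d k).symm
      ((splitL d k z).1, e (splitL d k z).1 + (splitL d k z).2) := fun z => by simp [H]
  refine ⟨⟨by simp [h0], h1.mono fun z hz => ⟨?_, fun h => (hz 1).2 ((h2 z).trans h)⟩⟩,
    posGerm_id.co.homotopy (h := H) (h1.mono fun z hz t => ⟨(hz t).1,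
      supp_eq_empty.1 (tau_cocycle _) _, fun h => tau_van fun h' => h ((hz t).2 h')⟩)
      (fun z => by simp [H]) h2⟩
  rw [← funext h2]
  exact (hz 1).1.comp (f := fun z => (1, z)) (by fun_prop)

end top

/-- The multiplicity of a class of top degree is constant along connected families of regular
points. -/
theorem vl_const {G T X A C : Type} [Group G] [TopologicalSpace G] [TopologicalSpace T]
    [MulAction G T] [TopologicalSpace X] [NormedAddCommGroup A] [NormedSpace ℂ A]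
    [TopologicalSpace C] [PreconnectedSpace C] {n : ℕ} {ι : T → A} {π : T → X} (h : PreOrb G ι)
    (hπ : IsQuo G π) {γ : BM X} (hγ : BM.IsDeg (2 * n) γ) {c : C → T} (hc : Continuous c)
    (hs : ∀ w, c w ∈ h.sm n) {φ φ' : (Fin n → ℂ) → T} (hφ : IsSlice G ι φ) (hφ' : IsSlice G ι φ')
    {w w' : C} (e : φ 0 = c w) (e' : φ' 0 = c w') {μ μ' : ℂ} (v : U.Vl γ (π ∘ φ) μ)
    (v' : U.Vl γ (π ∘ φ') μ') : μ * stab G (φ 0) = μ' * stab G (φ' 0) := by
  have := h.niceX hπ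
  have h1 := h.holOrb_sm n
  have := h1.orb.contSMul
  have h2 := (h.isOpen_sm n).isOpenEmbedding_subtypeVal
  have hq := isQuo_mk (G := G) (T := h.sm n)
  have := h1.niceX hq
  obtain ⟨J, h3⟩ := hq.exists_map hπ (j := Subtype.val) fun _ _ => rfl
  have h4 := hq.isOpenEmbedding hπ h2 (fun _ _ => rfl) h3
  obtain ⟨f, h5, h6⟩ := (h1.ori hq).exists_fn (hγ.res J)
  have key : ∀ (φ : (Fin n → ℂ) → T) (w : C) (μ : ℂ), IsSlice G ι φ → φ 0 = c w →
      U.Vl γ (π ∘ φ) μ → μ * stab G (φ 0) = f (Q.mk G ⟨c w, hs w⟩) := fun φ w μ hφ e v => by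
    obtain ⟨ψ, k4, k5, k6⟩ := hφ.lift_lh (T' := h.sm n) (j := Subtype.val) (t := ⟨c w, hs w⟩)
      (fun _ _ => rfl) (h2.lh _) e
    have g := h1.gch hq k4
    obtain ⟨b, k7, k8⟩ := g.gen
    have k9 := h1.val hq k4 b 1 k7.cyc k7.pt k8
    have k10 := (v.congr (ψ' := J ∘ Q.mk G ∘ ψ) (k6.mono fun z hz =>
      ((h3 _).trans (congrArg π hz)).symm)).res h4 g.pch.cont b 1 k7.cyc k7.pt k8
    rw [← h6, ev_cap_fn h5 _ k7.cyc k7.pt, mul_one, comp_apply, k5] at k10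
    rw [k5, ← stab_of_injective (j := (Subtype.val : h.sm n → T)) Subtype.val_injective
      (fun _ _ => rfl)] at k9
    rw [← k10, e, mul_assoc, mul_comm (ev _ b), k9, mul_one]
  rw [key φ w μ hφ e v, key φ' w' μ' hφ' e' v']
  exact (h5.comp_continuous (hq.cont.comp (hc.subtype_mk hs))).apply_eq_of_preconnectedSpace w w'

end Vale.Agent.P269L.K
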