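import Vale.Agent.P269L.K.Ab
import Vale.Agent.P269L.K.Mu
import Vale.Agent.P269L.K.Pull0

/-!
# The pull-back of a cycle to a bundle of affine spaces
-/

set_option linter.all false

namespace Vale.Agent.P269L.K

open Set Function Topology Filter Module P291Z P269 P269.Holo P269.Orb P269.Ch

section triv

variable {A W P V : Type} [NormedRing A] [NormedAlgebra ℂ A] [NormedAddCommGroup W]
  [NormedSpace ℂ W] [NormedAddCommGroup P] [NormedSpace ℂ P] [NormedAddCommGroup V]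
  [NormedSpace ℂ V] [FiniteDimensional ℂ W] [FiniteDimensional ℂ P] [FiniteDimensional ℂ V]
  {T N : Set W} {T' : Set (W × P)} {k : ℕ} {σ : W → P} {ℓ : W → (Fin k → ℂ) →L[ℂ] P}
  {l : W → P →L[ℂ] Fin k → ℂ} {act : A → W → W} {ρ : A → P → P}

/-- A trivialization over the open set `N`. -/
structure Tv (T : Set W) (T' : Set (W × P)) (N : Set W) (σ : W → P)
    (ℓ : W → (Fin k → ℂ) →L[ℂ] P) (l : W → P →L[ℂ] Fin k → ℂ) : Prop where
  op : IsOpen N
  an : ∀ y ∈ N, AnalyticAt ℂ σ y ∧ AnalyticAt ℂ ℓ y ∧ AnalyticAt ℂ l y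
  inv : ∀ y ∈ N, ∀ e, l y (ℓ y e) = e
  mem : ∀ y ∈ N, ∀ c, (y, c) ∈ T' ↔ y ∈ T ∧ ∃ e, c = σ y + ℓ y e

theorem Aff.tv (h : Aff T T' k) {y : W} (hy : y ∈ T) : ∃ (N : Set W) (σ : W → P)
    (ℓ : W → (Fin k → ℂ) →L[ℂ] P) (l : _), y ∈ N ∧ Tv T T' N σ ℓ l := by
  have := FiniteDimensional.complete ℂ P
  obtain ⟨σ, ℓ, h1, h2, h3, h4⟩ := h.loc y hy
  obtain ⟨q, hq⟩ := (ℓ y).toLinearMap.exists_leftInverse_of_injective (LinearMap.ker_eq_bot.2 h3)
  let q' := LinearMap.toContinuousLinearMap q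
  have h0 : ∀ a, (q' ∘L ℓ y) a = a := LinearMap.congr_fun hq
  have h5 : AnalyticAt ℂ (fun z => q' ∘L ℓ z) y := an_comp analyticAt_const h2
  have h6 : Bijective (q' ∘L ℓ y) :=
    ⟨fun a b e => (h0 a).symm.trans (e.trans (h0 b)), fun a => ⟨a, h0 a⟩⟩
  have h7 : AnalyticAt ℂ (fun z => (q' ∘L ℓ z).inverse ∘L q') y :=
    an_comp ((analyticAt_clm_inverse h6).comp_of_eq h5 rfl) analyticAt_const
  obtain ⟨N, h8, h9, h10⟩ := _root_.eventually_nhds_iff.1 ((h1.eventually_analyticAt.and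
    (h2.eventually_analyticAt.and h7.eventually_analyticAt)).and
      ((eventually_bijective h5.continuousAt h6).and (eventually_nhdsWithin_iff.1 h4)))
  exact ⟨N, σ, ℓ, _, h10, h9, fun z hz => (h8 z hz).1,
    fun z hz e => (isInvertible_of_bijective (h8 z hz).2.1).inverse_apply_self e, fun z hz c =>
      ⟨fun m => ⟨h.mem _ m, ((h8 z hz).2.2 (h.mem _ m) c).1 m⟩,
        fun m => ((h8 z hz).2.2 m.1 c).2 m.2⟩⟩

theorem Tv.li (h : Tv T T' N σ ℓ l) {y : W} (hy : y ∈ N) (e : Fin k → ℂ) :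
    LI T' (T ×ˢ univ) (y, σ y + ℓ y e) (y, e) (fun z => (z.1, l z.1 (z.2 - σ z.1)))
      fun z => (z.1, σ z.1 + ℓ z.1 z.2) := by
  obtain ⟨h1, h2, h3⟩ := h.an y hy
  have h4 : ∀ y ∈ N, ∀ e, l y (σ y + ℓ y e - σ y) = e := fun y hy e => by
    rw [add_sub_cancel_left, h.inv y hy]
  refine ⟨analyticAt_fst.prod (an_apply (h3.comp_of_eq analyticAt_fst rfl)
    (analyticAt_snd.sub (h1.comp_of_eq analyticAt_fst rfl))), analyticAt_fst.prod
      ((h1.comp_of_eq analyticAt_fst rfl).add (an_apply (h2.comp_of_eq analyticAt_fst rfl)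
        analyticAt_snd)), Prod.ext rfl (h4 y hy e), rfl,
    (continuousAt_fst.eventually (h.op.mem_nhds hy)).mono fun z hz m => ?_,
    (continuousAt_fst.eventually (h.op.mem_nhds hy)).mono fun z hz m =>
      ⟨(h.mem _ hz _).2 ⟨m.1, _, rfl⟩, Prod.ext rfl (h4 _ hz _)⟩⟩
  obtain ⟨h5, c, h6⟩ := (h.mem _ hz z.2).1 m
  exact ⟨⟨h5, trivial⟩, Prod.ext rfl (by rw [h6]; exact congrArg (_ + ℓ _ ·) (h4 _ hz c))⟩

/-- The projection. -/
def Aff.pr (h : Aff T T' k) (act : A → W → W) (ρ : A → P → P)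
    (q : Holo.Sp (Tx.act2 act ρ) T') : Holo.Sp act T := .of act q.val.1 (h.mem _ q.val_mem)

theorem Aff.pr_cont (h : Aff T T' k) : Continuous (h.pr act ρ) :=
  (continuous_fst.comp continuous_subtype_val).subtype_mk _

theorem Aff.triv (h : Aff T T' k) {F : Holo.Sp (Tx.act2 act ρ) T' → Submodule ℂ V}
    {s : Holo.Sp (Tx.act2 act ρ) T' → V} {i : V →ₗ[ℂ] P} (hi : Injective i)
    (hF : ∀ q, finrank ℂ (F q) = k) (hs : Continuous s) (hm : ∀ q, s q ∈ F q)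
    (hd : ∀ q q', q.val.1 = q'.val.1 → s q - s q' ∈ F q ∧ i (s q - s q') = q.val.2 - q'.val.2)
    (x : Holo.Sp act T) : ∃ (N : Set W) (σ : W → P) (ℓ : W → (Fin k → ℂ) →L[ℂ] P) (l : _)
      (Θ : Holo.Sp act T × (Fin k → ℂ) → Holo.Sp (Tx.act2 act ρ) T')
      (z : Holo.Sp act T → Fin k → ℂ), x.val ∈ N ∧ Tv T T' N σ ℓ l ∧
      (∀ q, q.val.1 ∈ N → (F q).map i = (ℓ q.val.1).toLinearMap.range) ∧
      ∀ y, y.val ∈ N → ContinuousAt z y ∧ ∀ e, ContinuousAt Θ (y, e) ∧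
        (Θ (y, e)).val = (y.val, σ y.val + ℓ y.val e) ∧ i (s (Θ (y, z y + e))) = ℓ y.val e := by
  classical
  obtain ⟨N, σ, ℓ, l, h1, h2⟩ := h.tv x.val_mem
  have m : ∀ y : Holo.Sp act T, y.val ∈ N → ∀ e, (y.val, σ y.val + ℓ y.val e) ∈ T' :=
    fun y hy e => (h2.mem _ hy _).2 ⟨y.val_mem, e, rfl⟩
  let Θ : Holo.Sp act T × (Fin k → ℂ) → Holo.Sp (Tx.act2 act ρ) T' := fun w =>
    if hw : w.1.val ∈ N then .of _ _ (m _ hw w.2) else .of _ _ (m x h1 0)
  have e1 : ∀ y : Holo.Sp act T, y.val ∈ N → ∀ e,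
      (Θ (y, e)).val = (y.val, σ y.val + ℓ y.val e) := fun y hy e => congrArg _ (dif_pos hy)
  have cv := Holo.Sp.continuous_val (act := act) (S := T)
  have c1 : ∀ y : Holo.Sp act T, y.val ∈ N → ∀ e, ContinuousAt Θ (y, e) := fun y hy e =>
    Holo.Sp.isEmbedding_val.isInducing.continuousAt_iff.2
      (((h2.li hy e).an'.continuousAt.comp_of_eq (cv.prodMap continuous_id).continuousAt rfl).congr
        ((((cv.comp continuous_fst).tendsto (y, e)).eventually (h2.op.mem_nhds hy)).mono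
          fun w hw => (e1 w.1 hw w.2).symm))
  have f1 : ∀ q, q.val.1 ∈ N → (F q).map i = (ℓ q.val.1).toLinearMap.range := fun q hq => by
    refine (Submodule.eq_of_le_of_finrank_eq ?_ ?_).symm
    · rintro _ ⟨e, rfl⟩
      obtain ⟨-, c, hc⟩ := (h2.mem _ hq q.val.2).1 q.val_mem
      have h3 := e1 (h.pr act ρ q) hq (c - e)
      obtain ⟨h4, h5⟩ := hd q _ (congrArg Prod.fst h3).symm
      refine ⟨_, h4, h5.trans ?_⟩
      rw [h3, hc, map_sub]
      exact (add_sub_add_left_eq_sub _ _ _).trans (sub_sub_cancel _ _)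
    · rw [LinearMap.finrank_range_of_inj (LeftInverse.injective (h2.inv _ hq)), finrank_fin_fun,
        finrank_map_of_inj fun w _ => (map_eq_zero_iff i hi).1, hF]
  refine ⟨N, σ, ℓ, l, Θ, fun y => -l y.val (i (s (Θ (y, 0)))), h1, h2, f1, fun y hy =>
    ⟨(((h2.an _ hy).2.2.continuousAt.comp cv.continuousAt).clm_apply
      ((i.continuous_of_finiteDimensional.comp hs).continuousAt.comp ((c1 y hy 0).comp
        (f := fun y => (y, 0)) (by fun_prop)))).neg, fun e => ⟨c1 y hy e, e1 y hy e, ?_⟩⟩⟩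
  have h3 : (Θ (y, 0)).val.1 = y.val := congrArg Prod.fst (e1 y hy 0)
  obtain ⟨c, hc⟩ := (f1 _ (h3.symm ▸ hy)).le ⟨_, hm _, rfl⟩
  rw [h3] at hc
  have h4 : ℓ y.val c = i (s (Θ (y, 0))) := hc
  have h5 := (hd (Θ (y, -c + e)) _ ((congrArg Prod.fst (e1 y hy _)).trans h3.symm)).2
  rw [map_sub, e1 y hy, e1 y hy, ← h4, sub_eq_iff_eq_add] at h5
  simp only [← h4, h2.inv _ hy, h5, map_add, map_neg, map_zero]
  abel

end triv

/-- **The pull-back of a cycle to a bundle of affine spaces.** -/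
theorem lPull : LPull := by
  intro A _ _ _ W _ _ _ P _ _ _ act ρ T T' k _ _ ho₀ ho hρ ha p hp E i s hs hr hi hd t m γ
    ⟨d, hγ, hc⟩
  have := FiniteDimensional.complete ℂ A
  have := FiniteDimensional.complete ℂ W
  have := FiniteDimensional.complete ℂ P
  have := ho₀.proper
  have := ho.proper
  have : LocallyCompactSpace T := ho₀.nice.2
  have : LocallyCompactSpace T' := ho.nice.2
  let _ : MulAction (spA ho).G (Holo.Sp act T) :=
    (inferInstance : MulAction Aˣ (Holo.Sp act T))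
  choose N σ ℓ l Θ z h1 h2 h3 h4 using ha.triv (act := act) (ρ := ρ) (F := E.F) hi
    (fun q => (E.rank q).trans hr) hs.cont hs.mem hd
  obtain ⟨i', hi'⟩ := i.exists_leftInverse_of_injective (LinearMap.ker_eq_bot.2 hi)
  let u := LinearMap.toContinuousLinearMap i'
  have cv := Holo.Sp.continuous_val (act := act) (S := T)
  have cs : Continuous s := hs.cont
  have s1 : ∀ x y, y.val ∈ N x → ∀ e, s (Θ x (y, z x y + e)) = (u ∘L ℓ x y.val) e :=
    fun x y hy e => (LinearMap.congr_fun hi' _).symm.trans (congrArg i' ((h4 x y hy).2 e).2.2)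
  have j1 : ∀ x (y : Holo.Sp act T), y.val ∈ N x → Injective (u ∘L ℓ x y.val) :=
    fun x y hy a b e => LeftInverse.injective ((h2 x).inv _ hy) (((h4 x y hy).2 a).2.2.symm.trans
      ((congrArg i ((s1 x y hy a).trans (e.trans (s1 x y hy b).symm))).trans ((h4 x y hy).2 b).2.2))
  have p1 : ∀ x y, y.val ∈ N x → ∀ e, ha.pr act ρ (Θ x (y, e)) = y := fun x y hy e =>
    Holo.Sp.ext (congrArg Prod.fst ((h4 x y hy).2 e).2.1)
  have inj : ∀ q q', ha.pr act ρ q = ha.pr act ρ q' → s q = s q' → q = q' := fun q q' e e' =>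
    Holo.Sp.ext (Prod.ext (congrArg Holo.Sp.val e) (sub_eq_zero.1
      ((hd q q' (congrArg Holo.Sp.val e)).2.symm.trans (by rw [e', sub_self, map_zero]))))
  have ont : ∀ x q, q.val.1 ∈ N x → ∃ e, Θ x (ha.pr act ρ q, e) = q := fun x q hq =>
    let ⟨_, e, he⟩ := ((h2 x).mem _ hq q.val.2).1 q.val_mem
    ⟨e, Holo.Sp.ext (((h4 x (ha.pr act ρ q) hq).2 e).2.1.trans (Prod.ext rfl he.symm))⟩
  have vb := isVB_aff (Y := spA ho) hs hr (ha.pr_cont (act := act) (ρ := ρ)) (fun q q' e =>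
    Submodule.map_injective_of_injective hi ((h3 _ q (h1 (ha.pr act ρ q))).trans (by
      have e' : (Holo.Sp.val q).1 = (Holo.Sp.val q').1 := congrArg Holo.Sp.val e
      rw [h3 (ha.pr act ρ q) q' (e'.subst (motive := (· ∈ N _)) (h1 _)), e']))) inj fun x =>
    ⟨Holo.Sp.val ⁻¹' N x, fun w => Θ x (w.1, z x w.1 + w.2), fun y => u ∘L ℓ x y.1.val, h1 x,
      (h2 x).op.preimage cv, Eul.isEmbedding_of_left
        (Ψ := fun q => (ha.pr act ρ q, l x (ha.pr act ρ q).val (i (s q))))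
        (IsEmbedding.subtypeVal.prodMap IsEmbedding.id) (continuous_iff_continuousAt.2 fun w =>
          ((h4 x _ w.1.2).2 _).1.comp_of_eq (continuous_fst.subtype_val.continuousAt.prodMk
            (((h4 x _ w.1.2).1.comp_of_eq continuous_fst.subtype_val.continuousAt rfl).add
              continuousAt_snd)) rfl)
        (fun w => ha.pr_cont.continuousAt.prodMk ((((h2 x).an _ w.1.2).2.2.continuousAt.comp_of_eq
          (cv.comp ha.pr_cont).continuousAt (congrArg _ (p1 x _ w.1.2 _))).clm_apply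
            (i.continuous_of_finiteDimensional.comp cs).continuousAt))
        fun w => Prod.ext (p1 x _ w.1.2 _) (by
          simp only [p1 x _ w.1.2, ((h4 x _ w.1.2).2 _).2.2, (h2 x).inv _ w.1.2]; rfl),
      Subset.antisymm (by
        rintro _ ⟨w, rfl⟩
        exact (p1 x _ w.1.2 _).symm.subst (motive := (·.val ∈ N x)) w.1.2) fun q hq =>
        let ⟨e, he⟩ := ont x q hq
        ⟨(⟨_, hq⟩, e - z x _), (congrArg (fun c => Θ x (_, c)) (add_sub_cancel _ _)).trans he⟩,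
      fun w => p1 x _ w.1.2 _, fun w => s1 x _ w.1.2 _, fun y => j1 x _ y.2⟩
  obtain ⟨hpc, γ', g1, g2⟩ : Continuous p ∧ ∃ γ' : BM (Quo (Tx.act2 act ρ) T'),
      BM.IsDeg (2 * (d + k : ℕ)) γ' ∧
        ∀ a ∈ Zc _, pull p a * t ∈ Zc _ ∧ ev γ' (pull p a * t) = ev γ a :=
    exists_pull (Y := spA ho) hs hr ho₀ isQuo_sp (fun _ _ => rfl) vb hp hγ
  refine ⟨γ', ⟨d + k, g1, fun r φ' hφ' => ?_⟩, g2⟩
  obtain ⟨x, hx⟩ : ∃ x, x = ha.pr act ρ (φ' 0) := ⟨_, rfl⟩
  obtain ⟨e₁, q1⟩ := ont x (φ' 0) (hx ▸ h1 _)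
  rw [← hx] at q1
  obtain ⟨n, n1, n2⟩ := mfd_of_prod (((h2 x).li (h1 x) e₁).mfd
    (((h4 x x (h1 x)).2 e₁).2.1 ▸ q1.symm ▸ U.mfd_of_slice ho.finite_stabilizer hφ'))
  obtain ⟨r₀, φ, a1, a2, a3⟩ := U.slice_of_mfd ho₀.finite_stabilizer n2
  obtain ⟨rfl, μ, b1, b2⟩ := hc r₀ φ a1
  rw [finrank_fin_fun] at n1
  obtain rfl : r = r₀ + k := by omega
  obtain rfl : φ 0 = x := Holo.Sp.ext a2
  have a5 := IsSl.isSlK isExp_expU (.of_forall fun _ => cv.continuousAt) (Holo.Sp.holAct _)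
    (Holo.Sp.inf_injective_of_finite (ho₀.finite_stabilizer _)) a1
  set x := φ 0
  have n0 : ∀ᶠ v in 𝓝 0, (φ v).val ∈ N x ∧ ContinuousAt φ v :=
    ((cv.continuousAt.comp a1.cont).eventually ((h2 x).op.mem_nhds (h1 x))).and
      (isSl_eventually_cont a1)
  have sl : ∀ e, IsSlice Aˣ Holo.Sp.val fun w =>
      Θ x (φ ((0, e) + splitL r₀ k w).1, ((0, e) + splitL r₀ k w).2) := fun e => by
    have n3 := (continuous_fst.tendsto ((0 : Fin r₀ → ℂ), e)).eventually n0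
    have n4 := ((h2 x).li (h1 x) e).symm
    refine isSlice_of_isSl (φ := fun w : _ × _ => Θ x (φ w.1, w.2)) (IsSlK.isSl isExp_expU
      (IsSlK.of_fibration (ι' := Holo.Sp.val) (u := ha.pr act ρ) (ρ := id) (lam := .id ℂ A)
      (Φ := Prod.fst) (φ' := fun w => Θ x (φ w.1, w.2)) isExp_expU isExp_expU a5
      (MfdAt.isMfd (((h4 x x (h1 x)).2 e).2.1.symm ▸ n4.mfd (n2.prod (.univ e))) _)
      (Holo.Sp.holAct _) (Holo.Sp.holAct _) (fun _ _ => rfl) (fun _ => rfl) analyticAt_fst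
      (.of_forall fun _ => rfl) (((h4 x x (h1 x)).2 e).1.comp_of_eq
        ((a1.cont.comp_of_eq continuousAt_fst rfl).prodMk continuousAt_snd) rfl)
      ((n4.an.comp_of_eq (((a5.an isExp_expU).comp_of_eq analyticAt_fst rfl).prod analyticAt_snd)
        rfl).congr (n3.mono fun w hw => ((h4 x _ hw.1).2 _).2.1.symm))
      (n3.mono fun w hw => p1 x _ hw.1 _) (fun c b hc h6 => ?_) (by simp [← a3, add_assoc]))) _
    obtain rfl : c = 0 := hc
    rw [map_zero, zero_add, show (fun b => (Θ x (φ (0, b).1, (0, b).2)).val) =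
      fun b => (x.val, σ x x.val + ℓ x x.val b) from funext fun b => ((h4 x x (h1 x)).2 b).2.1,
      ((hasFDerivAt_const _ e).prodMk ((ℓ x x.val).hasFDerivAt.const_add _)).fderiv] at h6
    exact ⟨rfl, ((h2 x).inv _ (h1 x) b).symm.trans
      ((congrArg (fun w => l x x.val w.2) h6).trans (map_zero _))⟩
  have e0 : ∀ e, Θ x (φ ((0, e) + splitL r₀ k 0).1, ((0, e) + splitL r₀ k 0).2) = Θ x (x, e) :=
    fun e => by rw [map_zero, add_zero]
  have z0 : s (Θ x (x, z x x)) = 0 := by simpa using s1 x x (h1 x) 0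
  have z1 : ∀ (g : Aˣ) q, g • ha.pr act ρ q = x → s q = 0 → g • q = Θ x (x, z x x) :=
    fun g q e e' => inj _ _ (e.trans (p1 x x (h1 x) _).symm)
      ((hs.eqv g q).trans ((congrArg _ e').trans ((smul_zero _).trans z0.symm)))
  obtain ⟨μ', v1⟩ := (U.slice_pt preOrb_sp isQuo_sp hφ').2.2 γ'
  obtain ⟨w1, -, w2⟩ := U.slice_pt preOrb_sp isQuo_sp (sl (z x x))
  obtain ⟨μ'', w2⟩ := w2 γ'
  obtain ⟨u1, ⟨a, u2, u3, u4⟩, -⟩ := U.slice_pt preOrb_sp isQuo_sp a1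
  obtain ⟨g3, g4⟩ := g2 a (Zc_of_pt u2 u3)
  have k1 := locCo_pull (Y := spA ho) hs hr hpc u1 u2 u3 u4
    (Φ := fun w => Θ x (φ w.1, z x (φ w.1) + w.2)) (j := fun v => u ∘L ℓ x (φ v).val)
    (n0.mono fun v hv => ⟨j1 x _ hv.1, fun w => ⟨((h4 x _ hv.1).2 _).1.comp_of_eq
      ((hv.2.comp_of_eq continuousAt_fst rfl).prodMk ((((h4 x _ hv.1).1.comp hv.2).comp_of_eq
        continuousAt_fst rfl).add continuousAt_snd)) rfl,
      (hp _).trans (congrArg Holo.Sp.mk (p1 x _ hv.1 _)), s1 x _ hv.1 _⟩⟩)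
  have k2 : supp (pull p a * t) ⊆ {Holo.Sp.mk (Θ x (φ ((0, z x x) + splitL r₀ k 0).1,
      ((0, z x x) + splitL r₀ k 0).2))} := fun y hy => by
    obtain ⟨q, k2, rfl⟩ := hs.isCo.supp (supp_mul _ _ hy).2
    obtain ⟨g, hg⟩ := Holo.Sp.mk_eq_iff.1 ((hp q).symm.trans
      (u3 (supp_pull hpc a (supp_mul _ _ hy).1)))
    exact Holo.Sp.mk_eq_iff.2 ⟨g, (z1 g q hg k2).trans (e0 _).symm⟩
  have k3 := w2 _ 1 g3.2 k2 (Rep.locCo' ⟨_, posGerm_shear (e := fun v => z x (φ v) - z x x)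
    (sub_self _) (n0.mono fun v hv => ((h4 x _ hv.1).1.comp hv.2).sub continuousAt_const),
      .of_forall fun w => congrArg Holo.Sp.mk (by simp [← add_assoc])⟩ (w1.isLoc' g3.2 k2) k1)
  have k4 := vl_const preOrb_sp isQuo_sp g1 (c := fun e => Θ x (x, e))
    (continuous_iff_continuousAt.2 fun e => ((h4 x x (h1 x)).2 e).1.comp (f := fun e => (x, e))
      (by fun_prop)) (fun e => ⟨_, sl e, e0 e⟩) hφ' (sl _) q1.symm (e0 _) v1 w2
  have k5 : stab Aˣ (Θ x (x, z x x)) = stab Aˣ x :=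
    congrArg (fun S : Subgroup Aˣ => Nat.card S) (Subgroup.ext fun g =>
      ⟨fun e => (congrArg (g • ·) (p1 x x (h1 x) _)).symm.trans
        ((congrArg (ha.pr act ρ) e).trans (p1 x x (h1 x) _)),
        fun e => z1 g _ (by rwa [p1 x x (h1 x)]) z0⟩)
  refine ⟨rfl, μ', v1, ?_⟩
  rw [k4, e0, k5, ← mul_one μ'', ← k3, g4, b1 a 1 u2 u3 u4, mul_one]
  exact (congrArg Holo.Sp.val hx).subst (motive := (m · _)) b2

end Vale.Agent.P269L.K
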