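import Vale.Agent.P269L.K.Cb

/-!
# The Gysin pull-back of a class on a cone inside a bundle
-/

set_option linter.unusedSectionVars false

namespace Vale.Agent.P269L.K

open Set Function Topology Filter Module P291Z P287Q.H3 P269 P269.Ch P269.Holo P269.Orb

theorem ev_gys_sec {B E : Type} [TopologicalSpace B] [TopologicalSpace E] [Nice E] {p : E → B}
    (hp : Continuous p) {s : B → E} (hi : IsClosedEmbedding s) (hps : ∀ x, p (s x) = x)
    {t : Coch E} (ht : supp (δ t) = ∅) (hs : supp t ⊆ range s) (β : BM E) {a : Coch B}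
    (ha : a ∈ Zc B) : ev (gys s t β) a = ev β (pull p a * t) := by
  rw [ev_eq, ev_eq, gys_apply, cgys_eq hi ht hs, Hc.gys_eq_pullMul hp hi hps ht hs
    (prop_of_section hi.continuous hps (isClosed_supp t) hs), Hc.pullMul_cls _ _ _ ha]

variable {A W P : Type} [NormedRing A] [NormedAlgebra ℂ A] [NormedAddCommGroup W]
  [NormedSpace ℂ W] [NormedAddCommGroup P] [NormedSpace ℂ P]

/-- `C` is an invariant locally closed part of the bundle `ob` over `Z` containing the zero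
section. -/
structure Cn (act : A → W → W) (ρ : A → P → P) (Z : Set W) (C : Set (W × P))
    (ob : W → Submodule ℂ P) (r : ℕ) : Prop where
  isAct : IsAct act Z
  rho : IsAct ρ univ
  lin : ∀ a, IsUnit a → IsLinearMap ℂ (ρ a)
  orb : Orb Aˣ (Holo.Sp act Z)
  fam : IsFam act ρ Z ⊤ ob r
  inv : ∀ a, IsUnit a → ∀ y ∈ C, Tx.act2 act ρ a y ∈ C
  lc : IsLocallyClosed C
  sub : ∀ y ∈ C, y.1 ∈ Z ∧ y.2 ∈ ob y.1
  zero : ∀ x ∈ Z, (x, 0) ∈ C

namespace Cn

variable [FiniteDimensional ℂ A] [FiniteDimensional ℂ W] [FiniteDimensional ℂ P]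
  {act : A → W → W} {ρ : A → P → P} {Z : Set W} {C : Set (W × P)} {ob : W → Submodule ℂ P} {r : ℕ}
  (h : Cn act ρ Z C ob r)
include h

theorem actC : IsAct (Tx.act2 act ρ) C :=
  ⟨fun z hz => Prod.ext (h.isAct.one _ (h.sub z hz).1) (h.rho.one _ trivial),
    fun a b ha hb z hz => Prod.ext (h.isAct.mul a b ha hb _ (h.sub z hz).1)
      (h.rho.mul a b ha hb _ trivial), h.inv, fun a ha z hz =>
    ((h.isAct.an a ha _ (h.sub z hz).1).comp_of_eq (analyticAt_fst.prod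
      (analyticAt_fst.comp analyticAt_snd)) rfl).prod ((h.rho.an a ha z.2 trivial).comp_of_eq
        (analyticAt_fst.prod (analyticAt_snd.comp analyticAt_snd)) rfl)⟩

theorem orbC : haveI := h.actC; Orb Aˣ (Holo.Sp (Tx.act2 act ρ) C) :=
  haveI := h.actC
  haveI := h.isAct
  haveI := FiniteDimensional.proper ℂ (W × P)
  haveI : LocallyCompactSpace C := h.lc.locallyCompactSpace
  haveI : Nice (Holo.Sp (Tx.act2 act ρ) C) := ⟨inferInstance, inferInstance, inferInstance⟩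
  h.orb.of_map (f := fun z => Holo.Sp.of act z.val.1 (h.sub _ z.val_mem).1)
    ((continuous_fst.comp Holo.Sp.continuous_val).subtype_mk _) fun _ _ => rfl

/-- the base -/
noncomputable abbrev spZ : Ch.Sp := haveI := h.isAct; spA h.orb

/-- the cone -/
noncomputable abbrev spC : Ch.Sp := haveI := h.actC; spA h.orbC

theorem niceZ : Nice (Quo act Z) := inferInstanceAs (Nice h.spZ.X)

theorem niceC : Nice (Quo (Tx.act2 act ρ) C) := inferInstanceAs (Nice h.spC.X)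

/-- the projection -/
noncomputable def pr : Mor h.spC h.spZ :=
  ⟨MonoidHom.id Aˣ, fun z : Holo.Sp (Tx.act2 act ρ) C =>
    Holo.Sp.of act z.val.1 (h.sub _ z.val_mem).1, continuous_id,
    (continuous_fst.comp Holo.Sp.continuous_val).subtype_mk _, fun _ _ => rfl⟩

/-- the zero section -/
noncomputable def zs : Mor h.spZ h.spC :=
  ⟨MonoidHom.id Aˣ, fun z : Holo.Sp act Z =>
    Holo.Sp.of (Tx.act2 act ρ) (z.val, 0) (h.zero _ z.val_mem), continuous_id,
    (Holo.Sp.continuous_val.prodMk continuous_const).subtype_mk _,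
    fun (g : Aˣ) _ => Subtype.ext (Prod.ext rfl (h.lin _ g.isUnit).map_zero.symm)⟩

theorem cont_rho : Continuous fun p : Aˣ × P => ρ p.1 p.2 :=
  continuous_iff_continuousAt.2 fun p => ContinuousAt.comp (g := fun p : A × P => ρ p.1 p.2)
    (f := fun p : Aˣ × P => ((p.1 : A), p.2)) (h.rho.an _ p.1.isUnit _ trivial).continuousAt
    (Units.continuous_val.prodMap continuous_id).continuousAt

/-- the bundle -/
noncomputable def obZ : VB h.spZ :=
  VB.ofLin P (fun g : Aˣ => (h.lin _ g.isUnit).mk' _) (fun w => h.rho.one w trivial)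
    (fun (g g' : Aˣ) w => h.rho.mul _ _ g.isUnit g'.isUnit w trivial) h.cont_rho
    (fun t : Holo.Sp act Z => ob t.val) r h.fam.closed (fun t => h.fam.rank _ t.2)
    fun (g : Aˣ) t w hw => h.fam.inv _ t.2 _ g.isUnit w hw

theorem taut : (h.obZ.pb h.pr).IsSec fun y : Holo.Sp (Tx.act2 act ρ) C => y.val.2 :=
  ⟨fun y => (h.sub _ (Holo.Sp.val_mem (act := Tx.act2 act ρ) y)).2,
    (Holo.Sp.continuous_val (act := Tx.act2 act ρ) (S := C)).snd, fun _ _ => rfl⟩

theorem pr_zs (x : h.spZ.X) : h.pr.map (h.zs.map x) = x := by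
  obtain ⟨t, rfl⟩ := h.spZ.surj x
  rw [Mor.map_π, Mor.map_π]
  rfl

theorem zs_emb : IsClosedEmbedding h.zs.map :=
  (show LeftInverse h.pr.map h.zs.map from h.pr_zs).isClosedEmbedding h.pr.map.continuous
    h.zs.map.continuous

theorem range_zs : h.spC.π '' {t : Holo.Sp (Tx.act2 act ρ) C | t.val.2 = 0} = range h.zs.map := by
  refine Subset.antisymm ?_ ?_
  · rintro _ ⟨t, ht, rfl⟩
    exact ⟨h.spZ.π (h.pr.f t), (h.zs.map_π _).trans (congrArg _ (Subtype.ext
      (Prod.ext rfl (Eq.symm ht))))⟩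
  · rintro _ ⟨x, rfl⟩
    obtain ⟨t, rfl⟩ := h.spZ.surj x
    exact ⟨h.zs.f t, rfl, (h.zs.map_π t).symm⟩

theorem isCo : IsCo (range h.zs.map) r h.taut.eul := h.range_zs ▸ h.taut.isCo

/-- the intersection with the zero section -/
noncomputable def zb (γ : BM (Quo (Tx.act2 act ρ) C)) : BM (Quo act Z) :=
  gys (Y := h.spC.X) h.zs.map h.taut.eul γ

theorem isMod : haveI := h.actC
    IsMod (presA h.orbC) ρ (fun y => ob y.1) (fun _ => ⊥) (h.obZ.pb h.pr) (h.obZ.pb h.pr)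
      LinearMap.id fun _ => LinearMap.id :=
  haveI := h.actC
  ⟨IsEmbedding.id, fun _ => Submodule.map_id _, fun _ _ _ _ => sub_eq_zero.2 rfl, fun _ => bot_le,
    ⟨fun _ _ a => a, continuous_snd.comp continuous_subtype_val, fun _ _ _ _ => rfl⟩,
    fun _ w a => ⟨w, a, rfl⟩, fun _ _ _ => Iff.rfl⟩

theorem ev_zb {t} (ht : IsThomOf (Tx.act2 act ρ) ρ C (fun y => ob y.1) (fun _ => ⊥) t)
    (γ : BM (Quo (Tx.act2 act ρ) C)) {a : Coch (Quo act Z)} (ha : a ∈ Zc _) :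
    ev (h.zb γ) a = ev γ (pull (X := Quo (Tx.act2 act ρ) C) h.pr.map a *
      pull (sec (Tx.act2 act ρ) ρ C (fun y => ob y.1) (fun _ => ⊥) fun y => y.2) t) := by
  haveI := h.actC
  haveI := h.niceC
  have k1 := h.isMod.isCo_sec (σ := fun y => y.2) h.taut
    (fun y => ⟨_, h.taut.mem y, rfl, rfl⟩) ht
  have k2 := h.isMod.cohom_sec (σ := fun y => y.2) h.taut
    (fun y => ⟨_, h.taut.mem y, rfl, rfl⟩) ht
  have k3 := k1.supp.trans h.range_zs.le
  have k4 : Cohom (X := h.spC.X) (range h.zs.map) _ h.taut.eul :=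
    h.range_zs ▸ pull_id h.taut.eul ▸ k2
  exact (congrArg (ev · a) (DFunLike.congr_fun (gys_congr h.zs_emb k1.cocycle k3 h.isCo.cocycle
    h.isCo.supp k4) γ)).symm.trans
      (ev_gys_sec h.pr.map.continuous h.zs_emb h.pr_zs k1.cocycle k3 γ ha)

/-- **The text**: the class is the intersection of the cycle with the zero section. -/
theorem of_text {m : W × P → ℂ → Prop} {b : Pub.Bm (Quo act Z)}
    {β : Pub.Bm (Quo (Tx.act2 act ρ) C)} {e} {π : Quo (Tx.act2 act ρ) C → Quo act Z}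
    (h5 : Tx.IsCyc (Tx.act2 act ρ) C m β)
    (h6 : Pub.IsLoc (Tx.act2 act ρ) ρ C (fun y => ob y.1) (fun _ => ⊥) (fun y => y.2) e)
    (h7 : ∀ y : C, ∃ x : Z, x.1 = y.1.1 ∧ π (Quot.mk _ y) = Quot.mk _ x) (h8 : Pub.IsBM b)
    (h9 : ∀ a, Pub.Zc a → b a = β (Pub.cup (Pub.pull π a) e)) :
    haveI := h.actC
    ∃ γ, U.Cy (Tx.act2 act ρ) C m γ ∧ b = Tf.fn (h.zb γ) := by
  haveI := h.actC
  have o := h.orbC
  haveI := o.proper
  haveI : LocallyCompactSpace C := o.nice.lc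
  obtain ⟨v, rfl⟩ := (Tf.isBM_iff (X := Quo act Z)).1 h8
  obtain ⟨γ, rfl, k⟩ := (U.isCyc_iff o.finite_stabilizer).1 h5
  obtain ⟨t, k', rfl⟩ := Tf.isLoc_iff.1 h6
  obtain rfl : π = h.pr.map := funext (Quot.ind fun y => by
    obtain ⟨x, k1, k2⟩ := h7 y
    exact k2.trans ((congrArg _ (Subtype.ext k1)).trans (h.pr.map_π y).symm))
  refine ⟨γ, k, congrArg _ (BM.ext_ev fun a ha => ?_)⟩
  rw [h.ev_zb k' γ ha]
  exact (Tf.fn_val v a).symm.trans ((h9 a.1 (Tf.zc_val.2 ha)).trans (Tf.fn_val γ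
    (pull (X := Quo (Tx.act2 act ρ) C) h.pr.map a *
      pull (sec (Tx.act2 act ρ) ρ C (fun y => ob y.1) (fun _ => ⊥) fun y => y.2) t)))

end Cn

/-- The normal cone is such a set. -/
theorem Cb.cn {ι : Type} [Fintype ι] [FiniteDimensional ℂ A] [FiniteDimensional ℂ W]
    {act : A → W → W} {ρ : A → (ι → ℂ) → ι → ℂ} {Z : Set W} {M : Set (W × (ι → ℂ))} {n r : ℕ}
    {ob : W → Submodule ℂ (ι → ℂ)} (h : Cb act ρ Z M n)
    (ho : haveI := h.isAct; Orb Aˣ (Holo.Sp act Z)) (hb : IsFam act ρ Z ⊤ ob r)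
    (hs : ∀ y ∈ Tx.Cone Z M, y.2 ∈ ob y.1) : Cn act ρ Z (Tx.Cone Z M) ob r :=
  ⟨h.isAct, h.rho, h.lin, ho, hb, h.actC.mem, h.lc, fun y hy => ⟨hy.1, hs y hy⟩,
    fun _ => h.zero_mem⟩

end Vale.Agent.P269L.K
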