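import Vale.Agent.P269L.K.Gy0
import Vale.Agent.P269L.K.Cv
import Vale.Agent.P269L.K.Ab

/-!
# The intersection with the zero section is compatible with a surjection of obstruction bundles
over a principal bundle
-/

set_option linter.all false

namespace Vale.Agent.P269L.K

open Set Function Topology Filter Module P291Z P269 P269.Ch P269.Holo P269.Orb

variable {A A' W W' P P₂ : Type} [NormedRing A] [NormedAlgebra ℂ A] [NormedRing A']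
  [NormedAlgebra ℂ A'] [NormedAddCommGroup W] [NormedSpace ℂ W] [NormedAddCommGroup W']
  [NormedSpace ℂ W'] [NormedAddCommGroup P] [NormedSpace ℂ P] [NormedAddCommGroup P₂]
  [NormedSpace ℂ P₂] {act : A → W → W} {act' : A' → W' → W'} {ρ : A → P → P} {ρ₂ : A' → P₂ → P₂}
  {Z : Set W} {Z' : Set W'} {C : Set (W × P)} {C₂ : Set (W' × P₂)} {θ : A' →L[ℂ] A}
  {f : W' →L[ℂ] W} {ob : W → Submodule ℂ P} {ob₂ : W' → Submodule ℂ P₂} {r r₂ k : ℕ}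

theorem act2_of (h : IsAct act Z) (h' : IsAct ρ univ) (hs : ∀ y ∈ C, y.1 ∈ Z)
    (hi : ∀ a, IsUnit a → ∀ y ∈ C, Tx.act2 act ρ a y ∈ C) : IsAct (Tx.act2 act ρ) C :=
  ⟨fun z hz => Prod.ext (h.one _ (hs z hz)) (h'.one _ trivial),
    fun a b ha hb z hz => Prod.ext (h.mul a b ha hb _ (hs z hz)) (h'.mul a b ha hb _ trivial), hi,
    fun a ha z hz => ((h.an a ha _ (hs z hz)).comp_of_eq (analyticAt_fst.prod
      (analyticAt_fst.comp analyticAt_snd)) rfl).prod ((h'.an a ha z.2 trivial).comp_of_eq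
        (analyticAt_fst.prod (analyticAt_snd.comp analyticAt_snd)) rfl)⟩

/-- the homomorphism of unit groups -/
noncomputable def Pr.gHom (hp : Pr act' act Z' Z θ f) : A'ˣ →* Aˣ := Units.map ⟨⟨θ, hp.one⟩, hp.mul⟩

theorem Pr.gUnit (hp : Pr act' act Z' Z θ f) {u : A'} (hu : IsUnit u) : IsUnit (θ u) :=
  hu.map (⟨⟨θ, hp.one⟩, hp.mul⟩ : A' →* A)

/-- the morphism of presentations -/
noncomputable def Pr.gMor [IsAct act Z] [IsAct act' Z'] (hp : Pr act' act Z' Z θ f)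
    (o' : Orb A'ˣ (Holo.Sp act' Z'))
    (o : Orb Aˣ (Holo.Sp act Z)) : Mor (spA o') (spA o) :=
  ⟨hp.gHom, fun z : Holo.Sp act' Z' => Holo.Sp.of act (f z.val) (hp.mem _ z.val_mem),
    Units.continuous_map θ.continuous, (f.continuous.comp Holo.Sp.continuous_val).subtype_mk _,
    fun (g : A'ˣ) z => Subtype.ext (hp.eqv _ g.isUnit _ (Holo.Sp.val_mem (act := act') z))⟩

theorem Pr.gCone (hp : Pr act' act Z' Z θ f) (hs : ∀ y ∈ C, y.1 ∈ Z) :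
    Pr (Tx.act2 act' fun u => ρ (θ u)) (Tx.act2 act ρ) {y : W' × P | y.1 ∈ Z' ∧ (f y.1, y.2) ∈ C} C
      θ (f.prodMap (.id ℂ P)) := by
  refine ⟨hp.one, hp.mul, fun _ h => h.2, fun u hu z hz => Prod.ext (hp.eqv u hu _ hz.1) rfl,
    fun z hz z' hz' u hu e => ?_, hp.lift, fun z hz => ?_⟩
  · obtain ⟨v, ⟨a, b, c⟩, d⟩ := hp.tr _ hz.1 _ hz'.1 u hu (congrArg Prod.fst e)
    exact ⟨v, ⟨a, b, Prod.ext c ((congrArg (ρ · z.2) b).trans (congrArg Prod.snd e).symm)⟩,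
      fun w hw => d w ⟨hw.1, hw.2.1, congrArg Prod.fst hw.2.2⟩⟩
  · obtain ⟨s, a, b, c⟩ := hp.sec _ hz.1
    refine ⟨fun y => (s y.1, y.2), (a.comp_of_eq analyticAt_fst rfl).prod analyticAt_snd,
      Prod.ext b rfl, ?_⟩
    filter_upwards [(continuousWithinAt_fst.tendsto_nhdsWithin (t := Z) hs).eventually c,
      self_mem_nhdsWithin] with y h1 h2
    exact ⟨⟨h1.1, h1.2.symm ▸ h2⟩, Prod.ext h1.2 rfl⟩

variable [FiniteDimensional ℂ A] [FiniteDimensional ℂ W] [FiniteDimensional ℂ P]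
  [FiniteDimensional ℂ A'] [FiniteDimensional ℂ W'] [FiniteDimensional ℂ P₂]

theorem orb2_of [IsAct act Z] [IsAct (Tx.act2 act ρ) C] (o : Orb Aˣ (Holo.Sp act Z))
    (hs : ∀ y ∈ C, y.1 ∈ Z) (lc : IsLocallyClosed C) : Orb Aˣ (Holo.Sp (Tx.act2 act ρ) C) :=
  haveI := FiniteDimensional.proper ℂ (W × P)
  haveI : LocallyCompactSpace C := lc.locallyCompactSpace
  haveI : Nice (Holo.Sp (Tx.act2 act ρ) C) := ⟨inferInstance, inferInstance, inferInstance⟩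
  o.of_map (f := fun z => Holo.Sp.of act z.val.1 (hs _ z.val_mem))
    ((continuous_fst.comp Holo.Sp.continuous_val).subtype_mk _) fun _ _ => rfl

theorem Cn.lcZ (h : Cn act ρ Z C ob r) : IsLocallyClosed Z :=
  (show (fun x => (x, (0 : P))) ⁻¹' C = Z from Set.ext fun x =>
    ⟨fun a => (h.sub _ a).1, h.zero x⟩) ▸ h.lc.preimage (by fun_prop)

/-- the pull-back of a cone along a principal bundle -/
theorem Cn.hat (h : Cn act ρ Z C ob r) [i : IsAct act' Z'] (o : Orb A'ˣ (Holo.Sp act' Z'))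
    (lc : IsLocallyClosed Z') (hp : Pr act' act Z' Z θ f) :
    Cn act' (fun u => ρ (θ u)) Z' {y : W' × P | y.1 ∈ Z' ∧ (f y.1, y.2) ∈ C}
      (fun z => ob (f z)) r :=
  ⟨i, ⟨fun x _ => (congrArg (ρ · x) hp.one).trans (h.rho.one x trivial),
      fun a b ha hb x _ => (congrArg (ρ · x) (hp.mul a b)).trans
        (h.rho.mul _ _ (hp.gUnit ha) (hp.gUnit hb) x trivial), fun _ _ _ _ => trivial,
      fun a ha x _ => (h.rho.an _ (hp.gUnit ha) x trivial).comp_of_eq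
        (((θ.analyticAt _).comp analyticAt_fst).prod analyticAt_snd) rfl⟩,
    fun a ha => h.lin _ (hp.gUnit ha), o,
    ⟨fun _ _ => le_top, h.fam.closed.preimage (f := fun z : Z' × P =>
      ((⟨f z.1, hp.mem _ z.1.2⟩ : Z), z.2)) (by fun_prop), fun x hx => h.fam.rank _ (hp.mem x hx),
      fun x hx a ha q hq => hp.eqv a ha x hx ▸ h.fam.inv _ (hp.mem x hx) _ (hp.gUnit ha) q hq⟩,
    fun a ha y hy => ⟨i.mem a ha _ hy.1, by
      have := h.inv _ (hp.gUnit ha) _ hy.2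
      rwa [Tx.act2, ← hp.eqv a ha _ hy.1] at this⟩,
    (lc.preimage continuous_fst).inter (h.lc.preimage (f := fun y : W' × P => (f y.1, y.2))
      (by fun_prop)), fun y hy => ⟨hy.1, (h.sub _ hy.2).2⟩,
    fun x hx => ⟨hx, h.zero _ (hp.mem x hx)⟩⟩

/-- **Restriction along a principal bundle.** -/
theorem Cn.zb_res (hB : LPb) (h : Cn act ρ Z C ob r) (hp : Pr act' act Z' Z θ f)
    (h' : Cn act' (fun u => ρ (θ u)) Z' {y : W' × P | y.1 ∈ Z' ∧ (f y.1, y.2) ∈ C}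
      (fun z => ob (f z)) r) (q : Quo act' Z' → Quo act Z)
    (hq : ∀ z : Z', q (Quo.mk act' z) = Quo.mk act ⟨f z, hp.mem _ z.2⟩) :
    haveI := h.actC
    haveI := h'.actC
    haveI := h.niceZ
    IsOpenEmbedding q ∧ ∀ m γ, U.Cy (Tx.act2 act ρ) C m γ →
      ∃ γ', U.Cy (Tx.act2 act' fun u => ρ (θ u)) _ (fun y => m (f y.1, y.2)) γ' ∧
        h'.zb γ' = res q (h.zb γ) := by
  haveI := h.actC
  haveI := h'.actC
  haveI := h.isAct
  haveI := h'.isAct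
  haveI := h.niceZ
  haveI := h.niceC
  haveI := h'.niceZ
  haveI := h'.niceC
  have p1 := hp.gCone (ρ := ρ) fun y hy => (h.sub y hy).1
  let n : Mor h'.spC h.spC := p1.gMor h'.orbC h.orbC
  have q1 := (hB A A' W W' act act' Z Z' θ f h.orb h'.orb hp q hq).1
  obtain ⟨q2, q3⟩ := hB A A' _ _ _ _ _ _ _ _ h.orbC h'.orbC p1 n.map fun z => n.map_π z
  refine ⟨q1, fun m γ hγ => ⟨_, q3 m γ hγ, ?_⟩⟩
  have i : Iso n (h'.obZ.pb h'.pr) (h.obZ.pb h.pr) fun _ => LinearMap.id :=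
    ⟨Hom.of_continuous (fun _ _ a => a) continuous_snd fun _ _ _ _ => rfl, fun _ _ _ a => a,
      fun _ w a => ⟨w, a, rfl⟩⟩
  have c := (i.cohom_eul h'.taut h.taut fun _ => rfl).mono h'.range_zs.le
  have c1 := cocycle_pull n.map.continuous h.isCo.cocycle
  have c2 := c.symm.supp_subset h'.isCo.supp
  refine (DFunLike.congr_fun (gys_congr h'.zs_emb h'.isCo.cocycle h'.isCo.supp c1 c2 c) _).trans
    (res_gys h.zs_emb h'.zs_emb q2 q1 (fun y => ?_) (fun y hy => ?_) h.isCo.cocycle h.isCo.supp γ).symm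
  · obtain ⟨t, rfl⟩ := h'.spZ.surj y
    exact (congrArg n.map (h'.zs.map_π t)).trans ((n.map_π _).trans
      ((congrArg h.zs.map (hq t)).trans (h.zs.map_π _)).symm)
  · obtain ⟨t, rfl⟩ := h'.spC.surj y
    exact h'.range_zs.le ⟨t, (h.taut.mem_zeros (t := n.f t)).1 (n.map_π t ▸ h.range_zs.ge hy), rfl⟩

/-- **Pull-back along a surjection of bundles.** -/
theorem Cn.zb_pull (hP : LPull) (hB : LPb) {ρ₂ : A → P₂ → P₂} {C₂ : Set (W × P₂)}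
    {ob₂ : W → Submodule ℂ P₂} (h : Cn act ρ Z C ob r) (h₂ : Cn act ρ₂ Z C₂ ob₂ r₂)
    (hr : I.Rep ρ₂) (L : P₂ →L[ℂ] P) (eqv : ∀ u, IsUnit u → ∀ c, L (ρ₂ u c) = ρ u (L c))
    (sur : ∀ z ∈ Z, ∀ ξ, ξ ∈ ob z ↔ ∃ c ∈ ob₂ z, L c = ξ)
    (hC : ∀ y, y ∈ C₂ ↔ y.1 ∈ Z ∧ y.2 ∈ ob₂ y.1 ∧ (y.1, L y.2) ∈ C)
    (ha : Aff C {q : (W × P) × P₂ | (q.1.1, q.2) ∈ C₂ ∧ L q.2 = q.1.2} k) :
    haveI := h.actC
    haveI := h₂.actC
    ∀ m γ, U.Cy (Tx.act2 act ρ) C m γ →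
      ∃ γ₂, U.Cy (Tx.act2 act ρ₂) C₂ (fun y => m (y.1, L y.2)) γ₂ ∧ h₂.zb γ₂ = h.zb γ := by
  haveI := h.actC
  haveI := h₂.actC
  haveI := h.isAct
  haveI := h.niceZ
  haveI := h.niceC
  haveI := h₂.niceC
  intro m γ hγ
  let T := {q : (W × P) × P₂ | (q.1.1, q.2) ∈ C₂ ∧ L q.2 = q.1.2}
  haveI : IsAct (Tx.act2 (Tx.act2 act ρ) ρ₂) T := act2_of h.actC h₂.rho ha.mem fun a u y hy =>
    ⟨h₂.inv a u _ hy.1, (eqv a u _).trans (congrArg (ρ a) hy.2)⟩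
  have o : Orb Aˣ (Holo.Sp (Tx.act2 (Tx.act2 act ρ) ρ₂) T) := orb2_of h.orbC ha.mem
    ((h₂.lc.preimage (f := fun q : (W × P) × P₂ => (q.1.1, q.2)) (by fun_prop)).inter
      (isClosed_eq (by fun_prop) (by fun_prop)).isLocallyClosed)
  haveI : Nice (Quo (Tx.act2 (Tx.act2 act ρ) ρ₂) T) := inferInstanceAs (Nice (spA o).X)
  have b : Hom (Mor.id h.spZ) h₂.obZ h.obZ fun _ => (L : P₂ →ₗ[ℂ] P) :=
    Hom.of_continuous (fun t w a => (sur _ t.2 _).2 ⟨w, a, rfl⟩) (L.continuous.comp continuous_snd)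
      fun (g : Aˣ) _ w _ => eqv _ g.isUnit w
  have k1 : ∀ t : Holo.Sp act Z, finrank ℂ (ob₂ t.val ⊓ LinearMap.ker (L : P₂ →ₗ[ℂ] P) :
      Submodule ℂ P₂) = k := fun t => by
    have a := h.zero _ t.val_mem
    obtain ⟨s, l, -, -, l1, l2⟩ := ha.loc _ a
    have l3 : ∀ c, c ∈ ob₂ t.val ∧ L c = 0 ↔ ∃ e, c = s (t.val, 0) + l (t.val, 0) e := fun c =>
      Iff.trans ⟨fun x => ⟨(hC _).2 ⟨t.val_mem, x.1, x.2.symm ▸ a⟩, x.2⟩,
        fun x => ⟨((hC _).1 x.1).2.1, x.2⟩⟩ (l2.self_of_nhdsWithin a c)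
    obtain ⟨e, l4⟩ := (l3 0).1 ⟨zero_mem _, map_zero _⟩
    rw [show ob₂ t.val ⊓ LinearMap.ker (L : P₂ →ₗ[ℂ] P) =
        LinearMap.range (l (t.val, 0) : (Fin k → ℂ) →ₗ[ℂ] P₂) from Submodule.ext fun c =>
      (l3 c).trans ⟨fun ⟨x, y⟩ => ⟨x - e, by
        rw [y, map_sub, eq_neg_of_add_eq_zero_left l4.symm, neg_add_eq_sub]; rfl⟩,
        fun ⟨x, y⟩ => ⟨e + x, by rw [map_add, ← add_assoc, ← l4, zero_add]; exact y.symm⟩⟩,
      LinearMap.finrank_range_of_inj l1, Module.finrank_fin_fun]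
  have x : Ch.Exact (b.ker k k1) h₂.obZ h.obZ (fun _ => LinearMap.id) fun _ => (L : P₂ →ₗ[ℂ] P) :=
    ⟨Hom.of_continuous (fun _ _ a => a.1) continuous_snd fun _ _ _ _ => rfl, b, fun _ _ _ a => a,
      fun t w a => (sur _ t.2 _).1 a, fun t w hw =>
        ⟨fun a => ⟨w, ⟨hw, a⟩, rfl⟩, by rintro ⟨w, a, rfl⟩; exact a.2⟩⟩
  obtain ⟨R, hR, r1, r2⟩ := eul_split x
  let p : Mor (spA o) h.spC := ⟨MonoidHom.id Aˣ, fun z : Holo.Sp _ T =>
    Holo.Sp.of _ z.val.1 (ha.mem _ z.val_mem), continuous_id,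
    (continuous_fst.comp Holo.Sp.continuous_val).subtype_mk _, fun _ _ => rfl⟩
  have w : (h₂.obZ.pb (h.pr.comp p)).IsSec fun y : Holo.Sp _ T => y.val.2 :=
    ⟨fun y => (h₂.sub _ (Holo.Sp.val_mem (S := T) y).1).2,
      (Holo.Sp.continuous_val (S := T)).snd, fun _ _ => rfl⟩
  have u := (hom_pb hR (h.pr.comp p)).isSec w
  obtain ⟨γ', g1, g2⟩ := hP A _ _ _ ρ₂ C T k h.orbC o hr ha p.map (fun z => p.map_π z) _
    LinearMap.id _ u rfl injective_id (fun q q' e => by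
      have e1 : (h.pr.comp p).f q' = (h.pr.comp p).f q := Subtype.ext (congrArg Prod.fst e).symm
      have e2 : q.val.2 - q'.val.2 ∈ (b.ker k k1).F ((h.pr.comp p).f q) :=
        ⟨sub_mem (w.mem q) (e1 ▸ w.mem q'), (map_sub L _ _).trans (sub_eq_zero.2
          (q.val_mem.2.trans ((congrArg Prod.snd e).trans q'.val_mem.2.symm)))⟩
      have e3 := (map_sub (R _) _ _).symm.trans (r1 _ _ e2)
      rw [e1]
      exact ⟨e3 ▸ e2, e3⟩) m γ hγ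
  have p2 : Pr (Tx.act2 act ρ₂) (Tx.act2 (Tx.act2 act ρ) ρ₂) C₂ T (.id ℂ A)
      (((ContinuousLinearMap.fst ℂ W P₂).prod (L ∘L .snd ℂ W P₂)).prod (.snd ℂ W P₂)) :=
    ⟨rfl, fun _ _ => rfl, fun _ a => ⟨a, rfl⟩, fun a c z _ => Prod.ext (Prod.ext rfl (eqv a c _)) rfl,
      fun z _ z' _ a c e => ⟨a, ⟨c, rfl, Prod.ext (congrArg (·.1.1) e).symm
        (congrArg (·.2) e).symm⟩, fun _ d => d.2.1⟩, fun a c => ⟨a, c, rfl⟩,
      fun z _ => ⟨fun q => (q.1.1, q.2), (analyticAt_fst.comp analyticAt_fst).prod analyticAt_snd,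
        rfl, eventually_mem_nhdsWithin.mono fun q a => ⟨a.1, Prod.ext (Prod.ext rfl a.2) rfl⟩⟩⟩
  let n : Mor h₂.spC (spA o) := p2.gMor h₂.orbC o
  obtain ⟨q2, q3⟩ := hB A A _ _ _ _ _ _ _ _ o h₂.orbC p2 n.map fun z => n.map_π z
  have q4 : range n.map = univ := eq_univ_of_forall fun y => by
    obtain ⟨t, rfl⟩ := (spA o).surj y
    have a := Holo.Sp.val_mem (act := Tx.act2 (Tx.act2 act ρ) ρ₂) (S := T) t
    exact ⟨h₂.spC.π (Holo.Sp.of (Tx.act2 act ρ₂) _ a.1), (n.map_π _).trans (congrArg _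
      (Subtype.ext (Prod.ext (Prod.ext rfl a.2) rfl)))⟩
  refine ⟨_, q3 _ γ' g1, ?_⟩
  obtain ⟨z, c⟩ := r2 _ h₂.pr _ h₂.taut
  have u₂ := (hom_pb hR h₂.pr).isSec h₂.taut
  have s₂ := (hom_pb b h₂.pr).isSec h₂.taut
  have c1 := (iso_pb₂ (b.ker k k1) (m₂ := h₂.pr) (m₁ := h.pr.comp p) n (fun _ => rfl)
    fun _ => rfl).cohom_eul u₂ u fun _ => rfl
  have c2 := (iso_pb₂ h.obZ (m₂ := h₂.pr) (m₁ := h.pr) (p.comp n) (fun _ => rfl)
    fun _ => rfl).cohom_eul s₂ h.taut fun _ => rfl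
  have c3 := (c.trans ((Cohom.mul c2 c1 (cocycle_pull (p.comp n).map.continuous h.isCo.cocycle)
    u₂.isCo.cocycle (c2.symm.supp_subset s₂.isCo.supp) u₂.isCo.supp).mono (by
      rintro y ⟨a, a'⟩
      obtain ⟨t, rfl⟩ := h₂.spC.surj y
      exact ⟨t, z t (s₂.mem_zeros.1 a) (u₂.mem_zeros.1 a'), rfl⟩))).mono h₂.range_zs.le
  refine TPb.gys_eq (p := (p.comp n).map) (τ := pull n.map u.eul) (p.comp n).map.continuous
    (fun a c => ?_) h₂.zs_emb h.zs_emb (fun y => ?_) h.isCo.cocycle h.isCo.supp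
    (cocycle_pull n.map.continuous u.isCo.cocycle) h₂.isCo.supp c3
  · refine Eq.trans (congrArg (ev _) ?_) ((ev_res q2 γ' (g2 a c).1 (q4 ▸ subset_univ _)).trans
      (g2 a c).2)
    refine Eq.trans (congrArg (· * _) ?_) (map_mul _ _ _).symm
    rw [Mor.map_comp]
    exact (pull_pull n.map p.map a).symm
  · obtain ⟨t, rfl⟩ := h.spZ.surj y
    exact (congrArg (p.comp n).map (h₂.zs.map_π t)).trans (((p.comp n).map_π _).trans
      ((congrArg h.spC.π (show (p.comp n).f (h₂.zs.f t) = h.zs.f t from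
        Subtype.ext (Prod.ext rfl (map_zero L)))).trans (h.zs.map_π t).symm))

/-- **`0^! p^! = 0^!` for a roof.** -/
theorem gy (hP : LPull) (hB : LPb) (h : Cn act ρ Z C ob r) (h₂ : Cn act' ρ₂ Z' C₂ ob₂ r₂)
    (hr : I.Rep ρ₂) (hp : Pr act' act Z' Z θ f) (L : P₂ →L[ℂ] P)
    (eqv : ∀ u, IsUnit u → ∀ c, L (ρ₂ u c) = ρ (θ u) (L c))
    (sur : ∀ z ∈ Z', ∀ ξ, ξ ∈ ob (f z) ↔ ∃ c ∈ ob₂ z, L c = ξ)
    (hC : ∀ y, y ∈ C₂ ↔ y.1 ∈ Z' ∧ y.2 ∈ ob₂ y.1 ∧ (f y.1, L y.2) ∈ C)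
    (ha : Aff {y : W' × P | y.1 ∈ Z' ∧ (f y.1, y.2) ∈ C}
      {q : (W' × P) × P₂ | (q.1.1, q.2) ∈ C₂ ∧ L q.2 = q.1.2} k) (q : Quo act' Z' → Quo act Z)
    (hq : ∀ z : Z', q (Quo.mk act' z) = Quo.mk act ⟨f z, hp.mem _ z.2⟩) :
    haveI := h.actC
    haveI := h₂.actC
    haveI := h.niceZ
    IsOpenEmbedding q ∧ ∀ m γ, U.Cy (Tx.act2 act ρ) C m γ →
      ∃ γ₂, U.Cy (Tx.act2 act' ρ₂) C₂ (fun y => m (f y.1, L y.2)) γ₂ ∧
        h₂.zb γ₂ = res q (h.zb γ) := by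
  haveI := h₂.isAct
  have h' := h.hat h₂.orb h₂.lcZ hp
  obtain ⟨a, b⟩ := h.zb_res hB hp h' q hq
  refine ⟨a, fun m γ hγ => ?_⟩
  obtain ⟨γ', c, d⟩ := b m γ hγ
  obtain ⟨γ₂, e, g⟩ := h'.zb_pull hP hB h₂ hr L eqv sur (fun y => (hC y).trans
    ⟨fun x => ⟨x.1, x.2.1, x.1, x.2.2⟩, fun x => ⟨x.1, x.2.1, x.2.2.2⟩⟩) ha _ γ' c
  exact ⟨γ₂, e, g.trans d⟩

/-- The final formula in the words of the text. -/
theorem fin_text {X X₀ X₂ : Type} [TopologicalSpace X] [TopologicalSpace X₀] [TopologicalSpace X₂]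
    [Nice X] [Nice X₀] {q : X₂ → X} {q₀ : X₂ → X₀} (hq : IsOpenEmbedding q) (hs : Surjective q)
    (hq₀ : IsOpenEmbedding q₀) : ∃ h : X → X₀, (∀ x, h (q x) = q₀ x) ∧ IsOpenEmbedding h ∧
      ∀ (v : BM X) (v₀ : BM X₀), res q v = res q₀ v₀ → ∀ a, Pub.Zc a → Pub.supp a ⊆ range h →
        Tf.fn v (Pub.pull h a) = Tf.fn v₀ a := by
  obtain ⟨h, h1, h2, h3⟩ := fin_res hq hs hq₀
  refine ⟨h, h1, h2, fun v v₀ e a ha s => ?_⟩
  obtain ⟨a, k, rfl⟩ := Tf.zc_iff.1 ha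
  exact (Tf.fn_val v (pull h a)).trans ((h3 v v₀ e a k s).trans (Tf.fn_val v₀ a).symm)

end Vale.Agent.P269L.K
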