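import Vale.Agent.P269L.K.Rf1
import Vale.Agent.P269L.K.Gy

/-!
# The virtual classes correspond under a roof
-/

set_option linter.all false

namespace Vale.Agent.P269L.K

open Set Function Topology Filter Module P291Z P287Q.H3 P269 P269.Ch P269.Holo P269.Orb

section

variable {A W W' Ω Γ F R P₂ ι : Type} [NormedRing A] [NormedAlgebra ℂ A]
  [NormedAddCommGroup W] [NormedSpace ℂ W] [NormedAddCommGroup W'] [NormedSpace ℂ W']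
  [NormedAddCommGroup Ω] [NormedSpace ℂ Ω] [NormedAddCommGroup Γ] [NormedSpace ℂ Γ]
  [NormedAddCommGroup F] [NormedSpace ℂ F] [NormedAddCommGroup R] [NormedSpace ℂ R]
  [NormedAddCommGroup P₂] [NormedSpace ℂ P₂] [Fintype ι] {D : Sd A W ι} {Z : Set W'}
  {ob : W' → Submodule ℂ P₂} {f : W' →L[ℂ] W} {L : P₂ →L[ℂ] ι → ℂ} {B : Set Ω} {ω : Ω} {ζ : Ω → W'}
  {ϱ : W' → Ω} {M : Set (Ω × P₂)} {a : W → R} {w : Ω → F} {k : ℕ} {C : Set (W' × P₂)}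

theorem aff_of (hC : ∀ y, y ∈ C ↔ y.1 ∈ Z ∧ y.2 ∈ ob y.1 ∧ (f y.1, L y.2) ∈ D.C)
    (h : ∀ z ∈ Z, ∃ (s : W' → (ι → ℂ) →L[ℂ] P₂) (l : W' → (Fin k → ℂ) →L[ℂ] P₂), AnalyticAt ℂ s z ∧
      AnalyticAt ℂ l z ∧ Injective (l z) ∧ ∀ᶠ z in 𝓝[Z] z, ∀ ξ, (f z, ξ) ∈ D.C → ∀ c,
        (c ∈ ob z ∧ L c = ξ) ↔ ∃ t, c = s z ξ + l z t) :
    Aff {y : W' × (ι → ℂ) | y.1 ∈ Z ∧ (f y.1, y.2) ∈ D.C}
      {q : (W' × (ι → ℂ)) × P₂ | (q.1.1, q.2) ∈ C ∧ L q.2 = q.1.2} k := by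
  refine ⟨fun q c => ⟨((hC _).1 c.1).1, c.2 ▸ ((hC _).1 c.1).2.2⟩, fun y hy => ?_⟩
  obtain ⟨s, l, b1, b2, b3, b4⟩ := h _ hy.1
  refine ⟨fun y => s y.1 y.2, fun y => l y.1, an_apply (b1.comp_of_eq analyticAt_fst rfl)
    analyticAt_snd, b2.comp_of_eq analyticAt_fst rfl, b3, ?_⟩
  filter_upwards [(continuousWithinAt_fst.tendsto_nhdsWithin (t := Z) fun _ c => c.1).eventually b4,
    self_mem_nhdsWithin] with y' c1 c2 c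
  refine .trans ?_ (c1 _ c2.2 c)
  exact ⟨fun e => ⟨((hC _).1 e.1).2.1, e.2⟩,
    fun e => ⟨(hC _).2 ⟨c2.1, e.1, e.2.symm ▸ c2.2⟩, e.2⟩⟩

variable (h : Side D Z ob f L B ω ζ M a w Γ k) (iso : GIso B ω Z (ζ ω) ζ ϱ)
  (hC : ∀ y, y ∈ C ↔ y.1 ∈ Z ∧ y.2 ∈ ob y.1 ∧ (f y.1, L y.2) ∈ D.C) (c : P₂)
include h iso hC

theorem Side.near : ∀ᶠ y in 𝓝 (ζ ω, c),
    (y ∈ C ↔ y.1 ∈ Z ∧ ((ϱ y.1, y.2), (0 : ℂ)) ∈ P269L.D.BM M) ∧ (y.1 ∈ Z → ζ (ϱ y.1) = y.1) := by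
  filter_upwards [continuousAt_fst.eventually (iso.li.fr.and (iso.li.tendsto'.eventually
    (eventually_nhdsWithin_iff.1 h.key)))] with y b
  refine ⟨(hC y).trans (and_congr_right fun e => ?_), fun e => (b.1 e).2⟩
  rw [b.2 (b.1 e).1, (b.1 e).2]
  rfl

theorem Side.anC [FiniteDimensional ℂ Ω] [FiniteDimensional ℂ P₂] (hZ : An Z (ζ ω)) :
    An C (ζ ω, c) :=
  ((An.preimage (a' := (ζ ω, c)) analyticAt_fst hZ).inter (An.preimage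
    (f := fun y : W' × P₂ => (ϱ y.1, y.2)) ((iso.an'.comp_of_eq analyticAt_fst rfl).prod
      analyticAt_snd) (iso.eq'.symm ▸ G.an_lim (ξ := c) h.an :))).congr
    ((h.near iso hC c).mono fun _ b => b.1.symm)

theorem Side.li (hB : ∀ z, a (f (ζ z)) = 0 ∧ w z = 0 → z ∈ B) :
    LI C {q | (q, (0 : ℂ)) ∈ P269L.D.BM M} (ζ ω, c) (ω, c) (fun y => (ϱ y.1, y.2))
      fun q => (ζ q.1, q.2) := by
  refine ⟨(iso.an'.comp_of_eq analyticAt_fst rfl).prod analyticAt_snd,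
    (iso.an.comp_of_eq analyticAt_fst rfl).prod analyticAt_snd, by rw [iso.eq'], rfl,
    (h.near iso hC c).mono fun y b e => ⟨(b.1.1 e).2, Prod.ext (b.2 (b.1.1 e).1) rfl⟩, ?_⟩
  filter_upwards [h.base c, continuousAt_fst.eventually (iso.li.fw.and
    (eventually_nhdsWithin_iff.1 h.key))] with q b1 b2 e
  have b3 := hB _ (b1 e)
  exact ⟨(hC _).2 ⟨(b2.1 b3).1, (b2.2 b3 _).1 e⟩, Prod.ext (b2.1 b3).2 rfl⟩

end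

variable {A A₀ A₃ W W₀ Q P₃ ι ι₀ : Type} [NormedRing A] [NormedAlgebra ℂ A] [NormedRing A₀]
  [NormedAlgebra ℂ A₀] [NormedRing A₃] [NormedAlgebra ℂ A₃] [NormedAddCommGroup W] [NormedSpace ℂ W]
  [NormedAddCommGroup W₀] [NormedSpace ℂ W₀] [NormedAddCommGroup Q] [NormedSpace ℂ Q]
  [NormedAddCommGroup P₃] [NormedSpace ℂ P₃] [Fintype ι] [Fintype ι₀]

theorem rep_three {a : A → W → W} {a₀ : A₀ → W₀ → W₀} {q : A × A₀ × A₃ → Q → Q} (h : I.Rep a)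
    (h₀ : I.Rep a₀) (hq : I.Rep q) : I.Rep fun (u : A × A₀ × A₃) (z : W × W₀ × Q) =>
      (a u.1 z.1, a₀ u.2.1 z.2.1, q u z.2.2) := by
  have := rep_fdA hq
  have := rep_fdW h
  have := rep_fdW h₀
  have := rep_fdW hq
  have u : ∀ {u : A × A₀ × A₃}, IsUnit u → IsUnit u.1 ∧ IsUnit u.2.1 := fun a =>
    ⟨(Prod.isUnit_iff.1 a).1, (Prod.isUnit_iff.1 (Prod.isUnit_iff.1 a).2).1⟩
  refine ⟨inferInstance, fun z => Prod.ext (h.2.1 _) (Prod.ext (h₀.2.1 _) (hq.2.1 _)), fun g hg => ?_⟩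
  have b := h.2.2 _ (u hg).1
  have b₀ := h₀.2.2 _ (u hg).2
  have b₃ := hq.2.2 _ hg
  exact ⟨⟨fun _ _ => Prod.ext (b.1.map_add _ _) (Prod.ext (b₀.1.map_add _ _) (b₃.1.map_add _ _)),
    fun _ _ => Prod.ext (b.1.map_smul _ _) (Prod.ext (b₀.1.map_smul _ _) (b₃.1.map_smul _ _))⟩,
    fun z => ⟨((b.2 z.1).1.comp_of_eq ((an1 analyticAt_fst).prod (an1 analyticAt_snd)) rfl).prod
      (((b₀.2 z.2.1).1.comp_of_eq ((an1 (an2 analyticAt_fst)).prod (an1 (an2 analyticAt_snd)))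
        rfl).prod ((b₃.2 z.2.2).1.comp_of_eq (analyticAt_fst.prod (an2 (an2 analyticAt_snd))) rfl)),
      fun g' hg' => Prod.ext ((b.2 _).2 _ (u hg').1) (Prod.ext ((b₀.2 _).2 _ (u hg').2)
        ((b₃.2 _).2 _ hg'))⟩⟩

namespace Rf.Ok

variable {D : Sd A W ι} {D₀ : Sd A₀ W₀ ι₀} {T : Rf A₃ Q P₃ D D₀} {d d₀ N N₀ v v₀ : ℕ}
  (hO : T.Ok d d₀ N N₀)
include hO

theorem repA : I.Rep T.act := rep_three hO.gd.act hO.gd₀.act hO.repq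

theorem repP : I.Rep T.ρ := rep_three hO.gd.rep hO.gd₀.rep hO.rep₃

/-- The two sides of the roof at a point. -/
theorem sides (hS : T.HasSm N N₀) (hv : ∀ x ∈ D.Z, finrank ℂ (D.van x) = v)
    (hv₀ : ∀ x ∈ D₀.Z, finrank ℂ (D₀.van x) = v₀) {z} (hz : z ∈ T.Z) :
    ∃ (n k k₀ r r₀ : ℕ) (B : Set (Fin n → ℂ)) (ω ζ ϱ M : _) (a : W → Fin r → ℂ)
      (w : _ → Fin N₀ → ℂ) (a₀ : W₀ → Fin r₀ → ℂ) (w₀ : _ → Fin N → ℂ), ζ ω = z ∧ ω ∈ B ∧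
      GIso B ω T.Z (ζ ω) ζ ϱ ∧ (∀ z, a (ζ z).1 = 0 ∧ w z = 0 → z ∈ B) ∧
      Side D T.Z T.ob (.fst ℂ _ _) (.fst ℂ _ _) B ω ζ M a w (Fin k → ℂ) (N₀ + v₀) ∧
      Side D₀ T.Z T.ob (.fst ℂ _ _ ∘L .snd ℂ _ _) (.fst ℂ _ _ ∘L .snd ℂ _ _) B ω ζ M a₀ w₀
        (Fin k₀ → ℂ) (N + v) := by
  have := rep_fdW hO.rep₃
  obtain ⟨n, k, k₀, r, r₀, ω, ζ, ϱ, δ, γ, w, e, γ₀, w₀, e₀, η, a, η₀, a₀, rfl, s⟩ := hS z hz
  obtain ⟨m, m₀, -⟩ := hO.mem _ hz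
  have k1 := s.fr.rank.self_of_nhdsWithin (hO.gd.sub m)
  have k2 := s.fr₀.rank.self_of_nhdsWithin (hO.gd₀.sub m₀)
  rw [hv _ m] at k1
  rw [hv₀ _ m₀] at k2
  have hM : ∀ᶠ z in 𝓝 ω, ∀ c, (z, c) ∈ T.M univ (fun z => (ζ z).1) (fun z => (ζ z).2.1) δ ↔
      η (ζ z).1 c.1 = a (ζ z).1 ∧ η₀ (ζ z).2.1 c.2.1 = a₀ (ζ z).2.1 ∧ c.2.2 = δ z := by
    filter_upwards [s.st.ev, s.st₀.ev, s.st.anπ.continuousAt.eventually s.fr.ev_M,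
      s.st₀.anπ.continuousAt.eventually s.fr₀.ev_M] with z b1 b2 b3 b4 c
    exact ⟨fun h => ⟨((b3 _).1 ⟨b1.1, h.2.1⟩).2, ((b4 _).1 ⟨b2.1, h.2.2.1⟩).2, h.2.2.2.symm⟩,
      fun h => ⟨trivial, ((b3 _).2 ⟨b1.1, h.1⟩).2, ((b4 _).2 ⟨b2.1, h.2.1⟩).2, h.2.2.symm⟩⟩
  have pm : ∀ {X R : Type} [NormedAddCommGroup X] [NormedSpace ℂ X] [FiniteDimensional ℂ X]
      [NormedAddCommGroup R] [NormedSpace ℂ R] {g : (Fin n → ℂ) → X →L[ℂ] R}, AnalyticAt ℂ g ω →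
      AnalyticAt ℂ (fun z => (g z).prodMap (.id ℂ P₃)) ω := fun h =>
    analyticAt_of_apply fun v => (an_apply h analyticAt_const).prod analyticAt_const
  let j : ((ι₀ → ℂ) × (ι → ℂ) × P₃) ≃L[ℂ] (ι → ℂ) × (ι₀ → ℂ) × P₃ :=
    ((ContinuousLinearEquiv.prodAssoc ℂ _ _ _).symm.trans ((ContinuousLinearEquiv.prodComm ℂ _ _).prodCongr
      (.refl ℂ _))).trans (.prodAssoc ℂ _ _ _)
  refine ⟨n, k, k₀, r, r₀, {z | a (ζ z).1 = 0 ∧ w z = 0}, ω, ζ, ϱ, _, a, w, a₀, w₀, rfl,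
    ⟨s.st.zero, congrArg (·.2.2) s.st.iso.eq⟩, s.iso, fun _ b => b,
    side hO.gd (.refl ℂ _) (fun _ => rfl) s.fr s.st (pm (s.fr₀.an.comp_of_eq s.st₀.anπ rfl))
      (s.fr₀.surj.prodMap surjective_id) (hM.mono fun z b ξ c => (b _).trans
        (and_congr_right' (Prod.ext_iff (x := (_, _)) (y := (_, _))).symm)) s.iso
      eventually_mem_nhdsWithin s.lim (fun z b => (hO.mem z b).1) hO.sur
      (fun z b => by rw [hO.rk z b, hv₀ _ (hO.mem z b).2.1, add_assoc]; rfl) ?_,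
    side hO.gd₀ j (fun _ => rfl) s.fr₀ s.st₀ (pm (s.fr.an.comp_of_eq s.st.anπ rfl))
      (s.fr.surj.prodMap surjective_id) (hM.mono fun z b ξ c => (b _).trans
        (and_left_comm.trans (and_congr_right' (Prod.ext_iff (x := (_, _)) (y := (_, _))).symm)))
      s.iso ?_ s.lim (fun z b => (hO.mem z b).2.1) hO.sur₀
      (fun z b => by rw [hO.rk₀ z b, hv _ (hO.mem z b).1, add_assoc]; rfl) ?_⟩
  · simp only [finrank_prod, finrank_fintype_fun_eq_card, Fintype.card_fin] at k2 ⊢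
    omega
  · obtain ⟨G, -, g⟩ := s.st.g1
    obtain ⟨G₀, -, g₀⟩ := s.st₀.g2
    rw [nhdsWithin_univ] at g g₀
    filter_upwards [nhdsWithin_le_nhds (g.and g₀), self_mem_nhdsWithin] with z b c
    have b1 := b.1
    rw [c.1, c.2, Prod.mk_zero_zero, map_zero, Prod.mk_eq_zero] at b1
    exact ⟨b1.1, b.2.trans (by
      rw [b1.1, b1.2, c.1, Prod.mk_zero_zero, Prod.mk_zero_zero, map_zero])⟩
  · simp only [finrank_prod, finrank_fintype_fun_eq_card, Fintype.card_fin] at k1 ⊢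
    omega

end Rf.Ok

theorem lRoof (hS : LSm) (hT : LTop) (hB : LPb) (hP : LPull) : LRoof := by
  intro A A₀ A₃ W W₀ Q P₃ ι ι₀ _ _ _ _ _ _ _ _ _ _ _ _ _ _ _ _ D D₀ T d d₀ N N₀ hO
  have sm := hS _ _ _ _ _ _ _ _ _ D D₀ T d d₀ N N₀ hO
  obtain ⟨o, o₀, o₂, p, p₀, an⟩ := hT _ _ _ _ _ _ _ _ _ D D₀ T d d₀ N N₀ hO sm
  have i := hO.gd.isAct
  have i₀ := hO.gd₀.isAct
  have i₂ : IsAct T.act T.Z := (rep_isAct hO.repA).mono (subset_univ _) hO.inv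
  have := hO.gd.fdA
  have := hO.gd₀.fdA
  have := hO.gd.fdW
  have := hO.gd₀.fdW
  have := rep_fdA hO.repq
  have := rep_fdW hO.repq
  have := rep_fdW hO.rep₃
  have := FiniteDimensional.complete ℂ W
  have := FiniteDimensional.complete ℂ (W × W₀ × Q)
  have := FiniteDimensional.complete ℂ P₃
  have : Nice (Quo D.act D.Z) := (presA (o i)).nice
  have : Nice (Quo D₀.act D₀.Z) := (presA (o₀ i₀)).nice
  let q := p.gMor (o₂ i₂) (o i)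
  let q₀ := p₀.gMor (o₂ i₂) (o₀ i₀)
  obtain ⟨h, h1, h2, h3⟩ := fin_text (X := Quo D.act D.Z) (X₀ := Quo D₀.act D₀.Z)
    (hB A _ W _ _ _ _ _ _ _ (o i) (o₂ i₂) p q.map fun z => q.map_π z).1 (fun x => by
      obtain ⟨x, rfl⟩ := Quot.exists_rep x
      obtain ⟨z, a, b⟩ := hO.onto _ x.2
      exact ⟨Quo.mk _ ⟨z, a⟩, (q.map_π ⟨z, a⟩).trans (congrArg (Quot.mk _) (Subtype.ext b))⟩)
    (hB A₀ _ W₀ _ _ _ _ _ _ _ (o₀ i₀) (o₂ i₂) p₀ q₀.map fun z => q₀.map_π z).1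
  refine ⟨h, fun z hz a b => (congrArg h (q.map_π ⟨z, hz⟩)).symm.trans
    ((h1 _).trans (q₀.map_π ⟨z, hz⟩)), h2, fun β β₀ hβ hβ₀ => ?_⟩
  obtain ⟨v, hv⟩ := hO.gd.rank_const (o i) hβ
  obtain ⟨v₀, r₀, hr₀⟩ := hO.prp.rk
  have sd := fun z (hz : z ∈ T.Z) => hO.sides sm hv (fun x b => (hr₀ x b).1) hz
  have r2 : ∀ z ∈ T.Z, finrank ℂ (T.ob z) = r₀ + N + v := fun z hz => by
    rw [hO.rk₀ z hz, (hr₀ _ (hO.mem z hz).2.1).2, hv _ (hO.mem z hz).1]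
  have c := hO.gd.cn (o i) (r := r₀ + N + v - (N₀ + v₀)) (fun x hx => by
    obtain ⟨z, hz, rfl⟩ := hO.onto x hx
    have := hO.rk z hz
    rw [r2 z hz, (hr₀ _ (hO.mem z hz).2.1).1] at this
    omega) (hO.gd.vir_sub hβ)
  have c₀ := hO.gd₀.cn (o₀ i₀) (fun x b => (hr₀ x b).2) (hO.gd₀.vir_sub hβ₀)
  have hC₀ : ∀ y, y ∈ T.C ↔ y.1 ∈ T.Z ∧ y.2 ∈ T.ob y.1 ∧ (y.1.2.1, y.2.2.1) ∈ D₀.C :=
    fun ⟨z, y⟩ => and_congr_right fun hz => by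
      obtain ⟨_, _, _, _, _, B, ω, ζ, ϱ, M, a, w, a₀, w₀, rfl, b, -, -, s, s₀⟩ := sd z hz
      exact (s.key.self_of_nhdsWithin b y).symm.trans (s₀.key.self_of_nhdsWithin b y)
  have aC : ∀ y ∈ T.C, An T.C y := fun ⟨z, y⟩ hy => by
    obtain ⟨_, _, _, _, _, B, ω, ζ, ϱ, M, a, w, a₀, w₀, rfl, -, b, -, s, -⟩ := sd z hy.1
    exact s.anC b (fun _ => Iff.rfl) y (an _ hy.1)
  have c₂ : Cn T.act T.ρ T.Z T.C T.ob (r₀ + N + v) := ⟨i₂, rep_isAct hO.repP, rep_lin hO.repP, o₂ i₂,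
    ⟨fun _ _ => le_top, hO.clo, r2, fun z hz u hu => hO.invo u hu z hz⟩, fun u hu y hy =>
      ⟨hO.inv u hu _ hy.1, hO.invo u hu _ hy.1 _ hy.2.1,
        hO.gd.invC _ (Prod.isUnit_iff.1 hu).1 _ hy.2.2⟩, isLocallyClosed_of_an aC,
    fun y hy => ⟨hy.1, hy.2.1⟩, fun z hz => ⟨hz, zero_mem _, hO.gd.zero_mem (hO.mem z hz).1⟩⟩
  obtain ⟨γ, g1, rfl⟩ := hO.gd.vir_zb c hβ
  obtain ⟨γ₀, g2, rfl⟩ := hO.gd₀.vir_zb c₀ hβ₀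
  obtain ⟨γ', g3, g4⟩ := (gy hP hB c c₂ hO.repP p (.fst ℂ _ _) (fun _ _ _ => rfl) hO.sur
    (fun _ => Iff.rfl) (aff_of (k := N₀ + v₀) (fun _ => Iff.rfl) fun z hz => by
      obtain ⟨_, _, _, _, _, B, ω, ζ, ϱ, M, a, w, a₀, w₀, rfl, -, -, -, s, -⟩ := sd z hz
      exact s.aff) q.map fun z => q.map_π z).2 _ γ g1
  obtain ⟨γ'', g5, g6⟩ := (gy hP hB c₀ c₂ hO.repP p₀ (.fst ℂ _ _ ∘L .snd ℂ _ _) (fun _ _ _ => rfl)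
    hO.sur₀ hC₀ (aff_of (k := N + v) hC₀ fun z hz => by
      obtain ⟨_, _, _, _, _, B, ω, ζ, ϱ, M, a, w, a₀, w₀, rfl, -, -, -, -, s⟩ := sd z hz
      exact s.aff) q₀.map fun z => q₀.map_π z).2 _ γ₀ g2
  have := c₂.actC
  have := c₂.orbC.proper
  have : LocallyCompactSpace T.C := c₂.orbC.nice.lc
  have e : γ' = γ'' := U.Cy.unique (m := fun y m => Tx.Mul D.M (y.1.1, y.2.1) m ∨
      Tx.Mul D₀.M (y.1.2.1, y.2.2.1) m) c₂.orbC aC (fun n ⟨z, y⟩ hy => by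
    obtain ⟨_, _, _, _, _, B, ω, ζ, ϱ, M, a, w, a₀, w₀, rfl, -, b, b', s, s₀⟩ := sd z hy.mem.1
    have k1 := (s.li b (fun _ => Iff.rfl) y b').mfd hy
    obtain ⟨t, Φ, Ψ, k2, k3⟩ := s.iso y k1.mem
    obtain ⟨t₀, Φ₀, Ψ₀, k4, k5⟩ := s₀.iso y k1.mem
    obtain ⟨n', -, k6⟩ := mfd_of_prod ((k2.li.sf k3).mfd k1)
    obtain ⟨m, m₀, -⟩ := hO.mem _ hy.mem.1
    have k7 := lMul W W₀ _ _ _ ι ι₀ D.M D₀.M _ _ _ _ _ _ _ _ _ _ _ _ _ (hO.gd.mfdM m)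
      (hO.gd₀.mfdM m₀) k2 k3 k4 k5 k6
    obtain ⟨μ, -, k8⟩ := hO.gd.mul (k6.congr ((hO.gd.near m).mono fun _ a => a.symm))
    have k9 : ∀ x, Tx.Mul D.M ((ζ ω).1, y.1) x ∨ Tx.Mul D₀.M ((ζ ω).2.1, y.2.1) x → x = μ :=
      fun x hx => (k8 x).1 (hx.elim id (k7 x).2)
    exact fun x x' a a' => (k9 x a).trans (k9 x' a').symm)
    (g3.imp fun _ a => ⟨a.1, fun r φ b => ⟨(a.2 r φ b).1, (a.2 r φ b).2.imp fun _ e =>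
      ⟨e.1, .inl e.2⟩⟩⟩)
    (g5.imp fun _ a => ⟨a.1, fun r φ b => ⟨(a.2 r φ b).1, (a.2 r φ b).2.imp fun _ e =>
      ⟨e.1, .inr e.2⟩⟩⟩)
  exact h3 _ _ (g4.symm.trans (e ▸ g6))

end Vale.Agent.P269L.K
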