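import Vale.Agent.P269L.K.Z1

/-!
# The roof is invariant
-/

set_option linter.unusedSectionVars false
set_option maxSynthPendingDepth 3

noncomputable section

namespace Vale.Agent.P269L.K.Z2

open Set Function Topology Filter Module MvPolynomial P269 P269.Ch P269.Base P269.Holo I

variable {N c : ℕ} {F : Fin c → MvPolynomial (Fin (N + 1)) ℂ} {A W U ι Λ : Type} [NormedRing A]
  [NormedAlgebra ℂ A] [NormedAddCommGroup W] [NormedSpace ℂ W] [NormedAddCommGroup U]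
  [NormedSpace ℂ U] [Fintype ι] [DecidableEq ι] {M : ι → ℕ} {r n : ℕ} {s : Su A W U ι Λ M r n F}
  {u : A} {u₀ : s.ch.A (Fin n)} {x : W} {x₀ : s.ch.W (Fin n)} {Γ : Set (V s.MM)}

theorem ac_ci : Ac (ci F).act :=
  ⟨fun _ => funext fun _ => by simp [Tgt.act], fun _ _ _ => funext fun _ => by
    simp [Tgt.act, mul_zpow, Finset.prod_mul_distrib, mul_assoc], fun _ _ =>
    analyticAt_pi_iff.2 fun j => analyticAt_const.mul (analyticAt_pi_iff.1 analyticAt_id j)⟩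

theorem mem (z) (hz : z ∈ s.rf.Z) : z.1 ∈ s.sd₁.Z ∧ z.2.1 ∈ s.sd₀.Z ∧ z.2.2 ∈ s.rf.O :=
  let ⟨a, b, _, _, c, d⟩ := hz
  ⟨a, b, c.1, d.1⟩

theorem LR_ext {q q' : V s.MM} (a : s.L q = s.L q') (b : s.R q = s.R q') : q = q' :=
  funext fun i => by
    obtain i | i := i
    exacts [congrFun a i, congrFun b i]

variable (h : s.Ok)
include h

theorem tr_inv (u : Aˣ) (u₀ : (s.ch.A (Fin n))ˣ) (q : V s.MM) :
    tr s u u₀ (tr s u⁻¹.1 u₀⁻¹.1 q) = q :=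
  LR_ext (by rw [L_tr h u.isUnit, L_tr h u⁻¹.isUnit, rep_inv' (rε h.nf)])
    (by rw [R_tr, R_tr, rep_inv' (rε h.nf₀)])

/-- The translate of a graph. -/
theorem jt_act (hu : IsUnit u) (hu₀ : IsUnit u₀) (hx : x ∈ s.Z) (hx₀ : x₀ ∈ s.Z₀)
    (a : s.Jt x x₀ Γ) : s.Jt (s.D.α u x) (s.D₀.α u₀ x₀) (tr s u u₀ '' Γ) := by
  obtain ⟨φ, a, rfl⟩ := a
  obtain ⟨u, rfl⟩ := hu
  obtain ⟨u₀, rfl⟩ := hu₀
  have b := iso_act h.nf ac_ci u⁻¹.isUnit (act_sol h.nf u.isUnit hx)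
  rw [rep_inv h.nf.eqv.1] at b
  have d := Nr.iso_comp ac_tor ac_tor ac_tor ac_ci (sat h.nf₀ hx₀.1) (p_mem h.nf₀ hx₀.1)
    (Nr.iso_comp ac_tor ac_tor ac_tor ac_ci (sat h.nf hx.1) (p_mem h.nf hx.1) b a)
    (iso_act h.nf₀ ac_ci u₀.isUnit hx₀)
  refine ⟨_, d, Set.ext fun q => ⟨?_, fun ⟨k1, k2⟩ => ⟨_, ⟨?_, ?_⟩, tr_inv h u u₀ q⟩⟩⟩
  · rintro ⟨q, ⟨k1, k2⟩, rfl⟩
    rw [mem_ofPred_eq, L_tr h u.isUnit, R_tr, rep_inv (rε h.nf), act_C h.nf u.isUnit hx.1]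
    exact ⟨mem_image_of_mem _ k1, same_orb.1 (same_eps h.nf₀ u₀.isUnit (same_orb.2 k2))⟩
  · rw [L_tr h u⁻¹.isUnit]
    exact (b.1 _ k1).1
  · have := same_eps h.nf₀ u₀⁻¹.isUnit (same_orb.2 k2)
    rw [rep_inv (rε h.nf₀)] at this
    rw [L_tr h u⁻¹.isUnit, R_tr]
    exact same_orb.1 this

theorem inv (u) (hu : IsUnit u) : ∀ z ∈ s.rf.Z, s.rf.act u z ∈ s.rf.Z :=
  fun _ ⟨k1, k2, _, k3, k4, k5⟩ =>
  have a := Prod.isUnit_iff.1 hu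
  have b := Prod.isUnit_iff.1 a.2
  have c := Prod.isUnit_iff.1 b.2
  ⟨act_sol h.nf a.1 k1, act_sol h.nf₀ b.1 k2, _, jt_act h a.1 b.1 k1 k2 k3,
    hp_tr k4 c.1 (sb_surj h a.1 b.1) val_sb, hp_tr k5 c.2 (sb_surj h a.1 b.1) val_sb⟩

end Vale.Agent.P269L.K.Z2
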