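import Vale.Agent.P269L.K.Un
import Vale.Agent.P269L.K.Roof
import Vale.Agent.P269L.K.Psi1
import Vale.Agent.P269L.K.Pull
import Vale.Agent.P269L.K.Inv
import Vale.Agent.P269L.K.Z2
import Vale.Agent.P269L.K.Ob36d
import Vale.Agent.P269L.K.Ob27b
import Vale.Agent.P269L.K.Dim
import Vale.Agent.P269L.K.Ex

/-!
# The roof over a presentation and the chart, and the comparison of the integrals
-/

set_option linter.all false
set_option maxSynthPendingDepth 3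

namespace Vale.Agent.P269L.K

open Set Function Topology Filter Module MvPolynomial P291Z P269 P269.Base P269.Ch I

section

variable {N c : ℕ} {F : Fin c → MvPolynomial (Fin (N + 1)) ℂ} {A W U ι Λ : Type} [NormedRing A]
  [NormedAlgebra ℂ A] [NormedAddCommGroup W] [NormedSpace ℂ W] [NormedAddCommGroup U]
  [NormedSpace ℂ U] [Fintype ι] [DecidableEq ι] {M : ι → ℕ} {r n : ℕ} (s : Su A W U ι Λ M r n F)

/-- Every point of the roof has a local model. -/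
def Su.HasLm : Prop := ∀ z ∈ s.rf.Z, ∃ (m m₀ : ℕ)
  (ς : W × (Fin (finrank ℂ s.ch.Fld) → ℂ) → s.ch.W (Fin n) × s.Q) (δ : _)
  (w₀ : _ → Fin (finrank ℂ U * s.hA) → ℂ) (η : W → (Fin r → ℂ) →L[ℂ] Fin m → ℂ) (a : _)
  (η₀ : s.ch.W (Fin n) → (Fin s.r₀ → ℂ) →L[ℂ] Fin m₀ → ℂ) (a₀ : _),
    ς (z.1, 0) = z.2 ∧ s.rf.Lm z.1 ς δ w₀ η a η₀ a₀

variable {s}

theorem Su.Ok.rf_ok (hs : s.Ok)
    (csq : ∀ j (u : s.ch.A (Fin n)) μ, s.cs j (sub u _ μ) = sub u _ (s.cs j μ)) (hE : s.HasEx)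
    (ne : s.Z.Nonempty) (loc : s.HasLm) :
    s.rf.Ok s.D.d s.D₀.d (finrank ℂ U * s.hA) (finrank ℂ s.ch.Fld) :=
  let ⟨_, hF⟩ := hs.sm
  let ⟨x, hx⟩ := ne
  let ⟨_, hz, _⟩ := hE.1 x hx
  ⟨hs.nf.gd_ci hF, hs.nf₀.gd_ci hF, hs.prp, Z2.repq hs, Z2.rep₃ hs, Z2.invO hs, Z2.prop₃ hs,
    Z2.mem, Z2.inv hs, hE.1, Tr.t1 hs hE, Tr.t0 hs hE, hs.clo hE, Iv.invo hs hE csq,
    fun _ a => (O7.ob hs hE a).1, fun _ a => (O7.ob hs hE a).2.1, fun _ a => (O7.ob hs hE a).2.2.1,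
    fun _ a => (O7.ob hs hE a).2.2.2, Su.dim hs hx.1 hz.2.1.1, loc⟩

end

/-- The local models exist. -/
def LLoc : Prop := AllS fun {_ _ _ _ _ _ _ _} _ _ _ _ _ _ _ _ {_ _ _} s => s.HasEx → s.HasLm

/-- The points of the chart of class `β` come from the roof. -/
def LOc : Prop := AllS fun {_ _ F _ _ _ _ _} _ _ _ _ _ _ _ _ {_ _ _} s => s.HasEx →
  ∀ β : Pub.Bm (ci F).X, Occ s.D (ci F).act (ci F).cone (Quo.mk (ci F).act) s.g β →
    ∀ x₀ ∈ s.Z₀, Cls tor (crv x₀) (Quo.mk (ci F).act) (fld x₀) β → ∃ z ∈ s.rf.Z, z.2.1 = x₀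

theorem lCmp_of (hL : LLoc) (hO : LOc) : LCmp := by
  intro N c F A W U ι Λ _ _ _ _ _ _ _ _ M r n s hs csq hc ne β occ z₁ h1 l z z₀ hl a a₀
  have hE := s.hasEx hs (s.hasTh hs hc)
  have k := hs.rf_ok csq hE ne (hL N c F A W U ι Λ M r n s hs csq hE)
  exact Su.itg_eq hs k lSm lTop (lRoof lSm lTop lPb lPull) (Su.psi hs hE k)
    (hO N c F A W U ι Λ M r n s hs csq hE β occ) h1 hl a a₀

end Vale.Agent.P269L.K
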