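import Vale.Agent.P269L.D.Mf

/-!
# Isomorphisms of germs of one-parameter deformations
-/

open Filter Topology Set Function
open Vale.Agent.P269.Holo

set_option linter.unusedSectionVars false

noncomputable section

namespace Vale.Agent.P269L.K

variable {X X' X'' N : Type} [NormedAddCommGroup X] [NormedSpace ℂ X] [NormedAddCommGroup X']
  [NormedSpace ℂ X'] [NormedAddCommGroup X''] [NormedSpace ℂ X''] [NormedAddCommGroup N]
  [NormedSpace ℂ N]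

/-- `Θ`, `Λ` are mutually inverse analytic maps over the line between the germs of `B` at `(x, 0)`
and of `B'` at `(x', 0)`. -/
structure DI (B : Set (X × ℂ)) (B' : Set (X' × ℂ)) (x : X) (x' : X') (Θ : X × ℂ → X')
    (Λ : X' × ℂ → X) : Prop where
  aΘ : AnalyticAt ℂ Θ (x, 0)
  aΛ : AnalyticAt ℂ Λ (x', 0)
  e : Θ (x, 0) = x'
  e' : Λ (x', 0) = x
  h : ∀ᶠ p in 𝓝 (x, (0 : ℂ)), p ∈ B → (Θ p, p.2) ∈ B' ∧ Λ (Θ p, p.2) = p.1
  h' : ∀ᶠ q in 𝓝 (x', (0 : ℂ)), q ∈ B' → (Λ q, q.2) ∈ B ∧ Θ (Λ q, q.2) = q.1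

variable (N) in
/-- The product of a deformation with a vector space. -/
def Pd (B : Set (X × ℂ)) : Set ((X × N) × ℂ) := {p | (p.1.1, p.2) ∈ B}

/-- The special fibre. -/
def Sf (B : Set (X × ℂ)) : Set X := {x | (x, (0 : ℂ)) ∈ B}

theorem mem_Pd {B : Set (X × ℂ)} {p : (X × N) × ℂ} : p ∈ Pd N B ↔ (p.1.1, p.2) ∈ B := Iff.rfl

theorem sf_Pd (B : Set (X × ℂ)) : Sf (Pd N B) = Sf B ×ˢ univ :=
  Set.ext fun _ => (and_iff_left trivial).symm

theorem closure_Pd (B : Set (X × ℂ)) : closure (Pd N B) = Pd N (closure B) :=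
  (IsOpenMap.preimage_closure_eq_closure_preimage (f := fun p : (X × N) × ℂ => (p.1.1, p.2))
    (isOpenMap_fst.prodMap IsOpenMap.id) (by fun_prop) B).symm

namespace DI

variable {B : Set (X × ℂ)} {B' : Set (X' × ℂ)} {B'' : Set (X'' × ℂ)} {x : X} {x' : X'} {x'' : X''}
  {Θ : X × ℂ → X'} {Λ : X' × ℂ → X} {Θ' : X' × ℂ → X''} {Λ' : X'' × ℂ → X'}

theorem refl (B : Set (X × ℂ)) (x : X) : DI B B x x Prod.fst Prod.fst :=
  ⟨analyticAt_fst, analyticAt_fst, rfl, rfl, .of_forall fun _ a => ⟨a, rfl⟩,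
    .of_forall fun _ a => ⟨a, rfl⟩⟩

variable (h : DI B B' x x' Θ Λ)
include h

theorem symm : DI B' B x' x Λ Θ := ⟨h.aΛ, h.aΘ, h.e', h.e, h.h', h.h⟩

theorem an : AnalyticAt ℂ (fun p : X × ℂ => (Θ p, p.2)) (x, 0) := h.aΘ.prod analyticAt_snd

theorem e0 : (Θ (x, 0), (0 : ℂ)) = (x', 0) := by rw [h.e]

theorem tendsto : Tendsto (fun p : X × ℂ => (Θ p, p.2)) (𝓝 (x, 0)) (𝓝 (x', 0)) :=
  h.an.continuousAt.tendsto.mono_right (congrArg 𝓝 h.e0).le

theorem mem_iff : (x, (0 : ℂ)) ∈ B ↔ (x', (0 : ℂ)) ∈ B' :=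
  ⟨fun a => h.e0 ▸ (h.h.self_of_nhds a).1, fun a => h.symm.e0 ▸ (h.h'.self_of_nhds a).1⟩

theorem half (k : DI B' B'' x' x'' Θ' Λ') : ∀ᶠ p in 𝓝 (x, (0 : ℂ)), p ∈ B →
    (Θ' (Θ p, p.2), p.2) ∈ B'' ∧ Λ (Λ' (Θ' (Θ p, p.2), p.2), p.2) = p.1 := by
  filter_upwards [h.h, h.tendsto.eventually k.h] with p a b c
  exact ⟨(b (a c).1).1, by rw [(b (a c).1).2]; exact (a c).2⟩

theorem trans (k : DI B' B'' x' x'' Θ' Λ') :
    DI B B'' x x'' (fun p => Θ' (Θ p, p.2)) fun q => Λ (Λ' q, q.2) :=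
  ⟨k.aΘ.comp_of_eq h.an h.e0, h.aΛ.comp_of_eq k.symm.an k.symm.e0, by simp only [h.e, k.e],
    by simp only [h.e', k.e'], h.half k, k.symm.half h.symm⟩

theorem congr {C : Set (X × ℂ)} {C' : Set (X' × ℂ)} (a : ∀ᶠ p in 𝓝 (x, (0 : ℂ)), p ∈ B ↔ p ∈ C)
    (b : ∀ᶠ p in 𝓝 (x', (0 : ℂ)), p ∈ B' ↔ p ∈ C') : DI C C' x x' Θ Λ := by
  refine ⟨h.aΘ, h.aΛ, h.e, h.e', ?_, ?_⟩
  · filter_upwards [h.h, a, h.tendsto.eventually b] with p k1 k2 k3 k4
    exact ⟨k3.1 (k1 (k2.2 k4)).1, (k1 (k2.2 k4)).2⟩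
  · filter_upwards [h.h', b, h.symm.tendsto.eventually a] with p k1 k2 k3 k4
    exact ⟨k3.1 (k1 (k2.2 k4)).1, (k1 (k2.2 k4)).2⟩

theorem prod (n : N) : DI (Pd N B) (Pd N B') (x, n) (x', n) (fun p => (Θ (p.1.1, p.2), p.1.2))
    fun q => (Λ (q.1.1, q.2), q.1.2) := by
  have a : ∀ {Y : Type} [NormedAddCommGroup Y] [NormedSpace ℂ Y] (y : Y),
      AnalyticAt ℂ (fun p : (Y × N) × ℂ => (p.1.1, p.2)) ((y, n), 0) := fun _ =>
    (analyticAt_fst.comp analyticAt_fst).prod analyticAt_snd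
  exact ⟨(h.aΘ.comp_of_eq (a x) rfl).prod (analyticAt_snd.comp analyticAt_fst),
    (h.aΛ.comp_of_eq (a x') rfl).prod (analyticAt_snd.comp analyticAt_fst),
    Prod.ext h.e rfl, Prod.ext h.e' rfl,
    ((a x).continuousAt.eventually h.h).mono fun _ k l => ⟨(k l).1, Prod.ext (k l).2 rfl⟩,
    ((a x').continuousAt.eventually h.h').mono fun _ k l => ⟨(k l).1, Prod.ext (k l).2 rfl⟩⟩

variable [CompleteSpace X] [CompleteSpace X']

theorem half_closure : ∀ᶠ p in 𝓝 (x, (0 : ℂ)), p ∈ closure B →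
    (Θ p, p.2) ∈ closure B' ∧ Λ (Θ p, p.2) = p.1 := by
  filter_upwards [D.ev_closure (h.an.eventually_analyticAt.mono fun _ b => b.continuousAt)
    (h.h.mono fun _ a b => (a b).1), D.ev_closure (A' := {0}) (A := B)
    (((h.aΛ.comp_of_eq h.an h.e0).fun_sub analyticAt_fst).eventually_analyticAt.mono
      fun _ b => b.continuousAt) (h.h.mono fun _ a b => sub_eq_zero.2 (a b).2)] with p a b c
  have k := b c
  rw [closure_singleton, mem_singleton_iff, sub_eq_zero] at k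
  exact ⟨a c, k⟩

theorem closure : DI (closure B) (closure B') x x' Θ Λ :=
  ⟨h.aΘ, h.aΛ, h.e, h.e', h.half_closure, h.symm.half_closure⟩

/-- The isomorphism persists at the nearby points of the special fibre. -/
theorem eventually : ∀ᶠ y in 𝓝 x, (y, (0 : ℂ)) ∈ B → DI B B' y (Θ (y, 0)) Θ Λ := by
  have c : Tendsto (fun y : X => (y, (0 : ℂ))) (𝓝 x) (𝓝 (x, 0)) :=
    (continuous_id.prodMk continuous_const).tendsto x
  filter_upwards [c.eventually h.aΘ.eventually_analyticAt, c.eventually h.h.eventually_nhds,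
    (h.tendsto.comp c).eventually (h.aΛ.eventually_analyticAt.and h.h'.eventually_nhds)]
    with y a b d k
  exact ⟨a, d.1, rfl, (b.self_of_nhds k).2, b, d.2⟩

theorem mfdAt {n : ℕ} (k : MfdAt (Sf B) n x) : MfdAt (Sf B') n x' := by
  have c : ∀ {Y : Type} [NormedAddCommGroup Y] [NormedSpace ℂ Y] (y : Y),
      AnalyticAt ℂ (fun y : Y => (y, (0 : ℂ))) y := fun _ => analyticAt_id.prod analyticAt_const
  have := k.iso (S' := Sf B') (F := fun y => Θ (y, 0)) (G := fun y => Λ (y, 0))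
    (h.aΘ.comp_of_eq (c x) rfl) (h.aΛ.comp_of_eq (c _) h.e0)
    ((c x).continuousAt.eventually h.h) (by
      simp only [h.e]
      exact (c x').continuousAt.eventually h.h')
  rwa [h.e] at this

theorem mfdAt_iff {n : ℕ} : MfdAt (Sf B) n x ↔ MfdAt (Sf B') n x' := ⟨h.mfdAt, h.symm.mfdAt⟩

end DI

section

variable {W E : Type} [NormedAddCommGroup W] [NormedSpace ℂ W] [NormedAddCommGroup E]
  [NormedSpace ℂ E]

/-- The part of the deformation to the normal cone outside the special fibre. -/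
def Gr (M : Set (W × E)) : Set ((W × E) × ℂ) := {b | b.2 ≠ 0 ∧ (b.1.1, b.2 • b.1.2) ∈ M}

theorem BM_eq (M : Set (W × E)) : D.BM M = closure (Gr M) := rfl

end

end Vale.Agent.P269L.K
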