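import Vale.Agent.P269L.K.Ab

/-!
# Euler classes correspond under a roof
-/

set_option linter.unusedSectionVars false

namespace Vale.Agent.P269L.K

open Set Function Topology Filter Module P291Z P269 P269.Holo P269.Orb P269.Ch

namespace Eu

variable {A A' W W' P : Type} [NormedRing A] [NormedAlgebra ℂ A] [NormedRing A'] [NormedAlgebra ℂ A']
  [NormedAddCommGroup W] [NormedSpace ℂ W] [NormedAddCommGroup W'] [NormedSpace ℂ W']
  [NormedAddCommGroup P] [NormedSpace ℂ P] {act : A → W → W} {act' : A' → W' → W'} {ρ : A → P → P}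
  {Z : Set W} {Z' : Set W'}

theorem fdA (h : I.Rep act) : FiniteDimensional ℂ A :=
  haveI := h.1
  .of_surjective (LinearMap.fst ℂ A W) Prod.fst_surjective

theorem fdW (h : I.Rep act) : FiniteDimensional ℂ W :=
  haveI := h.1
  .of_surjective (LinearMap.snd ℂ A W) Prod.snd_surjective

theorem isAct (h : I.Rep act) (hZ : ∀ u, IsUnit u → ∀ x ∈ Z, act u x ∈ Z) : IsAct act Z :=
  ⟨fun x _ => h.2.1 x, fun a b ha hb x _ => ((h.2.2 a ha).2 x).2 b hb, hZ,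
    fun a ha x _ => ((h.2.2 a ha).2 x).1⟩

theorem cont (h : I.Rep ρ) (q : P) : Continuous fun g : Aˣ => ρ g q :=
  continuous_iff_continuousAt.2 fun g => ContinuousAt.comp (g := uncurry ρ)
    (f := fun g : Aˣ => ((g : A), q)) ((h.2.2 _ g.isUnit).2 q).1.continuousAt
    (Units.continuous_val.prodMk continuous_const).continuousAt

theorem repOn (h : I.Rep ρ) : IsRepOn ρ ⊤ :=
  ⟨fun _ _ _ _ => trivial, fun a ha q _ q' _ => (h.2.2 a ha).1.map_add q q',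
    fun a ha z q _ => (h.2.2 a ha).1.map_smul z q, fun q _ => h.2.1 q,
    fun a b ha hb q _ => ((h.2.2 a ha).2 q).2 b hb, fun q _ => cont h q⟩

/-- The morphism of presentations given by a principal bundle. -/
noncomputable def mor [IsAct act Z] [IsAct act' Z'] (o : Orb Aˣ (Holo.Sp act Z))
    (o' : Orb A'ˣ (Holo.Sp act' Z')) {θ : A' →L[ℂ] A} {f : W' →L[ℂ] W}
    (h : Pr act' act Z' Z θ f) : Mor (spA o') (spA o) :=
  ⟨Units.map ⟨⟨θ, h.one⟩, h.mul⟩, fun z : Holo.Sp act' Z' =>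
    Holo.Sp.of act (f z.val) (h.mem _ z.val_mem), Units.continuous_map θ.continuous,
    (f.continuous.comp Holo.Sp.continuous_val).subtype_mk _,
    fun (g : A'ˣ) (z : Holo.Sp act' Z') => Subtype.ext (h.eqv _ g.isUnit _ z.val_mem)⟩

theorem side [FiniteDimensional ℂ P] [IsAct act Z] (o : Orb Aˣ (Holo.Sp act Z)) {Y : Ch.Sp}
    (m : Mor Y (spA o)) (E : VB Y) (k : E.W →ₗ[ℂ] P) (hρ : I.Rep ρ) {B N : W → Submodule ℂ P}
    {r n : ℕ} (hB : IsFam act ρ Z ⊤ B r) (hN : IsFam act ρ Z ⊤ N n) (hle : ∀ x ∈ Z, N x ≤ B x)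
    (hk : ∀ (g : Y.G) w, k (g • w) = ρ ((presA o).u (m.ρ g)) (k w))
    (hs : ∀ t, (E.F t).map k ⊔ N ((presA o).i (m.f t)) = B ((presA o).i (m.f t))) {e}
    (he : Pub.IsLoc act ρ Z B N (fun _ => 0) e) :
    ∃ (E' : VB (spA o)) (L : Y.T → E.W →ₗ[ℂ] E'.W) (c : Coch (Quo act Z)), Hom m E E' L ∧
      (∀ t w, w ∈ E'.F (m.f t) → ∃ w' ∈ E.F t, L t w' = w) ∧
      (∀ t w, w ∈ E.F t → (L t w = 0 ↔ k w ∈ N ((presA o).i (m.f t)))) ∧ c.1 = e ∧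
      supp (δ c) = ∅ ∧ hcls (X := (spA o).X) c = E'.eu.1 := by
  obtain ⟨E₀, E', ι, M, -, -, h, h1, h2⟩ := exists_isMod (presA o) (repOn hρ) hB hN hle
    (MonoidHom.id _) continuous_id fun _ => rfl
  obtain ⟨κ, hκ⟩ := ι.exists_rightInverse_of_surjective h1
  have k1 : ∀ q, ι (κ q) = q := LinearMap.congr_fun hκ
  have k2 : ∀ t w, w ∈ E.F t → κ (k w) ∈ E₀.F (m.f t) := fun t w hw => by
    obtain ⟨w', a, b⟩ := (h.map (m.f t)).ge ((hs t).le (Submodule.mem_sup_left ⟨w, hw, rfl⟩))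
    rwa [h.emb.injective ((k1 _).trans b.symm)]
  obtain ⟨t, ht, rfl⟩ := Tf.isLoc_iff.1 he
  refine ⟨E', fun t => M (m.f t) ∘ₗ κ ∘ₗ k, _, ⟨fun t w hw => h.hom.mem _ _ (k2 t w hw),
    h.hom.continuous (m.cf.comp (continuous_fst.comp continuous_subtype_val))
      ((κ ∘ₗ k).continuous_of_finiteDimensional.comp (continuous_snd.comp continuous_subtype_val))
      fun x => k2 _ _ x.2, fun g t w hw => ?_⟩, fun t w hw => ?_,
    fun t w hw => (h.ker _ _ (k2 t w hw)).trans (by rw [k1]), rfl,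
    (h.isCo_sec E'.isSec_zero h.exists_zero ht).cocycle,
    ((h.cohom_sec E'.isSec_zero h.exists_zero ht).hcls_eq
      (IsMod.isCo_eul E'.isSec_zero).cocycle).trans
      ((congrArg hcls (pull_id _)).trans E'.isSec_zero.hcls_eul)⟩
  · show M (m.f (g • t)) (κ (k (g • w))) = m.ρ g • M (m.f t) (κ (k w))
    rw [m.eqv, show κ (k (g • w)) = m.ρ g • κ (k w) from h.emb.injective (by rw [k1, h2, k1, hk])]
    exact h.hom.eqv _ _ _ (k2 t w hw)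
  · obtain ⟨w, a, rfl⟩ := h.surj _ w hw
    obtain ⟨_, ⟨w', b, rfl⟩, q, c, d⟩ := Submodule.mem_sup.1 ((hs t).ge (h.mem a))
    refine ⟨w', b, (sub_eq_zero.1 ((map_sub (M _) _ _).symm.trans
      ((h.ker _ _ (sub_mem a (k2 t w' b))).2 ?_))).symm⟩
    rwa [map_sub, k1, ← d, add_sub_cancel_left]

/-- Two quotients with the same kernel have the same Euler class. -/
theorem eu_eq {Y Y₁ Y₀ : Ch.Sp} {m : Mor Y Y₁} {m₀ : Mor Y Y₀} {E : VB Y} {E₁ : VB Y₁} {E₀ : VB Y₀}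
    {L : Y.T → E.W →ₗ[ℂ] E₁.W} {L₀ : Y.T → E.W →ₗ[ℂ] E₀.W} (h : Hom m E E₁ L) (h₀ : Hom m₀ E E₀ L₀)
    (s : ∀ t w, w ∈ E₁.F (m.f t) → ∃ w' ∈ E.F t, L t w' = w)
    (s₀ : ∀ t w, w ∈ E₀.F (m₀.f t) → ∃ w' ∈ E.F t, L₀ t w' = w)
    (k : ∀ t w, w ∈ E.F t → (L t w = 0 ↔ L₀ t w = 0)) :
    H.map m.map E₁.eu.1 = H.map m₀.map E₀.eu.1 := by
  obtain ⟨R, a, b⟩ := h.pb.exists_sect s
  have c : Iso (m₀.comp (Mor.id Y)) (E₁.pb m) E₀ fun t => L₀ t ∘ₗ R t :=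
    ⟨h₀.comp a, fun t w hw e => (b t w hw).symm.trans ((k t _ (a.mem t w hw)).2 e), fun t w hw => by
      obtain ⟨w, d, rfl⟩ := s₀ t w hw
      have d' := h.mem t w d
      exact ⟨_, d', (sub_eq_zero.1 ((map_sub (L₀ t) _ _).symm.trans
        ((k t _ (sub_mem d (a.mem t _ d'))).1
          ((map_sub _ _ _).trans (sub_eq_zero.2 (b t _ d').symm))))).symm⟩⟩
  exact congrArg Subtype.val ((E₁.eu_pb m).symm.trans c.eu)

end Eu

theorem lEu (hS : LSm) (hT : LTop) (hP : LPb) : LEu := by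
  intro A A₀ A₃ W W₀ Q P₃ ι ι₀ _ _ _ _ _ _ _ _ _ _ _ _ _ _ _ _ D D₀ T d d₀ M M₀ hO E _ _ _ E₀ _ _ _ ρ ρ₀
    B N B₀ N₀ B₂ r n r₀ n₀ r₂ hρ hρ₀ hB hN hB₀ hN₀ hB₂ hle hz h hh e e₀ he he₀
  obtain ⟨o, o₀, o₂, p, p₀, -⟩ := hT _ _ _ _ _ _ _ _ _ D D₀ T d d₀ M M₀ hO
    (hS _ _ _ _ _ _ _ _ _ D D₀ T d d₀ M M₀ hO)
  have i := Eu.isAct hO.gd.act hO.gd.invZ
  have i₀ := Eu.isAct hO.gd₀.act hO.gd₀.invZ
  have u : ∀ {u : A × A₀ × A₃}, IsUnit u → IsUnit u.1 ∧ IsUnit u.2.1 := fun a =>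
    ⟨(Prod.isUnit_iff.1 a).1, (Prod.isUnit_iff.1 (Prod.isUnit_iff.1 a).2).1⟩
  have i₂ : IsAct T.act T.Z := ⟨fun z _ => Prod.ext (hO.gd.act.2.1 _) (Prod.ext (hO.gd₀.act.2.1 _)
    (hO.repq.2.1 _)), fun a b ha hb z _ => Prod.ext (((hO.gd.act.2.2 _ (u ha).1).2 _).2 _ (u hb).1)
      (Prod.ext (((hO.gd₀.act.2.2 _ (u ha).2).2 _).2 _ (u hb).2) (((hO.repq.2.2 _ ha).2 _).2 _ hb)),
    hO.inv, fun a ha z _ => (((hO.gd.act.2.2 _ (u ha).1).2 _).1.comp_of_eq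
      ((analyticAt_fst.comp analyticAt_fst).prod (analyticAt_fst.comp analyticAt_snd)) rfl).prod
      ((((hO.gd₀.act.2.2 _ (u ha).2).2 _).1.comp_of_eq
        ((analyticAt_fst.comp (analyticAt_snd.comp analyticAt_fst)).prod
          (analyticAt_fst.comp (analyticAt_snd.comp analyticAt_snd))) rfl).prod
      (((hO.repq.2.2 _ ha).2 _).1.comp_of_eq (analyticAt_fst.prod
        (analyticAt_snd.comp (analyticAt_snd.comp analyticAt_snd))) rfl))⟩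
  have f1 := Eu.fdA hO.gd.act
  have f2 := Eu.fdA hO.repq
  have f3 := Eu.fdW hO.gd.act
  have f4 := Eu.fdW hO.gd₀.act
  have f5 := Eu.fdW hO.repq
  let m := Eu.mor (o i) (o₂ i₂) p
  let m₀ := Eu.mor (o₀ i₀) (o₂ i₂) p₀
  have v : ∀ g : (A × A₀ × A₃)ˣ, IsUnit g.1.1 ∧ IsUnit g.1.2.1 := fun g => u g.isUnit
  obtain ⟨E₁, j, j1, j2, -, j3⟩ := exists_rep (Y := spA (o₂ i₂)) (P₀ := ⊤)
    (ρ := fun (u : A × A₀ × A₃) (c : E × E₀) => (ρ u.1 c.1, ρ₀ u.2.1 c.2))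
    ⟨fun _ _ _ _ => trivial, fun a ha _ _ _ _ => Prod.ext ((hρ.2.2 _ (u ha).1).1.map_add _ _)
      ((hρ₀.2.2 _ (u ha).2).1.map_add _ _), fun a ha _ _ _ =>
      Prod.ext ((hρ.2.2 _ (u ha).1).1.map_smul _ _) ((hρ₀.2.2 _ (u ha).2).1.map_smul _ _),
      fun _ _ => Prod.ext (hρ.2.1 _) (hρ₀.2.1 _), fun a b ha hb _ _ =>
      Prod.ext (((hρ.2.2 _ (u ha).1).2 _).2 _ (u hb).1) (((hρ₀.2.2 _ (u ha).2).2 _).2 _ (u hb).2),
      fun q _ => ((Eu.cont hρ q.1).comp m.cρ).prodMk ((Eu.cont hρ₀ q.2).comp m₀.cρ)⟩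
    (MonoidHom.id _) continuous_id
  let E₂ := hB₂.vb (presA (o₂ i₂)) E₁ j1 j2 j3
  have mp : ∀ t, (E₂.F t).map j = B₂ ((presA (o₂ i₂)).i t) := fun t =>
    Submodule.map_comap_eq_of_le (j2 ▸ le_top)
  obtain ⟨E', L, c, a1, a2, a3, a4, a5, a6⟩ := Eu.side (o i) m E₂ (.fst ℂ _ _ ∘ₗ j) hρ hB hN
    (fun x hx => let ⟨z, a, b⟩ := hO.onto x hx; b ▸ le_sup_right.trans (hz z a).1.le)
    (fun g w => congrArg Prod.fst (j3 g w))
    (fun t => by rw [Submodule.map_comp, mp]; exact (hz _ t.2).1) he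
  obtain ⟨E₀', L₀, c₀, b1, b2, b3, b4, b5, b6⟩ := Eu.side (o₀ i₀) m₀ E₂ (.snd ℂ _ _ ∘ₗ j) hρ₀ hB₀ hN₀
    hle (fun g w => congrArg Prod.snd (j3 g w))
    (fun t => by rw [Submodule.map_comp, mp]; exact (hz _ t.2).2.1) he₀
  have k := Eu.eu_eq a1 b1 a2 b2 fun t w hw =>
    (a3 t w hw).trans (((hz _ t.2).2.2 _ hw).trans (b3 t w hw).symm)
  have nc : Nice (Quo D.act D.Z) := (presA (o i)).nice
  have q := (hP A _ W _ D.act T.act D.Z T.Z _ _ (o i) (o₂ i₂) p m.map fun z => m.map_π z).1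
  let φ := q.isEmbedding.toHomeomorphOfSurjective fun x => by
    obtain ⟨x, rfl⟩ := Quot.exists_rep x
    obtain ⟨z, a, b⟩ := hO.onto _ x.2
    exact ⟨Quo.mk _ ⟨z, a⟩, (m.map_π ⟨z, a⟩).trans (congrArg (Quot.mk _) (Subtype.ext b))⟩
  let ψ : C((spA (o i)).X, (spA (o₂ i₂)).X) := ⟨φ.symm, φ.symm.continuous⟩
  have e1 : h = m₀.map.comp ψ := funext fun x => by
    obtain ⟨x, rfl⟩ := φ.surjective x
    obtain ⟨z, rfl⟩ := Quot.exists_rep x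
    exact (congrArg h (m.map_π z)).trans ((hh z z.2 _ _).trans
      ((m₀.map_π z).symm.trans (congrArg m₀.map (φ.symm_apply_apply _).symm)))
  refine ⟨c, c₀, a4, b4, a5, b5, a6.trans ?_⟩
  rw [← H.map_id (f := m.map.comp ψ) φ.apply_symm_apply E'.eu.1, ← H.map_map, k, H.map_map, ← b6, e1]
  exact H.map_hcls _ b5

end Vale.Agent.P269L.K
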