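import Vale.Agent.P269L.K.St
import Vale.Agent.P269L.I.Hol
import Vale.Agent.P269.Spl.Prj

/-!
# Local data of the roof: general lemmas on families of curves
-/

set_option linter.unusedSectionVars false

namespace Vale.Agent.P269L.K.Ex4

open Set Function Topology Filter P269 P269.Holo P269.Base I

section fam

variable {ι : Type} [Fintype ι] {M : ι → ℕ} {o : ι} {T P E F : Type*} [TopologicalSpace T]
  [NormedAddCommGroup P] [NormedSpace ℂ P] [FiniteDimensional ℂ P] [NormedAddCommGroup E]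
  [NormedSpace ℂ E] [NormedAddCommGroup F] [NormedSpace ℂ F] {C : T → Set (V M)} {π : T → P}
  {t₀ : T} {k : ∀ i, (Fin (M i) → ℂ) ≃L[ℂ] (Fin (M i) → ℂ)} {a : ι → ℕ} {g : ℤ} {m : ι → ℤ} {n : ℕ}

theorem tendsto_gV (c : V M) : Tendsto (fun q : T × V M => (q.1, (gV k).symm q.2))
    (𝓝 (t₀, gV k c)) (𝓝 (t₀, c)) := by
  simpa using ContinuousAt.tendsto (f := fun q : T × V M => (q.1, (gV k).symm q.2))
    (x := (t₀, gV k c)) (by fun_prop)

theorem mem_gV {G : Set (V M)} {c : V M} : c ∈ gV k '' G ↔ (gV k).symm c ∈ G := by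
  rw [(gV k).image_eq_preimage_symm, mem_preimage]

theorem chart_gV {σ : P × E → V M} {X : P → Set E} (h : Chart o C π t₀ σ X) :
    Chart o (fun t => gV k '' C t) π t₀ (fun q => gV k (σ q)) X := by
  refine ⟨((gV k).analyticAt _).comp h.an, fun e s he => h.imm e s ((k o).injective ?_),
    h.mem.mono fun q a d => ⟨_, a d, rfl⟩, fun U hU => ?_⟩
  · rw [map_smul]
    exact (congrArg (· e o) ((gV k).comp_fderiv (f := fun z => σ (π t₀, z)) (x := 0))).symm.trans he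
  · filter_upwards [(tendsto_gV _).eventually (h.sub U hU)] with q a d
    obtain ⟨s, z, b1, b2, b3⟩ := a (mem_gV.1 d)
    exact ⟨s, z, b1, b2, by rw [← gV_smul, ← b3, ContinuousLinearEquiv.apply_symm_apply]⟩

/-- Linear automorphisms of the factors act on families. -/
theorem locFam_gV (h : LocFam o C π t₀) : LocFam o (fun t => gV k '' C t) π t₀ := by
  refine ⟨h.cont, h.ne_zero.mono ?_, h.cone.mono ?_, fun c a d => ?_, ?_⟩
  · rintro t a _ ⟨c, d, rfl⟩ i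
    exact (gV_ne i).2 (a c d i)
  · rintro t a s b _ ⟨c, d, rfl⟩
    exact ⟨_, a s b c d, gV_smul s c⟩
  · obtain ⟨c, rfl⟩ := (gV k).surjective c
    exact ((tendsto_gV c).eventually (h.usc c (fun i => (gV_ne i).1 (a i)) fun e =>
      d ⟨c, e, rfl⟩)).mono fun q b e => b (mem_gV.1 e)
  · rintro _ ⟨c, a, rfl⟩
    rcases h.chart c a with ⟨σ, rfl, d⟩ | ⟨τ, σ, rfl, d1, d2, d⟩
    exacts [.inl ⟨_, rfl, chart_gV d⟩, .inr ⟨τ, _, rfl, d1, d2, chart_gV d⟩]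

theorem fmer_gV {χ : ι → ℤ} {f : T → V M → ℂ} (h : FMer o C π t₀ χ Empty.elim Empty.elim f) :
    FMer o (fun t => gV k '' C t) π t₀ χ Empty.elim Empty.elim fun t c => f t ((gV k).symm c) := by
  refine ⟨h.hom.mono fun t a s b c d => ?_, ?_, nofun⟩
  · rw [gV_symm, gV_smul]
    exact a s b _ (mem_gV.1 d)
  · rintro _ ⟨c, a, rfl⟩ -
    obtain ⟨Φ, h1, h2⟩ := h.reg c a nofun
    exact ⟨fun q => Φ (q.1, (gV k).symm q.2), h1.comp_of_eq (analyticAt_fst.prod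
      (((gV k).symm.analyticAt _).comp analyticAt_snd)) (by simp),
      ((tendsto_gV c).eventually h2).mono fun q b d => b (mem_gV.1 d)⟩

end fam

section iso

variable {ι ι' B X Z : Type} [Fintype ι] [Fintype ι'] [Monoid B] [NormedAddCommGroup X]
  [NormedSpace ℂ X] [NormedAddCommGroup Z] [NormedSpace ℂ Z] {M : ι → ℕ} {M' : ι' → ℕ} {n : ℕ}
  {G : Set Z} {r : Z → Z → Prop} {l : Z → V M} {l' : Z → V M'}

variable (G r l) in
/-- The projection `l` identifies `G / r` with a curve. -/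
structure Pj : Prop where
  an : ∀ q, AnalyticAt ℂ l q
  iff : ∀ q ∈ G, ∀ q' ∈ G, Base.Orb (l q) (l q') ↔ r q q'
  cone : ∀ q ∈ G, ∀ c, Base.Orb (l q) c → c ∈ l '' G
  lam : ∀ q ∈ G, ∃ Λ, AnalyticAt ℂ Λ (l q) ∧ ∀ᶠ c in 𝓝[l '' G] l q, Λ c ∈ G ∧ l (Λ c) = c

theorem Pj.hol (h : Pj G r l) (h' : Pj G r l') : ∃ φ, Hol tor tor (l '' G) (l' '' G) φ ∧
    ∀ q ∈ G, ∃ q' ∈ G, l q' = l q ∧ l' q' = φ (l q) := by
  have e : ∀ c ∈ l '' G, invFunOn l G c ∈ G ∧ l (invFunOn l G c) = c := fun c a => invFunOn_pos a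
  have k : ∀ q ∈ G, ∀ c ∈ l '' G, Base.Orb (l q) c → Same tor (l' q) (l' (invFunOn l G c)) :=
    fun q a c b d => same_iff.2 ((h'.iff _ a _ (e c b).1).2 ((h.iff _ a _ (e c b).1).1
      ((e c b).2.symm ▸ d)))
  refine ⟨fun c => l' (invFunOn l G c), fun c a => ⟨⟨_, (e c a).1, rfl⟩, fun t b => ?_, ?_⟩,
    fun q a => ⟨_, (e _ ⟨q, a, rfl⟩).1, (e _ ⟨q, a, rfl⟩).2, rfl⟩⟩
  · have d : Base.Orb (l (invFunOn l G c)) (tor t c) := by
      rw [(e c a).2]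
      exact ⟨t, isUnit_pi_iff.1 b, rfl⟩
    exact k _ (e c a).1 _ (h.cone _ (e c a).1 _ d) d
  · obtain ⟨q, b, rfl⟩ := a
    obtain ⟨Λ, h1, h2⟩ := h.lam q b
    exact ⟨fun c => l' (Λ c), (h'.an _).comp h1, (h2.and self_mem_nhdsWithin).mono fun c d =>
      k _ d.1.1 _ d.2 (d.1.2.symm ▸ .refl c)⟩

/-- **A curve with two projections is the graph of an isomorphism.** -/
theorem Pj.iso (h : Pj G r l) (h' : Pj G r l') {sc : B → X → X} {p : Fin n → Z}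
    (hp : ∀ i, p i ∈ G) {f : V M → X} {f' : V M' → X}
    (hf : ∀ q ∈ G, Same sc (f (l q)) (f' (l' q))) :
    ∃ φ, Iso tor tor sc (l '' G) (l' '' G) (fun i => l (p i)) (fun i => l' (p i)) f f' φ ∧
      ∀ q ∈ G, Base.Orb (l' q) (φ (l q)) := by
  obtain ⟨φ, h1, h2⟩ := h.hol h'
  obtain ⟨ψ, k1, k2⟩ := h'.hol h
  have e : ∀ q ∈ G, Base.Orb (l' q) (φ (l q)) := fun q a =>
    let ⟨_, b, d, e⟩ := h2 q a
    e ▸ (h'.iff _ a _ b).2 ((h.iff _ a _ b).1 (d ▸ .refl _))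
  have e' : ∀ q ∈ G, Base.Orb (l q) (ψ (l' q)) := fun q a =>
    let ⟨_, b, d, e⟩ := k2 q a
    e ▸ (h.iff _ a _ b).2 ((h'.iff _ a _ b).1 (d ▸ .refl _))
  refine ⟨φ, ⟨h1, ⟨ψ, k1, ?_, ?_⟩, fun i => same_iff.2 (e _ (hp i)), ?_⟩, e⟩
  all_goals rintro _ ⟨q, a, rfl⟩
  · obtain ⟨q', b, d, d'⟩ := h2 q a
    rw [← d', ← d]
    exact same_iff.2 (e' q' b)
  · obtain ⟨q', b, d, d'⟩ := k2 q a
    rw [← d', ← d]
    exact same_iff.2 (e q' b)
  · obtain ⟨q', b, d, d'⟩ := h2 q a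
    rw [← d', ← d]
    exact hf q' b

end iso

end Vale.Agent.P269L.K.Ex4
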