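import Vale.Agent.P269L.K.Na
import Vale.Agent.P269L.I.Hol
import Vale.Agent.P269L.I.Tan

/-!
# Adding a factor to the ambient product of projective spaces: maps, sections, classes
-/

set_option linter.unusedSectionVars false

namespace Vale.Agent.P269L.K.Nr

open Set Function Topology Filter P269 I

section gen

variable {B B' B'' B₀ E E' E'' X : Type} [Monoid B] [Monoid B'] [Monoid B''] [Monoid B₀]
  [NormedAddCommGroup E] [NormedSpace ℂ E] [NormedAddCommGroup E'] [NormedSpace ℂ E']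
  [NormedAddCommGroup E''] [NormedSpace ℂ E''] [NormedAddCommGroup X] [NormedSpace ℂ X] {n : ℕ}
  {τ : B → E → E} {τ' : B' → E' → E'} {τ'' : B'' → E'' → E''} {sc : B₀ → X → X} {C : Set E}
  {C' : Set E'} {C'' : Set E''} {φ : E → E'} {ψ : E' → E''}

/-- The set is a union of orbits. -/
def Sat (τ : B → E → E) (C : Set E) : Prop := ∀ c ∈ C, ∀ c', Same τ c c' → c' ∈ C

theorem hol_same (h : Hol τ τ' C C' φ) {c c' : E} (hc : c ∈ C) (e : Same τ c c') :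
    Same τ' (φ c) (φ c') := by
  obtain ⟨t, a, rfl⟩ := e
  exact (h c hc).2.1 t a

theorem hol_comp (a' : Ac τ') (a'' : Ac τ'') (s : Sat τ' C') (h : Hol τ τ' C C' φ)
    (h' : Hol τ' τ'' C' C'' ψ) : Hol τ τ'' C C'' fun c => ψ (φ c) := fun c hc => by
  obtain ⟨h1, h2, g, h3, h4⟩ := h c hc
  have m : ∀ᶠ y in 𝓝[C] c, g y ∈ C' := (h4.and self_mem_nhdsWithin).mono fun y k =>
    s _ (h y k.2).1 _ (a'.symm k.1)
  obtain ⟨-, -, g', k1, k2⟩ := h' _ (m.self_of_nhdsWithin hc)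
  refine ⟨(h' _ h1).1, fun t ht => hol_same h' h1 (h2 t ht), fun y => g' (g y), k1.comp h3, ?_⟩
  filter_upwards [tendsto_nhdsWithin_iff.2 ⟨h3.continuousAt.mono_left nhdsWithin_le_nhds, m⟩ k2,
    m, h4] with y b1 b2 b3 using a''.trans b1 (hol_same h' b2 b3)

variable {p : Fin n → E} {p' : Fin n → E'} {p'' : Fin n → E''} {f : E → X} {f' : E' → X}
  {f'' : E'' → X}

theorem iso_comp (a : Ac τ) (a' : Ac τ') (a'' : Ac τ'') (b : Ac sc) (s : Sat τ' C')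
    (hp : ∀ i, p' i ∈ C') (h : Iso τ τ' sc C C' p p' f f' φ)
    (h' : Iso τ' τ'' sc C' C'' p' p'' f' f'' ψ) :
    Iso τ τ'' sc C C'' p p'' f f'' fun c => ψ (φ c) := by
  obtain ⟨h1, ⟨φ', h2, h3, h4⟩, h5, h6⟩ := h
  obtain ⟨k1, ⟨ψ', k2, k3, k4⟩, k5, k6⟩ := h'
  exact ⟨hol_comp a' a'' s h1 k1, ⟨fun c => φ' (ψ' c), hol_comp a' a s k2 h2, fun c hc =>
    a.trans (h3 c hc) (hol_same h2 (h1 c hc).1 (k3 _ (h1 c hc).1)), fun c hc =>
    a''.trans (k4 c hc) (hol_same k1 (k2 c hc).1 (h4 _ (k2 c hc).1))⟩,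
    fun i => a''.trans (k5 i) (hol_same k1 (hp i) (h5 i)),
    fun c hc => b.trans (h6 c hc) (k6 _ (h1 c hc).1)⟩

end gen

variable {ι ι' E E' F B₀ X Y : Type} [Fintype ι] [Fintype ι'] [NormedAddCommGroup E]
  [NormedSpace ℂ E] [NormedAddCommGroup E'] [NormedSpace ℂ E'] [NormedAddCommGroup F]
  [NormedSpace ℂ F] [Monoid B₀] [NormedAddCommGroup X] [NormedSpace ℂ X] [TopologicalSpace Y] {n : ℕ}

/-- A holomorphic bilinear action of the torus. -/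
structure Tor (τ : (ι → ℂ) → E → E) (b : (ι → ℂ) →L[ℂ] E →L[ℂ] E) : Prop where
  eq : ∀ t c, τ t c = b t c
  one : ∀ c, τ 1 c = c
  mul : ∀ s t c, τ (s * t) c = τ s (τ t c)

/-- `G` is the multicone over the graph of the map `sg`. -/
structure Cov (τ : (ι → ℂ) → E → E) (τ' : (ι' → ℂ) → E' → E') (pr : E' →L[ℂ] E) (sg : E → E')
    (θ : (ι' → ℂ) →L[ℂ] ι → ℂ) (lam : (ι → ℂ) → ι' → ℂ) (G : Set E') : Prop where
  tor : ∃ b, Tor τ b
  tor' : ∃ b, Tor τ' b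
  an : ∀ c, AnalyticAt ℂ sg c
  pr_sg : ∀ c, pr (sg c) = c
  pr_τ : ∀ t c, pr (τ' t c) = τ (θ t) (pr c)
  sg_τ : ∀ t c, sg (τ t c) = τ' (lam t) (sg c)
  θ_lam : ∀ t, θ (lam t) = t
  θ_one : θ 1 = 1
  θ_mul : ∀ s t, θ (s * t) = θ s * θ t
  anl : ∀ t, AnalyticAt ℂ lam t
  lam_one : lam 1 = 1
  lam_unit : ∀ t, IsUnit t → IsUnit (lam t)
  mem : ∀ c, sg c ∈ G
  sat : Sat τ' G
  loc : ∀ c ∈ G, (Injective fun t => τ t (pr c)) → ∃ h, AnalyticAt ℂ h c ∧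
    ∀ᶠ y in 𝓝[G] c, IsUnit (h y) ∧ θ (h y) = 1 ∧ y = τ' (h y) (sg (pr y))
  fr : ∀ c, (Injective fun t => τ' t c) → Injective fun t => τ t (pr c)
  fr' : ∀ c, (Injective fun t => τ t c) → Injective fun t => τ' t (sg c)

namespace Tor

variable {τ : (ι → ℂ) → E → E} {b : (ι → ℂ) →L[ℂ] E →L[ℂ] E} (h : Tor τ b)
include h

theorem fn : τ = fun t c => b t c := funext₂ h.eq

theorem ac : Ac τ := ⟨h.one, h.mul, fun t y => h.fn ▸ (b t).analyticAt y⟩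

theorem an {Z : Type} [NormedAddCommGroup Z] [NormedSpace ℂ Z] {s : Z → ι → ℂ} {c : Z → E} {z : Z}
    (hs : AnalyticAt ℂ s z) (hc : AnalyticAt ℂ c z) : AnalyticAt ℂ (fun y => τ (s y) (c y)) z :=
  h.fn ▸ (b.analyticAt_bilinear _).comp₂ hs hc

theorem fd {Z : Type} [NormedAddCommGroup Z] [NormedSpace ℂ Z] {s : Z → ι → ℂ} {c : Z → E} {z : Z}
    (hs : AnalyticAt ℂ s z) (hc : AnalyticAt ℂ c z) (v : Z) :
    fderiv ℂ (fun y => τ (s y) (c y)) z v =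
      τ (s z) (fderiv ℂ c z v) + τ (fderiv ℂ s z v) (c z) := by
  rw [h.fn, (b.hasFDerivAt_of_bilinear hs.differentiableAt.hasFDerivAt
    hc.differentiableAt.hasFDerivAt).fderiv]
  rfl

theorem span_dir (c : E) : (Submodule.span ℂ (dir τ c) : Set E) = dir τ c := by
  rw [show dir τ c = LinearMap.range (b.flip c).toLinearMap from h.fn ▸ rfl, Submodule.span_eq]

theorem dir_add {c v w : E} (a : v ∈ dir τ c) (a' : w ∈ dir τ c) : v + w ∈ dir τ c := by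
  rw [← h.span_dir] at a a' ⊢
  exact add_mem a a'

theorem dir_sub {c v w : E} (a : v ∈ dir τ c) (a' : w ∈ dir τ c) : v - w ∈ dir τ c := by
  rw [← h.span_dir] at a a' ⊢
  exact sub_mem a a'

theorem dir_act {c v : E} {t : ι → ℂ} (ht : IsUnit t) : τ t v ∈ dir τ (τ t c) ↔ v ∈ dir τ c := by
  obtain ⟨t, rfl⟩ := ht
  refine ⟨fun ⟨s, e⟩ => ⟨s, ?_⟩, fun ⟨s, e⟩ => ⟨s, ?_⟩⟩
  · have := congrArg (τ t⁻¹.1) e
    rwa [← h.mul, ← h.mul, ← h.mul, mul_right_comm, t.inv_mul, one_mul, h.one] at this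
  · rw [← e, ← h.mul, mul_comm]
    exact (h.mul _ _ _).symm

theorem dir_eq {c : E} {t : ι → ℂ} (ht : IsUnit t) : dir τ (τ t c) = dir τ c := by
  obtain ⟨t, rfl⟩ := ht
  refine Set.ext fun v => ⟨fun ⟨s, e⟩ => ⟨s * t, (h.mul _ _ _).trans e⟩,
    fun ⟨s, e⟩ => ⟨s * t⁻¹.1, ?_⟩⟩
  rw [← e]
  exact (h.mul _ _ _).symm.trans (by rw [mul_assoc, t.inv_mul, mul_one])

theorem sub (t : ι → ℂ) (v w : E) : τ t (v - w) = τ t v - τ t w := by
  rw [h.eq, h.eq, h.eq, map_sub]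

end Tor

theorem tan_map {S : Set E} {S' : Set E'} {c v : E} {g : E → E'} (hv : v ∈ Tan S c)
    (a : AnalyticAt ℂ g c) (m : ∀ᶠ y in 𝓝[S] c, g y ∈ S') : fderiv ℂ g c v ∈ Tan S' (g c) :=
  fun k hk => (congr($((hk.1.differentiableAt.hasFDerivAt.comp c
    a.differentiableAt.hasFDerivAt).fderiv) v)).symm.trans (hv (k ∘ g) ⟨hk.1.comp a,
      tendsto_nhdsWithin_iff.2 ⟨a.continuousAt.mono_left nhdsWithin_le_nhds, m⟩ hk.2⟩)

theorem tan_mono {S S' : Set E} {c v : E} (hv : v ∈ Tan S c) (m : S ⊆ S') : v ∈ Tan S' c :=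
  fun k hk => hv k ⟨hk.1, hk.2.filter_mono (nhdsWithin_mono _ m)⟩

namespace Cov

variable {τ : (ι → ℂ) → E → E} {τ' : (ι' → ℂ) → E' → E'} {pr : E' →L[ℂ] E} {sg : E → E'}
  {θ : (ι' → ℂ) →L[ℂ] ι → ℂ} {lam : (ι → ℂ) → ι' → ℂ} {G : Set E'} (h : Cov τ τ' pr sg θ lam G)
  {C : Set E} {c v : E} {c' v' : E'}
include h

theorem ac : Ac τ := let ⟨_, a⟩ := h.tor; a.ac

theorem ac' : Ac τ' := let ⟨_, a⟩ := h.tor'; a.ac

theorem θ_unit {t : ι' → ℂ} (ht : IsUnit t) : IsUnit (θ t) :=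
  ht.map (⟨⟨θ, h.θ_one⟩, h.θ_mul⟩ : _ →* _)

theorem same_pr {d : E'} (e : Same τ' c' d) : Same τ (pr c') (pr d) :=
  let ⟨t, a, b⟩ := e
  ⟨θ t, h.θ_unit a, b ▸ h.pr_τ t c'⟩

theorem same_sg {d : E} (e : Same τ c d) : Same τ' (sg c) (sg d) :=
  let ⟨t, a, b⟩ := e
  ⟨lam t, h.lam_unit t a, b ▸ h.sg_τ t c⟩

theorem exists_eq (hc : c' ∈ G) (f : Injective fun t => τ t (pr c')) :
    ∃ t, IsUnit t ∧ θ t = 1 ∧ c' = τ' t (sg (pr c')) :=
  let ⟨_, _, b⟩ := h.loc c' hc f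
  ⟨_, b.self_of_nhdsWithin hc⟩

theorem same (hc : c' ∈ G) (f : Injective fun t => τ t (pr c')) : Same τ' (sg (pr c')) c' :=
  let ⟨t, a, _, b⟩ := h.exists_eq hc f
  ⟨t, a, b⟩

theorem sg_mem (hc : c ∈ C) : sg c ∈ G ∩ pr ⁻¹' C := 
  ⟨h.mem c, show pr (sg c) ∈ C from (h.pr_sg c).symm ▸ hc⟩

theorem sat' (s : Sat τ C) : Sat τ' (G ∩ pr ⁻¹' C) := fun c hc d e =>
  ⟨h.sat c hc.1 d e, s _ hc.2 _ (h.same_pr e)⟩

theorem pr_dsg (c v : E) : pr (fderiv ℂ sg c v) = v :=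
  congr($((pr.hasFDerivAt.comp c (h.an c).differentiableAt.hasFDerivAt).unique
    ((hasFDerivAt_id c).congr_of_eventuallyEq (.of_forall h.pr_sg))) v)

theorem dir_pr (a : v' ∈ dir τ' c') : pr v' ∈ dir τ (pr c') :=
  let ⟨t, e⟩ := a
  ⟨θ t, (h.pr_τ t c').symm.trans (congrArg pr e)⟩

theorem dir_sg (a : v ∈ dir τ c) : fderiv ℂ sg c v ∈ dir τ' (sg c) := by
  obtain ⟨t, rfl⟩ := a
  obtain ⟨b, k⟩ := h.tor
  obtain ⟨b', k'⟩ := h.tor'
  have a1 := k.fd (analyticAt_id (z := (1 : ι → ℂ))) (analyticAt_const (v := c)) t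
  have a2 := k'.fd (h.anl 1) (analyticAt_const (v := sg c)) t
  have a3 := congr($((HasFDerivAt.comp (1 : ι → ℂ) ((k.one c).symm ▸
    (h.an c).differentiableAt.hasFDerivAt : HasFDerivAt sg (fderiv ℂ sg c) (τ 1 c)) (k.an analyticAt_id
      (analyticAt_const (v := c))).differentiableAt.hasFDerivAt).fderiv) t)
  rw [fderiv_fun_const, Pi.zero_apply, zero_apply, k.eq, map_zero, zero_add,
    fderiv_id] at a1
  rw [fderiv_fun_const, Pi.zero_apply, zero_apply, k'.eq, map_zero,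
    zero_add] at a2
  exact ⟨_, a2.symm.trans ((congrArg (fderiv ℂ · 1 t) (funext fun s => (h.sg_τ s c).symm)).trans
    (a3.trans (congrArg (fderiv ℂ sg c) a1)))⟩

theorem dsg_act (t : ι → ℂ) (c v : E) :
    fderiv ℂ sg (τ t c) (τ t v) = τ' (lam t) (fderiv ℂ sg c v) := by
  obtain ⟨b, k⟩ := h.tor
  obtain ⟨b', k'⟩ := h.tor'
  have a1 := (HasFDerivAt.comp c (k.eq t c ▸ (h.an (τ t c)).differentiableAt.hasFDerivAt :
    HasFDerivAt sg (fderiv ℂ sg (τ t c)) (b t c)) (b t).hasFDerivAt).unique (((b' (lam t)).hasFDerivAt.comp c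
      (h.an c).differentiableAt.hasFDerivAt).congr_of_eventuallyEq (.of_forall fun y =>
        (congrArg sg (k.eq t y).symm).trans ((h.sg_τ t y).trans (k'.eq _ _))))
  rw [k.eq t v, k'.eq]
  exact congr($a1 v)

/-- The tangent vectors of the multicone over the graph. -/
theorem tan_eq (hc : c' ∈ G) (f : Injective fun t => τ t (pr c')) (hv : v' ∈ Tan G c') :
    ∃ t, IsUnit t ∧ c' = τ' t (sg (pr c')) ∧
      v' - τ' t (fderiv ℂ sg (pr c') (pr v')) ∈ dir τ' c' := by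
  obtain ⟨b', k'⟩ := h.tor'
  obtain ⟨s, a, b⟩ := h.loc c' hc f
  obtain ⟨b1, -, b2⟩ := b.self_of_nhdsWithin hc
  have a1 : AnalyticAt ℂ (fun y => sg (pr y)) c' := (h.an _).comp (pr.analyticAt _)
  have a2 := Tan.fderiv_eq_zero hv (analyticAt_id.sub (k'.an a a1))
    (b.mono fun y e => sub_eq_zero.2 e.2.2)
  rw [fderiv_sub differentiableAt_id (k'.an a a1).differentiableAt, fderiv_id,
    sub_apply, k'.fd a a1, ← sub_sub, sub_eq_zero,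
    show fderiv ℂ (fun y => sg (pr y)) c' = _ from ((h.an _).differentiableAt.hasFDerivAt.comp c'
      pr.hasFDerivAt).fderiv] at a2
  refine ⟨_, b1, b2, ?_⟩
  rw [show dir τ' c' = dir τ' (sg (pr c')) from (congrArg _ b2).trans (k'.dir_eq b1)]
  exact ⟨_, a2.symm⟩

theorem dir_of (hc : c' ∈ G) (f : Injective fun t => τ t (pr c')) (hv : v' ∈ Tan G c')
    (a : pr v' ∈ dir τ (pr c')) : v' ∈ dir τ' c' := by
  obtain ⟨b', k'⟩ := h.tor'
  obtain ⟨t, b1, b2, b3⟩ := h.tan_eq hc f hv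
  have := (k'.dir_act b1).2 (h.dir_sg a)
  rw [← b2] at this
  simpa using k'.dir_add b3 this

theorem tendsto_pr : Tendsto pr (𝓝[G ∩ pr ⁻¹' C] c') (𝓝[C] (pr c')) :=
  pr.continuous.continuousWithinAt.tendsto_nhdsWithin fun _ a => a.2

theorem tendsto_sg : Tendsto sg (𝓝[C] c) (𝓝[G ∩ pr ⁻¹' C] (sg c)) :=
  (h.an c).continuousAt.continuousWithinAt.tendsto_nhdsWithin fun _ a => h.sg_mem a

theorem hol_pr : Hol τ' τ (G ∩ pr ⁻¹' C) C pr := fun c hc =>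
  ⟨hc.2, fun t ht => h.same_pr ⟨t, ht, rfl⟩, pr, pr.analyticAt c, .of_forall fun _ => h.ac.refl _⟩

theorem hol_sg : Hol τ τ' C (G ∩ pr ⁻¹' C) sg := fun c hc =>
  ⟨h.sg_mem hc, fun t ht => h.same_sg ⟨t, ht, rfl⟩, sg, h.an c, .of_forall fun _ => h.ac'.refl _⟩

variable {sc : B₀ → X → X} {p : Fin n → E} {f : E → X} (b : Ac sc)
  (hf : ∀ c ∈ C, Injective fun t => τ t c)
include b hf

theorem iso_pr : Iso τ' τ sc (G ∩ pr ⁻¹' C) C (fun i => sg (p i)) p (fun c => f (pr c)) f pr :=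
  ⟨h.hol_pr, ⟨sg, h.hol_sg, fun _ hc => h.ac'.symm (h.same hc.1 (hf _ hc.2)),
    fun c _ => (h.pr_sg c).symm ▸ h.ac.refl c⟩, fun _ => (h.pr_sg _).symm ▸ h.ac.refl _,
    fun _ _ => b.refl _⟩

theorem iso_sg : Iso τ τ' sc C (G ∩ pr ⁻¹' C) p (fun i => sg (p i)) f (fun c => f (pr c)) sg :=
  ⟨h.hol_sg, ⟨pr, h.hol_pr, fun c _ => (h.pr_sg c).symm ▸ h.ac.refl c,
    fun _ hc => h.ac'.symm (h.same hc.1 (hf _ hc.2))⟩, fun _ => h.ac'.refl _,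
    fun c _ => by simpa only [h.pr_sg] using b.refl (f c)⟩

end Cov

end Vale.Agent.P269L.K.Nr
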