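import Vale.Agent.P269L.K.Ex0
import Vale.Agent.P269L.K.Id0
import Vale.Agent.P269L.K.Eu
import Vale.Agent.P269L.K.Nb
import Vale.Agent.P269L.I.LOcc
import Vale.Agent.P269L.I.LIsoG

/-!
# Local data of the roof: the lift passes through a given point
-/

set_option linter.unusedSectionVars false
set_option maxSynthPendingDepth 3

noncomputable section

namespace Vale.Agent.P269L.K.Ex4

open Set Function Topology Filter P269 P269.Ch P269.Holo P269.Base I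

section nf

variable {A W U X B ι Λ : Type} [NormedRing A] [NormedAlgebra ℂ A] [NormedAddCommGroup W]
  [NormedSpace ℂ W] [NormedAddCommGroup U] [NormedSpace ℂ U] [NormedAddCommGroup X]
  [NormedSpace ℂ X] [Monoid B] [Fintype ι] {M : ι → ℕ} {r n : ℕ}
  {D : Dat A (ι → ℂ) W (V M) U (Fin r → ℂ) X ι Λ n} {sc : B → X → X} {K : Set X} {TK : X → Set X}
  {g : ℤ} {o : ι} (h : Nf D sc K TK g o) {x : W} {c : V M} {t : ι → ℂ}
include h

theorem j_inj (hc : ∀ i, c i ≠ 0) : Injective fun y => D.j (c, y) :=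
  ((h.emb.2.2 c).2.2 (by
    rw [h.tor]
    exact fun s t e => funext fun i => smul_left_injective ℂ (hc i) (congrFun e i))).1

theorem j_smul (y : X) : D.j (t • c, y) = Base.chr D.b t • D.j (c, y) := by
  have := (h.emb.2.2 c).2.1 t y
  rwa [h.tor] at this

theorem s_smul' (hx : x ∈ D.S) (hc : c ∈ D.C x) (ht : ∀ i, t i ≠ 0) :
    D.s (x, t • c) = Base.chr D.a t • D.s (x, c) := by
  have := ((h.fam.2.2.2 x hx).2.2.2.2 c hc).2.1 t (isUnit_pi_iff.2 ht)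
  rwa [h.tor] at this

theorem f_smul (hx : x ∈ D.sol K) (hc : c ∈ D.C x) (ht : ∀ i, t i ≠ 0) :
    D.f x (t • c) = chz (fun i => D.a i - D.b i) t • D.f x c := by
  have h1 := h.crv x hx.1
  have h2 := (h.grp x hx).1.1
  have h3 := (h.emb.2.2 c).1
  refine j_inj h (h1.ne_zero c hc) (smul_right_injective U (chr_ne_zero (a := D.b) ht) ?_)
  have h4 : chz (fun i => (D.a i : ℤ) - D.b i) t * Base.chr D.b t = Base.chr D.a t := by
    rw [← chz_nat, ← chz_nat, ← chz_add ht]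
    exact congrArg (chz · t) (funext fun i => sub_add_cancel _ _)
  simp only
  rw [← j_smul h, ← h2 _ (h1.cone t ht c hc), s_smul' h hx.1 hc ht, h2 c hc, h3.map_smul, smul_smul,
    mul_comm, h4]

theorem f_an [FiniteDimensional ℂ X] (hx : x ∈ D.sol K) (hc : c ∈ D.C x) :
    ∃ k, AnalyticAt ℂ k c ∧ ∀ᶠ y in 𝓝[D.C x] c, D.f x y = k y := by
  have := Eu.fdW h.eqv.2.2.1
  obtain ⟨J, h1, h2⟩ := exists_clm h.emb.1 fun c => (h.emb.2.2 c).1
  obtain ⟨l, h3, h4⟩ := exists_an_leftInv (h1 c) (by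
    rw [show ⇑(J c) = _ from funext (h2 c)]
    exact j_inj h ((h.crv x hx.1).ne_zero c hc))
  obtain ⟨k, h5, h6⟩ := ((h.fam.2.2.2 x hx.1).2.2.2.2 c hc).1
  refine ⟨fun y => l y (k (x, y)), an_apply h3 (h5.comp_of_eq (analyticAt_const.prod
    analyticAt_id) rfl), ?_⟩
  filter_upwards [mem_nhdsWithin_of_mem_nhds h4, self_mem_nhdsWithin, mem_nhdsWithin_of_mem_nhds
    ((tendsto_inr x c).eventually (eventually_nhdsWithin_iff.1 h6))] with y e1 e2 e3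
  rw [← e3 ⟨hx.1, e2⟩, (h.grp x hx).1.1 y e2, ← h2, e1]

end nf

theorem pj_of {α β T P : Type} [Fintype α] [Fintype β] [DecidableEq α] [DecidableEq β] {L : β → ℕ}
    {r : α → β} {a : α} [TopologicalSpace T] [NormedAddCommGroup P] [NormedSpace ℂ P]
    [FiniteDimensional ℂ P] {Γ : T → Set (V L)} {π : T → P} {t : T} (h : LocFam (r a) Γ π t)
    (hr : Injective r) (hi : ∀ c ∈ Γ t, ∀ c' ∈ Γ t, Base.Orb (rV r c) (rV r c') → Base.Orb c c') :
    Pj (Γ t) Base.Orb (rV r) := by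
  refine ⟨(rV (M := L) r).analyticAt, fun q b q' d => ⟨hi q b q' d, Orb.prj⟩, ?_, fun q b => ?_⟩
  · rintro q b _ ⟨s, d, rfl⟩
    exact (h.prj hr hi).cone.self_of_nhds s d _ ⟨q, b, rfl⟩
  · obtain ⟨Λ, h1, -, h2, h3⟩ := h.exists_lam hr hi b
    exact ⟨fun c => Λ (π t, c), h1.comp_of_eq (analyticAt_const.prod analyticAt_id) rfl,
      eventually_nhdsWithin_iff.2 (((tendsto_inr t _).eventually h3).mono fun c d e =>
        ⟨d e, h2 _⟩)⟩

variable {N c : ℕ} {F : Fin c → MvPolynomial (Fin (N + 1)) ℂ} {A W U ι Λ : Type} [NormedRing A]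
  [NormedAlgebra ℂ A] [NormedAddCommGroup W] [NormedSpace ℂ W] [NormedAddCommGroup U]
  [NormedSpace ℂ U] [Fintype ι] [DecidableEq ι] {M : ι → ℕ} {r n : ℕ} {s : Su A W U ι Λ M r n F}
  {x : s.D.S} {θ : W → s.ch.W (Fin n)} {Γ : s.D.S → Set (V s.MM)} {lk : s.D.S → V s.MM → ℂ}

theorem L_smul (t : ι ⊕ Option Unit → ℂ) (q : V s.MM) :
    s.L (t • q) = (fun i => t (.inl i)) • s.L q := rfl

theorem R_smul (t : ι ⊕ Option Unit → ℂ) (q : V s.MM) :
    s.R (t • q) = (fun i => t (.inr i)) • s.R q := rfl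

theorem th_setX (h : s.Th x θ Γ lk) (X : s.ch.Fld) : s.Th x (fun y => setX (θ y) X) Γ lk :=
  ⟨Ch.W.an_iff.2 ⟨Ch.W.an_Q (x := θ) h.an, Ch.W.an_p (x := θ) h.an, Ch.W.an_Ξ (x := θ) h.an,
    fun _ => analyticAt_const⟩, h.fam, h.fam₀, h.cur, h.base, h.left, h.right, h.mark, h.lnk, h.ne⟩

theorem pjL (hs : s.Ok) (h : s.Th x θ Γ lk) : Pj (Γ x) Base.Orb s.L :=
  have := Eu.fdW hs.nf.eqv.1
  pj_of (r := Sum.inl) h.fam Sum.inl_injective h.left.self_of_nhds.2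

theorem pjR (hs : s.Ok) (h : s.Th x θ Γ lk) : Pj (Γ x) Base.Orb s.R :=
  have := Eu.fdW hs.nf.eqv.1
  pj_of (r := Sum.inr) h.fam₀ Sum.inr_injective h.right.self_of_nhds.2

theorem wd_eq (hs : s.Ok) (j) : s.ch.wd j = fun o => o.elim (-1) fun _ => 1 := funext fun o => by
  rw [Ch.wd, hs.ea, hs.eb]
  rcases o with _ | o <;> rfl

/-- The weight of the link. -/
theorem lk_smul (h : s.Th x θ Γ lk) : ∀ᶠ y in 𝓝 x, ∀ t : ι ⊕ Option Unit → ℂ, (∀ i, t i ≠ 0) →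
    ∀ q ∈ Γ y, lk y (t • q) = chz (fun i => s.D.a i - s.D.b i) (fun i => t (.inl i)) *
      (t (.inr none) / t (.inr (some ()))) * lk y q :=
  h.lnk.hom.mono fun y e t a q b => by
    rw [e t a q b]
    simp [chz, Fintype.prod_sum_type, Fintype.prod_option, div_eq_mul_inv]

variable (s x θ Γ lk) in
/-- The lift passes through a solution that represents the same map. -/
structure Lnk : Prop where
  th : s.Th x θ Γ lk
  mem : x.1 ∈ s.Z
  mem₀ : θ x ∈ s.Z₀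
  link : ∀ q ∈ Γ x, s.D.f x (s.L q) = lk x q • fld (θ x) (s.R q)

/-- **The fields at the central point.** -/
theorem exists_lnk (hs : s.Ok) (hx : x.1 ∈ s.Z) (h : s.Th x θ Γ lk) :
    ∃ X, Lnk s x (fun y => setX (θ y) X) Γ lk := by
  have := Eu.fdW hs.nf.eqv.1
  obtain ⟨dg, hF⟩ := hs.sm
  have hb := h.base.self_of_nhds
  have hL := h.left.self_of_nhds
  have hR := h.right.self_of_nhds
  have m : ∀ q ∈ Γ x, s.L q ∈ s.D.C x := fun q a => hL.1 ▸ ⟨q, a, rfl⟩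
  let G : V s.MM → Fin (N + 1) → ℂ := fun q => (lk x q)⁻¹ • s.D.f x (s.L q)
  have g1 : ∀ t : ι ⊕ Option Unit → ℂ, (∀ i, t i ≠ 0) → ∀ q ∈ Γ x,
      G (t • q) = (t (.inr (some ())) / t (.inr none)) • G q := fun t a q b => by
    have k := chz_ne_zero (χ := fun i => (s.D.a i : ℤ) - s.D.b i) fun i => a (.inl i)
    simp only [G, (lk_smul h).self_of_nhds t a q b, L_smul,
      f_smul hs.nf hx (m q b) fun i => a (.inl i), smul_smul]
    congr 1
    field_simp [h.ne q b, a]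
  let f : V s.ch.M → Fin (N + 1) → ℂ := fun c => G (invFunOn s.R (Γ x) c)
  have g2 : ∀ q ∈ Γ x, f (s.R q) = G q := fun q a => by
    obtain ⟨b, d⟩ := invFunOn_pos (f := s.R) ⟨q, a, rfl⟩
    obtain ⟨t, e1, e2⟩ := hR.2 q a _ b (d.symm ▸ .refl _)
    have e3 : ∀ i, t (.inr i) = 1 := fun i => smul_left_injective ℂ
      (h.fam.ne_zero.self_of_nhds q a (.inr i))
      ((congrFun (e2 ▸ d : s.R (t • q) = s.R q) i).trans (one_smul _ _).symm)
    simp only [f]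
    rw [e2, g1 t e1 q a, e3, e3, div_one, one_smul]
  have g3 : ∀ j, Mer s.ch.o (crv (θ x)) (s.ch.wd j) Empty.elim Empty.elim fun c => f c j := by
    intro j
    refine .of_loc hb.2.2.1.nod ⟨nofun, nofun, nofun⟩ (fun t a c b => ?_) (fun c b _ => ?_) nofun
    · obtain ⟨q, d, rfl⟩ := hR.1.ge b
      have e : ∀ i, Sum.elim (1 : ι → ℂ) t i ≠ 0 := by
        rintro (i | i)
        exacts [one_ne_zero, a i]
      rw [show t • s.R q = s.R (Sum.elim (1 : ι → ℂ) t • q) from rfl,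
        g2 _ (h.fam.cone.self_of_nhds _ e q d), g1 _ e q d, g2 q d, wd_eq hs]
      simp [chz, Fintype.prod_option, div_eq_mul_inv, mul_comm]
    · obtain ⟨q, d, rfl⟩ := hR.1.ge b
      obtain ⟨Λ, h1, h2⟩ := (pjR hs h).lam q d
      rw [hR.1] at h2
      obtain ⟨e1, e2⟩ := h2.self_of_nhdsWithin b
      obtain ⟨Φ, h3, h4⟩ := h.lnk.reg _ e1 nofun
      obtain ⟨k, h5, h6⟩ := f_an hs.nf hx (m _ e1)
      have h7 : AnalyticAt ℂ (fun c => s.L (Λ c)) (s.R q) := (s.L.analyticAt _).comp h1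
      refine ⟨_, .refl _, fun c => (Φ (x, Λ c))⁻¹ * k (s.L (Λ c)) j, ((h3.comp_of_eq
        (analyticAt_const.prod h1) rfl).fun_inv ?_).mul (analyticAt_pi_iff.1
          (h5.comp (f := fun c => s.L (Λ c)) h7) j), ?_⟩
      · exact fun e => h.ne _ e1 ((h4.self_of_nhds e1).trans e)
      · filter_upwards [h2, mem_nhdsWithin_of_mem_nhds (((tendsto_inr x _).comp
          h1.continuousAt).eventually h4), mem_nhdsWithin_of_mem_nhds (h7.continuousAt.eventually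
            (eventually_nhdsWithin_iff.1 h6))] with c k1 k2 k3
        rw [← k1.2, g2 _ k1.1, k1.2]
        exact congrArg₂ (fun a b => a⁻¹ * b j) (k2 k1.1) (k3 (m _ k1.1))
  choose X hX using fun j => exists_indOff hb (hs.num.a_ne _) ⟨nofun, nofun, nofun⟩ (g3 j) nofun
  refine ⟨X, th_setX h X, hx, hs.sol.ge ⟨hb, fun z a => ⟨f z.1, ?_, fun j => hX j _ _ a nofun⟩⟩,
    fun q a => ?_⟩
  · obtain ⟨q, d, e⟩ := hR.1.ge ⟨z, a, rfl⟩
    rw [← e, g2 q d]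
    exact (rt_ci hF).smul _ (inv_ne_zero (h.ne q d)) _ ((hs.nf.grp _ hx).1.2.1.2.1 _ (m q d)).1
  · rw [show fld (setX (θ x) X) (s.R q) = f (s.R q) from funext fun j => Cv.fld_eq
      (x := setX (θ x) X) (hR.1.le ⟨q, a, rfl⟩) fun w b => hX j _ w b nofun, g2 q a,
      smul_inv_smul₀ (h.ne q a)]

theorem Lnk.same (h : Lnk s x θ Γ lk) {q : V s.MM} (a : q ∈ Γ x) :
    Same (ci F).act (fld (θ x) (s.R q)) (s.D.f x (s.L q)) :=
  (same_ciK (F := F)).2 ⟨_, h.th.ne q a, h.link q a⟩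

theorem mem_of (h : s.Th x θ Γ lk) {q q' : V s.MM} (a : q ∈ Γ x) (e : s.L q' = s.L q)
    (e' : Base.Orb (s.R q) (s.R q')) : q' ∈ Γ x := by
  obtain ⟨t, b, d⟩ := e'
  rw [show q' = Sum.elim (1 : ι → ℂ) t • q from funext fun i => by
    rcases i with i | i
    exacts [(congrFun e i).trans (one_smul ℂ (q (.inl i))).symm, congrFun d i]]
  refine h.fam.cone.self_of_nhds _ ?_ q a
  rintro (i | i)
  exacts [one_ne_zero, b i]

/-- The central curve is the graph of any map that it contains. -/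
theorem graph_eq (h : s.Th x θ Γ lk) {φ : V M → V s.ch.M}
    (e : ∀ q ∈ Γ x, Base.Orb (s.R q) (φ (s.L q))) :
    Γ x = {q | s.L q ∈ s.D.C x ∧ Base.Orb (φ (s.L q)) (s.R q)} := by
  have hL := h.left.self_of_nhds.1
  refine Set.ext fun q => ⟨fun a => ⟨hL ▸ ⟨q, a, rfl⟩, (e q a).symm⟩, fun ⟨a, b⟩ => ?_⟩
  obtain ⟨q', d, k⟩ := hL.ge a
  exact mem_of h d k.symm ((e q' d).trans (k ▸ b))

theorem Lnk.jt (hs : s.Ok) (h : Lnk s x θ Γ lk) : s.Jt x (θ x) (Γ x) := by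
  obtain ⟨p, -, hp⟩ := h.th.mark
  have k := hp.self_of_nhds
  obtain ⟨φ, h1, h2⟩ := (pjL hs h.th).iso (pjR hs h.th) (fun i => (k i).1)
    fun q a => (ac_ci F).symm (h.same a)
  simp only [h.th.left.self_of_nhds.1, h.th.right.self_of_nhds.1, fun i => (k i).2.1,
    fun i => (k i).2.2] at h1
  exact ⟨φ, h1, graph_eq h.th h2⟩

theorem Lnk.inv (hs : s.Ok) (h : Lnk s x θ Γ lk) : ∃ ψ, Iso tor tor (ci F).act (crv (θ x)) (s.D.C x)
    (θ x).p (s.D.p · x) (fld (θ x)) (s.D.f x) ψ ∧ ∀ q ∈ Γ x, Base.Orb (s.L q) (ψ (s.R q)) := by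
  obtain ⟨p, -, hp⟩ := h.th.mark
  have k := hp.self_of_nhds
  obtain ⟨φ, h1, h2⟩ := (pjR hs h.th).iso (pjL hs h.th) (fun i => (k i).1) fun q a => h.same a
  simp only [h.th.left.self_of_nhds.1, h.th.right.self_of_nhds.1, fun i => (k i).2.1,
    fun i => (k i).2.2] at h1
  exact ⟨φ, h1, h2⟩

variable (s) in
/-- The action of the group of the chart on the joint ambient space. -/
def tU (u : (s.ch.A (Fin n))ˣ) : ∀ i, (Fin (s.MM i) → ℂ) ≃L[ℂ] (Fin (s.MM i) → ℂ)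
  | .inl _ => .refl _ _
  | .inr i => gU u i

variable (u : (s.ch.A (Fin n))ˣ)

theorem L_tU (q : V s.MM) : s.L (gV (tU s u) q) = s.L q := rfl

theorem R_tU (q : V s.MM) : s.R (gV (tU s u) q) = gV (gU u) (s.R q) := rfl

theorem orb_gV {ι : Type} [Fintype ι] {M : ι → ℕ} {c c' : V M}
    (k : ∀ i, (Fin (M i) → ℂ) ≃L[ℂ] (Fin (M i) → ℂ)) :
    Base.Orb (gV k c) (gV k c') ↔ Base.Orb c c' :=
  exists_congr fun t => and_congr_right fun _ => by rw [← gV_smul, (gV k).injective.eq_iff]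

theorem th_act (hs : s.Ok) (h : s.Th x θ Γ lk) : s.Th x (fun y => act (u : s.ch.A (Fin n)) (θ y))
    (fun y => gV (tU s u) '' Γ y) fun y q => lk y ((gV (tU s u)).symm q) := by
  have := Eu.fdW hs.nf.eqv.1
  obtain ⟨p, h1, h2⟩ := h.mark
  refine ⟨an_act analyticAt_const h.an, locFam_gV h.fam, locFam_gV h.fam₀,
    h.cur.mono fun _ e => e.map, h.base.mono fun _ => act_mem_base u,
    h.left.mono fun y e => ⟨?_, ?_⟩, h.right.mono fun y e => ⟨?_, ?_⟩,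
    ⟨fun y i => Sum.elim (1 : ι → ℂ)
      ((u : s.ch.A (Fin n)).2.2 i) • gV (tU s u) (p y i), AnalyticAt.pi fun i => an_smul
        analyticAt_const (((gV (tU s u)).analyticAt _).comp (analyticAt_pi_iff.1 h1 i)), ?_⟩,
    fmer_gV h.lnk, fun q a => h.ne _ (mem_gV.1 a)⟩
  · rw [image_image, ← e.1]
    rfl
  · rintro _ ⟨q, a, rfl⟩ _ ⟨q', b, rfl⟩ d
    exact (orb_gV _).2 (e.2 q a q' b d)
  · rw [crv_actU, ← e.1, image_image, image_image]
    rfl
  · rintro _ ⟨q, a, rfl⟩ _ ⟨q', b, rfl⟩ d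
    exact (orb_gV _).2 (e.2 q a q' b ((orb_gV (gU u)).1 d))
  · filter_upwards [h2, (locFam_gV (k := tU s u) h.fam).cone] with y e1 e2 i
    refine ⟨e2 _ ?_ _ ⟨_, (e1 i).1, rfl⟩, (one_smul (ι → ℂ) _).trans (e1 i).2.1, ?_⟩
    · rintro (j | j)
      exacts [one_ne_zero, tor_ne u i j]
    · rw [p_actU, ← (e1 i).2.2]
      rfl

theorem Lnk.act (hs : s.Ok) (h : Lnk s x θ Γ lk) (hu : act (u : s.ch.A (Fin n)) (θ x) ∈ s.Z₀) :
    Lnk s x (fun y => act (u : s.ch.A (Fin n)) (θ y)) (fun y => gV (tU s u) '' Γ y)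
      fun y q => lk y ((gV (tU s u)).symm q) := by
  refine ⟨th_act u hs h.th, h.mem, hu, ?_⟩
  rintro _ ⟨q, a, rfl⟩
  rw [L_tU, R_tU, gV_gU, fld_act u.isUnit, ContinuousLinearEquiv.symm_apply_apply, h.link q a]

/-- **The lift is moved to a given point of the roof.** -/
theorem Lnk.move (hs : s.Ok) (h : Lnk s x θ Γ lk) {x₀ : s.ch.W (Fin n)} (h0 : x₀ ∈ s.Z₀)
    {G : Set (V s.MM)} (hG : s.Jt x x₀ G) :
    ∃ θ Γ lk, Lnk s x θ Γ lk ∧ θ x = x₀ ∧ Γ x = G := by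
  obtain ⟨ψ, h1, h2⟩ := h.inv hs
  obtain ⟨φ, h3, rfl⟩ := hG
  have hC := hs.nf.crv _ x.2
  have h4 := Nr.iso_comp ac_tor ac_tor ac_tor (ac_ci F) (fun c a _ b =>
    let ⟨t, d, e⟩ := same_iff.1 b
    e ▸ hC.cone t d c a) (fun i => (((hs.nf.fam.2.2.2 _ x.2).2.2.1.2.2.2.2.1 i).1 :)) h1 h3
  obtain ⟨_, ⟨⟨u, rfl⟩, h5, h6⟩, -⟩ := (hs.nf₀.grp _ h.mem₀).1.2.2 x₀ h0 _ h4
  have h7 := h.act u hs (h5.symm ▸ h0 :)
  refine ⟨_, _, _, h7, h5, graph_eq h7.th ?_⟩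
  rintro _ ⟨q, a, rfl⟩
  exact (same_iff.1 (h6 _ (h.th.right.self_of_nhds.1.le ⟨q, a, rfl⟩))).trans
    (h3.1.orb (h.th.left.self_of_nhds.1.le ⟨q, a, rfl⟩) (h2 q a)).symm

end Vale.Agent.P269L.K.Ex4
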