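import Vale.Agent.P269L.K.Ex

/-!
# Isomorphic stable maps give a point of the roof
-/

set_option linter.unusedSectionVars false
set_option maxSynthPendingDepth 3

namespace Vale.Agent.P269L.K

open Set Function Topology Filter P269 P269.Ch P269.Holo P269.Base I Ex4

variable {N c : ℕ} {F : Fin c → MvPolynomial (Fin (N + 1)) ℂ} {A W U ι Λ : Type} [NormedRing A]
  [NormedAlgebra ℂ A] [NormedAddCommGroup W] [NormedSpace ℂ W] [NormedAddCommGroup U]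
  [NormedSpace ℂ U] [Fintype ι] [DecidableEq ι] {M : ι → ℕ} {r n : ℕ} {s : Su A W U ι Λ M r n F}

/-- **An isomorphism of stable maps gives a point of the roof.** -/
theorem Su.HasEx.of_iso (hE : s.HasEx) (hs : s.Ok) {x : W} (hx : x ∈ s.Z) {x₀ : s.ch.W (Fin n)}
    (h0 : x₀ ∈ s.Z₀) {φ : V M → V s.ch.M}
    (h : Iso tor tor (ci F).act (s.D.C x) (crv x₀) (s.D.p · x) x₀.p (s.D.f x) (fld x₀) φ) :
    ∃ z ∈ s.rf.Z, z.1 = x ∧ z.2.1 = x₀ := by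
  obtain ⟨z, hz, rfl⟩ := hE.1 x hx
  obtain ⟨_, θ, Γ, lk, _, _, _, e⟩ := hE.2 z hz
  have a : Lnk s _ θ Γ lk := ⟨e.th, hx, e.eqθ ▸ hz.2.1, e.eqθ ▸ e.link⟩
  obtain ⟨θ, Γ, lk, b, -, d⟩ := a.move hs h0 ⟨φ, h, rfl⟩
  obtain ⟨Q, k⟩ := Ex5.exists_Q b.th.cur.self_of_nhds
  exact ⟨(z.1, x₀, Q), ⟨hx, h0, _, ⟨φ, h, d⟩, k⟩, rfl, rfl⟩

end Vale.Agent.P269L.K
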