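import Vale.Agent.P269L.I.LOcc
import Vale.Agent.P269.Spl.Prj
import Vale.Agent.P269.Cpt.Main

/-!
# The graph of an isomorphism of nodal curves is a projectively normal curve
-/

set_option linter.unusedSectionVars false

namespace Vale.Agent.P269L.K

open Set Function Topology Filter Vale.Agent.P269 Vale.Agent.P269.Cv Vale.Agent.P269.Base
  Vale.Agent.P269L.I

variable {ι ι' : Type} [Fintype ι] [Fintype ι'] {o : ι} {o' : ι'} {g g' : ℤ} {m : ι → ℤ}
  {m' : ι' → ℤ} {X : Type} [TopologicalSpace X] [T2Space X] [CompactSpace X] {R : RS X}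
  {N : Finset (X × X)}

section

variable {M : ι ⊕ ι' → ℕ} {A : ι ⊕ ι' → LB R} {π : X → V M}

theorem PP_res {κ : Type} [Fintype κ] {σ : κ → ι ⊕ ι'} (hσ : Injective σ) {a : ι ⊕ ι' → ℕ}
    (ha : Sup σ a) : PP (fun y => rV σ (π y)) (fun i => a (σ i)) ≤ PP π a := fun _ hs => by
  classical
  obtain ⟨μ, e⟩ := mem_PP.1 hs
  exact mem_PP.2 ⟨rx hσ ha μ, e⟩

theorem par_of {κ : Type} [Fintype κ] {σ : κ → ι ⊕ ι'} {q : κ} {C : Set (V fun i => M (σ i))}
    (h : Par q C N (fun i => A (σ i)) fun y => rV σ (π y))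
    (hs : ∀ i j, (fun x => π x i j) ∈ H0 N (A i)) (hn : ∀ x i, π x i ≠ 0) :
    Par (σ q) (cone π) N A π := by
  classical
  refine ⟨h.nd, hs, hn, fun _ => .rfl, fun x y t e => h.inj x y (fun i => t (σ i)) (by
    rw [e, rV_smul]), fun x => ?_, fun n hn => ?_⟩
  · have := h.imm x
    rwa [br_rV, deriv_rV (an_br hs x)] at this
  · have := h.cross n hn
    rwa [br_rV, br_rV, deriv_rV (an_br hs _), deriv_rV (an_br hs _)] at this

/-- **two embeddings, the second one being large, give a projectively normal curve** -/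
theorem par_joint {C : Set (V fun i => M (.inl i))} {C' : Set (V fun i => M (.inr i))}
    (h : Par o C N (fun i => A (.inl i)) fun y => rV .inl (π y)) (hC : IsCurve o g m C)
    (h' : Par o' C' N (fun i => A (.inr i)) fun y => rV .inr (π y)) (hC' : IsCurve o' g' m' C')
    (hs : ∀ i i', Ge (A (.inr i') / omega R N ∅) (m i + 1)) :
    Par (.inl o) (cone π) N A π ∧ Par (.inr o') (cone π) N A π ∧
      IsCurve (.inl o) g (Sum.elim m m') (cone π) := by
  classical
  have s : ∀ i j, (fun x => π x i j) ∈ H0 N (A i) := Sum.rec h.sec h'.sec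
  have n : ∀ x i, π x i ≠ 0 := fun x => Sum.rec (h.ne x) (h'.ne x)
  have p := par_of h s n
  obtain ⟨a1, a2, a3⟩ := h.numbers hC
  obtain ⟨-, b2, b3⟩ := h'.numbers hC'
  have sm : ∀ i i', Small N (A (.inl i)) (A (.inr i')) := fun i i' =>
    Submonoid.subset_closure ⟨h.bpf i, fun U b d => by
      have := hs i i' U b d
      have := (h.ge_zero i).le_deg b
      have := a2 i
      simp only [degOn_div] at *
      omega⟩
  have bz2 : ∀ a : ι ⊕ ι' → ℕ, (bz A fun i => a i) = (bz (fun i => A (.inr i)) fun i => a (.inr i)) *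
      bz (fun i => A (.inl i)) fun i => a (.inl i) := fun a =>
    (Fintype.prod_sum_type _).trans (mul_comm _ _)
  have l : ∀ a : ι ⊕ ι' → ℕ, (fun i => a (.inl i)) ≠ 0 → H0 N (bz (fun i => A (.inl i))
      fun i => a (.inl i)) ≤ PP π (Sum.elim (fun i => a (.inl i)) 0) := fun a ha =>
    (h.le_PP hC ha).trans (PP_res (a := Sum.elim (fun i => a (.inl i)) 0) Sum.inl_injective
      (by rintro (i | i) e; exacts [(e ⟨i, rfl⟩).elim, rfl]))
  have r : ∀ a : ι ⊕ ι' → ℕ, (fun i => a (.inr i)) ≠ 0 → H0 N (bz (fun i => A (.inr i))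
      fun i => a (.inr i)) ≤ PP π (Sum.elim 0 fun i => a (.inr i)) := fun a ha =>
    (h'.le_PP hC' ha).trans (PP_res (a := Sum.elim 0 fun i => a (.inr i)) Sum.inr_injective
      (by rintro (i | i) e; exacts [rfl, (e ⟨i, rfl⟩).elim]))
  have z : ∀ {κ : Type} [Fintype κ] (B : κ → LB R) {a : κ → ℕ}, a = 0 → (bz B fun i => a i) = 1 :=
    fun B a e => by simp [e, bz]
  refine ⟨p, par_of h' s n, ?_⟩
  rw [← a1, show Sum.elim m m' = fun i => deg (A i) from funext (Sum.rec (fun i => (a2 i).symm)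
    fun i => (b2 i).symm)]
  refine p.isCurve (fun a ha => ?_) fun a ha => ?_
  · by_cases e : (fun i => a (.inl i)) = 0
    · have e' : (fun i => a (.inr i)) ≠ 0 := fun e' => ha (funext (Sum.rec (congrFun e) (congrFun e')))
      rw [bz2, z _ e, mul_one]
      convert r a e'
      exact funext (Sum.rec (congrFun e) fun _ => rfl)
    by_cases e' : (fun i => a (.inr i)) = 0
    · rw [bz2, z _ e', one_mul]
      convert l a e
      exact funext (Sum.rec (fun _ => rfl) (congrFun e'))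
    obtain ⟨i', hi⟩ := ne_iff.1 e'
    rw [bz2]
    refine (((Small.bz fun i _ => sm i i').mono (ge_bz_div h'.ge_zero hi)).H0_le h.nd).trans
      ((mul_le_mul' (r a e') (l a e)).trans ((PP_mul _ _).trans_eq (congrArg _ ?_)))
    exact funext (Sum.rec (fun _ => zero_add _) fun _ => add_zero _)
  · by_cases e' : (fun i => a (.inr i)) = 0
    · rw [bz2, z _ e', one_mul]
      exact a3 _ fun e => ha (funext (Sum.rec (congrFun e) (congrFun e')))
    obtain ⟨i', hi⟩ := ne_iff.1 e'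
    refine h1_eq_zero h.nd fun U b d => ?_
    have := ge_bz_div p.ge_zero (a := a) (k := .inr i') hi U b d
    have := hs o i' U b d
    have := (h.ge_zero o).le_deg b
    have := h.ge_zero o U b d
    have := a2 o
    simp only [degOn_div] at *
    omega

end

variable {M : ι → ℕ} {M' : ι' → ℕ} {C : Set (V M)} {C' : Set (V M')}

/-- A pair of points as a point of the product. -/
def jn (c : V M) (c' : V M') : V (Sum.elim M M') :=
  Sum.rec (motive := fun i => Fin (Sum.elim M M' i) → ℂ) c c'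

/-- The first component. -/
noncomputable def p1 : V (Sum.elim M M') →L[ℂ] V M := rV (M := Sum.elim M M') .inl

/-- The second component. -/
noncomputable def p2 : V (Sum.elim M M') →L[ℂ] V M' := rV (M := Sum.elim M M') .inr

@[simp] theorem p1_jn (c : V M) (c' : V M') : p1 (jn c c') = c := rfl

@[simp] theorem p2_jn (c : V M) (c' : V M') : p2 (jn c c') = c' := rfl

theorem jn_eta (z : V (Sum.elim M M')) : jn (p1 z) (p2 z) = z := funext (Sum.rec (fun _ => rfl) fun _ => rfl)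

theorem smul_jn (t : ι ⊕ ι' → ℂ) (c : V M) (c' : V M') :
    t • jn c c' = jn ((fun i => t (.inl i)) • c) ((fun i => t (.inr i)) • c') :=
  funext (Sum.rec (fun _ => rfl) fun _ => rfl)

theorem orb_jn {c d : V M} {c' d' : V M'} : Orb (jn c c') (jn d d') ↔ Orb c d ∧ Orb c' d' :=
  ⟨fun ⟨_, a, e⟩ => ⟨⟨_, fun _ => a _, congrArg p1 e⟩, _, fun _ => a _, congrArg p2 e⟩,
    fun ⟨⟨t, a, e⟩, t', a', e'⟩ => ⟨Sum.elim t t', Sum.rec a a', by rw [smul_jn, e, e']; rfl⟩⟩

variable (C) in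
/-- The graph of the map `φ` of the curves. -/
def Gam (φ : V M → V M') : Set (V (Sum.elim M M')) := {z | p1 z ∈ C ∧ Orb (φ (p1 z)) (p2 z)}

theorem jn_mem {φ : V M → V M'} {c : V M} {c' : V M'} :
    jn c c' ∈ Gam C φ ↔ c ∈ C ∧ Orb (φ c) c' := .rfl

variable (o' C') in
/-- All factors have degree at least `n + deg ω` on every component. -/
def Rich (n : ℤ) : Prop :=
  ∃ (X : Type) (_ : TopologicalSpace X) (_ : T2Space X) (_ : CompactSpace X) (R : RS X)
    (N : Finset (X × X)) (A : ι' → LB R) (π : X → V M'), Par o' C' N A π ∧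
      ∀ i, Ge (A i / omega R N ∅) n

variable {B E : Type} [Monoid B] [NormedAddCommGroup E] [NormedSpace ℂ E] {n : ℕ}
  {sc : B → E → E} {p : Fin n → V M} {p' : Fin n → V M'}
  {G : V M → E} {G' : V M' → E} {φ : V M → V M'}

/-- **the graph is a curve** -/
theorem gam_isCurve (a : Iso tor tor sc C C' p p' G G' φ) (hC : IsCurve o g m C)
    (hC' : IsCurve o' g' m' C') {r : ℤ} (hr : Rich o' C' r) (hm : ∀ i, m i + 1 ≤ r) :
    IsCurve (.inl o) g (Sum.elim m m') (Gam C φ) ∧ Nod (.inr o') (Gam C φ) := by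
  classical
  obtain ⟨X', _, _, _, R', N', A', π', h', b⟩ := hr
  obtain ⟨X, _, _, _, R, N, A, π, h⟩ := hC.isNodal.exists_par
  obtain ⟨f, hf, e, k⟩ := a.lift h h'
  have q := h.comp (hf.symm f) h'.nd (jn_symm e)
  obtain ⟨c1, c2, c3⟩ := par_joint (M := Sum.elim M M') (A := Sum.elim _ A')
    (π := fun y => jn (π (f.symm y)) (π' y)) q hC h' hC' fun i i' => (b i').mono (hm i)
  have : Gam C φ = cone fun y => jn (π (f.symm y)) (π' y) := Set.ext fun z => by
    rw [← jn_eta z, jn_mem]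
    refine ⟨fun ⟨u, v⟩ => ?_, fun ⟨y, w⟩ => ?_⟩
    · obtain ⟨y, w⟩ := (h.img _).1 u
      exact ⟨f y, orb_jn.2 ⟨by rwa [f.symm_apply_apply], (k y _ w).trans v⟩⟩
    · obtain ⟨u, v⟩ := orb_jn.1 w
      have := k _ _ u
      rw [f.apply_symm_apply] at this
      exact ⟨hC.nod.orb (h.mem _) u, this.symm.trans v⟩
  rw [this]
  exact ⟨c3, c2.isNodal.nod⟩

theorem gam_p1 : p1 '' Gam C φ = C :=
  Subset.antisymm (by rintro _ ⟨z, a, rfl⟩; exact a.1) fun c hc => ⟨jn c (φ c), ⟨hc, .refl _⟩, rfl⟩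

theorem gam_p2 (a : Iso tor tor sc C C' p p' G G' φ) (h : Nod o' C') : p2 '' Gam C φ = C' := by
  refine Subset.antisymm ?_ fun c hc => ?_
  · rintro _ ⟨z, b, rfl⟩
    exact h.orb (a.1 _ b.1).1 b.2
  · obtain ⟨ψ, b, -, d⟩ := a.2.1
    exact ⟨jn (ψ c) c, ⟨(b c hc).1, (same_iff.1 (d c hc)).symm⟩, rfl⟩

theorem hol_orb (a : Hol tor tor C C' φ) {c d : V M} (hc : c ∈ C) (e : Orb c d) :
    Orb (φ c) (φ d) := by
  obtain ⟨t, ht, rfl⟩ := e
  exact same_iff.1 ((a c hc).2.1 t (isUnit_pi_iff.2 ht))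

theorem gam_inj1 (a : Hol tor tor C C' φ) : ∀ z ∈ Gam C φ, ∀ w ∈ Gam C φ,
    Orb (p1 z) (p1 w) → Orb z w := fun z hz w hw e => by
  rw [← jn_eta z, ← jn_eta w]
  exact orb_jn.2 ⟨e, (hz.2.symm.trans (hol_orb a hz.1 e)).trans hw.2⟩

theorem gam_inj2 (a : Iso tor tor sc C C' p p' G G' φ) : ∀ z ∈ Gam C φ, ∀ w ∈ Gam C φ,
    Orb (p2 z) (p2 w) → Orb z w := fun z hz w hw e => by
  obtain ⟨ψ, b, d, -⟩ := a.2.1
  rw [← jn_eta z, ← jn_eta w]
  exact orb_jn.2 ⟨((same_iff.1 (d _ hz.1)).trans (hol_orb b (a.1 _ hz.1).1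
    ((hz.2.trans e).trans hw.2.symm))).trans (same_iff.1 (d _ hw.1)).symm, e⟩

/-- the marked points of the graph -/
theorem gam_mark (a : Iso tor tor sc C C' p p' G G' φ) (hp : ∀ i, p i ∈ C) (i : Fin n) :
    jn (p i) (p' i) ∈ Gam C φ := ⟨hp i, (same_iff.1 (a.2.2.1 i)).symm⟩

variable {J K ν : Type} [Fintype J] [Fintype K] [Fintype ν] {F : K → MvPolynomial J ℂ}
  {χ : K → Unit → ℤ} {k D n₀ : ℕ} {d : Unit → ℤ}

/-- **the curves of the chart are large** -/
theorem rich_sol (hD : ((ciK F).fam χ).BigD k D) {x : ((ciK F).chart g n₀ d k D).W ν}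
    (hx : x ∈ Ch.sol _ ν (ciK F)) : Rich none (Ch.crv x) (k - 1) := by
  classical
  obtain ⟨X, _, _, _, R, N, L, π, u, p, y, t, h, a, b, -⟩ :=
    Cpt.MainP.exists_nf (F := (ciK F).fam χ) hD hx
  refine ⟨X, _, ‹_›, ‹_›, R, N, _, π, h.par, fun i U e f => ?_⟩
  have l : Ge (L ()) 0 := ge_of_bpf fun z => by
    obtain ⟨j, c⟩ := Function.ne_iff.1 (b z).1
    have := h.ind_mem (a j)
    rw [chart_wd, bz_stdA] at this
    exact ⟨y j, by simpa [bz, Tgt.fam, ciK] using this.1, c⟩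
  have c : Ge ((omega R N (Finset.univ.image p) * bz L ((ciK F).fam χ).θ) ^ k * 1) 1 := h.par.ge_one
  rw [mul_one] at c
  have c := c.of_pow U e f
  have w := ge_omega N (Finset.univ.image p) (R := R) U e f
  have l' := l U e f
  have : 0 ≤ degOn (i.elim 1 L) U := by
    cases i
    · exact eff_one.ge U e f
    · exact l'
  have b : degOn (bz L ((ciK F).fam χ).θ) U = 3 * degOn (L ()) U := by
    rw [degOn_bz, Fintype.sum_unique]; rfl
  rw [stdA, degOn_div, degOn_mul, degOn_pow]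
  rw [degOn_div] at w
  rw [degOn_mul, b] at c ⊢
  have : (0 : ℤ) < k := by
    have : Ge ((omega R N (Finset.univ.image p) * bz L ((ciK F).fam χ).θ) ^ k * 1) 1 := h.par.ge_one
    have := this U e f
    rw [mul_one, degOn_pow] at this
    rcases k with _ | k
    · simp at this
    · positivity
  nlinarith

end Vale.Agent.P269L.K
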