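import Vale.Agent.P269L.K.Defs
import Vale.Agent.P269L.I.Tan
import Vale.Agent.P269.Holo.Morse

/-!
# The calculus of ideals of germs
-/

set_option linter.unusedSectionVars false
set_option linter.unusedVariables false

noncomputable section

namespace Vale.Agent.P269L.K

open Set Function Topology Filter P269 P269.Holo

variable {Ω Ω' E E' E'' X V P Λ ι : Type} [NormedAddCommGroup Ω] [NormedSpace ℂ Ω]
  [NormedAddCommGroup Ω'] [NormedSpace ℂ Ω'] [NormedAddCommGroup E] [NormedSpace ℂ E]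
  [NormedAddCommGroup E'] [NormedSpace ℂ E'] [NormedAddCommGroup E''] [NormedSpace ℂ E'']
  [NormedAddCommGroup X] [NormedSpace ℂ X] [NormedAddCommGroup V] [NormedSpace ℂ V]
  [NormedAddCommGroup P] [NormedSpace ℂ P] {T : Set Ω} {ω : Ω} {f f' : Ω → E} {g g' : Ω → E'}
  {h : Ω → E''}

/-- Finitely many of the maps have trivial common kernel. -/
theorem exists_fin_ker [FiniteDimensional ℂ E] (τ : Λ → E →L[ℂ] E'') :
    ∃ s : Finset Λ, ∀ v, (∀ l ∈ s, τ l v = 0) → ∀ l, τ l v = 0 := by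
  classical
  obtain ⟨_, ⟨s, rfl⟩, hs⟩ := IsArtinian.set_has_minimal (R := ℂ) (M := E)
    (range fun s : Finset Λ => ⨅ l ∈ s, LinearMap.ker (τ l : E →ₗ[ℂ] E'')) ⟨_, ∅, rfl⟩
  refine ⟨s, fun v hv l => ?_⟩
  have e : (⨅ l' ∈ insert l s, LinearMap.ker (τ l' : E →ₗ[ℂ] E'')) =
      ⨅ l' ∈ s, LinearMap.ker (τ l' : E →ₗ[ℂ] E'') :=
    eq_of_le_of_not_lt (biInf_mono fun _ => Finset.mem_insert_of_mem) (hs _ ⟨_, rfl⟩)
  have : v ∈ ⨅ l' ∈ s, LinearMap.ker (τ l' : E →ₗ[ℂ] E'') := by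
    simp only [Submodule.mem_iInf, LinearMap.mem_ker]
    exact hv
  rw [← e] at this
  simp only [Submodule.mem_iInf, LinearMap.mem_ker] at this
  exact this l (Finset.mem_insert_self _ _)

/-- An analytic left inverse. -/
theorem exists_an_leftInv [FiniteDimensional ℂ E] [FiniteDimensional ℂ E''] {L : Ω → E →L[ℂ] E''}
    (hL : AnalyticAt ℂ L ω) (hi : Injective (L ω)) :
    ∃ r : Ω → E'' →L[ℂ] E, AnalyticAt ℂ r ω ∧ ∀ᶠ z in 𝓝 ω, ∀ v, r z (L z v) = v := by
  obtain ⟨q, hq⟩ := ContinuousLinearMap.HasLeftInverse.of_injective_of_finiteDimensional hi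
  have h1 : AnalyticAt ℂ (fun z => q.comp (L z)) ω := an_comp analyticAt_const hL
  have h2 : Bijective (q.comp (L ω)) :=
    ⟨fun a b e => (hq a).symm.trans (e.trans (hq b)), fun a => ⟨a, hq a⟩⟩
  exact ⟨fun z => (q.comp (L z)).inverse.comp q, an_comp ((analyticAt_clm_inverse h2).comp
    (f := fun z => q.comp (L z)) h1) analyticAt_const, (eventually_bijective h1.continuousAt h2).mono
      fun z b v => (isInvertible_of_bijective b).inverse_apply_self v⟩

/-- An analytic right inverse. -/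
theorem exists_an_rightInv [FiniteDimensional ℂ E''] {L : Ω → E →L[ℂ] E''}
    (hL : AnalyticAt ℂ L ω) (hi : Surjective (L ω)) :
    ∃ r : Ω → E'' →L[ℂ] E, AnalyticAt ℂ r ω ∧ ∀ᶠ z in 𝓝 ω, ∀ v, L z (r z v) = v := by
  obtain ⟨q, hq⟩ := exists_rightInv hi
  have h1 : AnalyticAt ℂ (fun z => (L z).comp q) ω := an_comp hL analyticAt_const
  have h2 : Bijective ((L ω).comp q) :=
    ⟨fun a b e => (hq a).symm.trans (e.trans (hq b)), fun a => ⟨a, hq a⟩⟩
  exact ⟨fun z => q.comp ((L z).comp q).inverse, an_comp analyticAt_const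
    ((analyticAt_clm_inverse h2).comp (f := fun z => (L z).comp q) h1),
    (eventually_bijective h1.continuousAt h2).mono
      fun z b v => (isInvertible_of_bijective b).self_apply_inverse v⟩

/-- The lemma of Hadamard for two maps. -/
theorem exists_had [FiniteDimensional ℂ P] [CompleteSpace E] {F : P → E} {p : P}
    (hF : AnalyticAt ℂ F p) {u v : Ω → P} (hu : AnalyticAt ℂ u ω) (hv : AnalyticAt ℂ v ω)
    (h1 : u ω = p) (h2 : v ω = p) : ∃ G : Ω → P →L[ℂ] E, AnalyticAt ℂ G ω ∧ G ω = fderiv ℂ F p ∧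
      ∀ z, F (u z) - F (v z) = G z (u z - v z) := by
  obtain ⟨k, hk, e⟩ := hadamard (f := fun q : P × P => F (q.2 + q.1)) (w := p)
    (hF.comp_of_eq (analyticAt_snd.add analyticAt_fst) (add_zero p))
  refine ⟨fun z => k (u z - v z, v z), hk.comp_of_eq ((hu.sub hv).prod hv)
    (by simp [h1, h2]), ?_, fun z => by simpa [sub_eq_iff_eq_add'] using e (u z - v z, v z)⟩
  have a : AnalyticAt ℂ (fun y => k (y, p)) 0 := hk.comp (f := fun y => (y, p))
    (analyticAt_id.prod analyticAt_const)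
  have b := (a.differentiableAt.hasFDerivAt.clm_apply (hasFDerivAt_id (0 : P))).const_add (F p)
  have c : HasFDerivAt (fun y => F (p + y)) (fderiv ℂ F p) 0 := by
    simpa [Function.comp_def] using HasFDerivAt.comp (g := F) (f := fun y => p + y) 0
      ((add_zero p).symm ▸ hF.differentiableAt.hasFDerivAt) ((hasFDerivAt_id (0 : P)).const_add p)
  have d : (fun y => F (p + y)) = fun y => F p + k (y, p) y := funext fun y => by
    simpa using e (y, p)
  rw [d] at c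
  simpa [h1, h2] using b.unique c

namespace Gen

theorem congr (a : Gen T ω f g) (e : ∀ᶠ z in 𝓝[T] ω, f z = f' z)
    (e' : ∀ᶠ z in 𝓝[T] ω, g z = g' z) : Gen T ω f' g' :=
  let ⟨A, b, c⟩ := a
  ⟨A, b, by filter_upwards [c, e, e'] with z x y w using by rw [← y, ← w, x]⟩

theorem congr_left (a : Gen T ω f g) (e : ∀ᶠ z in 𝓝[T] ω, f z = f' z) : Gen T ω f' g :=
  a.congr e (.of_forall fun _ => rfl)

theorem of_eq (a : Gen T ω f g) (e : ∀ z, f z = f' z) : Gen T ω f' g :=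
  a.congr_left (.of_forall e)

theorem refl : Gen T ω f f := ⟨fun _ => .id ℂ E, analyticAt_const, .of_forall fun _ => rfl⟩

theorem of_zero (e : ∀ᶠ z in 𝓝[T] ω, f z = 0) : Gen T ω f g :=
  ⟨fun _ => 0, analyticAt_const, e⟩

theorem zero : Gen T ω (fun _ => (0 : E)) g := of_zero (.of_forall fun _ => rfl)

theorem trans (a : Gen T ω f g) (b : Gen T ω g h) : Gen T ω f h :=
  let ⟨A, a1, a2⟩ := a
  let ⟨B, b1, b2⟩ := b
  ⟨fun z => (A z).comp (B z), an_comp a1 b1, by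
    filter_upwards [a2, b2] with z x y using by rw [x, y]; rfl⟩

theorem mono {T' : Set Ω} (a : Gen T ω f g) (e : T' ⊆ T) : Gen T' ω f g :=
  let ⟨A, b, c⟩ := a
  ⟨A, b, c.filter_mono (nhdsWithin_mono _ e)⟩

theorem of_apply {L : Ω → E' →L[ℂ] E} (hL : AnalyticAt ℂ L ω) : Gen T ω (fun z => L z (g z)) g :=
  ⟨L, hL, .of_forall fun _ => rfl⟩

theorem clm (a : Gen T ω f g) {L : Ω → E →L[ℂ] E''} (hL : AnalyticAt ℂ L ω) :
    Gen T ω (fun z => L z (f z)) g := (of_apply hL).trans a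

theorem lin (a : Gen T ω f g) (L : E →L[ℂ] E'') : Gen T ω (fun z => L (f z)) g :=
  a.clm (L := fun _ => L) analyticAt_const

theorem add (a : Gen T ω f g) (b : Gen T ω f' g) : Gen T ω (fun z => f z + f' z) g :=
  let ⟨A, a1, a2⟩ := a
  let ⟨B, b1, b2⟩ := b
  ⟨fun z => A z + B z, a1.add b1, by filter_upwards [a2, b2] with z x y using by rw [x, y]; rfl⟩

theorem neg (a : Gen T ω f g) : Gen T ω (fun z => -f z) g := a.lin (-.id ℂ E)

theorem sub (a : Gen T ω f g) (b : Gen T ω f' g) : Gen T ω (fun z => f z - f' z) g :=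
  (a.add b.neg).of_eq fun _ => (sub_eq_add_neg _ _).symm

theorem symm (a : Gen T ω (fun z => f z - f' z) g) : Gen T ω (fun z => f' z - f z) g :=
  a.neg.of_eq fun _ => neg_sub _ _

theorem smul {c : Ω → ℂ} (hc : AnalyticAt ℂ c ω) (a : Gen T ω f g) :
    Gen T ω (fun z => c z • f z) g := a.clm (L := fun z => c z • .id ℂ E) (hc.smul analyticAt_const)

theorem smul_left {c : Ω → ℂ} (a : Gen T ω c g) (hf : AnalyticAt ℂ f ω) :
    Gen T ω (fun z => c z • f z) g :=
  a.clm (L := fun z => ContinuousLinearMap.toSpanSingleton ℂ (f z))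
    (analyticAt_of_apply fun _ => analyticAt_const.smul hf)

theorem mul {c d : Ω → ℂ} (hc : AnalyticAt ℂ c ω) (a : Gen T ω d g) :
    Gen T ω (fun z => c z * d z) g := a.smul hc

/-- Division by a unit. -/
theorem of_smul {c : Ω → ℂ} (hc : AnalyticAt ℂ c ω) (h0 : c ω ≠ 0)
    (a : Gen T ω (fun z => c z • f z) g) : Gen T ω f g :=
  (a.smul (hc.inv h0)).congr_left (nhdsWithin_le_nhds ((hc.continuousAt.eventually_ne h0).mono
    fun z e => inv_smul_smul₀ e _))

/-- A family of linear maps in the ideal, applied to a vector. -/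
theorem apply {L : Ω → X →L[ℂ] E} (a : Gen T ω L g) {v : Ω → X} (hv : AnalyticAt ℂ v ω) :
    Gen T ω (fun z => L z (v z)) g :=
  a.clm (L := fun z => ContinuousLinearMap.apply ℂ E (v z))
    (AnalyticAt.comp (f := v) (g := fun x => ContinuousLinearMap.apply ℂ E x)
      (ContinuousLinearMap.analyticAt (𝕜 := ℂ) (E := X) (F := (X →L[ℂ] E) →L[ℂ] E)
        (ContinuousLinearMap.apply ℂ E) _) hv)

theorem sum {f : ι → Ω → E} (s : Finset ι) (a : ∀ i ∈ s, Gen T ω (f i) g) :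
    Gen T ω (fun z => ∑ i ∈ s, f i z) g := by
  classical
  induction s using Finset.induction_on with
  | empty => exact zero.of_eq fun _ => by simp
  | insert i s hi ih =>
    exact ((a i (Finset.mem_insert_self _ _)).add
      (ih fun j hj => a j (Finset.mem_insert_of_mem hj))).of_eq fun _ => by
        rw [Finset.sum_insert hi]

theorem prod (a : Gen T ω f g) (b : Gen T ω h g) : Gen T ω (fun z => (f z, h z)) g :=
  ((a.lin (.inl ℂ E E'')).add (b.lin (.inr ℂ E E''))).of_eq fun _ => by simp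

theorem fst (a : Gen T ω (fun z => (f z, h z)) g) : Gen T ω f g := a.lin (.fst ℂ E E'')

theorem snd (a : Gen T ω (fun z => (f z, h z)) g) : Gen T ω h g := a.lin (.snd ℂ E E'')

theorem left : Gen T ω f fun z => (f z, h z) := refl.fst

theorem right : Gen T ω h fun z => (f z, h z) := refl.snd

theorem inl (a : Gen T ω f g) : Gen T ω f fun z => (g z, h z) := a.trans left

theorem inr (a : Gen T ω f g) : Gen T ω f fun z => (h z, g z) := a.trans right

theorem pi [Fintype ι] {Y : ι → Type} [∀ i, NormedAddCommGroup (Y i)] [∀ i, NormedSpace ℂ (Y i)]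
    {f : Ω → ∀ i, Y i} (a : ∀ i, Gen T ω (f · i) g) : Gen T ω f g := by
  classical
  exact (sum Finset.univ fun i _ => (a i).lin (ContinuousLinearMap.single ℂ Y i)).of_eq
    fun z => Finset.univ_sum_single _

theorem proj [Fintype ι] {Y : ι → Type} [∀ i, NormedAddCommGroup (Y i)] [∀ i, NormedSpace ℂ (Y i)]
    {f : Ω → ∀ i, Y i} (a : Gen T ω f g) (i : ι) : Gen T ω (f · i) g :=
  a.lin (ContinuousLinearMap.proj i)

/-- Base change. -/
theorem comp {T' : Set Ω'} {ω' : Ω'} {Φ : Ω' → Ω} (a : Gen T ω f g) (hΦ : AnalyticAt ℂ Φ ω')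
    (h0 : Φ ω' = ω) (hT : ∀ᶠ z in 𝓝[T'] ω', Φ z ∈ T) :
    Gen T' ω' (fun z => f (Φ z)) fun z => g (Φ z) :=
  let ⟨A, b, c⟩ := a
  ⟨fun z => A (Φ z), b.comp_of_eq hΦ h0, (tendsto_nhdsWithin_iff.2
    ⟨h0 ▸ hΦ.continuousAt.tendsto.mono_left nhdsWithin_le_nhds, hT⟩).eventually c⟩

theorem eventually (a : Gen T ω f g) : ∀ᶠ z in 𝓝[T] ω, g z = 0 → f z = 0 :=
  let ⟨A, b, c⟩ := a
  c.mono fun z e e' => by rw [e, e', map_zero]

theorem eq_zero (a : Gen T ω f g) (hω : ω ∈ T) (e : g ω = 0) : f ω = 0 :=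
  a.eventually.self_of_nhdsWithin hω e

/-- Cancellation of an injective family. -/
theorem inj [FiniteDimensional ℂ E] [FiniteDimensional ℂ E''] {L : Ω → E →L[ℂ] E''}
    (hL : AnalyticAt ℂ L ω) (hi : Injective (L ω)) (a : Gen T ω (fun z => L z (f z)) g) :
    Gen T ω f g :=
  let ⟨_, b, c⟩ := exists_an_leftInv hL hi
  (a.clm b).congr_left (nhdsWithin_le_nhds (c.mono fun _ e => e _))

/-- Cancellation of a separating family of tests. -/
theorem sep [FiniteDimensional ℂ E] [FiniteDimensional ℂ E''] {τ : Λ → Ω → E →L[ℂ] E''}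
    (hτ : ∀ l, AnalyticAt ℂ (τ l) ω) (hi : ∀ v, (∀ l, τ l ω v = 0) → v = 0)
    (a : ∀ l, Gen T ω (fun z => τ l z (f z)) g) : Gen T ω f g := by
  obtain ⟨s, hs⟩ := exists_fin_ker fun l => τ l ω
  exact inj (L := fun z => ContinuousLinearMap.pi fun l : s => τ l z)
    (analyticAt_of_apply fun v => AnalyticAt.pi fun l => an_apply (hτ l) analyticAt_const)
    ((injective_iff_map_eq_zero _).2 fun v e => hi v (hs v fun l b => congrFun e ⟨l, b⟩))
    (pi fun l => a l)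

/-- Two families of tests. -/
theorem sep₂ [FiniteDimensional ℂ E] [FiniteDimensional ℂ E''] [FiniteDimensional ℂ X]
    {τ : Λ → Ω → E →L[ℂ] E''} {r : Ω → E →L[ℂ] X} (hτ : ∀ l, AnalyticAt ℂ (τ l) ω)
    (hr : AnalyticAt ℂ r ω) (hi : ∀ v, (∀ l, τ l ω v = 0) → r ω v = 0 → v = 0)
    (a : ∀ l, Gen T ω (fun z => τ l z (f z)) g) (b : Gen T ω (fun z => r z (f z)) g) :
    Gen T ω f g :=
  sep (τ := fun (l : Option Λ) z => l.elim ((0 : E →L[ℂ] E'').prod (r z)) fun l => (τ l z).prod 0)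
    (fun l => analyticAt_of_apply fun v => match l with
      | none => analyticAt_const.prod (an_apply hr analyticAt_const)
      | some l => (an_apply (hτ l) analyticAt_const).prod analyticAt_const)
    (fun v e => hi v (fun l => congrArg Prod.fst (e (some l))) (congrArg Prod.snd (e none)))
    fun l => match l with
      | none => zero.prod b
      | some l => (a l).prod zero

theorem of_dual [FiniteDimensional ℂ E] (a : ∀ l : E →L[ℂ] ℂ, Gen T ω (fun z => l (f z)) g) :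
    Gen T ω f g :=
  sep (τ := fun (l : E →L[ℂ] ℂ) _ => l) (fun _ => analyticAt_const)
    (fun _ e => SeparatingDual.eq_zero_of_forall_dual_eq_zero (R := ℂ) e) a

theorem of_vec [FiniteDimensional ℂ X] [FiniteDimensional ℂ E] {L : Ω → X →L[ℂ] E}
    (a : ∀ v, Gen T ω (fun z => L z v) g) : Gen T ω L g :=
  sep (τ := fun (v : X) _ => ContinuousLinearMap.apply ℂ E v) (fun _ => analyticAt_const)
    (fun _ e => ContinuousLinearMap.ext e) a

/-- **LIN**, for a given left inverse `r` of `L`. -/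
theorem lin_of [FiniteDimensional ℂ X] [FiniteDimensional ℂ V] [FiniteDimensional ℂ E'']
    {L : Ω → X →L[ℂ] V} {r : Ω → V →L[ℂ] X} {τ : Λ → Ω → V →L[ℂ] E''} {v : Ω → V}
    (hr : AnalyticAt ℂ r ω) (hrL : ∀ᶠ z in 𝓝[T] ω, ∀ e, r z (L z e) = e)
    (h0 : ∀ e, r ω (L ω e) = e) (hτ : ∀ l, AnalyticAt ℂ (τ l) ω)
    (hk : ∀ u, (∀ l, τ l ω u = 0) → u ∈ range (L ω)) (hv : AnalyticAt ℂ v ω)
    (a : ∀ l, Gen T ω (fun z => (τ l z).comp (L z)) g)
    (b : ∀ l, Gen T ω (fun z => τ l z (v z)) g) :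
    Gen T ω (fun z => v z - L z (r z (v z))) g :=
  sep₂ hτ hr (fun u e e' => by
      obtain ⟨x, rfl⟩ := hk u e
      rw [← h0 x, e', map_zero])
    (fun l => ((b l).sub ((a l).apply (an_apply hr hv))).of_eq fun z => by simp)
    (of_zero (hrL.mono fun z e => by rw [map_sub, e, sub_self]))

/-- **LIN**. -/
theorem exists_lin [FiniteDimensional ℂ X] [FiniteDimensional ℂ V] [FiniteDimensional ℂ E'']
    {L : Ω → X →L[ℂ] V} {τ : Λ → Ω → V →L[ℂ] E''} {v : Ω → V} (hL : AnalyticAt ℂ L ω)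
    (hi : Injective (L ω)) (hτ : ∀ l, AnalyticAt ℂ (τ l) ω)
    (hk : ∀ u, (∀ l, τ l ω u = 0) → u ∈ range (L ω)) (hv : AnalyticAt ℂ v ω)
    (a : ∀ l, Gen T ω (fun z => (τ l z).comp (L z)) g)
    (b : ∀ l, Gen T ω (fun z => τ l z (v z)) g) :
    ∃ x : Ω → X, AnalyticAt ℂ x ω ∧ Gen T ω (fun z => v z - L z (x z)) g :=
  let ⟨_, c, d⟩ := exists_an_leftInv hL hi
  ⟨_, an_apply c hv, lin_of c (nhdsWithin_le_nhds d) d.self_of_nhds hτ hk hv a b⟩

/-- Functionals that kill the kernel of a frame factor through it. -/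
theorem of_ker [FiniteDimensional ℂ E'] {η : Ω → X →L[ℂ] E'} {τ : Ω → X →L[ℂ] E} {s : Ω → X}
    (hη : AnalyticAt ℂ η ω) (hs : Surjective (η ω)) (hτ : AnalyticAt ℂ τ ω)
    (e : ∀ᶠ z in 𝓝[T] ω, ∀ κ, η z κ = 0 → τ z κ = 0) :
    Gen T ω (fun z => τ z (s z)) fun z => η z (s z) :=
  let ⟨r, b, c⟩ := exists_an_rightInv hη hs
  ⟨fun z => (τ z).comp (r z), an_comp hτ b, by
    filter_upwards [e, nhdsWithin_le_nhds c] with z x y
    exact sub_eq_zero.1 ((map_sub _ _ _).symm.trans (x (s z - r z (η z (s z)))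
      (by rw [map_sub, y, sub_self])))⟩

/-- **Hadamard**: congruent arguments give congruent values. -/
theorem had [FiniteDimensional ℂ P] [CompleteSpace E] {F : P → E} {u v : Ω → P}
    (hF : AnalyticAt ℂ F (u ω)) (hu : AnalyticAt ℂ u ω) (hv : AnalyticAt ℂ v ω) (e : v ω = u ω)
    (a : Gen T ω (fun z => u z - v z) g) : Gen T ω (fun z => F (u z) - F (v z)) g :=
  let ⟨_, b, _, c⟩ := exists_had hF hu hv rfl e
  (a.clm b).of_eq fun z => (c z).symm

/-- Hadamard with the base as a parameter. -/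
theorem had₂ [FiniteDimensional ℂ X] [FiniteDimensional ℂ P] [CompleteSpace E] {F : X × P → E}
    {c : Ω → X} {u v : Ω → P} (hF : AnalyticAt ℂ F (c ω, u ω)) (hc : AnalyticAt ℂ c ω)
    (hu : AnalyticAt ℂ u ω) (hv : AnalyticAt ℂ v ω) (e : v ω = u ω)
    (a : Gen T ω (fun z => u z - v z) g) : Gen T ω (fun z => F (c z, u z) - F (c z, v z)) g :=
  had (u := fun z => (c z, u z)) (v := fun z => (c z, v z)) hF (hc.prod hu) (hc.prod hv)
    (by rw [e]) ((zero.prod a).of_eq fun z => by simp)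

/-- **RED**: if equations `H l` of the manifold `S` with the right common kernel lie in the ideal
along `Φ`, then `Φ` is congruent to a map into `S`. -/
theorem exists_red [FiniteDimensional ℂ P] [FiniteDimensional ℂ E''] {S : Set P} {n : ℕ}
    {Φ : Ω → P} (hS : MfdAt S n (Φ ω)) (hΦ : AnalyticAt ℂ Φ ω) {H : Λ → P → E''}
    (hH : ∀ l, AnalyticAt ℂ (H l) (Φ ω)) (h0 : ∀ l, ∀ᶠ y in 𝓝[S] Φ ω, H l y = 0)
    (hk : ∀ u, (∀ l, fderiv ℂ (H l) (Φ ω) u = 0) → u ∈ I.Tan S (Φ ω))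
    (a : ∀ l, Gen T ω (fun z => H l (Φ z)) g) : ∃ Ψ : Ω → P, AnalyticAt ℂ Ψ ω ∧ Ψ ω = Φ ω ∧
      (∀ z, Ψ z ∈ S) ∧ Gen T ω (fun z => Φ z - Ψ z) g := by
  have := FiniteDimensional.complete ℂ E''
  obtain ⟨hp, ψ, h1, h2⟩ := hS
  obtain ⟨w, b1, b2, b3, -, -⟩ := h1.exists_inv
  have b4 := h1.tan_eq
  have b5 : ((ψ 0 : S) : P) = Φ ω := congrArg Subtype.val h2
  rw [h2] at b1 b2 b4
  have c1 : AnalyticAt ℂ (fun z => w (Φ z)) ω := AnalyticAt.comp (f := Φ) b1 hΦ
  have c2 : AnalyticAt ℂ (fun z => ((ψ (w (Φ z)) : S) : P)) ω := h1.an.comp_of_eq c1 b2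
  have c3 : ((ψ (w (Φ ω)) : S) : P) = Φ ω := by rw [show w (Φ ω) = 0 from b2, b5]
  have c4 : Tendsto (fun z => w (Φ z)) (𝓝 ω) (𝓝 0) := b2 ▸ c1.continuousAt.tendsto
  refine ⟨_, c2, c3, fun z => (ψ _).2, ?_⟩
  choose G d1 d2 d3 using fun l => exists_had (hH l) hΦ c2 rfl c3
  obtain ⟨G', e1, e2, e3⟩ := exists_had b1 hΦ c2 rfl c3
  refine sep₂ d1 e1 (fun u x y => ?_) (fun l => ?_) (of_zero (nhdsWithin_le_nhds
    ((c4.eventually b3).mono fun z x => by rw [← e3, x, sub_self])))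
  · have := (I.mem_Tan_iff hp).1 (hk u fun l => d2 l ▸ x l)
    rw [b4] at this
    obtain ⟨u, rfl⟩ := this
    have k := EventuallyEq.fderiv_eq (𝕜 := ℂ) (f := fun z => z) b3
    rw [fderiv_comp_an (g := w) (f := fun z => ((ψ z : S) : P)) (b5 ▸ b1) h1.an, b5, fderiv_fun_id]
      at k
    rw [e2] at y
    rw [show u = 0 from (congr($k u)).symm.trans y, map_zero]
  · refine (a l).congr_left (nhdsWithin_le_nhds ?_)
    filter_upwards [(tendsto_nhdsWithin_iff.2 ⟨c3 ▸ c2.continuousAt.tendsto,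
      .of_forall fun z => (ψ _).2⟩).eventually (h0 l)] with z x
    rw [← d3, x, sub_zero]

/-- **RED**: then every function that vanishes on `S` lies in the ideal. -/
theorem red [FiniteDimensional ℂ P] [FiniteDimensional ℂ E''] [CompleteSpace E] {S : Set P} {n : ℕ}
    {Φ : Ω → P} (hS : MfdAt S n (Φ ω)) (hΦ : AnalyticAt ℂ Φ ω) {H : Λ → P → E''}
    (hH : ∀ l, AnalyticAt ℂ (H l) (Φ ω)) (h0 : ∀ l, ∀ᶠ y in 𝓝[S] Φ ω, H l y = 0)
    (hk : ∀ u, (∀ l, fderiv ℂ (H l) (Φ ω) u = 0) → u ∈ I.Tan S (Φ ω))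
    (a : ∀ l, Gen T ω (fun z => H l (Φ z)) g) {F : P → E} (hF : AnalyticAt ℂ F (Φ ω))
    (hF0 : ∀ᶠ y in 𝓝[S] Φ ω, F y = 0) : Gen T ω (fun z => F (Φ z)) g := by
  obtain ⟨Ψ, b1, b2, b3, b4⟩ := exists_red hS hΦ hH h0 hk a
  refine (had hF hΦ b1 b2 b4).congr_left (nhdsWithin_le_nhds ?_)
  filter_upwards [(tendsto_nhdsWithin_iff.2 ⟨b2 ▸ b1.continuousAt.tendsto,
    .of_forall b3⟩).eventually hF0] with z x
  rw [x, sub_zero]

/-- The differentials: a tangent vector that kills `d g` kills `d f`. -/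
theorem fderiv_eq_zero (a : Gen T ω f g) (hf : AnalyticAt ℂ f ω) (hg : AnalyticAt ℂ g ω)
    (e : g ω = 0) {v : Ω} (hv : v ∈ I.Tan T ω) (h0 : fderiv ℂ g ω v = 0) : fderiv ℂ f ω v = 0 := by
  obtain ⟨A, b, c⟩ := a
  have := I.Tan.fderiv_eq_zero hv (hf.sub (an_apply b hg)) (c.mono fun z x => sub_eq_zero.2 x)
  rw [(hf.differentiableAt.hasFDerivAt.sub (b.differentiableAt.hasFDerivAt.clm_apply
    hg.differentiableAt.hasFDerivAt)).fderiv] at this
  simpa [e, h0] using this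

end Gen

end Vale.Agent.P269L.K
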