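import Vale.Agent.P269.Ch.Tot
import Vale.Agent.P269.Orb.LG

/-!
# The Gysin map and the Thom pull-back along a surjection of bundles
-/

set_option linter.all false

namespace Vale.Agent.P269L.K

open Set Function Topology Filter P291Z P269 P269.Orb P269.Ch

/-- `γ₂` is the Thom pull-back of `γ`. -/
def TPb {X X₂ : Type} [TopologicalSpace X] [TopologicalSpace X₂] (p : X₂ → X) (τ : Coch X₂)
    (γ₂ : BM X₂) (γ : BM X) : Prop := ∀ a ∈ Zc X, ev γ₂ (pull p a * τ) = ev γ a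

/-- **`0^! p^! = 0^!`** -/
theorem TPb.gys_eq {X X₂ Z : Type} [TopologicalSpace X] [TopologicalSpace X₂] [TopologicalSpace Z]
    [Nice X] [Nice X₂] [Nice Z] {p : X₂ → X} (hp : Continuous p) {τ e₂ : Coch X₂} {e : Coch X}
    {γ₂ : BM X₂} {γ : BM X} (h : TPb p τ γ₂ γ) {z₂ : Z → X₂} {z : Z → X}
    (h₂ : IsClosedEmbedding z₂) (h₁ : IsClosedEmbedding z) (hz : ∀ x, p (z₂ x) = z x)
    (c : supp (δ e) = ∅) (s : supp e ⊆ range z) (cτ : supp (δ τ) = ∅)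
    (s₂ : supp e₂ ⊆ range z₂) (k : Cohom (range z₂) e₂ (pull p e * τ)) :
    gys z₂ e₂ γ₂ = gys z e γ := by
  have c3 := cocycle_mul (cocycle_pull hp c) cτ
  have s3 := k.symm.supp_subset s₂
  rw [gys_congr h₂ (k.cocycle c3) s₂ c3 s3 k]
  refine ext_near h₁ isOpen_univ (subset_univ _) fun a ha _ => ?_
  rw [ev_gys h₁ c s γ ha, ← h _ ((LCo.of_supp c s).mul_Zc h₁ ha fun _ _ b => s b), map_mul,
    mul_assoc, ev_eq, ev_eq, gys_apply, cgys_eq h₂ c3 s3, ← Hc.gys_cls' h₂ c3 s3 (a := pull p a)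
      (fun x => van_δ_pull hp.continuousAt (hz x ▸ ha.2 x)) (h₁.isCompact_preimage ha.1)
      fun x hx => by rw [mem_preimage, ← hz]; exact supp_pull hp a hx,
    pull_pull, show p ∘ z₂ = z from funext hz]

/-- Classes on two spaces with the same restriction to a common open part. -/
theorem fin_res {X X₀ X₂ : Type} [TopologicalSpace X] [TopologicalSpace X₀] [TopologicalSpace X₂]
    [Nice X] [Nice X₀] {q : X₂ → X} {q₀ : X₂ → X₀} (hq : IsOpenEmbedding q) (hs : Surjective q)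
    (hq₀ : IsOpenEmbedding q₀) : ∃ h : X → X₀, (∀ x, h (q x) = q₀ x) ∧ IsOpenEmbedding h ∧
      ∀ (v : BM X) (v₀ : BM X₀), res q v = res q₀ v₀ → ∀ a ∈ Zc X₀, supp a ⊆ range h →
        ev v (pull h a) = ev v₀ a := by
  let e := hq.isEmbedding.toHomeomorphOfSurjective hs
  have h1 : ∀ x, q₀ (e.symm (q x)) = q₀ x := fun x => congrArg q₀ (e.symm_apply_apply x)
  have h2 := hq₀.comp e.symm.isOpenEmbedding
  refine ⟨q₀ ∘ e.symm, h1, h2, fun v v₀ k a ha s => ?_⟩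
  rw [← ev_res hq₀ v₀ ha (s.trans (range_comp_subset_range _ _)), ← k,
    ← ev_res hq v (a := pull (q₀ ∘ e.symm) a) ⟨isCompact_supp_of_subset
      (h2.isInducing.isCompact_preimage' ha.1 s) (supp_pull h2.continuous a),
      cocycle_pull h2.continuous ha.2⟩ (hs.range_eq ▸ subset_univ _), pull_pull,
    show (q₀ ∘ e.symm) ∘ q = q₀ from funext h1]

variable {Y₂ Y₁ Y : Ch.Sp} {K E₂ E : VB Y} {A : Y.T → K.W →ₗ[ℂ] E₂.W}
  {B : Y.T → E₂.W →ₗ[ℂ] E.W}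

theorem iso_pb₂ (E : VB Y) {m₂ : Mor Y₂ Y} {m₁ : Mor Y₁ Y} (n : Mor Y₂ Y₁)
    (hf : ∀ t, m₁.f (n.f t) = m₂.f t) (hρ : ∀ g, m₁.ρ (n.ρ g) = m₂.ρ g) :
    Iso n (E.pb m₂) (E.pb m₁) fun _ => LinearMap.id :=
  ⟨Hom.of_continuous (fun t w h => show (w : E.W) ∈ E.F _ from hf t ▸ h) continuous_snd
    fun g _ (w : E.W) _ => show m₂.ρ g • w = m₁.ρ (n.ρ g) • w from hρ g ▸ rfl, fun _ _ _ h => h,
    fun t w h => ⟨w, show (w : E.W) ∈ E.F _ from hf t ▸ h, rfl⟩⟩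

theorem hom_pb {E' E : VB Y} {B : Y.T → E'.W →ₗ[ℂ] E.W} (h : Hom (Mor.id Y) E' E B)
    (m : Mor Y₂ Y) : Hom (Mor.id Y₂) (E'.pb m) (E.pb m) fun t => B (m.f t) :=
  (h.comp (iso_pb E' m).toHom).pb

/-- **The Euler cocycle of a section of the middle term of an exact sequence.** -/
theorem eul_split (h : Exact K E₂ E A B) : ∃ (R : Y.T → E₂.W →ₗ[ℂ] K.W)
    (hR : Hom (Mor.id Y) E₂ K R), (∀ t w, w ∈ K.F t → R t (A t w) = w) ∧
    ∀ (Y₂ : Ch.Sp) (m : Mor Y₂ Y) (w : Y₂.T → E₂.W) (hw : (E₂.pb m).IsSec w),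
      (∀ t, B (m.f t) (w t) = 0 → R (m.f t) (w t) = 0 → w t = 0) ∧
      Cohom (Y₂.π '' {t | w t = 0}) hw.eul
        (((hom_pb h.hB m).isSec hw).eul * ((hom_pb hR m).isSec hw).eul) := by
  obtain ⟨R, S, hR, hS, h1, h2, h3, h4, hI⟩ := h.exists_split
  refine ⟨R, hR, h1, fun Y₂ m w hw => ?_⟩
  have hR' := hom_pb hR m
  have hB' := hom_pb h.hB m
  have hI' : Iso (Mor.id Y₂) (E₂.pb m) ((E.pb m).sum (K.pb m))
      fun t => (B (m.f t)).prod (R (m.f t)) :=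
    ⟨⟨fun t v hv => ⟨hB'.mem t v hv, hR'.mem t v hv⟩, hB'.cont.prodMk hR'.cont,
      fun g t v hv => Prod.ext (hB'.eqv g t v hv) (hR'.eqv g t v hv)⟩,
      fun t v hv e => hI.inj _ v hv (Prod.ext (congrArg Prod.snd e) (congrArg Prod.fst e)),
      fun t v hv => (hI.surj (m.f t) (v.2, v.1) ⟨hv.2, hv.1⟩).imp fun u a =>
        ⟨a.1, Prod.ext (congrArg Prod.snd a.2) (congrArg Prod.fst a.2)⟩⟩
  have z : ∀ t, B (m.f t) (w t) = 0 → R (m.f t) (w t) = 0 → w t = 0 := fun t a b =>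
    hI'.inj t _ (hw.mem t) (Prod.ext a b)
  exact ⟨z, (hI'.cohom_eul' hw ((hB'.isSec hw).sum (hR'.isSec hw)) fun t => rfl).trans
    ((cohom_eul_sum _ _).mono (image_mono fun t ht => z t ht.1 ht.2))⟩

end Vale.Agent.P269L.K
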