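import Vale.Agent.P269L.K.Id0

/-!
# The relations between the ideals of two presentations linked by a third section
-/

set_option linter.unusedSectionVars false
set_option linter.unusedVariables false

noncomputable section

namespace Vale.Agent.P269L.K

open Set Function Topology Filter P269 P269.Holo I

variable {A B W E V P A₀ B₀ W₀ E₀ V₀ P₀ X R R₀ P₃ U ι ι₀ Λ Λ₀ κ Ω E' : Type} [NormedRing A]
  [NormedAlgebra ℂ A] [NormedRing B] [NormedAlgebra ℂ B] [NormedAddCommGroup W] [NormedSpace ℂ W]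
  [NormedAddCommGroup E] [NormedSpace ℂ E] [NormedAddCommGroup V] [NormedSpace ℂ V]
  [NormedAddCommGroup P] [NormedSpace ℂ P] [NormedRing A₀] [NormedAlgebra ℂ A₀] [NormedRing B₀]
  [NormedAlgebra ℂ B₀] [NormedAddCommGroup W₀] [NormedSpace ℂ W₀] [NormedAddCommGroup E₀]
  [NormedSpace ℂ E₀] [NormedAddCommGroup V₀] [NormedSpace ℂ V₀] [NormedAddCommGroup P₀]
  [NormedSpace ℂ P₀] [NormedAddCommGroup X] [NormedSpace ℂ X] [NormedAddCommGroup R]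
  [NormedSpace ℂ R] [NormedAddCommGroup R₀] [NormedSpace ℂ R₀] [NormedAddCommGroup P₃]
  [NormedSpace ℂ P₃] [Fintype ι] [Fintype ι₀] [NormedAddCommGroup Ω] [NormedSpace ℂ Ω]
  [NormedAddCommGroup E'] [NormedSpace ℂ E'] {n : ℕ} {T : Set Ω} {ω : Ω} {g : Ω → E'}
  {K : Set X} {TK : X → Set X}

/-- One presentation along `π`, with a frame and a dense family of sections. -/
structure Sid (D : Dat A B W E V P X ι Λ n) (K : Set X) (TK : X → Set X) (T : Set Ω) (ω : Ω)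
    (π : Ω → W) (η : W → P →L[ℂ] R) (a : W → R) (c : κ → Ω → E) : Prop where
  fam : ∃ χ γ, D.Fam χ γ ∧ D.Emb χ K TK
  rt : Rt K TK
  an : AnalyticAt ℂ π ω
  mem : ω ∈ T
  memS : ∀ᶠ z in 𝓝[T] ω, π z ∈ D.S
  sn : ∀ k, Sn D T ω π (c k)
  dense : D.C (π ω) ⊆ closure (range fun k => c k ω)
  sol : ∀ k, ∃ y ∈ K, D.s (π ω, c k ω) = D.j (c k ω, y)
  anη : AnalyticAt ℂ η (π ω)
  surj : Surjective (η (π ω))
  fr : ∀ᶠ y in 𝓝[D.S] π ω, (∀ κ, η y κ = 0 ↔ κ ∈ D.van y) ∧ η y (D.σ y) = a y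

variable {D : Dat A B W E V P X ι Λ n} {D₀ : Dat A₀ B₀ W₀ E₀ V₀ P₀ X ι₀ Λ₀ n} {π : Ω → W}
  {π₀ : Ω → W₀} {η : W → P →L[ℂ] R} {a : W → R} {η₀ : W₀ → P₀ →L[ℂ] R₀} {a₀ : W₀ → R₀}
  {c : κ → Ω → E} {c₀ : κ → Ω → E₀} [FiniteDimensional ℂ E] [FiniteDimensional ℂ X]
  [FiniteDimensional ℂ V] [FiniteDimensional ℂ P] [FiniteDimensional ℂ R] [FiniteDimensional ℂ E₀]
  [FiniteDimensional ℂ V₀] [FiniteDimensional ℂ P₀] [FiniteDimensional ℂ R₀]

namespace Sid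

variable (h : Sid D K TK T ω π η a c)
include h

theorem exists_J : ∃ J : E → X →L[ℂ] V, (∀ e, AnalyticAt ℂ J e) ∧ (∀ e y, J e y = D.j (e, y)) ∧
    ∀ k, Injective (J (c k ω)) :=
  let ⟨_, _, hF, hE⟩ := h.fam
  let ⟨J, j1, j2⟩ := exists_clm hE.1 fun c => (hE.2.2 c).1
  ⟨J, j1, j2, fun k u v e => ((hE.2.2 _).2.2 (((h.sn k).free hF).self_of_nhdsWithin h.mem)).1
    ((j2 _ _).symm.trans (e.trans (j2 _ _)))⟩

/-- Modulo the section, the map has values in the target. -/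
theorem exists_map (b : Gen T ω (fun z => a (π z)) g) (k : κ) : ∃ y : Ω → X, AnalyticAt ℂ y ω ∧
    D.s (π ω, c k ω) = D.j (c k ω, y ω) ∧ (∀ᶠ z in 𝓝 ω, y z ∈ K) ∧
      Gen T ω (fun z => D.s (π z, c k z) - D.j (c k z, y z)) g := by
  obtain ⟨_, _, hF, hE⟩ := h.fam
  obtain ⟨y₀, h1, h2⟩ := h.sol k
  obtain ⟨y, b1, rfl, b3⟩ := (h.sn k).exists_map hF hE h.rt h1 h2 fun l =>
    ((h.sn k).gen_H hF h.anη h.surj h.fr l).trans b
  exact ⟨y, b1, h2, b3⟩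

/-- Conversely. -/
theorem gen (b : ∀ k, ∃ y : Ω → X, AnalyticAt ℂ y ω ∧ (∀ᶠ z in 𝓝 ω, y z ∈ K) ∧
    D.s (π ω, c k ω) = D.j (c k ω, y ω) ∧ Gen T ω (fun z => D.s (π z, c k z) - D.j (c k z, y z)) g) :
    Gen T ω (fun z => a (π z)) g :=
  let ⟨_, _, hF, hE⟩ := h.fam
  gen_a hF h.sn h.an h.mem h.memS h.dense h.anη h.surj h.fr fun k l =>
    let ⟨_, b1, b2, b3, b4⟩ := b k
    (h.sn k).gen_H_of hF hE h.rt b1 (nhdsWithin_le_nhds b2) b3 b4 l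

end Sid

/-- The third section `δ`, whose value along the section `k` at the test vector `μ` is
`l j(c, s₀(μ)) - μ(c₀) s`. -/
structure Lk (D : Dat A B W E V P X ι Λ n) (D₀ : Dat A₀ B₀ W₀ E₀ V₀ P₀ X ι₀ Λ₀ n) (T : Set Ω) (ω : Ω)
    (π : Ω → W) (π₀ : Ω → W₀) (c : κ → Ω → E) (c₀ : κ → Ω → E₀) (l : κ → Ω → ℂ)
    (ap : U → V₀ →L[ℂ] X) (vl : U → E₀ → ℂ) (ev : κ → U → Ω → P₃ →L[ℂ] V) (δ : Ω → P₃) : Prop where
  anl : ∀ k, AnalyticAt ℂ (l k) ω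
  ne : ∀ k, l k ω ≠ 0
  anv : ∀ μ e, AnalyticAt ℂ (vl μ) e
  ane : ∀ k μ, AnalyticAt ℂ (ev k μ) ω
  apj : ∀ μ e y, ap μ (D₀.j (e, y)) = vl μ e • y
  sep : ∀ w, (∀ μ, ap μ w = 0) → w = 0
  bpf : ∀ k, ∃ μ, vl μ (c₀ k ω) ≠ 0
  zero : δ ω = 0
  eq : ∀ k μ, ∀ᶠ z in 𝓝[T] ω, ev k μ z (δ z) = l k z • D.j (c k z, ap μ (D₀.s (π₀ z, c₀ k z))) -
    vl μ (c₀ k z) • D.s (π z, c k z)

namespace Lk

variable {l : κ → Ω → ℂ} {ap : U → V₀ →L[ℂ] X} {vl : U → E₀ → ℂ} {ev : κ → U → Ω → P₃ →L[ℂ] V}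
  {δ : Ω → P₃} (h : Sid D K TK T ω π η a c) (h₀ : Sid D₀ K TK T ω π₀ η₀ a₀ c₀)
  (k : Lk D D₀ T ω π π₀ c c₀ l ap vl ev δ)
include h h₀ k

theorem gen₀ (b : Gen T ω (fun z => a (π z)) g) (d : Gen T ω δ g) :
    Gen T ω (fun z => a₀ (π₀ z)) g := by
  obtain ⟨J, j1, j2, j3⟩ := h.exists_J
  refine h₀.gen fun q => ?_
  obtain ⟨y, b1, b2, b3, b4⟩ := h.exists_map b q
  have v : ∀ μ, AnalyticAt ℂ (fun z => vl μ (c₀ q z)) ω := fun μ => (k.anv μ _).comp (h₀.sn q).an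
  have e : ∀ μ z, l q z ≠ 0 → ev q μ z (δ z) = l q z • D.j (c q z, ap μ (D₀.s (π₀ z, c₀ q z))) -
      vl μ (c₀ q z) • D.s (π z, c q z) → ev q μ z (δ z) + vl μ (c₀ q z) •
        (D.s (π z, c q z) - D.j (c q z, y z)) = l q z • J (c q z) (ap μ (D₀.s (π₀ z, c₀ q z) -
          D₀.j (c₀ q z, (l q z)⁻¹ • y z))) := fun μ z x w => by
    rw [w, map_sub, k.apj, map_sub, map_smul, map_smul, smul_sub, smul_sub, smul_comm (l q z) (vl _ _),
      smul_inv_smul₀ x, j2, j2]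
    abel
  have n := (k.anl q).continuousAt.eventually_ne (k.ne q)
  refine ⟨fun z => (l q z)⁻¹ • y z, ((k.anl q).inv (k.ne q)).smul b1, ?_, ?_,
    Gen.sep (τ := fun μ _ => ap μ) (fun _ => analyticAt_const) k.sep fun μ =>
      Gen.inj (L := fun z => J (c q z)) ((j1 _).comp (h.sn q).an) (j3 q)
        (Gen.of_smul (k.anl q) (k.ne q) (((d.clm (k.ane q μ)).add (b4.smul (v μ))).congr_left ?_))⟩
  · filter_upwards [n, b3] with z x w using h.rt.smul _ (inv_ne_zero x) _ w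
  · refine sub_eq_zero.1 (k.sep _ fun μ => j3 q (smul_right_injective _ (k.ne q) ?_))
    have := e μ ω (k.ne q) ((k.eq q μ).self_of_nhdsWithin h.mem)
    rw [k.zero, b2, sub_self, map_zero, smul_zero, add_zero] at this
    simpa using this.symm
  · filter_upwards [nhdsWithin_le_nhds n, k.eq q μ] with z x w using e μ z x w

theorem gen₁ (b : Gen T ω (fun z => a₀ (π₀ z)) g) (d : Gen T ω δ g) :
    Gen T ω (fun z => a (π z)) g := by
  obtain ⟨J, j1, j2, j3⟩ := h.exists_J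
  refine h.gen fun q => ?_
  obtain ⟨y, b1, b2, b3, b4⟩ := h₀.exists_map b q
  obtain ⟨μ, m⟩ := k.bpf q
  have e : ∀ z, ev q μ z (δ z) = l q z • D.j (c q z, ap μ (D₀.s (π₀ z, c₀ q z))) -
      vl μ (c₀ q z) • D.s (π z, c q z) → l q z • J (c q z) (ap μ (D₀.s (π₀ z, c₀ q z) -
        D₀.j (c₀ q z, y z))) - ev q μ z (δ z) = vl μ (c₀ q z) •
          (D.s (π z, c q z) - D.j (c q z, l q z • y z)) := fun z w => by
    rw [w, map_sub, k.apj, map_sub, map_smul, smul_sub, smul_sub, ← j2, ← j2, map_smul,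
      smul_comm (l q z) (vl _ _)]
    abel
  refine ⟨fun z => l q z • y z, (k.anl q).smul b1, ?_, ?_, Gen.of_smul
    ((k.anv μ _).comp (h₀.sn q).an) m (((((b4.lin (ap μ)).clm (L := fun z => J (c q z))
      ((j1 _).comp (h.sn q).an)).smul (k.anl q)).sub (d.clm (k.ane q μ))).congr_left
        ((k.eq q μ).mono e))⟩
  · filter_upwards [(k.anl q).continuousAt.eventually_ne (k.ne q), b3] with z x w
      using h.rt.smul _ x _ w
  · have := e ω ((k.eq q μ).self_of_nhdsWithin h.mem)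
    rw [k.zero, b2, sub_self, map_zero, map_zero, map_zero, smul_zero, sub_zero] at this
    exact sub_eq_zero.1 ((smul_eq_zero.1 this.symm).resolve_left m)

/-- The Koszul relations of `δ` lie in the ideal of the second section. -/
theorem kos (b : Gen T ω (fun z => a₀ (π₀ z)) g) (q : κ) (μ μ' : U) :
    Gen T ω (fun z => vl μ' (c₀ q z) • ev q μ z (δ z) - vl μ (c₀ q z) • ev q μ' z (δ z)) g := by
  obtain ⟨J, j1, j2, j3⟩ := h.exists_J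
  obtain ⟨y, b1, b2, b3, b4⟩ := h₀.exists_map b q
  have v : ∀ μ, AnalyticAt ℂ (fun z => vl μ (c₀ q z)) ω := fun μ => (k.anv μ _).comp (h₀.sn q).an
  refine ((((((b4.lin (ap μ)).smul (v μ')).sub ((b4.lin (ap μ')).smul (v μ))).clm
    (L := fun z => J (c q z)) ((j1 _).comp (h.sn q).an))).smul (k.anl q)).congr_left ?_
  filter_upwards [k.eq q μ, k.eq q μ'] with z x w
  rw [x, w, ← j2, ← j2]
  simp only [map_sub, map_smul, k.apj]
  module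

/-- **The last two relations**; `L' e` is the family `μ ↦ μ e`. -/
theorem rel₀ {F : Type} [NormedAddCommGroup F] [NormedSpace ℂ F] [FiniteDimensional ℂ F]
    [FiniteDimensional ℂ P₃] (hδ : AnalyticAt ℂ δ ω) {L : Ω → F →L[ℂ] P₃} (l1 : AnalyticAt ℂ L ω)
    (l2 : Injective (L ω)) (l3 : ∀ q μ μ', ∀ᶠ z in 𝓝[T] ω, ∀ e,
      vl μ' (c₀ q z) • ev q μ z (L z e) = vl μ (c₀ q z) • ev q μ' z (L z e))
    (l4 : ∀ p, (∀ q μ μ', vl μ' (c₀ q ω) • ev q μ ω p = vl μ (c₀ q ω) • ev q μ' ω p) →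
      p ∈ range (L ω)) : ∃ w : Ω → F, AnalyticAt ℂ w ω ∧
      Gen T ω (fun z => (a (π z), δ z)) (fun z => (a₀ (π₀ z), w z)) ∧
      Gen T ω w fun z => (a₀ (π₀ z), δ z) := by
  obtain ⟨r, r1, r2⟩ := exists_an_leftInv l1 l2
  have v : ∀ q μ, AnalyticAt ℂ (fun z => vl μ (c₀ q z)) ω := fun q μ =>
    (k.anv μ _).comp (h₀.sn q).an
  have e : Gen T ω δ fun z => (a₀ (π₀ z), r z (δ z)) := ((Gen.lin_of
    (τ := fun (q : κ × U × U) z => vl q.2.2 (c₀ q.1 z) • ev q.1 q.2.1 z -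
      vl q.2.1 (c₀ q.1 z) • ev q.1 q.2.2 z) r1 (nhdsWithin_le_nhds r2) r2.self_of_nhds
    (fun q => ((v _ _).smul (k.ane _ _)).sub ((v _ _).smul (k.ane _ _)))
    (fun p e => l4 p fun q μ μ' => sub_eq_zero.1 (e (q, μ, μ'))) hδ
    (fun q => .of_zero ((l3 q.1 q.2.1 q.2.2).mono fun z e => ContinuousLinearMap.ext fun u =>
      sub_eq_zero.2 (e u))) fun q => kos h h₀ k .left q.1 q.2.1 q.2.2).add
        (Gen.right.clm l1)).of_eq fun z => sub_add_cancel _ _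
  exact ⟨fun z => r z (δ z), an_apply r1 hδ, (gen₁ h h₀ k .left e).prod e, Gen.right.clm r1⟩

end Lk

/-- **The field**: `v - L X` lies in the ideal of the first section. -/
theorem Sid.exists_fld {F : Type} [NormedAddCommGroup F] [NormedSpace ℂ F] [FiniteDimensional ℂ F]
    [FiniteDimensional ℂ P₃] (h : Sid D K TK T ω π η a c) {ev : κ → U → Ω → P₃ →L[ℂ] V}
    {m : κ → U → Ω → ℂ} {L : Ω → F →L[ℂ] P₃} {v : Ω → P₃} (he : ∀ q μ, AnalyticAt ℂ (ev q μ) ω)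
    (hm : ∀ q μ, AnalyticAt ℂ (m q μ) ω) (l1 : AnalyticAt ℂ L ω) (l2 : Injective (L ω))
    (hv : AnalyticAt ℂ v ω) (l3 : ∀ q μ, ∀ᶠ z in 𝓝[T] ω, ev q μ z (v z) = m q μ z • D.s (π z, c q z) ∧
      ∀ e, ∃ y, ev q μ z (L z e) = D.j (c q z, y))
    (l4 : ∀ p, (∀ q μ, ∃ y, ev q μ ω p = D.j (c q ω, y)) → p ∈ range (L ω)) {e₀ : F}
    (h0 : v ω = L ω e₀) : ∃ x : Ω → F, AnalyticAt ℂ x ω ∧ x ω = e₀ ∧
      Gen T ω (fun z => L z (x z) - v z) fun z => a (π z) := by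
  obtain ⟨J, j1, j2, j3⟩ := h.exists_J
  obtain ⟨r, r1, r2⟩ := exists_an_leftInv l1 l2
  have j4 : ∀ q, AnalyticAt ℂ (fun z => J (c q z)) ω := fun q => (j1 _).comp (h.sn q).an
  choose Q q1 q2 using fun q => exists_an_leftInv (j4 q) (j3 q)
  have t : ∀ q, AnalyticAt ℂ (fun z => ContinuousLinearMap.id ℂ V - (J (c q z)).comp (Q q z)) ω :=
    fun q => analyticAt_const.sub (an_comp (j4 q) (q1 q))
  refine ⟨_, an_apply r1 hv, h0 ▸ r2.self_of_nhds _, (Gen.lin_of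
    (τ := fun (q : κ × U) z => (ContinuousLinearMap.id ℂ V - (J (c q.1 z)).comp (Q q.1 z)).comp
      (ev q.1 q.2 z)) r1 (nhdsWithin_le_nhds r2) r2.self_of_nhds
    (fun q => an_comp (t _) (he _ _)) (fun p e => l4 p fun q μ => ⟨_, (sub_eq_zero.1 (e (q, μ))).trans
      (j2 _ _)⟩) hv (fun q => .of_zero ?_) fun q => ?_).symm⟩
  · filter_upwards [l3 q.1 q.2, nhdsWithin_le_nhds (q2 q.1)] with z x y
    refine ContinuousLinearMap.ext fun e => ?_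
    obtain ⟨u, k⟩ := x.2 e
    simp [k, ← j2, y]
  · obtain ⟨y, b1, b2, b3, b4⟩ := h.exists_map .refl q.1
    refine ((b4.clm (t q.1)).smul (hm q.1 q.2)).congr_left ?_
    filter_upwards [l3 q.1 q.2, nhdsWithin_le_nhds (q2 q.1)] with z x y
    simp [x.1, ← j2, y, smul_sub]

end Vale.Agent.P269L.K
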