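import Vale.Agent.P269L.K.Ab
import Vale.Agent.P269L.I.Dat
import Vale.Agent.P269.Map.Defs
import Vale.Agent.P269.Base.MainS

/-!
# Comparison of a presentation with the chart: the geometric frame
-/

set_option linter.unusedSectionVars false
set_option linter.unusedVariables false
set_option maxSynthPendingDepth 3

noncomputable section

namespace Vale.Agent.P269L.K

open Set Function Topology Filter Module MvPolynomial P291Z P269 P269.Ch P269.Base P269.Holo I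

section

variable {A W U X B ι Λ : Type} [NormedRing A] [NormedAlgebra ℂ A] [NormedAddCommGroup W]
  [NormedSpace ℂ W] [NormedAddCommGroup U] [NormedSpace ℂ U] [NormedAddCommGroup X] [NormedSpace ℂ X]
  [Monoid B] [Fintype ι] {M : ι → ℕ} {r n : ℕ}
  (D : Dat A (ι → ℂ) W (V M) U (Fin r → ℂ) X ι Λ n) (sc : B → X → X) (K : Set X) (TK : X → Set X)

/-- A presentation in normal form. -/
structure Nf (g : ℤ) (o : ι) : Prop where
  tor : D.τ = tor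
  eqv : D.Eqv
  emb : D.Emb I.chr K TK
  fam : D.Fam I.chr g
  grp : ∀ x ∈ D.sol K, D.Grp I.chr sc K g x ∧ D.Obs I.chr TK x
  crv : ∀ x ∈ D.S, IsCurve o g D.m (D.C x)
  three : 3 ≤ M o

/-- The data that define the virtual class. -/
def sd : Sd A W (Fin r) where
  act := D.α
  ρ := D.ρ
  S := D.S
  Z := D.sol K
  van x := Submodule.span ℂ (D.van x)
  obs x := Submodule.span ℂ {κ | ∃ e, D.Nm I.chr TK x e ∧ D.Df x κ e}
  σ := D.σ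

/-- At the point `c` the function `κ` is the differential of the equations applied to `e`. -/
def Pt (x : W) (c : V M) (κ : Fin r → ℂ) (e : U) : Prop :=
  ∀ l, D.ev κ l (x, c) = fderiv ℂ (D.H l) (c, D.s (x, c)) (0, e)

/-- The action on the factor `i`. -/
def eps [DecidableEq ι] (u : A) (i : ι) : (Fin (M i) → ℂ) →L[ℂ] Fin (M i) → ℂ :=
  ContinuousLinearMap.proj i ∘L fderiv ℂ (D.ε u) 0 ∘L
    ContinuousLinearMap.single ℂ (fun i => Fin (M i) → ℂ) i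

/-- The integral of the text. -/
def Itg {Y : Type} [TopologicalSpace Y] (π : K → Y) (β : Pub.Bm Y) :
    (Fin n → ℕ × Pub.Co Y) → ℂ → Prop :=
  Intg D.α D.ρ D.S (D.sol K) D.van (fun x => {κ | ∃ e, D.Nm I.chr TK x e ∧ D.Df x κ e}) D.σ
    (fun x => Cls D.τ (D.C x) π (D.f x) β) (fun i x y => ∃ h, y = π ⟨D.f x (D.p i x), h⟩)
    (fun i u c => D.τ (D.t i u) (D.ε u c)) (fun i x => Tan (D.C x) (D.p i x))
    fun i x => dir D.τ (D.p i x)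

/-- All connected stable maps of class `β` occur. -/
def Occ {Y : Type} [TopologicalSpace Y] (π : K → Y) (g : ℤ) (β : Pub.Bm Y) : Prop :=
  ∀ (N : ℕ) (C : Set (Fin N → ℂ)) m p f, Stb Pub.scal sc C K I.chr g m p f → Cls Pub.scal C π f β →
    ∃ x ∈ D.sol K, ∃ φ, Iso Pub.scal D.τ sc C (D.C x) p (D.p · x) f (D.f x) φ

end

section

variable {ι : Type} [Fintype ι] {M : ι → ℕ} {e : ι → ℕ} {h : ℕ}

/-- `Q` is a framed Hilbert point of `Γ`. -/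
def HP (Q : Tens M e →L[ℂ] Fin h → ℂ) (Γ : Set (V M)) : Prop :=
  Surjective Q ∧ ∀ μ, Q μ = 0 ↔ ∀ q ∈ Γ, val μ q = 0

/-- The curve with the Hilbert point `Q`. -/
def jc (Q : Tens M e →L[ℂ] Fin h → ℂ) : Set (V M) :=
  {q | (∀ i, q i ≠ 0) ∧ ∀ μ, Q μ = 0 → val μ q = 0}

/-- `u` is the evaluation at `q`. -/
def Evl (Q : Tens M e →L[ℂ] Fin h → ℂ) (q : V M) (u : (Fin h → ℂ) →L[ℂ] ℂ) : Prop :=
  ∀ μ, u (Q μ) = val μ q

end

variable {N c : ℕ} {F : Fin c → MvPolynomial (Fin (N + 1)) ℂ} {A W U ι Λ : Type} [NormedRing A]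
  [NormedAlgebra ℂ A] [NormedAddCommGroup W] [NormedSpace ℂ W] [NormedAddCommGroup U]
  [NormedSpace ℂ U] [Fintype ι] [DecidableEq ι] {M : ι → ℕ} {r n : ℕ}

variable (A W U ι Λ M r n) in
/-- A presentation together with a chart. -/
structure Su (F : Fin c → MvPolynomial (Fin (N + 1)) ℂ) where
  D : Dat A (ι → ℂ) W (V M) U (Fin r → ℂ) (Fin (N + 1) → ℂ) ι Λ n
  o : ι
  g : ℤ
  ch : Ch (Option Unit) (Fin (N + 1))
  e : Fin c → Option Unit → ℕ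
  r₀ : ℕ
  jj : (Fin r₀ → ℂ) →ₗ[ℂ] ch.P (Fin c)
  ρ' : ch.A (Fin n) → (Fin r₀ → ℂ) → Fin r₀ → ℂ
  cs : ∀ j, Tens ch.M bH →L[ℂ] Tens ch.M (ch.b j)

namespace Su

variable (s : Su A W U ι Λ M r n F)

/-- The degree of the maps. -/
abbrev d : ℤ := dgz s.D.m fun i => s.D.a i - s.D.b i

/-- The chart as a presentation. -/
abbrev D₀ := dat s.ch n (ci F) s.e (fun _ => 1) bH s.jj s.ρ'

/-- The standing hypotheses. -/
structure Ok : Prop where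
  nf : Nf s.D (ci F).act (ci F).cone (ci F).tan s.g s.o
  nf₀ : Nf s.D₀ (ci F).act (ci F).cone (ci F).tan s.g none
  prp : (sd s.D₀ (ci F).cone (ci F).tan).Prp
  sm : ∃ dg, SmCI F dg
  eo : s.ch.o = none
  eg : s.ch.g = s.g
  ea : ∀ j, s.ch.a (some j) = fun _ => 1
  eb : ∀ j, s.ch.b j = bH
  num : s.ch.Num
  cs : ∀ j, Bijective (s.cs j) ∧ ∀ μ q, val (s.cs j μ) q = val μ q
  sol : s.D₀.sol (ci F).cone = s.ch.sol (Fin n) (ci F)

/-- The zero set. -/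
abbrev Z : Set W := s.D.sol (ci F).cone

/-- The zero set of the chart. -/
abbrev Z₀ : Set (s.ch.W (Fin n)) := s.D₀.sol (ci F).cone

/-- The factors of the joint embedding. -/
abbrev MM : ι ⊕ Option Unit → ℕ := Sum.elim M s.ch.M

/-- The joint multidegree. -/
abbrev mm : ι ⊕ Option Unit → ℤ := Sum.elim s.D.m s.ch.m

/-- The first projection. -/
def L : V s.MM →L[ℂ] V M :=
  LinearMap.toContinuousLinearMap ⟨⟨fun q i => q (.inl i), fun _ _ => rfl⟩, fun _ _ => rfl⟩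

theorem L_apply (q : V s.MM) (i : ι) : s.L q i = q (.inl i) := rfl

/-- The second projection. -/
def R : V s.MM →L[ℂ] V s.ch.M :=
  LinearMap.toContinuousLinearMap ⟨⟨fun q i => q (.inr i), fun _ _ => rfl⟩, fun _ _ => rfl⟩

theorem R_apply (q : V s.MM) (i : Option Unit) : s.R q i = q (.inr i) := rfl

/-- The degree of the third equations. -/
abbrev e₃ : ι ⊕ Option Unit → ℕ := Sum.elim s.D.a bH

/-- The number of sections. -/
def hh (e : ι ⊕ Option Unit → ℕ) : ℕ := (∑ i, e i * s.mm i + 1 - s.g).toNat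

/-- The Hilbert points. -/
abbrev Q : Type := (Tens s.MM (fun _ => 4) →L[ℂ] Fin (s.hh fun _ => 4) → ℂ) ×
  (Tens s.MM s.e₃ →L[ℂ] Fin (s.hh s.e₃) → ℂ)

/-- The changes of frames. -/
abbrev A₃ : Type := ((Fin (s.hh fun _ => 4) → ℂ) →L[ℂ] Fin (s.hh fun _ => 4) → ℂ) ×
  ((Fin (s.hh s.e₃) → ℂ) →L[ℂ] Fin (s.hh s.e₃) → ℂ)

/-- The test forms. -/
abbrev Tf : Type := Tens s.ch.M bH

/-- The values of the third section. -/
abbrev P₃ : Type := s.Tf →L[ℂ] ((Fin (s.hh s.e₃) → ℂ) →L[ℂ] ℂ) →L[ℂ] U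

instance : NormedAddCommGroup s.P₃ := inferInstance

instance : NormedSpace ℂ s.P₃ := inferInstance

/-- A test form applied to all fields. -/
def ap (w : Vv s.ch) (μ : s.Tf) : Fin (N + 1) → ℂ := fun j => w j (s.cs j μ)

/-- The joint substitution. -/
def sb (u : A) (u₀ : s.ch.A (Fin n)) (e : ι ⊕ Option Unit → ℕ) : Tens s.MM e →L[ℂ] Tens s.MM e :=
  ContinuousMultilinearMap.compContinuousLinearMapL fun t =>
    (Sum.rec (eps s.D u) u₀.1 t.1 : (Fin (s.MM t.1) → ℂ) →L[ℂ] Fin (s.MM t.1) → ℂ)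

/-- `Γ` is the graph of an isomorphism of stable maps. -/
def Jt (x : W) (x₀ : s.ch.W (Fin n)) (Γ : Set (V s.MM)) : Prop :=
  ∃ φ, Iso tor tor (ci F).act (s.D.C x) (crv x₀) (s.D.p · x) x₀.p (s.D.f x) (fld x₀) φ ∧
    Γ = {q | s.L q ∈ s.D.C x ∧ Base.Orb (φ (s.L q)) (s.R q)}

/-- The third equation. -/
def dl (q : V s.MM) (l : ℂ) (e : U) (e₀ : Vv s.ch) (μ : s.Tf) : U :=
  l • s.D.j (s.L q, s.ap e₀ μ) - val μ (s.R q) • e

/-- The roof. -/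
def rf : Rf s.A₃ s.Q s.P₃ (sd s.D (ci F).cone (ci F).tan) (sd s.D₀ (ci F).cone (ci F).tan) where
  aq u q := (u.2.2.1 ∘L q.1 ∘L s.sb u.1 u.2.1 _, u.2.2.2 ∘L q.2 ∘L s.sb u.1 u.2.1 _)
  ρ₃ u κ := (ContinuousLinearMap.compL ℂ _ U U (fderiv ℂ (s.D.ν u.1) 0) ∘L
    (ContinuousLinearMap.compL ℂ _ _ U).flip ((ContinuousLinearMap.compL ℂ _ _ ℂ).flip u.2.2.2)) ∘L
      κ ∘L sub u.2.1 _
  O := {q | Surjective q.1 ∧ Surjective q.2}
  Z := {z | z.1 ∈ s.Z ∧ z.2.1 ∈ s.Z₀ ∧ ∃ Γ, s.Jt z.1 z.2.1 Γ ∧ HP z.2.2.1 Γ ∧ HP z.2.2.2 Γ}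
  ob z := Submodule.span ℂ {κ | ∀ q ∈ jc z.2.2.1, ∀ u, Evl z.2.2.2 q u → ∀ l : ℂ,
    s.D.f z.1 (s.L q) = l • fld z.2.1 (s.R q) → ∃ e e₀, Pt s.D z.1 (s.L q) κ.1 e ∧
      Pt s.D₀ z.2.1 (s.R q) κ.2.1 e₀ ∧ ∀ μ, κ.2.2 μ u = s.dl q l e e₀ μ}

theorem ρ₃_apply (u : A × s.ch.A (Fin n) × s.A₃) (κ : s.P₃) (μ : s.Tf) (v) :
    s.rf.ρ₃ u κ μ v = fderiv ℂ (s.D.ν u.1) 0 (κ (sub u.2.1 _ μ) (v ∘L u.2.2.2)) := rfl

/-- A holomorphic lift of the family to the chart near `x`. -/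
structure Th (x : s.D.S) (θ : W → s.ch.W (Fin n)) (Γ : s.D.S → Set (V s.MM))
    (lk : s.D.S → V s.MM → ℂ) : Prop where
  an : AnalyticAt ℂ θ x
  fam : LocFam (.inl s.o) Γ Subtype.val x
  fam₀ : LocFam (.inr none) Γ Subtype.val x
  cur : ∀ᶠ y in 𝓝 x, IsCurve (.inl s.o) s.g s.mm (Γ y)
  base : ∀ᶠ y : s.D.S in 𝓝 x, θ y ∈ s.ch.base (Fin n)
  left : ∀ᶠ y in 𝓝 x, s.L '' Γ y = s.D.C y ∧
    ∀ q ∈ Γ y, ∀ q' ∈ Γ y, Base.Orb (s.L q) (s.L q') → Base.Orb q q'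
  right : ∀ᶠ y in 𝓝 x, s.R '' Γ y = crv (θ y) ∧
    ∀ q ∈ Γ y, ∀ q' ∈ Γ y, Base.Orb (s.R q) (s.R q') → Base.Orb q q'
  mark : ∃ p : W → Fin n → V s.MM, AnalyticAt ℂ p x ∧ ∀ᶠ y : s.D.S in 𝓝 x, ∀ i,
    p y i ∈ Γ y ∧ s.L (p y i) = s.D.p i y ∧ s.R (p y i) = (θ y).p i
  lnk : FMer (.inl s.o) Γ Subtype.val x
    (Sum.elim (fun i => s.D.a i - s.D.b i) fun o => o.elim 1 fun _ => -1) Empty.elim Empty.elim lk
  ne : ∀ q ∈ Γ x, lk x q ≠ 0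

/-- The lift passes through the point `z` of the roof; `Qf` are the Hilbert points and
`v y + Lf y X` is the third section. -/
structure Ex (z : W × s.ch.W (Fin n) × s.Q) (hz : z.1 ∈ s.D.S) (θ : W → s.ch.W (Fin n))
    (Γ : s.D.S → Set (V s.MM)) (lk : s.D.S → V s.MM → ℂ) (Qf : W → s.Q) (v : W → s.P₃)
    (Lf : W → s.ch.Fld →L[ℂ] s.P₃) : Prop where
  mem : z ∈ s.rf.Z
  th : s.Th ⟨z.1, hz⟩ θ Γ lk
  eqθ : θ z.1 = z.2.1
  eqQ : Qf z.1 = z.2.2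
  link : ∀ q ∈ Γ ⟨z.1, hz⟩, s.D.f z.1 (s.L q) = lk ⟨z.1, hz⟩ q • fld z.2.1 (s.R q)
  anQ : AnalyticAt ℂ Qf z.1
  anv : AnalyticAt ℂ v z.1
  anL : AnalyticAt ℂ Lf z.1
  hp : ∀ᶠ y : s.D.S in 𝓝 ⟨z.1, hz⟩, HP (Qf y).1 (Γ y) ∧ HP (Qf y).2 (Γ y) ∧ jc (Qf y).1 = Γ y
  del : ∀ᶠ y : s.D.S in 𝓝 ⟨z.1, hz⟩, ∀ X, ∀ q ∈ Γ y, ∀ u, Evl (Qf y).2 q u → ∀ μ,
    (v y + Lf y X) μ u = s.dl q (lk y q) (s.D.s (y, s.L q)) (s.D₀.s (setX (θ y) X, s.R q)) μ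

/-- Every point of the roof has local data. -/
def HasEx : Prop := (∀ x ∈ s.Z, ∃ z ∈ s.rf.Z, z.1 = x) ∧
  ∀ z ∈ s.rf.Z, ∃ hz θ Γ lk Qf v Lf, s.Ex z hz θ Γ lk Qf v Lf

/-- The section of the local model. -/
def sec (θ : W → s.ch.W (Fin n)) (Qf : W → s.Q) (X : W → s.ch.Fld) (ω : W × s.ch.Fld) :
    s.ch.W (Fin n) × s.Q := (setX (θ ω.1) (X ω.1 + ω.2), Qf ω.1)

/-- The third section of the local model. -/
def del (v : W → s.P₃) (Lf : W → s.ch.Fld →L[ℂ] s.P₃) (X : W → s.ch.Fld) (ω : W × s.ch.Fld) : s.P₃ :=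
  v ω.1 + Lf ω.1 (X ω.1 + ω.2)

/-- The number of sections of `O(a)`. -/
def hA : ℕ := (∑ i, s.D.a i * s.D.m i + 1 - s.g).toNat

/-- The data of the first side. -/
abbrev sd₁ := sd s.D (ci F).cone (ci F).tan

/-- The data of the second side. -/
abbrev sd₀ := sd s.D₀ (ci F).cone (ci F).tan

/-- Every solution has a holomorphic lift. -/
def HasTh : Prop := ∀ x (hx : x ∈ s.Z), ∃ θ Γ lk, s.Th ⟨x, hx.1⟩ θ Γ lk

end Su

end Vale.Agent.P269L.K
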