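import Vale.Agent.P269L.K.Id1
import Vale.Agent.P269L.K.St

/-!
# Evaluation of framed sections; two division lemmas on a curve
-/

set_option linter.unusedSectionVars false
set_option linter.unusedVariables false

noncomputable section

namespace Vale.Agent.P269L.K

open Set Function Topology Filter P269 P269.Holo P269.Base I

variable {ι U X : Type} [Fintype ι] {M : ι → ℕ} {e e' : ι → ℕ} {h : ℕ} {o : ι} {g : ℤ} {m : ι → ℤ}
  [NormedAddCommGroup U] [NormedSpace ℂ U] [NormedAddCommGroup X] [NormedSpace ℂ X]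
  {Q : Tens M e →L[ℂ] Fin h → ℂ} {G : Set (V M)} {q : V M}

theorem Evl.uniq (hQ : Surjective Q) {u u' : (Fin h → ℂ) →L[ℂ] ℂ} (a : Evl Q q u) (b : Evl Q q u') :
    u = u' := ContinuousLinearMap.ext fun y => by
  obtain ⟨μ, rfl⟩ := hQ y
  exact (a μ).trans (b μ).symm

theorem HP.evl (hQ : HP Q G) {R : (Fin h → ℂ) →L[ℂ] Tens M e} (hR : ∀ y, Q (R y) = y) (hq : q ∈ G) :
    Evl Q q ((evL e q).comp R) := fun μ =>
  sub_eq_zero.1 ((hQ.2 (R (Q μ) - μ)).1 (by rw [map_sub, hR, sub_self]) q hq)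

/-- The evaluations. -/
theorem HP.exists_evl (hQ : HP Q G) : ∃ u : V M → (Fin h → ℂ) →L[ℂ] ℂ, (∀ q, AnalyticAt ℂ u q) ∧
    (∀ t q, u (t • q) = Base.chr e t • u q) ∧ ∀ q ∈ G, Evl Q q (u q) :=
  let ⟨R, hR⟩ := exists_rightInv hQ.1
  ⟨fun q => (evL e q).comp R, fun q => an_comp (analyticAt_evL q) analyticAt_const,
    fun t q => ContinuousLinearMap.ext fun y => val_smul _ t q, fun q hq => hQ.evl hR hq⟩

/-- The evaluations span. -/
theorem HP.ext (hQ : HP Q G) {p : ((Fin h → ℂ) →L[ℂ] ℂ) →L[ℂ] U}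
    (hp : ∀ q ∈ G, ∀ u, Evl Q q u → p u = 0) : p = 0 := by
  obtain ⟨u, -, -, hu⟩ := hQ.exists_evl
  have k : ∀ w : (Fin h → ℂ) →L[ℂ] ℂ,
      p w = ∑ i, w (Pi.single i 1) • p (ContinuousLinearMap.proj i) := fun w => by
    simp only [← map_smul, ← map_sum]
    refine congrArg p (ContinuousLinearMap.ext fun y => ?_)
    conv_lhs => rw [pi_eq_sum_univ' y, map_sum]
    simp [mul_comm]
  refine ContinuousLinearMap.ext fun w => SeparatingDual.eq_zero_of_forall_dual_eq_zero (R := ℂ)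
    fun l => ?_
  have k' : ∀ w : (Fin h → ℂ) →L[ℂ] ℂ, l (p w) = w fun i => l (p (ContinuousLinearMap.proj i)) :=
    fun w => by
      conv_rhs => rw [pi_eq_sum_univ' fun i => l (p (ContinuousLinearMap.proj i)), map_sum]
      simp [k w, mul_comm]
  obtain ⟨μ, b⟩ := hQ.1 fun i => l (p (ContinuousLinearMap.proj i))
  rw [k', ← b, (hQ.2 μ).2 fun q hq => ?_, map_zero]
  rw [← hu q hq μ, b, ← k', hp q hq _ (hu q hq), map_zero]

theorem nn_ext (hG : Nod o G) (hq : q ∈ G) {φ : V M → U} (hφ : ContinuousWithinAt φ G q)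
    (h0 : ∀ᶠ y in 𝓝[G] q, ¬IsNode o G y → φ y = 0) : φ q = 0 :=
  isClosed_singleton.closure_subset (mem_closure_of_frequently_of_tendsto
    (((hG.frequently_not_node (β := Empty) nofun hq).and_eventually h0).mono fun _ b => b.2 b.1.2) hφ)

theorem nn_dense (hG : Nod o G) : G ⊆ closure {q | q ∈ G ∧ ¬IsNode o G q} := fun q hq =>
  mem_closure_iff_frequently.2 ((((hG.frequently_not_node (β := Empty) nofun hq).and_eventually
    self_mem_nhdsWithin).mono fun _ b => ⟨b.2, b.1.2⟩).filter_mono nhdsWithin_le_nhds)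

/-- A linear family of polynomials is a linear family of forms. -/
theorem exists_lin_form [FiniteDimensional ℂ X] (Φ : X →ₗ[ℂ] V M → ℂ) (hΦ : ∀ y, Φ y ∈ Pol M e) :
    ∃ ν : X →L[ℂ] Tens M e, ∀ y q, val (ν y) q = Φ y q := by
  obtain ⟨ν, b⟩ := Module.projective_lifting_property (Base.valL M e).rangeRestrict
    (Φ.codRestrict _ hΦ) (Base.valL M e).surjective_rangeRestrict
  exact ⟨LinearMap.toContinuousLinearMap ν, fun y q =>
    congrFun (congrArg Subtype.val (LinearMap.congr_fun b y)) q⟩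

variable [FiniteDimensional ℂ U] [FiniteDimensional ℂ X]

/-- Division by an injective family and a unit. -/
theorem exists_quo (hG : Nod o G) {p : V M → U} {J : V M → X →L[ℂ] U} {l : V M → ℂ}
    (hp : ∀ q, AnalyticAt ℂ p q) (hJ : ∀ q, AnalyticAt ℂ J q) (hi : ∀ q ∈ G, Injective (J q))
    (hl : ∀ q ∈ G, l q ≠ 0 ∧ ∃ k, AnalyticAt ℂ k q ∧ ∀ᶠ y in 𝓝[G] q, l y = k y)
    (hom : ∀ t : ι → ℂ, (∀ i, t i ≠ 0) → ∀ q ∈ G, ∀ y, p q = l q • J q y →
      p (t • q) = l (t • q) • J (t • q) (Base.chr e' t • y))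
    (h0 : ∀ q ∈ G, ¬IsNode o G q → ∃ y, p q = J q y) : ∃ y : V M → X,
      (∀ q ∈ G, p q = l q • J q (y q)) ∧ ∀ w : X →L[ℂ] ℂ, IsSec o G e' fun q => w (y q) := by
  choose! R r1 r2 using fun q hq => exists_an_leftInv (hJ q) (hi q hq)
  have k : ∀ q ∈ G, ∃ y, p q = l q • J q y := fun q hq => ⟨(l q)⁻¹ • R q q (p q), by
    rw [map_smul, smul_inv_smul₀ (hl q hq).1]
    refine sub_eq_zero.1 (nn_ext hG hq (φ := fun y => p y - J y (R q y (p y))) ((hp q).sub
      (an_apply (hJ q) (an_apply (r1 q hq) (hp q)))).continuousAt.continuousWithinAt ?_)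
    filter_upwards [nhdsWithin_le_nhds (r2 q hq), self_mem_nhdsWithin] with y b c d
    obtain ⟨w, f⟩ := h0 y c d
    rw [f, b, sub_self]⟩
  choose! y hy using k
  refine ⟨y, hy, fun w => isSec_of_hol (fun t ht q hq => ?_) fun q hq => ?_⟩
  · have b := hG.cone t ht q hq
    rw [hi _ b (smul_right_injective _ (hl _ b).1 ((hy _ b).symm.trans (hom t ht q hq _ (hy q hq)))),
      map_smul, smul_eq_mul]
  · obtain ⟨b, k, k1, k2⟩ := hl q hq
    refine ⟨fun z => w ((k z)⁻¹ • R q z (p z)), (w.analyticAt _).comp ((k1.inv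
      (k2.self_of_nhdsWithin hq ▸ b)).smul (an_apply (r1 q hq) (hp q))), ?_⟩
    filter_upwards [nhdsWithin_le_nhds (r2 q hq), self_mem_nhdsWithin, k2] with z c d f
    rw [hy z d, (R q z).map_smul, c, ← f, inv_smul_smul₀ (hl z d).1]

/-- Division by a base point free system. -/
theorem exists_kos {Y : Type} [Nonempty Y] (hG : Nod o G) {p : Y → V M → U} {w : Y → V M → ℂ}
    (hp : ∀ μ q, AnalyticAt ℂ (p μ) q) (hw : ∀ μ q, AnalyticAt ℂ (w μ) q)
    (bpf : ∀ q ∈ G, ∃ μ, w μ q ≠ 0) (hom : ∀ t : ι → ℂ, (∀ i, t i ≠ 0) → ∃ s : ℂ, s ≠ 0 ∧ ∀ μ q,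
      w μ (t • q) = s * w μ q ∧ p μ (t • q) = (s * Base.chr e' t) • p μ q)
    (h0 : ∀ q ∈ G, ¬IsNode o G q → ∀ μ μ', w μ' q • p μ q = w μ q • p μ' q) : ∃ y : V M → U,
      (∀ q ∈ G, ∀ μ, p μ q = w μ q • y q) ∧ ∀ l : U →L[ℂ] ℂ, IsSec o G e' fun q => l (y q) := by
  have k : ∀ q ∈ G, ∀ μ μ', w μ' q • p μ q = w μ q • p μ' q := fun q hq μ μ' =>
    sub_eq_zero.1 (nn_ext hG hq (φ := fun y => w μ' y • p μ y - w μ y • p μ' y)
      (((hw _ q).smul (hp _ q)).sub ((hw _ q).smul (hp _ q))).continuousAt.continuousWithinAt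
      (eventually_mem_nhdsWithin.mono fun y b c => sub_eq_zero.2 (h0 y b c μ μ')))
  choose! ν hν using bpf
  have hy : ∀ q ∈ G, ∀ μ, p μ q = w μ q • (w (ν q) q)⁻¹ • p (ν q) q := fun q hq μ => by
    rw [smul_comm, ← k q hq, inv_smul_smul₀ (hν q hq)]
  refine ⟨_, hy, fun l => isSec_of_hol (fun t ht q hq => ?_) fun q hq => ?_⟩
  · obtain ⟨s, s0, hs⟩ := hom t ht
    have b := hy _ (hG.cone t ht q hq) (ν q)
    rw [(hs _ _).1, (hs _ _).2, hy q hq (ν q), smul_smul, mul_right_comm, mul_smul] at b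
    rw [← smul_right_injective _ (mul_ne_zero s0 (hν q hq)) b, map_smul, smul_eq_mul]
  · refine ⟨fun z => l ((w (ν q) z)⁻¹ • p (ν q) z), (l.analyticAt _).comp
      (((hw _ q).inv (hν q hq)).smul (hp _ q)), ?_⟩
    filter_upwards [nhdsWithin_le_nhds ((hw _ q).continuousAt.eventually_ne (hν q hq)),
      self_mem_nhdsWithin] with z c d
    rw [hy z d (ν q), inv_smul_smul₀ c]

/-- A basis of the sections, dual to points. -/
theorem exists_dual_pts (hG : IsCurve o g m G) (he : e' ≠ 0) {n : ℕ}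
    (hn : (n : ℤ) = dg m e' + 1 - g) : ∃ (y : Fin n → V M) (ν : Fin n → Tens M e'),
      (∀ k, y k ∈ G) ∧ (∀ (f : Fin n → U) k, ∑ i, val (ν i) (y k) • f i = f k) ∧
      ∀ f : V M → U, (∀ l : U →L[ℂ] ℂ, IsSec o G e' fun q => l (f q)) →
        ∀ q ∈ G, f q = ∑ i, val (ν i) q • f (y i) := by
  classical
  obtain ⟨y, y1, y2, y3⟩ := hG.exists_ev he hn
  choose ν hν using fun i => y2 (Pi.single i 1)
  have k : ∀ i j, val (ν i) (y j) = (Pi.single i 1 : Fin n → ℂ) j := fun i j => congrFun (hν i) j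
  refine ⟨y, ν, fun k => (y1 k).1, fun f j => by simp [k, Pi.single_apply], fun f hf q hq =>
    sub_eq_zero.1 (SeparatingDual.eq_zero_of_forall_dual_eq_zero (R := ℂ) fun l => ?_)⟩
  obtain ⟨μ, b⟩ := hG.normal _ he _ (hf l)
  have := y3 (μ - ∑ i, l (f (y i)) • ν i) (fun j => by
    simp [val_sum, k, Pi.single_apply, ← b _ (y1 j).1]) q hq
  simpa [val_sum, ← b q hq, mul_comm] using this

end Vale.Agent.P269L.K
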