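import Vale.Agent.P269L.K.Id2
import Vale.Agent.P269L.K.Fr0

/-!
# The local data at a point of the roof: test sections, kernels
-/

set_option linter.unusedSectionVars false
set_option linter.unusedVariables false
set_option maxSynthPendingDepth 3

noncomputable section

namespace Vale.Agent.P269L.K

open Set Function Topology Filter P269 P269.Ch P269.Holo P269.Base I

theorem ev_pull {W Ω : Type} [TopologicalSpace W] {S : Set W} {x : W} {hx : x ∈ S} {p : S → Prop}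
    (h : ∀ᶠ y : S in 𝓝 ⟨x, hx⟩, p y) {l : Filter Ω} {π : Ω → W} (hπ : Tendsto π l (𝓝[S] x)) :
    ∀ᶠ z in l, ∃ b : π z ∈ S, p ⟨π z, b⟩ := by
  rw [nhds_subtype_eq_comap, eventually_comap] at h
  filter_upwards [hπ.eventually (nhdsWithin_le_nhds h), hπ.eventually self_mem_nhdsWithin]
    with z a b using ⟨b, a ⟨_, b⟩ rfl⟩

variable {N c : ℕ} {F : Fin c → MvPolynomial (Fin (N + 1)) ℂ} {A W U ι Λ : Type} [NormedRing A]
  [NormedAlgebra ℂ A] [NormedAddCommGroup W] [NormedSpace ℂ W] [NormedAddCommGroup U]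
  [NormedSpace ℂ U] [Fintype ι] [DecidableEq ι] {M : ι → ℕ} {r n : ℕ}

namespace Su

variable {s : Su A W U ι Λ M r n F} {z : W × s.ch.W (Fin n) × s.Q} {hz : z.1 ∈ s.D.S}
  {θ : W → s.ch.W (Fin n)} {Γ : s.D.S → Set (V s.MM)} {lk : s.D.S → V s.MM → ℂ} {Qf : W → s.Q}
  {v : W → s.P₃} {Lf : W → s.ch.Fld →L[ℂ] s.P₃}

variable (s) in
/-- The values of the fields at a point. -/
def fv (x : s.ch.W (Fin n)) (q : V s.ch.M) (X : s.ch.Fld) (μ : s.Tf) : Fin (N + 1) → ℂ :=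
  fun j => uu x q (some j) (X j (s.cs j μ))

theorem ap_s (x : s.ch.W (Fin n)) (q : V s.ch.M) (X : s.ch.Fld) (μ : s.Tf) :
    s.ap (s.D₀.s (setX x X, q)) μ = s.fv x q X μ := rfl

theorem Ok.apj (h : s.Ok) (q : V s.ch.M) (y : Fin (N + 1) → ℂ) (μ : s.Tf) :
    s.ap (s.D₀.j (q, y)) μ = val μ q • y := funext fun j =>
  (congrArg (y j * ·) ((h.cs j).2 μ q)).trans (mul_comm _ _)

theorem Ok.rtI (h : s.Ok) : Rt (ci F).cone (ci F).tan :=
  let ⟨_, b⟩ := h.sm
  rt_ci b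

theorem chr_elim (a : ι → ℕ) (b : Option Unit → ℕ) (t : ι ⊕ Option Unit → ℂ) :
    Base.chr (Sum.elim a b) t = Base.chr a (fun i => t (.inl i)) * Base.chr b fun i => t (.inr i) :=
  Fintype.prod_sum_type _

theorem pol_R {b : Option Unit → ℕ} (μ : Tens s.ch.M b) :
    (fun q => val μ (s.R q)) ∈ Pol s.MM (Sum.elim 0 b) :=
  mem_Pol_of (fun q => (an_val analyticAt_const (s.R.analyticAt q)).differentiableAt) fun t _ q => by
    rw [chr_elim, chr_zero, one_mul]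
    exact val_smul μ (fun i => t (.inr i)) (s.R q)

theorem exists_form_R {b : Option Unit → ℕ} (ν : Tens s.MM (Sum.elim 0 b)) :
    ∃ μ : Tens s.ch.M b, ∀ q, val μ (s.R q) = val ν q := by
  let i : V s.ch.M →L[ℂ] V s.MM := LinearMap.toContinuousLinearMap
    ⟨⟨fun c => Sum.rec (fun _ => 0) c, fun _ _ => funext (Sum.rec (fun _ => (add_zero _).symm)
      fun _ => rfl)⟩, fun a _ => funext (Sum.rec (fun _ => (smul_zero a).symm) fun _ => rfl)⟩
  obtain ⟨μ, e⟩ := mem_Pol_of (a := b) (q := fun c => val ν (i c))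
    (fun c => (an_val analyticAt_const (i.analyticAt c)).differentiableAt) fun t _ c => by
      have := val_smul ν (Sum.elim 1 t) (i c)
      rw [chr_elim, chr_zero, one_mul] at this
      exact (congrArg (val ν) (funext (Sum.rec (fun _ => (smul_zero (1 : ℂ)).symm)
        fun _ => rfl))).trans this
  refine ⟨μ, fun q => (congrFun e _).trans (congrArg ν (funext ?_))⟩
  rintro ⟨_ | _, k⟩
  exacts [k.elim0, rfl]

namespace Ex

variable (h : s.Ok) (e : s.Ex z hz θ Γ lk Qf v Lf)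
include e

theorem cur : IsCurve (.inl s.o) s.g s.mm (Γ ⟨z.1, hz⟩) := e.th.cur.self_of_nhds

theorem hp₀ : HP (Qf z.1).2 (Γ ⟨z.1, hz⟩) := e.hp.self_of_nhds.2.1

theorem base₀ : θ z.1 ∈ s.ch.base (Fin n) := e.th.base.self_of_nhds

theorem memL {q} (hq : q ∈ Γ ⟨z.1, hz⟩) : s.L q ∈ s.D.C z.1 :=
  e.th.left.self_of_nhds.1 ▸ mem_image_of_mem _ hq

theorem memR {q} (hq : q ∈ Γ ⟨z.1, hz⟩) : s.R q ∈ crv (θ z.1) :=
  e.th.right.self_of_nhds.1 ▸ mem_image_of_mem _ hq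

/-- Analytic sections through the smooth points, with the link and the evaluation. -/
theorem exists_tst {q} (hq : q ∈ Γ ⟨z.1, hz⟩) (hn : ¬IsNode (.inl s.o) (Γ ⟨z.1, hz⟩) q) :
    ∃ (σ : W → V s.MM) (l : W → ℂ) (u : W → (Fin (s.hh s.e₃) → ℂ) →L[ℂ] ℂ), AnalyticAt ℂ σ z.1 ∧
      σ z.1 = q ∧ AnalyticAt ℂ l z.1 ∧ AnalyticAt ℂ u z.1 ∧ ∀ᶠ y : s.D.S in 𝓝 ⟨z.1, hz⟩,
        σ y ∈ Γ y ∧ lk y (σ y) = l y ∧ Evl (Qf y).2 (σ y) (u y) := by
  obtain ⟨σ, a, b⟩ := e.th.fam.smAt hq hn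
  have c : AnalyticAt ℂ (fun y => σ (y, 0)) z.1 :=
    b.an.comp (f := fun y => (y, 0)) (analyticAt_id.prod analyticAt_const)
  have d : ∀ᶠ y : s.D.S in 𝓝 ⟨z.1, hz⟩, σ (y, 0) ∈ Γ y :=
    ((tendsto_inl _ (0 : ℂ)).eventually b.mem).mono fun _ k => k trivial
  obtain ⟨Φ, f1, f2⟩ := e.th.lnk.reg q hq nofun
  obtain ⟨R, r1, r2⟩ := exists_an_rightInv (analyticAt_snd.comp e.anQ) e.hp₀.1
  refine ⟨fun y => σ (y, 0), fun y => Φ (y, σ (y, 0)), fun y => (evL _ (σ (y, 0))).comp (R y), c, a,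
    f1.comp_of_eq (analyticAt_id.prod c) (Prod.ext rfl a),
    an_comp ((analyticAt_evL _).comp (f := fun y => σ (y, 0)) c) r1, ?_⟩
  have t : Tendsto (fun y : s.D.S => (y, σ (y, 0))) (𝓝 ⟨z.1, hz⟩) (𝓝 (⟨z.1, hz⟩, q)) :=
    tendsto_id.prodMk_nhds (a ▸ c.continuousAt.tendsto.comp continuous_subtype_val.continuousAt)
  filter_upwards [d, t.eventually f2, e.hp, continuous_subtype_val.continuousAt.eventually r2]
    with y k1 k2 k3 k4 using ⟨k1, k2 k1, k3.2.1.evl k4 k1⟩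

include h

/-- The two parts of the third section. -/
theorem parts : ∀ᶠ y : s.D.S in 𝓝 ⟨z.1, hz⟩, ∀ q ∈ Γ y, ∀ u, Evl (Qf y).2 q u → ∀ μ,
    v y μ u = -(val μ (s.R q) • s.D.s (y, s.L q)) ∧
      ∀ X, Lf y X μ u = lk y q • s.D.j (s.L q, s.fv (θ y) (s.R q) X μ) :=
  e.del.mono fun y b q hq u hu μ => by
    have k := b 0 q hq u hu μ
    rw [map_zero, add_zero, dl, ap_s, show s.fv (θ y) (s.R q) 0 μ = 0 from funext fun j => map_zero _,
      (h.nf.emb.2.2 _).1.map_zero, smul_zero, zero_sub] at k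
    refine ⟨k, fun X => ?_⟩
    have k' := b X q hq u hu μ
    rw [add_apply, add_apply, k, dl, ap_s,
      neg_add_eq_sub, sub_left_inj] at k'
    exact k'

/-- The third section vanishes at the centre. -/
theorem zero : v z.1 + Lf z.1 z.2.1.X = 0 := by
  have := h.nf.fdU
  refine ContinuousLinearMap.ext fun μ => e.hp₀.ext fun q hq u hu => ?_
  rw [e.del.self_of_nhds _ q hq u hu μ, dl, e.eqθ, show setX z.2.1 z.2.1.X = z.2.1 from rfl,
    h.nf₀.s_eq e.mem.2.1 (e.eqθ ▸ e.memR hq), h.apj, h.nf.s_eq e.mem.1 (e.memL hq), e.link q hq,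
    (h.nf.emb.2.2 _).1.map_smul, (h.nf.emb.2.2 _).1.map_smul, smul_comm]
  exact sub_self _

theorem inj : Injective (Lf z.1) := by
  obtain ⟨u, -, -, hu⟩ := e.hp₀.exists_evl
  refine (injective_iff_map_eq_zero _).2 fun X b => funext fun j => ContinuousLinearMap.ext fun μ => ?_
  obtain ⟨μ, rfl⟩ := (h.cs j).1.2 μ
  obtain ⟨ν, k⟩ := e.base₀.1 (some j) (X j (s.cs j μ))
  refine k.symm.trans (e.base₀.2.1 _ ν fun c hc => ?_)
  obtain ⟨q, hq, rfl⟩ := e.th.right.self_of_nhds.1.ge hc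
  have a := ((e.parts h).self_of_nhds q hq _ (hu q hq) μ).2 X
  rw [b] at a
  have a' := h.nf.j_inj hz (e.memL hq) (((smul_eq_zero.1 a.symm).resolve_left (e.th.ne q hq)).trans
    (h.nf.emb.2.2 _).1.map_zero.symm)
  rw [← (uu_mem (e.memR hq)).2 (some j) ν, k]
  exact congrFun a' j

theorem chr_lk {t : ι ⊕ Option Unit → ℂ} (ht : ∀ i, t i ≠ 0) : Base.chr s.e₃ t =
    chz (Sum.elim (fun i => s.D.a i - s.D.b i) fun o => o.elim 1 fun _ => -1) t *
      I.chr s.D.b (fun i => t (.inl i)) * Base.chr (Sum.elim 0 fun _ => 1) t := by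
  have k : ∀ i, t (.inl i) ^ s.D.a i = t (.inl i) ^ ((s.D.a i : ℤ) - s.D.b i) * t (.inl i) ^ s.D.b i :=
    fun i => by rw [zpow_sub₀ (ht _), zpow_natCast, zpow_natCast, div_mul_cancel₀ _ (pow_ne_zero _ (ht _))]
  have := ht (.inr (some ()))
  simp only [Base.chr, I.chr, chz, Fintype.prod_sum_type, Sum.elim_inl, Sum.elim_inr, Fintype.prod_option,
    Fintype.prod_unique, bH, Option.elim, Finset.prod_congr rfl fun i _ => k i, Finset.prod_mul_distrib]
  simp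
  ring_nf
  simp [this]

/-- The image of the fields. -/
theorem mem_range {p : s.P₃} (hp : ∀ q ∈ Γ ⟨z.1, hz⟩, ¬IsNode (.inl s.o) (Γ ⟨z.1, hz⟩) q → ∀ u,
    Evl (Qf z.1).2 q u → ∀ μ, ∃ y, p μ u = s.D.j (s.L q, y)) : p ∈ range (Lf z.1) := by
  have := h.nf.fdU
  obtain ⟨u, u1, u2, u3⟩ := e.hp₀.exists_evl
  obtain ⟨J, j1, j2⟩ := exists_clm h.nf.emb.1 fun c => (h.nf.emb.2.2 c).1
  have key : ∀ μ, ∃ y : ∀ j, s.ch.E (some j), ∀ q ∈ Γ ⟨z.1, hz⟩, p μ (u q) =
      lk ⟨z.1, hz⟩ q • s.D.j (s.L q, fun j => uu (θ z.1) (s.R q) (some j) (y j)) := fun μ => by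
    obtain ⟨y, y1, y2⟩ := exists_quo (e' := Sum.elim 0 fun _ => 1) e.cur.nod
      (p := fun q => p μ (u q)) (J := fun q => J (s.L q)) (l := lk ⟨z.1, hz⟩)
      (fun q => ((p μ).analyticAt _).comp (u1 q)) (fun q => (j1 _).comp (s.L.analyticAt q))
      (fun q hq a b k => h.nf.j_inj hz (e.memL hq) ((j2 _ _).symm.trans (k.trans (j2 _ _))))
      (fun q hq => ⟨e.th.ne q hq, by
        obtain ⟨Φ, f1, f2⟩ := e.th.lnk.reg q hq nofun
        exact ⟨fun y => Φ (z.1, y), f1.comp (f := fun y => (z.1, y))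
          (analyticAt_const.prod analyticAt_id),
          eventually_nhdsWithin_iff.2 ((tendsto_inr _ q).eventually f2)⟩⟩)
      (fun t ht q hq y k => by
        rw [u2, map_smul, k, e.th.lnk.hom.self_of_nhds t ht q hq, map_smul, j2, j2,
          show s.L (t • q) = (fun i => t (.inl i)) • s.L q from rfl, h.nf.j_smul, smul_smul,
          smul_smul, smul_smul, e.chr_lk h ht]
        congr 1
        ring)
      fun q hq hn => (hp q hq hn _ (u3 q hq) μ).imp fun _ k => k.trans (j2 _ _).symm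
    have k : ∀ j, ∃ ν : Tens s.ch.M (s.ch.a (some j)), ∀ q ∈ Γ ⟨z.1, hz⟩, val ν (s.R q) = y q j :=
      fun j => by
        obtain ⟨ν, b⟩ := e.cur.normal _ (fun k => one_ne_zero (congrFun k (.inr none))) _
          (y2 (.proj j))
        obtain ⟨ν', b'⟩ := exists_form_R ν
        rw [h.ea j]
        exact ⟨ν', fun q hq => (b' q).trans (b q hq).symm⟩
    choose ν hν using k
    refine ⟨fun j => (θ z.1).Q _ (ν j), fun q hq => (y1 q hq).trans ?_⟩
    rw [j2, funext fun j => ((uu_mem (e.memR hq)).2 (some j) (ν j)).trans (hν j q hq)]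
  choose y hy using key
  let b := Module.finBasis ℂ s.Tf
  have k : ∀ j, ∃ X : Tens s.ch.M (s.ch.b j) →L[ℂ] s.ch.E (some j), ∀ i, X (s.cs j (b i)) = y (b i) j :=
    fun j => by
      obtain ⟨w, hw⟩ := ContinuousLinearMap.HasLeftInverse.of_injective_of_finiteDimensional
        (h.cs j).1.1
      exact ⟨(LinearMap.toContinuousLinearMap (b.constr ℂ fun i => y (b i) j)).comp w, fun i => by
        simp [hw (b i)]⟩
  choose X hX using k
  refine ⟨X, ContinuousLinearMap.coe_injective (b.ext fun i => sub_eq_zero.1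
    (e.hp₀.ext fun q hq w hw => sub_eq_zero.2 ?_))⟩
  obtain rfl := Evl.uniq e.hp₀.1 (u3 q hq) hw
  refine (((e.parts h).self_of_nhds q hq _ hw (b i)).2 X).trans (Eq.trans ?_ (hy _ q hq).symm)
  exact congrArg (fun w => lk _ q • s.D.j (s.L q, w))
    (funext fun j => congrArg (uu (θ z.1) (s.R q) (some j)) (hX j i))

/-- The family `e ↦ (μ ↦ μ e)`. -/
theorem exists_mul : ∃ L : W → (Fin s.hA → U) →L[ℂ] s.P₃, AnalyticAt ℂ L z.1 ∧ Injective (L z.1) ∧
    (∀ y f q, ∃ w, ∀ u, Evl (Qf y).2 q u → ∀ μ, L y f μ u = val μ (s.R q) • w) ∧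
    ∀ p : s.P₃, (∀ q ∈ Γ ⟨z.1, hz⟩, ¬IsNode (.inl s.o) (Γ ⟨z.1, hz⟩) q → ∀ u, Evl (Qf z.1).2 q u →
      ∀ μ μ', val μ' (s.R q) • p μ u = val μ (s.R q) • p μ' u) → p ∈ range (L z.1) := by
  have := h.nf.fdU
  obtain ⟨u, u1, u2, u3⟩ := e.hp₀.exists_evl
  have ne : (Sum.elim s.D.a 0 : ι ⊕ Option Unit → ℕ) ≠ 0 := fun k =>
    let ⟨i, b⟩ := h.nf.fam.1
    b (congrFun k (.inl i))
  have bp : ∀ q ∈ Γ ⟨z.1, hz⟩, ∃ μ : s.Tf, val μ (s.R q) ≠ 0 := fun q hq =>
    (exists_pol_one (c := s.R q) (fun i => e.cur.ne_zero q hq _) bH).imp fun _ k => k.trans_ne one_ne_zero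
  obtain ⟨y, ν, y1, y2, y3⟩ := exists_dual_pts (U := U) e.cur ne (n := s.hA) (by
    have := e.cur.finrank_Hs ne
    simp only [dg, Fintype.sum_sum_type, Sum.elim_inl, Sum.elim_inr, Pi.zero_apply, Nat.cast_zero,
      zero_mul, Finset.sum_const_zero, add_zero] at this ⊢
    rw [hA, ← this, Int.toNat_natCast])
  choose m hm using fun i => exists_lin_form (e := s.e₃) (X := s.Tf)
    ⟨⟨fun μ q => val (ν i) q * val μ (s.R q), fun _ _ => funext fun _ => mul_add _ _ _⟩,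
      fun _ _ => funext fun _ => mul_left_comm _ _ _⟩ fun μ => Pol.mul' (val_mem (ν i)) (pol_R μ)
        (funext (Sum.rec (fun _ => add_zero _) fun _ => zero_add _))
  let B : (Fin (s.hh s.e₃) → ℂ) →L[ℂ] U →L[ℂ] ((Fin (s.hh s.e₃) → ℂ) →L[ℂ] ℂ) →L[ℂ] U :=
    (ContinuousLinearMap.smulRightL ℂ _ U).comp (ContinuousLinearMap.apply ℂ ℂ)
  let L : W → (Fin s.hA → U) →L[ℂ] s.P₃ := fun x => ∑ i,
    ((B.comp ((Qf x).2.comp (m i))).flip).comp (ContinuousLinearMap.proj i)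
  have k : ∀ x f q w, Evl (Qf x).2 q w → ∀ μ,
      L x f μ w = val μ (s.R q) • ∑ i, val (ν i) q • f i := fun x f q w hw μ => by
    simp [L, B, hw _, hm, Finset.smul_sum, smul_smul, mul_comm]
  refine ⟨L, analyticAt_of_apply fun f => analyticAt_of_apply fun μ => analyticAt_of_apply fun w => ?_,
    (injective_iff_map_eq_zero _).2 fun f b => funext fun i => ?_, fun x f q => ⟨_, k x f q⟩,
    fun p hp => ?_⟩
  · simp only [L, B, sum_apply, ContinuousLinearMap.comp_apply,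
      ContinuousLinearMap.flip_apply, ContinuousLinearMap.smulRightL_apply_apply,
      ContinuousLinearMap.smulRight_apply, ContinuousLinearMap.apply_apply]
    exact Finset.analyticAt_fun_sum _ fun i _ => ((w.analyticAt _).comp
      (an_apply (analyticAt_snd.comp e.anQ) analyticAt_const)).smul analyticAt_const
  · obtain ⟨μ, a⟩ := bp _ (y1 i)
    have := k _ f _ _ (u3 _ (y1 i)) μ
    rw [b, y2] at this
    exact (smul_eq_zero.1 this.symm).resolve_left a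
  · obtain ⟨f, f1, f2⟩ := exists_kos (e' := Sum.elim s.D.a 0) e.cur.nod (p := fun μ q => p μ (u q))
      (w := fun (μ : s.Tf) q => val μ (s.R q)) (fun μ q => ((p μ).analyticAt _).comp (u1 q))
      (fun μ q => an_val analyticAt_const (s.R.analyticAt q)) bp
      (fun t ht => ⟨_, chr_ne_zero (a := bH) fun i => ht (.inr i), fun μ q =>
        ⟨val_smul μ (fun i => t (.inr i)) (s.R q), by
          rw [u2, map_smul, chr_elim, chr_elim, chr_zero, mul_one, mul_comm]⟩⟩)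
      fun q hq hn => hp q hq hn _ (u3 q hq)
    refine ⟨fun i => f (y i), ContinuousLinearMap.ext fun μ => sub_eq_zero.1
      (e.hp₀.ext fun q hq w hw => sub_eq_zero.2 ?_)⟩
    obtain rfl := Evl.uniq e.hp₀.1 (u3 q hq) hw
    refine (k _ _ q _ hw μ).trans ?_
    rw [← y3 f f2 q hq]
    exact (f1 q hq μ).symm

end Ex

end Su

end Vale.Agent.P269L.K
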