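import Vale.Agent.P269L.K.Id3

/-!
# The four relations of the local model
-/

set_option linter.unusedSectionVars false
set_option linter.unusedVariables false
set_option maxSynthPendingDepth 3

noncomputable section

namespace Vale.Agent.P269L.K

open Set Function Topology Filter P269 P269.Ch P269.Holo P269.Base I

variable {N c : ℕ} {F : Fin c → MvPolynomial (Fin (N + 1)) ℂ} {A W U ι Λ : Type} [NormedRing A]
  [NormedAlgebra ℂ A] [NormedAddCommGroup W] [NormedSpace ℂ W] [NormedAddCommGroup U]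
  [NormedSpace ℂ U] [Fintype ι] [DecidableEq ι] {M : ι → ℕ} {r n : ℕ}

namespace Su

variable {s : Su A W U ι Λ M r n F} {z : W × s.ch.W (Fin n) × s.Q} {hz : z.1 ∈ s.D.S}
  {θ : W → s.ch.W (Fin n)} {Γ : s.D.S → Set (V s.MM)} {lk : s.D.S → V s.MM → ℂ} {Qf : W → s.Q}
  {v : W → s.P₃} {Lf : W → s.ch.Fld →L[ℂ] s.P₃} {R R₀ Ω : Type} [NormedAddCommGroup R]
  [NormedSpace ℂ R] [NormedAddCommGroup R₀] [NormedSpace ℂ R₀] [FiniteDimensional ℂ R]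
  [FiniteDimensional ℂ R₀] [NormedAddCommGroup Ω] [NormedSpace ℂ Ω]
  {η : W → (Fin r → ℂ) →L[ℂ] R} {a : W → R}
  {η₀ : s.ch.W (Fin n) → (Fin s.r₀ → ℂ) →L[ℂ] R₀} {a₀ : s.ch.W (Fin n) → R₀}

variable (s) in
/-- Evaluation of the third section. -/
def ev₃ (μ : s.Tf) (u : (Fin (s.hh s.e₃) → ℂ) →L[ℂ] ℂ) : s.P₃ →L[ℂ] U :=
  (ContinuousLinearMap.apply ℂ U u).comp (ContinuousLinearMap.apply ℂ _ μ)

variable (s) in
/-- A test form applied to all fields. -/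
def apI (μ : s.Tf) : Vv s.ch →L[ℂ] Fin (N + 1) → ℂ :=
  .pi fun j => (ContinuousLinearMap.apply ℂ ℂ (s.cs j μ)).comp (.proj j)

theorem an_setF {x : Ω → s.ch.W (Fin n)} {X : Ω → s.ch.Fld} {ω : Ω} (hx : AnalyticAt ℂ x ω)
    (hX : AnalyticAt ℂ X ω) : AnalyticAt ℂ (fun y => setX (x y) (X y)) ω :=
  let ⟨a, b, c, _⟩ := Ch.W.an_iff.1 hx
  Ch.W.an_iff.2 ⟨a, b, c, analyticAt_pi_iff.1 hX⟩

variable (z hz Γ) in
/-- The smooth points. -/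
abbrev Spts : Type := {q // q ∈ Γ ⟨z.1, hz⟩ ∧ ¬IsNode (.inl s.o) (Γ ⟨z.1, hz⟩) q}

variable (z hz Γ lk Qf) in
/-- Test sections through all smooth points. -/
def Tst (σ : Spts z hz Γ → W → V s.MM) (l : Spts z hz Γ → W → ℂ)
    (u : Spts z hz Γ → W → (Fin (s.hh s.e₃) → ℂ) →L[ℂ] ℂ) : Prop :=
  ∀ k, AnalyticAt ℂ (σ k) z.1 ∧ σ k z.1 = k ∧ AnalyticAt ℂ (l k) z.1 ∧ AnalyticAt ℂ (u k) z.1 ∧
    ∀ᶠ y : s.D.S in 𝓝 ⟨z.1, hz⟩, σ k y ∈ Γ y ∧ lk y (σ k y) = l k y ∧ Evl (Qf y).2 (σ k y) (u k y)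

namespace Ex

variable (h : s.Ok) (e : s.Ex z hz θ Γ lk Qf v Lf)
include e

theorem tst : ∃ σ l u, Tst z hz Γ lk Qf σ l u := by
  choose σ l u k using fun k : Spts z hz Γ => e.exists_tst k.2.1 k.2.2
  exact ⟨σ, l, u, k⟩

include h

variable {σ l u} (t : Tst z hz Γ lk Qf σ l u) {T : Set Ω} {ω : Ω} {π : Ω → W}
  (hπ : AnalyticAt ℂ π ω) (h0 : π ω = z.1) (hω : ω ∈ T) (hT : ∀ᶠ y in 𝓝[T] ω, π y ∈ s.D.S)
include t hπ h0 hω hT

theorem td : Tendsto π (𝓝[T] ω) (𝓝[s.D.S] z.1) :=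
  tendsto_nhdsWithin_iff.2 ⟨h0 ▸ hπ.continuousAt.tendsto.mono_left nhdsWithin_le_nhds, hT⟩

theorem sid (f : s.sd₁.Fr z.1 η a) :
    Sid s.D (ci F).cone (ci F).tan T ω π η a fun k y => s.L (σ k (π y)) := by
  refine ⟨⟨_, _, h.nf.fam, h.nf.emb⟩, h.rtI, hπ, hω, hT, fun k => ⟨hπ, (s.L.analyticAt _).comp
    ((t k).1.comp_of_eq hπ h0), hω, ?_⟩, ?_, fun k => ?_, h0 ▸ f.an, h0 ▸ f.surj,
    h0 ▸ f.ev.mono fun y b => ⟨fun κ => (b.1 κ).trans (h.nf.mem_van y κ), b.2⟩⟩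
  · filter_upwards [ev_pull ((t k).2.2.2.2.and e.th.left) (e.td h t hπ h0 hω hT)] with y ⟨b, k1, k2⟩
    exact ⟨b, k2.1.le (mem_image_of_mem _ k1.1)⟩
  · rw [h0, ← e.th.left.self_of_nhds.1]
    refine (image_mono (nn_dense e.cur.nod)).trans ((image_closure_subset_closure_image
      s.L.continuous).trans (closure_mono ?_))
    rintro _ ⟨q, hq, rfl⟩
    exact ⟨⟨q, hq⟩, congrArg s.L (t _).2.1⟩
  · rw [h0, (t k).2.1]
    exact ⟨_, h.nf.f_mem e.mem.1 (e.memL k.2.1), h.nf.s_eq e.mem.1 (e.memL k.2.1)⟩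

variable {X : Ω → s.ch.Fld} (hX : AnalyticAt ℂ X ω) (hX0 : X ω = z.2.1.X)
include hX hX0

theorem sid₀ (f : s.sd₀.Fr z.2.1 η₀ a₀) : Sid s.D₀ (ci F).cone (ci F).tan T ω
    (fun y => setX (θ (π y)) (X y)) η₀ a₀ fun k y => s.R (σ k (π y)) := by
  have e0 : setX (θ (π ω)) (X ω) = z.2.1 := by rw [h0, hX0, e.eqθ]; rfl
  have an := an_setF (e.th.an.comp_of_eq hπ h0) hX
  have m : ∀ {q}, q ∈ Γ ⟨z.1, hz⟩ → s.R q ∈ s.D₀.C z.2.1 := fun b => e.eqθ ▸ e.memR b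
  refine ⟨⟨_, _, h.nf₀.fam, h.nf₀.emb⟩, h.rtI, an, hω, (ev_pull e.th.base (e.td h t hπ h0 hω hT)).mono
    fun y b => b.2, fun k => ⟨an, (s.R.analyticAt _).comp ((t k).1.comp_of_eq hπ h0), hω, ?_⟩, ?_,
    fun k => ?_, e0 ▸ f.an, e0 ▸ f.surj,
    e0 ▸ f.ev.mono fun y b => ⟨fun κ => (b.1 κ).trans (h.nf₀.mem_van y κ), b.2⟩⟩
  · filter_upwards [ev_pull ((t k).2.2.2.2.and (e.th.right.and e.th.base)) (e.td h t hπ h0 hω hT)]
      with y ⟨b, k1, k2, k3⟩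
    exact ⟨k3, k2.1.le (mem_image_of_mem _ k1.1)⟩
  · rw [e0, h0, ← e.eqθ]
    refine e.th.right.self_of_nhds.1.ge.trans ((image_mono (nn_dense e.cur.nod)).trans
      ((image_closure_subset_closure_image s.R.continuous).trans (closure_mono ?_)))
    rintro _ ⟨q, hq, rfl⟩
    exact ⟨⟨q, hq⟩, congrArg s.R (t _).2.1⟩
  · rw [e0, h0, (t k).2.1]
    exact ⟨_, h.nf₀.f_mem e.mem.2.1 (m k.2.1), h.nf₀.s_eq e.mem.2.1 (m k.2.1)⟩

theorem lk' : Lk s.D s.D₀ T ω π (fun y => setX (θ (π y)) (X y)) (fun k y => s.L (σ k (π y)))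
    (fun k y => s.R (σ k (π y))) (fun k y => l k (π y)) s.apI (fun μ q => val μ q)
    (fun k μ y => s.ev₃ μ (u k (π y))) fun y => v (π y) + Lf (π y) (X y) := by
  have := h.nf.fdU
  refine ⟨fun k => (t k).2.2.1.comp_of_eq hπ h0, fun k => ?_,
    fun μ q => an_val analyticAt_const analyticAt_id, fun k μ => analyticAt_of_apply fun p =>
      ((p μ).analyticAt _).comp ((t k).2.2.2.1.comp_of_eq hπ h0), fun μ q y => h.apj q y μ,
    fun w b => funext fun j => ContinuousLinearMap.ext fun μ => ?_, fun k => ?_,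
    by rw [h0, hX0, e.zero h], fun k μ => ?_⟩
  · rw [h0, ← (t k).2.2.2.2.self_of_nhds.2.1]
    exact e.th.ne _ (t k).2.2.2.2.self_of_nhds.1
  · obtain ⟨μ, rfl⟩ := (h.cs j).1.2 μ
    exact congrFun (b μ) j
  · rw [h0, (t k).2.1]
    exact (exists_pol_one (c := s.R k) (fun i => e.cur.ne_zero _ k.2.1 _) bH).imp
      fun _ k => k.trans_ne one_ne_zero
  · filter_upwards [ev_pull ((t k).2.2.2.2.and e.del) (e.td h t hπ h0 hω hT)] with y ⟨b, k1, k2⟩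
    rw [← k1.2.1]
    exact k2 _ _ k1.1 _ k1.2.2 μ

end Ex

/-- **The field.** -/
theorem Ex.exists_X (h : s.Ok) (e : s.Ex z hz θ Γ lk Qf v Lf) (f : s.sd₁.Fr z.1 η a) :
    ∃ X : W → s.ch.Fld, AnalyticAt ℂ X z.1 ∧ X z.1 = z.2.1.X ∧
      Gen s.D.S z.1 (fun y => v y + Lf y (X y)) a := by
  have := h.nf.fdU
  obtain ⟨σ, l, u, t⟩ := e.tst
  obtain ⟨X, a1, a2, a3⟩ := (e.sid h t analyticAt_id rfl hz self_mem_nhdsWithin f).exists_fld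
    (ev := fun k μ y => s.ev₃ μ (u k y)) (m := fun k μ y => val μ (s.R (σ k y))) (v := fun y => -v y)
    (fun k μ => analyticAt_of_apply fun p => ((p μ).analyticAt _).comp (t k).2.2.2.1)
    (fun k μ => an_val analyticAt_const ((s.R.analyticAt _).comp (t k).1)) e.anL (e.inj h) e.anv.neg
    (fun k μ => by
      filter_upwards [ev_pull ((t k).2.2.2.2.and (e.parts h)) tendsto_id] with y ⟨b, k1, k2⟩
      have k3 := k2 _ k1.1 _ k1.2.2 μ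
      exact ⟨neg_eq_iff_eq_neg.2 k3.1, fun X => ⟨_, (k3.2 X).trans
        ((h.nf.emb.2.2 _).1.map_smul _ _).symm⟩⟩)
    (fun p b => e.mem_range h fun q hq hn w hw μ => by
      have k := b ⟨q, hq, hn⟩ μ
      have k' := (t ⟨q, hq, hn⟩).2.2.2.2.self_of_nhds.2.2
      rw [(t _).2.1] at k'
      rw [Evl.uniq e.hp₀.1 hw k']
      exact k.imp fun y k => k.trans (congrArg (fun c => s.D.j (s.L c, y)) (t _).2.1))
    (neg_eq_of_add_eq_zero_right (e.zero h))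
  exact ⟨X, a1, a2, a3.of_eq fun y => by rw [sub_neg_eq_add, add_comm]⟩

/-- **The four relations.** -/
theorem Ex.rel (h : s.Ok) (e : s.Ex z hz θ Γ lk Qf v Lf) (f : s.sd₁.Fr z.1 η a)
    (f₀ : s.sd₀.Fr z.2.1 η₀ a₀) {X : W → s.ch.Fld} (hX : AnalyticAt ℂ X z.1) (h0 : X z.1 = z.2.1.X)
    (hG : Gen s.D.S z.1 (fun y => v y + Lf y (X y)) a) :
    Gen (s.D.S ×ˢ univ) (z.1, 0) (fun ω => (a₀ (s.sec θ Qf X ω).1, s.del v Lf X ω))
      (fun ω => (a ω.1, ω.2)) ∧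
    Gen (s.D.S ×ˢ univ) (z.1, 0) (fun ω => ω.2) (fun ω => (a ω.1, s.del v Lf X ω)) ∧
    ∃ w : W × s.ch.Fld → Fin s.hA → U, AnalyticAt ℂ w (z.1, 0) ∧
      Gen (s.D.S ×ˢ univ) (z.1, 0) (fun ω => (a ω.1, s.del v Lf X ω))
        (fun ω => (a₀ (s.sec θ Qf X ω).1, w ω)) ∧
      Gen (s.D.S ×ˢ univ) (z.1, 0) w fun ω => (a₀ (s.sec θ Qf X ω).1, s.del v Lf X ω) := by
  have := h.nf.fdU
  obtain ⟨σ, l, u, t⟩ := e.tst
  have hω : ((z.1, 0) : W × s.ch.Fld) ∈ s.D.S ×ˢ univ := ⟨hz, trivial⟩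
  have hT : ∀ᶠ y in 𝓝[s.D.S ×ˢ univ] ((z.1, 0) : W × s.ch.Fld), y.1 ∈ s.D.S :=
    eventually_mem_nhdsWithin.mono fun _ b => b.1
  have aX : AnalyticAt ℂ (fun ω : W × s.ch.Fld => X ω.1 + ω.2) (z.1, 0) :=
    (AnalyticAt.comp (f := fun ω : W × s.ch.Fld => ω.1) hX analyticAt_fst).add analyticAt_snd
  have aL : AnalyticAt ℂ (fun ω : W × s.ch.Fld => Lf ω.1) (z.1, 0) :=
    AnalyticAt.comp (f := fun ω : W × s.ch.Fld => ω.1) e.anL analyticAt_fst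
  have a0 := (add_zero _).trans h0
  have af : AnalyticAt ℂ (fun ω : W × s.ch.Fld => ω.1) (z.1, 0) := analyticAt_fst
  have k1 := e.sid h t af rfl hω hT f
  have k0 := e.sid₀ h t af rfl hω hT aX a0 f₀
  have k := e.lk' h t af rfl hω hT aX a0
  have g := hG.comp af rfl hT
  have g1 : Gen (s.D.S ×ˢ univ) (z.1, 0) (s.del v Lf X) fun ω => (a ω.1, ω.2) :=
    (g.inl.add (Gen.right.clm aL)).of_eq fun ω => by rw [Su.del, map_add, add_assoc]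
  obtain ⟨L, l1, l2, l3, l4⟩ := e.exists_mul h
  refine ⟨(k.gen₀ k1 k0 .left g1).prod g1, Gen.inj aL (e.inj h) ((Gen.right.sub g.inl).of_eq
    fun ω => by rw [Su.del, map_add, ← add_assoc, add_sub_cancel_left]),
    k.rel₀ k1 k0 ((e.anv.comp_of_eq af rfl).add (an_apply aL aX)) (L := fun ω => L ω.1)
      (l1.comp_of_eq af rfl) l2 (fun q μ μ' => ?_) fun p b => l4 p fun q hq hn w hw μ μ' => ?_⟩
  · filter_upwards [ev_pull (t q).2.2.2.2 (e.td h t af rfl hω hT)] with y ⟨b, c⟩ f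
    obtain ⟨w, d⟩ := l3 y.1 f (σ q y.1)
    exact (congrArg _ (d _ c.2.2 μ)).trans ((smul_comm _ _ _).trans (congrArg _ (d _ c.2.2 μ')).symm)
  · have c := b ⟨q, hq, hn⟩ μ μ'
    have k' := (t ⟨q, hq, hn⟩).2.2.2.2.self_of_nhds.2.2
    rw [(t _).2.1] at c k'
    rw [Evl.uniq e.hp₀.1 hw k']
    exact c

end Su

end Vale.Agent.P269L.K
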