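import Vale.Agent.P269L.K.Id4

/-!
# The four relations in coordinates
-/

set_option linter.unusedSectionVars false
set_option linter.unusedVariables false
set_option maxSynthPendingDepth 3

noncomputable section

namespace Vale.Agent.P269L.K

open Set Function Topology Filter P269 P269.Ch P269.Holo P269.Base I

variable {N c : ℕ} {F : Fin c → MvPolynomial (Fin (N + 1)) ℂ} {A W U ι Λ : Type} [NormedRing A]
  [NormedAlgebra ℂ A] [NormedAddCommGroup W] [NormedSpace ℂ W] [NormedAddCommGroup U]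
  [NormedSpace ℂ U] [Fintype ι] [DecidableEq ι] {M : ι → ℕ} {r n : ℕ}

namespace Su

variable {s : Su A W U ι Λ M r n F} {z : W × s.ch.W (Fin n) × s.Q} {hz : z.1 ∈ s.D.S}
  {θ : W → s.ch.W (Fin n)} {Γ : s.D.S → Set (V s.MM)} {lk : s.D.S → V s.MM → ℂ} {Qf : W → s.Q}
  {v : W → s.P₃} {Lf : W → s.ch.Fld →L[ℂ] s.P₃} {R R₀ F₀ F₁ : Type} [NormedAddCommGroup R]
  [NormedSpace ℂ R] [NormedAddCommGroup R₀] [NormedSpace ℂ R₀] [FiniteDimensional ℂ R]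
  [FiniteDimensional ℂ R₀] [NormedAddCommGroup F₀] [NormedSpace ℂ F₀] [NormedAddCommGroup F₁]
  [NormedSpace ℂ F₁] {η : W → (Fin r → ℂ) →L[ℂ] R} {a : W → R}
  {η₀ : s.ch.W (Fin n) → (Fin s.r₀ → ℂ) →L[ℂ] R₀} {a₀ : s.ch.W (Fin n) → R₀}

/-- **The field and the four relations, in coordinates.** -/
theorem Ex.relC (h : s.Ok) (e : s.Ex z hz θ Γ lk Qf v Lf) (f : s.sd₁.Fr z.1 η a)
    (f₀ : s.sd₀.Fr z.2.1 η₀ a₀) (b : F₀ ≃L[ℂ] s.ch.Fld) (b' : (Fin s.hA → U) ≃L[ℂ] F₁) :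
    ∃ (X : W → s.ch.Fld) (w : W × F₀ → F₁), AnalyticAt ℂ X z.1 ∧ X z.1 = z.2.1.X ∧
      s.sec θ Qf X (z.1, b 0) = z.2 ∧
      AnalyticAt ℂ (fun ω : W × F₀ => s.sec θ Qf X (ω.1, b ω.2)) (z.1, 0) ∧
      AnalyticAt ℂ (fun ω : W × F₀ => s.del v Lf X (ω.1, b ω.2)) (z.1, 0) ∧
      AnalyticAt ℂ w (z.1, 0) ∧ (∀ᶠ y in 𝓝[s.Z] z.1, s.del v Lf X (y, 0) = 0) ∧
      Gen (s.D.S ×ˢ univ) (z.1, 0)
        (fun ω : W × F₀ => (a₀ (s.sec θ Qf X (ω.1, b ω.2)).1, s.del v Lf X (ω.1, b ω.2)))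
        (fun ω => (a ω.1, ω.2)) ∧
      Gen (s.D.S ×ˢ univ) (z.1, 0) (fun ω : W × F₀ => ω.2)
        (fun ω => (a ω.1, s.del v Lf X (ω.1, b ω.2))) ∧
      Gen (s.D.S ×ˢ univ) (z.1, 0) (fun ω : W × F₀ => (a ω.1, s.del v Lf X (ω.1, b ω.2)))
        (fun ω => (a₀ (s.sec θ Qf X (ω.1, b ω.2)).1, w ω)) ∧
      Gen (s.D.S ×ˢ univ) (z.1, 0) w
        fun ω => (a₀ (s.sec θ Qf X (ω.1, b ω.2)).1, s.del v Lf X (ω.1, b ω.2)) := by
  obtain ⟨X, x1, x2, x3⟩ := e.exists_X h f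
  obtain ⟨g1, g2, w, w1, g3, g4⟩ := e.rel h f f₀ x1 x2 x3
  have af : AnalyticAt ℂ (fun ω : W × F₀ => ω.1) (z.1, 0) := analyticAt_fst
  have ab : AnalyticAt ℂ (fun ω : W × F₀ => b ω.2) (z.1, 0) := (b.analyticAt _).comp analyticAt_snd
  have aX := (AnalyticAt.comp (f := fun ω : W × F₀ => ω.1) x1 af).add ab
  have e0 : ((z.1, b 0) : W × s.ch.Fld) = (z.1, 0) := by rw [map_zero]
  have t : ∀ᶠ ω in 𝓝[s.D.S ×ˢ univ] ((z.1, 0) : W × F₀), (ω.1, b ω.2) ∈ s.D.S ×ˢ univ :=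
    eventually_mem_nhdsWithin.mono fun _ k => ⟨k.1, trivial⟩
  refine ⟨X, fun ω => b' (w (ω.1, b ω.2)), x1, x2, ?_, (an_setF (e.th.an.comp_of_eq af rfl) aX).prod
    (e.anQ.comp_of_eq af rfl), (e.anv.comp_of_eq af rfl).add (an_apply (e.anL.comp_of_eq af rfl) aX),
    (b'.analyticAt _).comp (w1.comp_of_eq (af.prod ab) e0), ?_,
    (g1.comp (af.prod ab) e0 t).trans (Gen.left.prod (((Gen.right (h := fun ω : W × F₀ => ω.2)).lin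
      (b : F₀ →L[ℂ] s.ch.Fld)).of_eq fun _ => rfl)),
    ((g2.comp (af.prod ab) e0 t).lin (b.symm : _ →L[ℂ] F₀)).of_eq fun ω => b.symm_apply_apply _,
    (g3.comp (af.prod ab) e0 t).trans (Gen.left.prod ((Gen.right.lin (b'.symm : F₁ →L[ℂ] _)).of_eq
      fun ω => b'.symm_apply_apply _)), (g4.comp (af.prod ab) e0 t).lin (b' : _ →L[ℂ] F₁)⟩
  · rw [sec, map_zero, add_zero, x2, e.eqθ, e.eqQ]
    rfl
  · have k : 𝓝[s.Z] z.1 ≤ 𝓝[s.D.S] z.1 := nhdsWithin_mono _ fun _ k => k.1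
    filter_upwards [k x3.eventually, k f.ev, self_mem_nhdsWithin] with y k1 k2 k3
    rw [Su.del, add_zero]
    refine k1 (k2.2.symm.trans ((k2.1 _).2 ((h.nf.mem_van _ _).2 fun q hq l => ?_)))
    rw [show s.sd₁.σ y = s.D.σ y from rfl, h.nf.ev_σ k3.1 hq, h.nf.s_eq k3 hq]
    have k4 := (h.nf.emb.2.2 q).2.2 (h.nf.free k3.1 hq)
    exact (k4.2.1 _ fun w => h.rtI.ne _ (h.nf.f_mem k3 hq)
      (k4.1 (w.trans (h.nf.emb.2.2 q).1.map_zero.symm))).2 ⟨_, h.nf.f_mem k3 hq, rfl⟩ l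

end Su

end Vale.Agent.P269L.K
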