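import Vale.Agent.P269L.I.Tan
import Vale.Agent.P269L.I.Crv

/-!
# The projection to one factor is an immersion
-/

set_option linter.unusedSectionVars false

namespace Vale.Agent.P269L.K

open Set Function Topology Filter P269 P269.Holo P269.Base I

variable {ι : Type} [Fintype ι] {M : ι → ℕ} {o : ι} {C : Set (V M)} {c v : V M} {g : ℤ} {m : ι → ℤ}
  {n : ℕ} {p : Fin n → V M} {γ δ : ℂ → V M}

variable (o C) in
/-- The projection of the curve to the factor `o` is an immersion. -/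
def Imm : Prop := ∀ c ∈ C, ∀ v ∈ Tan C c, ∀ z : ℂ, v o = z • c o → v ∈ dir (sm M) c

theorem tan_sub (hv : v ∈ Tan C c) (a : AnalyticAt ℂ γ 0) (b : AnalyticAt ℂ δ 0) (a0 : γ 0 = c)
    (b0 : δ 0 = c) {s : V M → ι → ℂ} {x y : V M → ℂ} (hs : AnalyticAt ℂ s c)
    (hx : AnalyticAt ℂ x c) (hy : AnalyticAt ℂ y c) (s0 : s c = 1) (x0 : x c = 0) (y0 : y c = 0)
    (h : ∀ᶠ w in 𝓝[C] c, w = s w • (γ (x w) + δ (y w) - c)) :
    v = fderiv ℂ s c v • c + (fderiv ℂ x c v • deriv γ 0 + fderiv ℂ y c v • deriv δ 0) := by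
  funext i
  let π : V M →L[ℂ] Fin (M i) → ℂ := .proj i
  have k1 := HasFDerivAt.comp c (x0.symm ▸ a.differentiableAt.hasDerivAt.hasFDerivAt :
    HasFDerivAt γ (.toSpanSingleton ℂ (deriv γ 0)) (x c)) hx.differentiableAt.hasFDerivAt
  have k2 := HasFDerivAt.comp c (y0.symm ▸ b.differentiableAt.hasDerivAt.hasFDerivAt :
    HasFDerivAt δ (.toSpanSingleton ℂ (deriv δ 0)) (y c)) hy.differentiableAt.hasFDerivAt
  have k3 := π.hasFDerivAt.comp c ((k1.add k2).sub_const c)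
  have k4 := (ContinuousLinearMap.proj (R := ℂ) (φ := fun _ : ι => ℂ) i).hasFDerivAt.comp c
    hs.differentiableAt.hasFDerivAt
  have k5 := (π.hasFDerivAt (x := c)).sub (k4.smul k3)
  have k6 := Tan.fderiv_eq_zero hv
    (Φ := fun w => π w - s w i • π (γ (x w) + δ (y w) - c))
    ((π.analyticAt c).sub ((analyticAt_pi_iff.1 hs i).smul ((π.analyticAt _).comp
      (((a.comp_of_eq hx x0).add (b.comp_of_eq hy y0)).sub analyticAt_const))))
    (h.mono fun w e => sub_eq_zero.2 (congrFun e i))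
  have k7 := congrArg (· v) k5.fderiv
  have k8 := k7.symm.trans k6
  simp [s0, x0, y0, a0, b0, π, sub_eq_zero] at k8
  simpa [add_comm] using k8

theorem imm_of (h : Nod o C) : Imm o C := by
  intro c hc v hv t ht
  obtain ⟨γ, k⟩ := h.exists_loc hc
  obtain ⟨s, z, a1, a2, -, a3⟩ := k.exists_coord
  have e : ∀ j, s c = 1 ∧ z j c = 0 := fun j => by
    have := (a3 j).self_of_nhds
    simp only [one_smul, k.zero] at this
    exact ⟨this.1, this.2.1⟩
  by_cases he : γ true = γ false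
  · have := tan_sub hv (k.br true).holo (k.br true).holo (k.zero _) (k.zero _) a1 (a2 true)
      (analyticAt_const (v := 0)) (e true).1 (e true).2 rfl (k.ev _ fun j => by
        have : γ j = γ true := by cases j; exacts [he.symm, rfl]
        rw [this]
        exact (a3 true).mono fun w b => by simp only [b.1, b.2.1, k.zero, add_sub_cancel_right])
    rw [fderiv_fun_const, Pi.zero_apply, zero_apply, zero_smul, add_zero] at this
    have z0 := (li_pair_iff.1 (k.br true).imm).2 (fderiv ℂ (z true) c v) (t - fderiv ℂ s c v o) (by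
      rw [k.zero, sub_smul, ← ht, eq_sub_iff_add_eq']
      exact (congrFun this o).symm)
    rw [z0, zero_smul, add_zero] at this
    exact ⟨_, this.symm⟩
  · have := tan_sub hv (k.br true).holo (k.br false).holo (k.zero _) (k.zero _) a1 (a2 true)
      (a2 false) (e true).1 (e true).2 (e false).2 (k.ev _ fun j => (a3 j).mono fun w b => by
        have b3 := b.2.2 he
        cases j
        · simp only [b.1, b.2.1, show z true _ = 0 from b3, k.zero, add_sub_cancel_left]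
        · simp only [b.1, b.2.1, show z false _ = 0 from b3, k.zero, add_sub_cancel_right])
    have z0 := (li_triple_iff.1 (k.alt.resolve_left he)).2 (fderiv ℂ (z true) c v)
      (fderiv ℂ (z false) c v) (t - fderiv ℂ s c v o) (by
        rw [sub_smul, ← ht, eq_sub_iff_add_eq']
        exact (congrFun this o).symm)
    rw [z0.1, z0.2, zero_smul, zero_smul, add_zero, add_zero] at this
    exact ⟨_, this.symm⟩

theorem br_tan (h : Br (sm M) C γ) : deriv γ 0 ∈ Tan C (γ 0) := arc_mem_Tan ⟨h.1, rfl, h.2.1⟩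

theorem Imm.isBranch (hi : Imm o C) (h : Br (sm M) C γ) (h0 : γ 0 o ≠ 0) : IsBranch o C γ :=
  ⟨h.1, h.2.1, li_pair_iff.2 ⟨h0, fun e s k => by_contra fun b => h.2.2 (hi _ h.2.1.self_of_nhds _
    (br_tan h) (e⁻¹ * s) (by rw [mul_smul, ← k, inv_smul_smul₀ b]))⟩⟩

theorem Imm.isCross (hi : Imm o C) (h : Cross (sm M) C c γ δ) (h0 : c o ≠ 0) :
    IsCross o C c γ δ := by
  obtain ⟨a, b, a0, b0, h⟩ := h
  have k := hi.isBranch b (b0 ▸ h0)
  have hc : c ∈ C := a0 ▸ a.2.1.self_of_nhds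
  refine ⟨hi.isBranch a (a0 ▸ h0), k, a0, b0, li_triple_iff.2 ⟨h0, fun e e' s l => ?_⟩⟩
  obtain rfl : e = 0 := by_contra fun u => h (-(e⁻¹ * e')) (hi c hc _ (by
    rw [Tan_eq hc]
    exact sub_mem ((mem_Tan_iff hc).1 (a0 ▸ br_tan a))
      (Submodule.smul_mem _ _ ((mem_Tan_iff hc).1 (b0 ▸ br_tan b)))) (e⁻¹ * s) (by
        rw [mul_smul, ← l, smul_add, inv_smul_smul₀ u, neg_smul, sub_neg_eq_add, mul_smul]
        rfl))
  rw [zero_smul, zero_add, ← b0] at l
  exact ⟨rfl, (li_pair_iff.1 k.imm).2 _ _ l⟩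

/-- **A curve of the statement immersed by one factor is a curve of the chart.** -/
theorem Imm.isCurve (hi : Imm o C) (h : Crv (sm M) C I.chr g m p) : IsCurve o g m C ∧
    (∀ i, p i ∈ C ∧ ¬IsNode o C (p i)) ∧ ∀ i j, ∀ s : ι → ℂ, p i = s • p j → i = j := by
  obtain ⟨h1, h2, h3, h4, h5, h6⟩ := h
  have ne : ∀ c ∈ C, ∀ i, c i ≠ 0 := fun c b => inj_iff.1 ((h1 c (subset_closure b)).1 b)
  have hC : Nod o C := ⟨ne, fun c b d => (h1 c b).2 (inj_iff.2 d),
    fun t b c d => h2 c d _ (same_orb.2 ⟨t, b, rfl⟩), fun c hc => by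
      obtain ⟨γ, δ, b, d⟩ := h3 c hc
      exact ⟨γ, δ, b.imp (fun ⟨e1, e2, e3⟩ => ⟨hi.isBranch e1 (e2.symm ▸ ne c hc o), e2, e3⟩)
        fun e => hi.isCross e (ne c hc o), d⟩⟩
  refine ⟨⟨hC.ne_zero, hC.closed, hC.cone, hC.nodal, fun a ha f hf => ?_, fun a ha => ?_⟩,
    fun i => ⟨(h5 i).1, fun ⟨_, _, e⟩ => (h5 i).2 _ _ (cross_of e)⟩, fun i j s e =>
      (h6 j i (same_orb.2 (.of_smul (ne _ (h5 i).1) e))).symm⟩
  · obtain ⟨q, b, e⟩ := (h4 a (ne_iff.1 ha)).1 f ((sec_iff hC).2 hf)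
    obtain ⟨μ, rfl⟩ := pol_eq.le b
    exact ⟨μ, e⟩
  · rw [← finrank_pol, (h4 a (ne_iff.1 ha)).2]

end Vale.Agent.P269L.K
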