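import Vale.Agent.P269L.K.Fr0
import Vale.Agent.P269.Spl.Prj
import Vale.Agent.P269.Base.FMer

/-!
# A curve in the product that projects bijectively to both sides is the graph of an isomorphism
-/

set_option linter.unusedSectionVars false
set_option linter.unusedVariables false
set_option maxSynthPendingDepth 3

noncomputable section

namespace Vale.Agent.P269L.K

open Set Function Topology Filter Module P291Z P269 P269.Ch P269.Base P269.Holo I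

namespace Jt0

variable {ι ι' κ : Type} [Fintype ι] [Fintype ι'] [Fintype κ] [DecidableEq ι] [DecidableEq ι']
  [DecidableEq κ] {M : κ → ℕ} {r : ι → κ} {r' : ι' → κ} {o : ι} {G : Set (V M)}

theorem lift (hG : Nod (r o) G) (hr : Injective r) {q : V M} (hq : q ∈ G) {c} (h : Base.Orb (rV r q) c) :
    ∃ q' ∈ G, Base.Orb q q' ∧ rV r q' = c := by
  obtain ⟨t, ht, rfl⟩ := h
  have k : ∀ i, extend r t 1 i ≠ 0 := fun i => by
    by_cases e : ∃ j, r j = i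
    · obtain ⟨j, rfl⟩ := e
      rw [hr.extend_apply]
      exact ht j
    · rw [extend_apply' _ _ _ e]
      exact one_ne_zero
  exact ⟨_, hG.cone _ k q hq, .smul q k, by simp only [rV_smul, hr.extend_apply]⟩

theorem exists_map (hi : ∀ c ∈ G, ∀ c' ∈ G, Base.Orb (rV r c) (rV r c') → Base.Orb c c') :
    ∃ φ : (V fun i => M (r i)) → V fun i => M (r' i),
      ∀ q ∈ G, ∃ q' ∈ G, Base.Orb q q' ∧ rV r q' = rV r q ∧ φ (rV r q) = rV r' q' := by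
  classical
  refine ⟨fun c => if h : ∃ q ∈ G, rV r q = c then rV r' h.choose else 0, fun q hq => ?_⟩
  have h : ∃ q' ∈ G, rV r q' = rV r q := ⟨q, hq, rfl⟩
  exact ⟨_, h.choose_spec.1, hi _ hq _ h.choose_spec.1 (h.choose_spec.2.symm ▸ .refl _),
    h.choose_spec.2, dif_pos h⟩

theorem hol (hG : Nod (r o) G) (hr : Injective r)
    (hi : ∀ c ∈ G, ∀ c' ∈ G, Base.Orb (rV r c) (rV r c') → Base.Orb c c')
    {φ : (V fun i => M (r i)) → V fun i => M (r' i)}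
    (h : ∀ q ∈ G, ∃ q' ∈ G, Base.Orb q q' ∧ rV r q' = rV r q ∧ φ (rV r q) = rV r' q') :
    Hol tor tor (rV r '' G) (rV r' '' G) φ := by
  have k : ∀ q ∈ G, Base.Orb (rV r' q) (φ (rV r q)) := fun q hq =>
    let ⟨_, _, a, _, b⟩ := h q hq
    b ▸ a.prj
  rintro _ ⟨q, hq, rfl⟩
  refine ⟨let ⟨_, a, _, _, b⟩ := h q hq; ⟨_, a, b.symm⟩, fun t ht => same_orb.2 ?_, ?_⟩
  · obtain ⟨q', a, b, c⟩ := lift hG hr hq (same_orb.1 ⟨t, ht, rfl⟩)
    have e := k q' a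
    rw [c] at e
    exact ((k q hq).symm.trans b.prj).trans e
  · obtain ⟨Λ, k1, -, k3, k4⟩ := (hG.locFam (t₀ := (0 : ℂ)) (id : ℂ → ℂ)
      (.of_forall fun _ => continuousAt_id)).exists_lam hr hi hq
    refine ⟨fun y => rV r' (Λ (0, y)), an_rV (k1.comp_of_eq (analyticAt_const.prod analyticAt_id) rfl), ?_⟩
    filter_upwards [nhdsWithin_le_nhds ((tendsto_inr (0 : ℂ) (rV r q)).eventually k4),
      self_mem_nhdsWithin] with y a b
    have := k _ (a b)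
    rw [k3] at this
    exact same_orb.2 this

end Jt0

open Jt0

variable {N c : ℕ} {F : Fin c → MvPolynomial (Fin (N + 1)) ℂ} {A W U ι Λ : Type} [NormedRing A]
  [NormedAlgebra ℂ A] [NormedAddCommGroup W] [NormedSpace ℂ W] [NormedAddCommGroup U]
  [NormedSpace ℂ U] [Fintype ι] [DecidableEq ι] {M : ι → ℕ} {r n : ℕ} {s : Su A W U ι Λ M r n F}

theorem Jt0.same_ci {y y' : Fin (N + 1) → ℂ} :
    Same (ci F).act y y' ↔ ∃ l : ℂ, l ≠ 0 ∧ y' = l • y :=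
  ⟨fun ⟨t, a, b⟩ => ⟨t (), (Pi.isUnit_iff.1 a ()).ne_zero, b.trans (funext fun j => by simp [Tgt.act, ci])⟩,
    fun ⟨l, a, b⟩ => ⟨fun _ => l, Pi.isUnit_iff.2 fun _ => a.isUnit,
      b.trans (funext fun j => by simp [Tgt.act, ci])⟩⟩

/-- **The graph of an isomorphism.** -/
theorem Su.jt_of {x : W} {x₀ : s.ch.W (Fin n)} {G : Set (V s.MM)}
    (h1 : Nod (.inl s.o) G) (h2 : Nod (.inr none) G) (l1 : s.L '' G = s.D.C x)
    (l2 : ∀ q ∈ G, ∀ q' ∈ G, Base.Orb (s.L q) (s.L q') → Base.Orb q q') (r1 : s.R '' G = crv x₀)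
    (r2 : ∀ q ∈ G, ∀ q' ∈ G, Base.Orb (s.R q) (s.R q') → Base.Orb q q')
    (hp : ∀ i, ∃ q ∈ G, s.L q = s.D.p i x ∧ s.R q = x₀.p i)
    (hl : ∀ q ∈ G, ∃ l : ℂ, l ≠ 0 ∧ s.D.f x (s.L q) = l • fld x₀ (s.R q)) : s.Jt x x₀ G := by
  obtain ⟨φ, a⟩ := exists_map (M := s.MM) (r := Sum.inl) (r' := Sum.inr) l2
  obtain ⟨ψ, b⟩ := exists_map (M := s.MM) (r := Sum.inr) (r' := Sum.inl) r2
  have a1 : Hol tor tor (s.L '' G) (s.R '' G) φ := hol h1 Sum.inl_injective l2 a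
  have b1 : Hol tor tor (s.R '' G) (s.L '' G) ψ := hol h2 Sum.inr_injective r2 b
  replace a : ∀ q ∈ G, ∃ q' ∈ G, Base.Orb q q' ∧ s.L q' = s.L q ∧ φ (s.L q) = s.R q' := a
  replace b : ∀ q ∈ G, ∃ q' ∈ G, Base.Orb q q' ∧ s.R q' = s.R q ∧ ψ (s.R q) = s.L q' := b
  have pL : ∀ {q q'}, Base.Orb q q' → Base.Orb (s.L q) (s.L q') := fun e => e.prj (r := Sum.inl)
  have pR : ∀ {q q'}, Base.Orb q q' → Base.Orb (s.R q) (s.R q') := fun e => e.prj (r := Sum.inr)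
  refine ⟨φ, ⟨l1 ▸ r1 ▸ a1, ⟨ψ, l1 ▸ r1 ▸ b1, ?_, ?_⟩, fun i => ?_, ?_⟩, Set.ext fun q => ⟨fun hq => ?_, ?_⟩⟩
  · rw [← l1]
    rintro _ ⟨q, hq, rfl⟩
    obtain ⟨q', c1, c2, -, c4⟩ := a q hq
    obtain ⟨q'', -, d2, -, d4⟩ := b q' c1
    rw [c4, d4]
    exact same_orb.2 (pL (c2.trans d2))
  · rw [← r1]
    rintro _ ⟨q, hq, rfl⟩
    obtain ⟨q', c1, c2, -, c4⟩ := b q hq
    obtain ⟨q'', -, d2, -, d4⟩ := a q' c1
    rw [c4, d4]
    exact same_orb.2 (pR (c2.trans d2))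
  · obtain ⟨q, hq, c1, c2⟩ := hp i
    obtain ⟨q', -, d2, -, d4⟩ := a q hq
    simp only [← c1, ← c2, d4]
    exact same_orb.2 (pR d2)
  · rw [← l1]
    rintro _ ⟨q, hq, rfl⟩
    obtain ⟨q', c1, -, c3, c4⟩ := a q hq
    obtain ⟨l, d1, d2⟩ := hl q' c1
    rw [c4, ← c3, d2]
    exact Jt0.same_ci.2 ⟨l⁻¹, inv_ne_zero d1, (inv_smul_smul₀ d1 _).symm⟩
  · obtain ⟨q', -, c2, -, c4⟩ := a q hq
    exact ⟨l1 ▸ mem_image_of_mem _ hq, c4 ▸ (pR c2).symm⟩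
  · rw [← l1]
    rintro ⟨⟨q₁, hq, e⟩, c0⟩
    obtain ⟨q', c1, -, c3, c4⟩ := a q₁ hq
    rw [← e, c4] at c0
    obtain ⟨t, ht, c5⟩ := c0
    refine h1.orb c1 ⟨Sum.elim 1 t, Sum.rec (fun _ => one_ne_zero) ht, funext (Sum.rec
      (fun i => ?_) fun i => congrFun c5 i)⟩
    exact (congrFun (c3.trans e) i).symm.trans (one_smul ℂ _).symm

variable {x : s.D.S} {θ : W → s.ch.W (Fin n)} {Γ : s.D.S → Set (V s.MM)} {lk : s.D.S → V s.MM → ℂ}

theorem Su.Th.ev_ne (h : s.Th x θ Γ lk) : ∀ᶠ y in 𝓝 x, ∀ q ∈ Γ y, lk y q ≠ 0 := by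
  refine h.fam.compact (p := fun q => lk q.1 q.2 ≠ 0) (fun q hq => ?_)
    (h.lnk.hom.mono fun y e t ht q hq a b => a (by simp only [e t ht q hq, b, mul_zero]))
  obtain ⟨Φ, a, b⟩ := h.lnk.reg q hq nofun
  filter_upwards [b, (tendsto_pm continuous_subtype_val.continuousAt q).eventually
    (a.continuousAt.eventually_ne (b.self_of_nhds hq ▸ h.ne q hq))] with p d e k
  exact (d k).trans_ne e

/-- A lift is a lift near the point. -/
theorem Su.Th.eventually (hs : s.Ok) (h : s.Th x θ Γ lk) : ∀ᶠ y in 𝓝 x, s.Th y θ Γ lk := by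
  have := hs.nf.fdW
  have := hs.nf₀.fdW
  have := FiniteDimensional.complete ℂ (s.ch.W (Fin n))
  obtain ⟨p, p1, p2⟩ := h.mark
  have c : ContinuousAt (Subtype.val : s.D.S → W) x := continuous_subtype_val.continuousAt
  filter_upwards [c.eventually h.an.eventually_analyticAt, h.fam.eventually, h.fam₀.eventually,
    h.cur.eventually_nhds, h.base.eventually_nhds, h.left.eventually_nhds, h.right.eventually_nhds,
    c.eventually p1.eventually_analyticAt, p2.eventually_nhds,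
    h.lnk.eventually h.fam ⟨nofun, nofun⟩, h.ev_ne] with y a1 a2 a3 a4 a5 a6 a7 a8 a9 a10 a11
    using ⟨a1, a2, a3, a4, a5, a6, a7, ⟨p, a8, a9⟩, a10, a11⟩

/-- A lift with linked fields gives the graph of an isomorphism. -/
theorem Su.Th.jt (h : s.Th x θ Γ lk) {X : s.ch.Fld}
    (hl : ∀ q ∈ Γ x, s.D.f x (s.L q) = lk x q • fld (setX (θ x) X) (s.R q)) :
    s.Jt x (setX (θ x) X) (Γ x) :=
  let ⟨p, _, b⟩ := h.mark
  Su.jt_of h.fam.nod h.fam₀.nod h.left.self_of_nhds.1 h.left.self_of_nhds.2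
    h.right.self_of_nhds.1 h.right.self_of_nhds.2 (fun i => ⟨_, b.self_of_nhds i⟩)
    fun q hq => ⟨_, h.ne q hq, hl q hq⟩

end Vale.Agent.P269L.K
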