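import Vale.Agent.P269L.K.Sb
import Vale.Agent.P269L.K.Ab

/-!
# The deformation space of a stabilisation is a product
-/

open Filter Topology Set Function Module
open Vale.Agent.P269.Holo

set_option linter.unusedSectionVars false

noncomputable section

namespace Vale.Agent.P269L.K

variable {Ω W Γ F R R' P P' X X' N : Type} [NormedAddCommGroup Ω] [NormedSpace ℂ Ω]
  [NormedAddCommGroup W] [NormedSpace ℂ W] [NormedAddCommGroup Γ] [NormedSpace ℂ Γ]
  [NormedAddCommGroup F] [NormedSpace ℂ F] [NormedAddCommGroup R] [NormedSpace ℂ R]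
  [NormedAddCommGroup R'] [NormedSpace ℂ R'] [NormedAddCommGroup P] [NormedSpace ℂ P]
  [NormedAddCommGroup P'] [NormedSpace ℂ P'] [NormedAddCommGroup X] [NormedSpace ℂ X]
  [NormedAddCommGroup X'] [NormedSpace ℂ X'] [NormedAddCommGroup N] [NormedSpace ℂ N]

theorem DI.gIso {B : Set (X × ℂ)} {B' : Set (X' × ℂ)} {x : X} {x' : X'} {n : N} {Θ Λ}
    (h : DI B (Pd N B') x (x', n) Θ Λ) : GIso B (x, 0) (B' ×ˢ univ) ((x', 0), n)
      (fun q => (((Θ q).1, q.2), (Θ q).2)) fun p => (Λ ((p.1.1, p.2), p.1.2), p.1.2) := by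
  have a : AnalyticAt ℂ (fun p : (X' × ℂ) × N => ((p.1.1, p.2), p.1.2)) ((x', 0), n) :=
    ((an1 analyticAt_fst).prod analyticAt_snd).prod (an2 analyticAt_fst)
  refine ⟨((an1 h.aΘ).prod analyticAt_snd).prod (an2 h.aΘ),
    (h.aΛ.comp_of_eq a rfl).prod (an2 analyticAt_fst), by simp only [h.e], by simp only [h.e'],
    eventually_nhdsWithin_iff.2 (h.h.mono fun p k l => ⟨⟨(k l).1, trivial⟩, Prod.ext (k l).2 rfl⟩),
    eventually_nhdsWithin_iff.2 ((a.continuousAt.eventually h.h').mono fun p k l =>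
      ⟨(k l.1).1, ?_⟩)⟩
  have := (k l.1).2
  simp only at this
  simp only [this]

/-- An analytic family of surjections has an analytic right inverse with values in a fixed
complement of the kernel. -/
theorem exists_rinv [FiniteDimensional ℂ R'] {η : Ω → P' →L[ℂ] R'} {ω : Ω} (h : AnalyticAt ℂ η ω)
    (hs : Surjective (η ω)) : ∃ (i : R' →L[ℂ] P') (r : Ω → R' →L[ℂ] R'), (∀ y, η ω (i y) = y) ∧
      AnalyticAt ℂ r ω ∧ ∀ᶠ z in 𝓝 ω, ∀ y, η z (i (r z y)) = y ∧ r z (η z (i y)) = y := by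
  obtain ⟨i, hi⟩ := exists_rightInv hs
  have a : AnalyticAt ℂ (fun z => η z ∘L i) ω := an_comp h analyticAt_const
  have b : Bijective (η ω ∘L i) := ⟨fun a b e => by simpa [hi] using e, fun y => ⟨y, hi y⟩⟩
  refine ⟨i, fun z => (η z ∘L i).inverse, hi, (analyticAt_clm_inverse b).comp_of_eq a rfl,
    (eventually_bijective a.continuousAt b).mono fun z k y => ?_⟩
  exact ⟨(isInvertible_of_bijective k).self_apply_inverse y,
    (isInvertible_of_bijective k).inverse_apply_self y⟩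

namespace Stab

variable {S : Set W} {a : W → R} {ω : Ω} {π : Ω → W} {γ : Ω → Γ} {w : Ω → F} {b : Ω → R'}
  {e : W × Γ × F → Ω} (h : Stab S a ω π γ w b e)
include h

theorem anπ : AnalyticAt ℂ π ω := an1 h.iso.an

theorem ev : ∀ᶠ z in 𝓝 ω, π z ∈ S ∧ e (π z, γ z, w z) = z := by
  have := h.iso.ev
  rw [nhdsWithin_univ] at this
  exact this.mono fun _ k => ⟨k.1.1, k.2⟩

theorem ev' : ∀ᶠ y in 𝓝 (π ω, γ ω, (0 : F)), y.1 ∈ S → (π (e y), γ (e y), w (e y)) = y :=
  (eventually_nhdsWithin_iff.1 h.iso.ev').mono fun _ k l => (k ⟨l, trivial⟩).2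

theorem te : Tendsto e (𝓝 (π ω, γ ω, 0)) (𝓝 ω) :=
  h.iso.an'.continuousAt.tendsto.mono_right (congrArg 𝓝 h.iso.eq').le

theorem linv {A : Ω → R × F →L[ℂ] R'} {A' : Ω → R × R' →L[ℂ] F} (hA : AnalyticAt ℂ A ω)
    (hA' : AnalyticAt ℂ A' ω) (k : ∀ᶠ z in 𝓝 ω, b z = A z (a (π z), w z) ∧
      w z = A' z (a (π z), b z)) (v : F) : A' ω (0, A ω (0, v)) = v := by
  have t : Tendsto (fun ε : ℂ => (π ω, γ ω, ε • v)) (𝓝 0) (𝓝 (π ω, γ ω, 0)) :=
    (by fun_prop : Continuous fun ε : ℂ => (π ω, γ ω, ε • v)).tendsto' _ _ (by simp)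
  have c : ContinuousAt (fun z => A' z (0, A z (0, v))) ω :=
    (an_apply hA' (analyticAt_const.prod (an_apply hA analyticAt_const))).continuousAt
  refine tendsto_nhds_unique ((c.tendsto.comp (h.te.comp t)).mono_left
    (nhdsWithin_le_nhds (s := {0}ᶜ))) (tendsto_const_nhds.congr' ?_)
  filter_upwards [nhdsWithin_le_nhds (t.eventually h.ev'),
    nhdsWithin_le_nhds ((h.te.comp t).eventually k), self_mem_nhdsWithin] with ε k1 k2 k3
  have k4 := k1 h.ev.self_of_nhds.1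
  obtain ⟨k5, k6⟩ := k2
  simp only [Prod.mk.injEq, comp_apply] at k4 k5 k6 ⊢
  rw [k4.1, k4.2.2, h.zero] at k5 k6
  refine smul_right_injective _ (show ε ≠ 0 from k3) (k6.trans ?_)
  rw [k5]
  simp only [← map_smul, Prod.smul_mk, smul_zero]

end Stab

theorem lStab : LStab := by
  intro Ω _ _ _ Γ _ _ _ F _ _ _ W _ _ _ R _ _ _ R' _ _ _ P _ _ _ P' _ _ _ S a ω π γ w b e η η' M M' h
    hη _ hη' hs hM hM'
  have := FiniteDimensional.complete ℂ Ω
  have := FiniteDimensional.complete ℂ Γ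
  have := FiniteDimensional.complete ℂ F
  have := FiniteDimensional.complete ℂ W
  have := FiniteDimensional.complete ℂ P
  have := FiniteDimensional.complete ℂ P'
  obtain ⟨A, hA, g1⟩ := h.g1
  obtain ⟨A', hA', g2⟩ := h.g2
  rw [nhdsWithin_univ] at g1 g2
  obtain ⟨i, r, i0, hr, ir⟩ := exists_rinv hη' hs
  let K := LinearMap.ker (η' ω : P' →ₗ[ℂ] R')
  let κ : (Fin (finrank ℂ (F × K)) → ℂ) ≃L[ℂ] F × K :=
    ContinuousLinearEquiv.ofFinrankEq (by simp only [finrank_fin_fun])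
  let ρ : P' →L[ℂ] K := (ContinuousLinearMap.id ℂ P' - i ∘L η' ω).codRestrict K fun c => by
    simp [K, i0]
  have ρ1 : ∀ c, (ρ c : P') = c - i (η' ω c) := fun _ => rfl
  have ρ2 : ∀ y, ρ (i y) = 0 := fun y => Subtype.ext (by simp [ρ1, i0])
  have ρ3 : ∀ c : K, ρ c = c := fun c => Subtype.ext (by
    rw [ρ1, show η' ω c = 0 from c.2, map_zero, sub_zero])
  let φ := ContinuousLinearMap.fst ℂ F K ∘L κ.toContinuousLinearMap
  let ψ := K.subtypeL ∘L ContinuousLinearMap.snd ℂ F K ∘L κ.toContinuousLinearMap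
  let s : Ω → P →L[ℂ] P' := fun z => i ∘L r z ∘L A z ∘L .inl ℂ R F ∘L η (π z)
  let ℓ := fun z => i ∘L r z ∘L (A z ∘L .inr ℂ R F ∘L φ - η' z ∘L ψ) + ψ
  have hπ := hη.comp h.anπ
  have as : AnalyticAt ℂ s ω :=
    an_comp analyticAt_const (an_comp hr (an_comp hA (an_comp analyticAt_const hπ)))
  have aℓ : AnalyticAt ℂ ℓ ω := (an_comp analyticAt_const (an_comp hr
    ((an_comp hA analyticAt_const).sub (an_comp hη' analyticAt_const)))).add analyticAt_const
  have sl : ∀ z ξ t, s z ξ + ℓ z t =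
      i (r z (A z (η (π z) ξ, (κ t).1) - η' z (κ t).2)) + (κ t).2 := fun z ξ t => by
    rw [← Prod.fst_add_snd (η (π z) ξ, (κ t).1), map_add, add_sub_assoc, map_add, map_add, add_assoc]
    rfl
  let L : Ω → P × P' →L[ℂ] P × _ := fun z => (ContinuousLinearMap.fst ℂ P P').prod
    (κ.symm.toContinuousLinearMap ∘L (A' z ∘L (η (π z)).prodMap (η' z)).prod (ρ ∘L .snd ℂ P P'))
  let L' := fun y => (ContinuousLinearMap.fst ℂ P _).prod ((s (e y)).coprod (ℓ (e y)))
  have fl : FL M' (Ex Γ φ M) ω (π ω, γ ω, 0) (fun z => (π z, γ z, w z)) e L L' := by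
    refine ⟨h.iso.an, h.iso.an', analyticAt_of_apply fun v => analyticAt_const.prod
      ((κ.symm.toContinuousLinearMap.analyticAt _).comp ((an_apply hA'
        ((an_apply hπ analyticAt_const).prod (an_apply hη' analyticAt_const))).prod
          analyticAt_const)), analyticAt_of_apply fun v => analyticAt_const.prod
      ((an_apply (as.comp_of_eq h.iso.an' h.iso.eq') analyticAt_const).add
        (an_apply (aℓ.comp_of_eq h.iso.an' h.iso.eq') analyticAt_const)), h.iso.eq, h.iso.eq',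
      ?_, ?_⟩
    · filter_upwards [continuousAt_fst.eventually (hM'.and (h.ev.and (g1.and (g2.and (ir.and
        (h.anπ.continuousAt.eventually hM))))))] with ⟨z, ξ, c⟩ ⟨k1, k2, k3, k4, k5, k6⟩ k
      obtain ⟨k7, k8⟩ := (k1 ξ c).1 k
      have k9 : κ (L z (ξ, c)).2 = (w z, ρ c) := (κ.apply_symm_apply _).trans
        (Prod.ext (show A' z (η (π z) ξ, η' z c) = _ by rw [k7, k8, ← k4]) rfl)
      refine ⟨⟨(k6 ξ).2 ⟨k2.1, k7⟩, congrArg Prod.fst k9⟩, k2.2, Prod.ext rfl ?_⟩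
      change s (e _) ξ + ℓ (e _) (L z (ξ, c)).2 = c
      rw [k2.2, sl, k9, k7, ← k3, ← k8, ρ1, ← map_sub, sub_sub_cancel, (k5 _).2, add_sub_cancel]
    · filter_upwards [continuousAt_fst.eventually (h.ev'.and ((continuousAt_fst.eventually hM).and
        (h.te.eventually (hM'.and (g1.and (g2.and ir))))))]
        with ⟨y, ξ, t⟩ ⟨k1, k2, k3, k4, k5, k6⟩ k
      obtain ⟨k7, k8⟩ := (k2 ξ).1 k.1
      have k9 := k1 k7
      have p1 : π (e y) = y.1 := congrArg Prod.fst k9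
      have p2 : (κ t).1 = w (e y) := k.2.trans (congrArg (fun u => u.2.2) k9).symm
      have p3 : η' (e y) (s (e y) ξ + ℓ (e y) t) = b (e y) := by
        rw [sl, map_add, (k6 _).1, sub_add_cancel, p2, k4, p1, k8]
      refine ⟨(k3 _ _).2 ⟨by rw [p1]; exact k8, p3⟩, k9, Prod.ext rfl (κ.symm_apply_eq.2
        (Prod.ext ?_ ?_))⟩
      · change A' (e y) (η (π (e y)) ξ, η' (e y) (s (e y) ξ + ℓ (e y) t)) = _
        rw [p3, p2, k5, p1, k8]
      · change ρ (s (e y) ξ + ℓ (e y) t) = _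
        rw [sl, map_add, ρ2, ρ3, zero_add]
  refine ⟨_, s, ℓ, ?_, as, aℓ, (injective_iff_map_eq_zero _).2 fun t ht => ?_, ?_, fun ξ c k =>
    ⟨_, _, _, ((fl.di_of_mem k).trans (di_ex φ M _ _ _ _)).gIso, fun _ => rfl⟩⟩
  · have := (η' ω : P' →ₗ[ℂ] R').finrank_range_add_finrank_ker
    rw [LinearMap.range_eq_top.2 hs, finrank_top] at this
    rw [finrank_prod, ← this]
    ring
  · have k1 := sl ω 0 t
    rw [ht, map_zero, map_zero, add_zero] at k1
    have k2 := congrArg ρ k1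
    have k3 := congrArg (η' ω) k1
    rw [map_add, ρ2, ρ3, map_zero, zero_add] at k2
    rw [map_add, (ir.self_of_nhds _).1, sub_add_cancel, map_zero] at k3
    have k4 := h.linv hA hA' (g1.and g2) (κ t).1
    rw [← k3, Prod.mk_zero_zero, map_zero] at k4
    exact κ.map_eq_zero_iff.1 (Prod.ext k4.symm k2.symm)
  · filter_upwards [fl.eventually, hM', g1, h.ev] with z k1 k2 k3 k4 k5 k6 ξ c
    have f := k1 ((k2 0 0).2 ⟨by rw [k5, map_zero], by
      rw [k3, k5, k6, map_zero, Prod.mk_zero_zero, map_zero]⟩)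
    simp only [k6] at f k4
    refine ⟨fun k => ⟨(di_ex φ M _ _ _ _).mem_iff.1 (f.mem_BM k), (L z (ξ, c)).2, ?_⟩,
      fun ⟨k, t, ht⟩ => ?_⟩
    · have := congrArg Prod.snd (f.inv_of_mem k)
      change s (e _) ξ + ℓ (e _) _ = c at this
      rw [k4.2] at this
      exact this.symm
    · have := f.symm.mem_BM ((di_ex φ M _ ξ _ t).mem_iff.2 k)
      change ((z, ξ, s (e _) ξ + ℓ (e _) t), _) ∈ _ at this
      rwa [k4.2, ← ht] at this

end Vale.Agent.P269L.K
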