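import Vale.Agent.P269L.K.Ker2
import Vale.Agent.P269L.K.LStab

/-!
# The kernel of the local model is tangent to the orbit
-/

set_option linter.unusedSectionVars false
set_option maxSynthPendingDepth 3

namespace Vale.Agent.P269L.K

open Set Function Topology Filter P269 P269.Holo P269.Base P269.Ch I Kr

section

variable {ι U : Type} [Fintype ι] {M : ι → ℕ} {e : ι → ℕ} {h : ℕ} [NormedAddCommGroup U]
  [NormedSpace ℂ U] {Q : Tens M e →L[ℂ] Fin h → ℂ} {Γ : Set (V M)}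

theorem Kr.hp_evl (hQ : HP Q Γ) {i : (Fin h → ℂ) →L[ℂ] Tens M e} (hi : ∀ y, Q (i y) = y) {q : V M}
    (hq : q ∈ Γ) : Evl Q q (evL e q ∘L i) := fun μ =>
  sub_eq_zero.1 ((map_sub (evL e q) _ _).symm.trans
    ((hQ.2 (i (Q μ) - μ)).1 (by rw [map_sub, hi, sub_self]) q hq))

/-- The evaluations span the dual space. -/
theorem Kr.hp_zero (hQ : HP Q Γ) {κ : ((Fin h → ℂ) →L[ℂ] ℂ) →L[ℂ] U}
    (hκ : ∀ q ∈ Γ, ∀ u, Evl Q q u → κ u = 0) : κ = 0 := by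
  obtain ⟨i, hi⟩ := exists_rightInv hQ.1
  refine ContinuousLinearMap.ext fun u =>
    SeparatingDual.eq_zero_of_forall_dual_eq_zero (R := ℂ) fun l => ?_
  have k : ∀ u, l (κ u) = u fun k => l (κ (.proj k)) := fun u => by
    conv_lhs => rw [show u = ∑ k, u (Pi.single k 1) • .proj k from ContinuousLinearMap.ext fun y => by
      conv_lhs => rw [pi_eq_sum_univ' y]
      simp [mul_comm]]
    conv_rhs => rw [pi_eq_sum_univ' fun k => l (κ (.proj k))]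
    simp [mul_comm]
  obtain ⟨μ, hμ⟩ := hQ.1 fun k => l (κ (.proj k))
  rw [k, ← hμ, (hQ.2 μ).2 fun q hq => by
    rw [← hp_evl hQ hi hq μ, hμ, ← k, hκ q hq _ (hp_evl hQ hi hq), map_zero], map_zero]

end

theorem Kr.fd_crd {W E E' Y : Type} [NormedAddCommGroup W] [NormedSpace ℂ W] [NormedAddCommGroup E]
    [NormedSpace ℂ E] [NormedAddCommGroup E'] [NormedSpace ℂ E'] [NormedAddCommGroup Y]
    [NormedSpace ℂ Y] (b : E →L[ℂ] E') {f : W × E' → Y} {x : W} (h : AnalyticAt ℂ f (x, 0)) (w : W)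
    (e : E) : fderiv ℂ (fun ω : W × E => f (ω.1, b ω.2)) (x, 0) (w, e) = fderiv ℂ f (x, 0) (w, b e) := by
  have k := h.differentiableAt.hasFDerivAt
  rw [← b.map_zero] at k ⊢
  exact congrArg (· (w, e)) (HasFDerivAt.comp (x, 0) k
    ((ContinuousLinearMap.id ℂ W).prodMap b).hasFDerivAt).fderiv

variable {N c : ℕ} {F : Fin c → MvPolynomial (Fin (N + 1)) ℂ} {A W U ι Λ : Type} [NormedRing A]
  [NormedAlgebra ℂ A] [NormedAddCommGroup W] [NormedSpace ℂ W] [NormedAddCommGroup U]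
  [NormedSpace ℂ U] [Fintype ι] [DecidableEq ι] {M : ι → ℕ} {r n : ℕ}
  {s : Su A W U ι Λ M r n F} {z : W × s.ch.W (Fin n) × s.Q} {hz : z.1 ∈ s.D.S}
  {θ : W → s.ch.W (Fin n)} {Γ : s.D.S → Set (V s.MM)} {lk : s.D.S → V s.MM → ℂ} {Qf : W → s.Q}
  {v : W → s.P₃} {Lf : W → s.ch.Fld →L[ℂ] s.P₃}

theorem Kr.ap_j (hs : s.Ok) (μ : s.Tf) (c₀ : V s.ch.M) (y : Fin (N + 1) → ℂ) :
    s.ap (s.D₀.j (c₀, y)) μ = val μ c₀ • y :=
  funext fun j => (congrArg (y j * ·) ((hs.cs j).2 μ c₀)).trans (mul_comm _ _)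

/-- The third section vanishes at the point of the roof. -/
theorem Kr.del_zero (hs : s.Ok) (h : s.Ex z hz θ Γ lk Qf v Lf) : v z.1 + Lf z.1 z.2.1.X = 0 := by
  refine ContinuousLinearMap.ext fun μ => hp_zero h.hp.self_of_nhds.2.1 fun q hq u hu => ?_
  have l := h.th.left.self_of_nhds.1.le ⟨q, hq, rfl⟩
  have r := h.th.right.self_of_nhds.1.le ⟨q, hq, rfl⟩
  rw [h.del.self_of_nhds _ q hq u hu μ, Su.dl]
  simp only [h.eqθ] at r ⊢
  rw [show setX z.2.1 z.2.1.X = z.2.1 from rfl, hs.nf₀.s_eq h.mem.2.1 r, ap_j hs,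
    hs.nf.s_eq h.mem.1 l, h.link q hq, (hs.nf.emb.2.2 _).1.map_smul, (hs.nf.emb.2.2 _).1.map_smul,
    smul_comm]
  exact sub_self _

theorem Kr.an_sec (h : s.Ex z hz θ Γ lk Qf v Lf) {X : W → s.ch.Fld} (hX : AnalyticAt ℂ X z.1) :
    AnalyticAt ℂ (fun ω => (s.sec θ Qf X ω).1) (z.1, 0) :=
  have b0 : AnalyticAt ℂ (fun ω : W × s.ch.Fld => ω.1) (z.1, 0) := analyticAt_fst
  have b := Ch.W.an_iff.1 (h.th.an.comp_of_eq b0 rfl)
  Ch.W.an_iff.2 ⟨b.1, b.2.1, b.2.2.1,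
    analyticAt_pi_iff.1 ((hX.comp_of_eq b0 rfl).add analyticAt_snd)⟩

theorem Kr.an_del (h : s.Ex z hz θ Γ lk Qf v Lf) {X : W → s.ch.Fld} (hX : AnalyticAt ℂ X z.1) :
    AnalyticAt ℂ (s.del v Lf X) (z.1, 0) :=
  have b0 : AnalyticAt ℂ (fun ω : W × s.ch.Fld => ω.1) (z.1, 0) := analyticAt_fst
  (h.anv.comp_of_eq b0 rfl).add (an_apply (h.anL.comp_of_eq b0 rfl)
    ((hX.comp_of_eq b0 rfl).add analyticAt_snd))

/-- **The kernel of the local model.** -/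
theorem Su.Ex.ker (hs : s.Ok) (h : s.Ex z hz θ Γ lk Qf v Lf) {X : W → s.ch.Fld}
    (hX : AnalyticAt ℂ X z.1) (X0 : X z.1 = z.2.1.X) {w : W} (hw : w ∈ Tan s.D.S z.1)
    {e : s.ch.Fld} {u₀ : s.ch.A (Fin n)}
    (h1 : fderiv ℂ (fun ω => (s.sec θ Qf X ω).1) (z.1, 0) (w, e) = fderiv ℂ (s.D₀.α · z.2.1) 1 u₀)
    (h2 : fderiv ℂ (s.del v Lf X) (z.1, 0) (w, e) = 0) : ∃ u, w = fderiv ℂ (s.D.α · z.1) 1 u := by
  classical
  have := hs.nf.fdW
  have := hs.nf.fdU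
  obtain ⟨γ, a, rfl⟩ := Tan.exists_arc hw (hs.nf.mfd hz)
  let k : ℂ → s.D.S := fun t => if b : γ t ∈ s.D.S then ⟨γ t, b⟩ else ⟨z.1, hz⟩
  have k1 : ∀ᶠ t in 𝓝 0, (k t).1 = γ t := a.mem.mono fun t b => by simp only [k, dif_pos b]
  have k0 : k 0 = ⟨z.1, hz⟩ := Subtype.ext (k1.self_of_nhds.trans a.zero)
  have k2 : ContinuousAt k 0 := IsInducing.subtypeVal.continuousAt_iff.2
    (a.an.continuousAt.congr (k1.mono fun _ b => b.symm))
  have k3 : Tendsto k (𝓝 0) (𝓝 ⟨z.1, hz⟩) := k0 ▸ k2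
  have d0 : AnalyticAt ℂ (fun t : ℂ => (γ t, t • e)) 0 :=
    a.an.prod (analyticAt_id.smul analyticAt_const)
  have d1 : HasDerivAt (fun t : ℂ => (γ t, t • e)) (deriv γ 0, e) 0 :=
    a.an.differentiableAt.hasDerivAt.prodMk (by simpa using (hasDerivAt_id (0 : ℂ)).smul_const e)
  have d2 : (γ 0, (0 : ℂ) • e) = (z.1, 0) := by rw [a.zero, zero_smul]
  have b3 := an_sec h hX
  have b4 := an_del h hX
  have a₀ : Arc s.D₀.S z.2.1 fun t => (s.sec θ Qf X (γ t, t • e)).1 :=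
    ⟨b3.comp_of_eq d0 d2, by simp only [Su.sec, a.zero, zero_smul, add_zero, X0, h.eqθ]; rfl, by
      filter_upwards [k1, k3.eventually h.th.base] with t e1 e2
      rw [e1] at e2
      exact e2⟩
  have hd := (b3.differentiableAt.hasFDerivAt.comp_hasDerivAt_of_eq 0 d1 d2.symm).deriv.trans h1
  have fm : ∀ {o}, LocFam o Γ Subtype.val ⟨z.1, hz⟩ → LocFam o (fun t => Γ (k t)) id 0 := fun f =>
    (k0 ▸ f :).comp k2 (.of_forall fun _ => continuousAt_id) a.an k1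
  have eL : ∀ᶠ t in 𝓝 0, s.L '' Γ (k t) = s.D.C (γ t) := by
    filter_upwards [k1, k3.eventually h.th.left] with t e1 e2 using e1 ▸ e2.1
  have eR : ∀ᶠ t in 𝓝 0, s.R '' Γ (k t) = s.D₀.C (s.sec θ Qf X (γ t, t • e)).1 := by
    filter_upwards [k1, k3.eventually h.th.right] with t e1 e2
    rw [e1] at e2
    exact e2.1
  obtain ⟨p, p1, p2⟩ := h.th.mark
  obtain ⟨ξ, t1, t2⟩ := exists_tl (M := s.MM) hs.nf hs.nf₀ a a₀ hd eL eR (fm h.th.fam) (fm h.th.fam₀)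
    (k3.eventually h.th.left).self_of_nhds.2 (k3.eventually h.th.right).self_of_nhds.2
    (p1.comp_of_eq a.an a.zero) (by
      filter_upwards [k1, k3.eventually p2] with t e1 e2
      rw [e1] at e2
      exact e2)
  refine ((s.D.obs_iff _ _ _).1 (hs.nf.grp _ h.mem.1).2).2.2.2 _ ξ t1 (fun c hc G hG => ?_) |>.imp
    fun _ b => b.1
  obtain ⟨q, hq, rfl⟩ := (a.zero ▸ eL.self_of_nhds :).ge hc
  obtain ⟨ζ, t3, t4, t5⟩ := t2 q hq
  have hq' : q ∈ Γ ⟨z.1, hz⟩ := k0 ▸ hq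
  have c₀ : s.R q ∈ s.D₀.C z.2.1 := h.eqθ ▸ h.th.right.self_of_nhds.1.le ⟨q, hq', rfl⟩
  obtain ⟨l, l1, l2⟩ := h.th.lnk.reg q hq' fun b => b.elim
  have l0 := (l2.self_of_nhds hq').symm
  obtain ⟨μ, hμ⟩ := exists_val_one (a := bH) ((hs.nf₀.crv _ h.mem.2.1.1).ne_zero _ c₀)
  obtain ⟨i, ρ, -, i1, i2⟩ := exists_rinv (analyticAt_snd.comp h.anQ) h.hp.self_of_nhds.2.1.1
  have c1 : AnalyticAt ℂ (fun y : ℂ × V s.MM => (γ y.1, y.2)) (0, q) :=
    (a.an.comp_of_eq analyticAt_fst rfl).prod analyticAt_snd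
  have c2 : (γ 0, q) = (z.1, q) := by rw [a.zero]
  have c3 : AnalyticAt ℂ (fun y : ℂ × V s.MM => s.del v Lf X (γ y.1, y.1 • e) μ) (0, q) :=
    an_apply ((b4.comp_of_eq d0 d2).comp_of_eq analyticAt_fst rfl) analyticAt_const
  have c4 : AnalyticAt ℂ (fun y : ℂ × V s.MM => evL s.e₃ y.2 ∘L i ∘L ρ (γ y.1)) (0, q) :=
    an_comp ((analyticAt_evL _).comp analyticAt_snd) (an_comp analyticAt_const
      ((i1.comp_of_eq a.an a.zero).comp_of_eq analyticAt_fst rfl))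
  have := rl (M := s.MM) hs.nf hs.nf₀ a a₀ hd eL eR hq t3 t5 (l := fun y => l (γ y.1, y.2))
    (l1.comp_of_eq c1 c2) (by simpa only [a.zero, l0] using h.th.ne q hq')
    (.pi fun j => .apply ℂ ℂ (s.cs j μ) ∘L .proj j) (analyticAt_val μ _)
    (hμ.trans_ne one_ne_zero) (ap_j hs μ) (an_apply c3 c4) ?_ ?_ (hs.nf₀.s_eq h.mem.2.1 c₀)
    (by simp only [a.zero, l0]; exact (hs.nf.s_eq h.mem.1 hc).trans (by rw [h.link q hq']; rfl)) hG
  · simp only [a.zero, l0, t4] at this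
    rw [h.link q hq']
    exact this
  · have e0 : s.del v Lf X (γ 0, 0) = 0 := by rw [a.zero, Su.del, add_zero, X0, del_zero hs h]
    have e2 := b4.differentiableAt.hasFDerivAt.comp_hasDerivAt_of_eq 0 d1 d2.symm
    rw [h2] at e2
    have e1 := ((ContinuousLinearMap.apply ℂ _ μ).hasFDerivAt.comp_hasDerivAt 0
      e2).hasFDerivAt.comp ((0 : ℂ), q) (f := Prod.fst) hasFDerivAt_fst
    rw [(HasFDerivAt.clm_apply (c := fun y : ℂ × V s.MM => s.del v Lf X (γ y.1, y.1 • e) μ) e1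
      c4.differentiableAt.hasFDerivAt).fderiv]
    simp [e0]
  · filter_upwards [self_mem_nhdsWithin, nhdsWithin_le_nhds
      ((continuousAt_fst (p := ((0 : ℂ), q))).eventually (k1.and ((k3.eventually h.del).and
        ((k3.eventually h.hp).and (a.an.continuousAt.eventually (a.zero.symm ▸ i2)))))),
      nhdsWithin_le_nhds (((k3.comp (continuousAt_fst (p := ((0 : ℂ), q)))).prodMk_nhds
        continuousAt_snd).eventually l2)] with y e1 ⟨e2, e3, e4, e5⟩ e6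
    have e7 := e3 (X (γ y.1) + y.1 • e) _ e1 _ (hp_evl e4.2.1 (i := i ∘L ρ (γ y.1))
      (fun w => e2 ▸ (e5 w).1) e1) μ
    simp only [comp_apply] at e6
    rw [e6 e1, e2] at e7
    exact e7

/-- The same statement in coordinates `b` of the space of fields. -/
theorem Su.Ex.ker' (hs : s.Ok) (h : s.Ex z hz θ Γ lk Qf v Lf) {X : W → s.ch.Fld}
    (hX : AnalyticAt ℂ X z.1) (X0 : X z.1 = z.2.1.X) {E : Type} [NormedAddCommGroup E]
    [NormedSpace ℂ E] (b : E →L[ℂ] s.ch.Fld) : ∀ w ∈ Tan s.sd₁.S z.1, ∀ e u₀,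
      fderiv ℂ (fun ω : W × E => (s.sec θ Qf X (ω.1, b ω.2)).1) (z.1, 0) (w, e) =
        fderiv ℂ (s.sd₀.act · (s.sec θ Qf X ((z.1, (0 : E)).1, b (z.1, (0 : E)).2)).1) 1 u₀ →
      fderiv ℂ (fun ω : W × E => s.del v Lf X (ω.1, b ω.2)) (z.1, 0) (w, e) = 0 →
      ∃ u, w = fderiv ℂ (s.sd₁.act · z.1) 1 u := fun w hw e u₀ h1 h2 => by
  refine h.ker hs hX X0 hw (e := b e) (u₀ := u₀) ((fd_crd b (an_sec h hX) w e).symm.trans
    (h1.trans ?_)) ((fd_crd b (an_del h hX) w e).symm.trans h2)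
  simp only [Su.sec, map_zero, add_zero, X0, h.eqθ]
  rfl

end Vale.Agent.P269L.K
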