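import Vale.Agent.P269L.I.Onto
import Vale.Agent.P269L.I.Tan
import Vale.Agent.P269L.I.Crv
import Vale.Agent.P269.Spl.Prj

/-!
# Lifts of tangent vectors through a family of graphs
-/

set_option linter.unusedSectionVars false

namespace Vale.Agent.P269L.K.Kr

open Set Function Topology Filter P269 P269.Holo P269.Base I

section tan

variable {E E' Y : Type} [NormedAddCommGroup E] [NormedSpace ℂ E] [NormedAddCommGroup E']
  [NormedSpace ℂ E'] {S : Set E} {S' : Set E'} {a v w : E}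

theorem tan_map {g : E → E'} (hv : v ∈ Tan S a) (h : AnalyticAt ℂ g a)
    (m : ∀ᶠ y in 𝓝[S] a, g y ∈ S') : fderiv ℂ g a v ∈ Tan S' (g a) :=
  fun k hk => (congr($((hk.1.differentiableAt.hasFDerivAt.comp a
    h.differentiableAt.hasFDerivAt).fderiv) v)).symm.trans (hv (k ∘ g) ⟨hk.1.comp h,
      tendsto_nhdsWithin_iff.2 ⟨h.continuousAt.mono_left nhdsWithin_le_nhds, m⟩ hk.2⟩)

theorem tan_lin (g : E →L[ℂ] E') (hv : v ∈ Tan S a) (m : ∀ᶠ y in 𝓝[S] a, g y ∈ S') :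
    g v ∈ Tan S' (g a) := by
  simpa only [g.fderiv] using tan_map hv (g.analyticAt a) m

theorem tan_sub (hv : v ∈ Tan S a) (hw : w ∈ Tan S a) : v - w ∈ Tan S a := fun k hk => by
  rw [map_sub, hv k hk, hw k hk, sub_zero]

theorem tan_der {γ : ℂ → E} (h : AnalyticAt ℂ γ 0) (h0 : γ 0 = a) (hm : ∀ᶠ ε in 𝓝 0, γ ε ∈ S)
    (hd : HasDerivAt γ v 0) : v ∈ Tan S a := hd.deriv ▸ arc_mem_Tan ⟨h, h0, hm⟩

theorem tan_lim {l : Filter Y} {g u : Y → E} (hg : Tendsto g l (𝓝 a)) (hu : Tendsto u l (𝓝 v))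
    (h : ∃ᶠ y in l, u y ∈ Tan S (g y)) : v ∈ Tan S a := fun k hk =>
  tendsto_nhds_unique_of_frequently_eq
    ((isBoundedBilinearMap_apply.continuous.tendsto _).comp
      ((hk.1.fderiv.continuousAt.tendsto.comp hg).prodMk_nhds hu)) tendsto_const_nhds
    ((h.and_eventually (hg.eventually hk.eventually)).mono fun _ e => e.1 k e.2)

theorem fderiv_pair {g : E × E' → Y} [NormedAddCommGroup Y] [NormedSpace ℂ Y] {z : E × E'}
    (h : AnalyticAt ℂ g z) (u : E × E') :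
    fderiv ℂ (fun q => (q.1, g q)) z u = (u.1, fderiv ℂ g z u) :=
  congrArg (· u) (hasFDerivAt_fst.prodMk h.differentiableAt.hasFDerivAt).fderiv

end tan

section fam

variable {ι P : Type} [Fintype ι] [DecidableEq ι] {M : ι → ℕ} {o : ι} [NormedAddCommGroup P]
  [NormedSpace ℂ P] [FiniteDimensional ℂ P] {C : P → Set (V M)} {x v : P} {c ζ : V M}

variable (C) in
/-- The total space. -/
def Tt : Set (P × V M) := {q | q.2 ∈ C q.1}

variable (hf : LocFam o C id x)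
include hf

theorem tan_tor (hc : c ∈ C x) (α : ι → ℂ) : (0, α • c) ∈ Tan (Tt C) (x, c) := by
  have a : AnalyticAt ℂ (fun ε : ℂ => 1 + ε • α) 0 :=
    analyticAt_const.add (analyticAt_id.smul analyticAt_const)
  refine tan_der (γ := fun ε : ℂ => (x, (1 + ε • α) • c))
    (analyticAt_const.prod (an_smul a analyticAt_const)) (by simp) ?_
    ((hasDerivAt_const _ _).prodMk (hasDerivAt_pi.2 fun i => by
      simpa using (((hasDerivAt_id (0 : ℂ)).mul_const (α i)).const_add 1).smul_const (c i)))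
  filter_upwards [eventually_all.2 fun i =>
    (analyticAt_pi_iff.1 a i).continuousAt.eventually_ne (y := 0) (by simp)] with ε k
  exact hf.cone.self_of_nhds _ k _ hc

theorem tan_smul {t : ι → ℂ} (ht : ∀ i, t i ≠ 0) (h : (v, ζ) ∈ Tan (Tt C) (x, c)) :
    (v, t • ζ) ∈ Tan (Tt C) (x, t • c) :=
  tan_lin ((ContinuousLinearMap.id ℂ P).prodMap (tL (M := M) t)) h <| by
    filter_upwards [self_mem_nhdsWithin, nhdsWithin_le_nhds
      ((continuousAt_fst (p := (x, c))).eventually hf.cone)] with q k1 k2 using k2 t ht _ k1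

theorem vert' {E : Type} [NormedAddCommGroup E] [NormedSpace ℂ E] [FiniteDimensional ℂ E]
    {σ : P × E → V M} {X : P → Set E} (k : Chart o C id x σ X) (e : σ (x, 0) = c) (hc : c ∈ C x)
    (h : (0, ζ) ∈ Tan (Tt C) (x, c)) {s : ℂ} (hs : ζ o = s • c o) : ∃ α : ι → ℂ, ζ = α • c := by
  subst e
  obtain ⟨ρ, k1, k2, -, k3⟩ := k.exists_mem_iff continuousAt_id (hf.ne_zero.self_of_nhds _ hc) hf.cone
  have a1 : AnalyticAt ℂ (fun q => (ρ q).1) (x, σ (x, 0)) := analyticAt_fst.comp k1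
  have a2 : AnalyticAt ℂ (fun q : P × V M => (q.1, (ρ q).2)) (x, σ (x, 0)) :=
    analyticAt_fst.prod (analyticAt_snd.comp k1)
  have e2 : (x, (ρ (x, σ (x, 0))).2) = (x, 0) := congrArg (fun z => (x, z.2)) k2
  have a3 : AnalyticAt ℂ (fun q : P × V M => σ (q.1, (ρ q).2)) (x, σ (x, 0)) := k.an.comp_of_eq a2 e2
  have k4 := tan_eq h analyticAt_snd (an_smul a1 a3) (by
    filter_upwards [self_mem_nhdsWithin, nhdsWithin_le_nhds k3] with q e1 e2 using (e2.1 e1).2)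
  rw [fderiv_smul_apply a1.differentiableAt a3.differentiableAt, fderiv_snd] at k4
  have k5 : fderiv ℂ (fun q : P × V M => σ (q.1, (ρ q).2)) (x, σ (x, 0)) (0, ζ) =
      fderiv ℂ (fun z => σ (x, z)) 0 (fderiv ℂ ρ (x, σ (x, 0)) (0, ζ)).2 := by
    have b1 := (hasFDerivAt_fst (𝕜 := ℂ) (p := (x, σ (x, 0)))).prodMk
      k1.differentiableAt.hasFDerivAt.snd
    have b2 := HasFDerivAt.comp (x, σ (x, 0)) (e2.symm ▸ k.an.differentiableAt.hasFDerivAt :
      HasFDerivAt σ (fderiv ℂ σ (x, 0)) (x, (ρ (x, σ (x, 0))).2)) b1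
    have b3 := HasFDerivAt.comp 0 k.an.differentiableAt.hasFDerivAt (hasFDerivAt_prodMk_right x 0)
    exact (congrArg (· (0, ζ)) b2.fderiv).trans
      (congrArg (· (fderiv ℂ ρ (x, σ (x, 0)) (0, ζ)).2) b3.fderiv).symm
  simp only [id] at k2
  simp only [k2, one_smul, k5, ContinuousLinearMap.coe_snd'] at k4
  have k6 := k.imm (fderiv ℂ ρ (x, σ (x, 0)) (0, ζ)).2
    (s - fderiv ℂ (fun q => (ρ q).1) (x, σ (x, 0)) (0, ζ) o) (by
      rw [sub_smul, id, ← hs, eq_sub_iff_add_eq']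
      exact (congrFun k4 o).symm)
  rw [k6, map_zero, add_zero] at k4
  exact ⟨_, k4⟩

/-- A vertical vector that vanishes in the factor `o` is tangent to the orbit. -/
theorem vert (hc : c ∈ C x) (h : (0, ζ) ∈ Tan (Tt C) (x, c)) {s : ℂ} (hs : ζ o = s • c o) :
    ∃ α : ι → ℂ, ζ = α • c :=
  (hf.chart c hc).elim (fun ⟨_, e, k⟩ => vert' hf k e hc h hs)
    fun ⟨_, _, e, _, _, k⟩ => vert' hf k e hc h hs

end fam

variable {ι ι₀ ι' P : Type} [Fintype ι] [DecidableEq ι] [Fintype ι₀] [DecidableEq ι₀] [Fintype ι']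
  [DecidableEq ι'] [NormedAddCommGroup P] [NormedSpace ℂ P] [FiniteDimensional ℂ P] {x v : P}

/-- Lifts through a projection depend holomorphically on the point. -/
theorem exists_lift {M : ι' → ℕ} {r : ι → ι'} {o : ι} {Γ : P → Set (V M)}
    (hf : LocFam (r o) Γ id x) (hr : Injective r)
    (hi : ∀ c ∈ Γ x, ∀ c' ∈ Γ x, Orb (rV r c) (rV r c') → Orb c c')
    {η : V (fun i => M (r i)) → V fun i => M (r i)} (hη : ∀ c, AnalyticAt ℂ η c)
    (h : ∀ q ∈ Γ x, (v, η (rV r q)) ∈ Tan (Tt fun y => rV r '' Γ y) (x, rV r q)) {q : V M}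
    (hq : q ∈ Γ x) : ∃ ζ : V M → V M, AnalyticAt ℂ ζ q ∧ ∀ᶠ q' in 𝓝 q, q' ∈ Γ x →
      (v, ζ q') ∈ Tan (Tt Γ) (x, q') ∧ rV r (ζ q') = η (rV r q') := by
  obtain ⟨Λ, k1, k2, k3, k4⟩ := hf.exists_lam hr hi hq
  simp only [id] at k1 k2 k4
  have a1 : AnalyticAt ℂ (fun q' => (x, rV r q')) q := analyticAt_const.prod (an_rV analyticAt_id)
  have ne := hf.ne_zero.self_of_nhds
  obtain ⟨t, t1, t2⟩ := exists_unit (u := fun q' => Λ (x, rV r q')) (v := id) (k1.comp_of_eq a1 rfl)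
    analyticAt_id (k2.symm ▸ ne q hq)
  refine ⟨fun q' => t q' • fderiv ℂ Λ (x, rV r q') (v, η (rV r q')), an_smul t1 (an_apply
    (k1.fderiv.comp_of_eq a1 rfl) (analyticAt_const.prod ((hη _).comp (an_rV analyticAt_id)))), ?_⟩
  filter_upwards [t2, a1.continuousAt.eventually k4.eventually_nhds,
    a1.continuousAt.eventually k1.eventually_analyticAt] with q' e1 e2 e3 e4
  obtain ⟨s, s1, s2⟩ := hi _ (e2.self_of_nhds ⟨_, e4, rfl⟩) _ e4 (by rw [k3]; exact .refl _)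
  have k5 := tan_map (S' := Tt Γ) (h _ e4) (g := fun z => (z.1, Λ z)) (analyticAt_fst.prod e3)
    (by filter_upwards [self_mem_nhdsWithin, nhdsWithin_le_nhds e2] with z b1 b2 using b2 b1)
  rw [fderiv_pair e3] at k5
  have k6 : (fun i => s (r i)) = 1 := funext fun i => smul_left_injective ℂ (ne _ e4 (r i)) (by
    have := congrFun s2 (r i)
    rw [Pi.smul_apply', show Λ (x, rV r q') (r i) = q' (r i) from congrFun (k3 _) i] at this
    exact this.symm.trans (one_smul _ _).symm)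
  rw [e1 s s2]
  refine ⟨by simpa only [← s2] using tan_smul hf s1 k5, ?_⟩
  rw [rV_smul, k6, one_smul, ← fderiv_rV e3, funext k3, fderiv_snd]
  rfl

/-- **The lift of a vector field through a family of graphs.** -/
theorem exists_xi {M : ι ⊕ ι₀ → ℕ} {o : ι} {o₀ : ι₀} {Γ : P → Set (V M)}
    (hL : LocFam (.inl o) Γ id x) (hR : LocFam (.inr o₀) Γ id x)
    (iL : ∀ c ∈ Γ x, ∀ c' ∈ Γ x, Orb (rV Sum.inl c) (rV Sum.inl c') → Orb c c')
    (iR : ∀ c ∈ Γ x, ∀ c' ∈ Γ x, Orb (rV Sum.inr c) (rV Sum.inr c') → Orb c c')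
    {η : V (fun i => M (.inr i)) → V fun i => M (.inr i)} (hη : ∀ c, AnalyticAt ℂ η c)
    (hη' : ∀ (t : ι₀ → ℂ) c, η (t • c) = t • η c)
    (h : ∀ q ∈ Γ x, (v, η (rV Sum.inr q)) ∈ Tan (Tt fun y => rV Sum.inr '' Γ y) (x, rV Sum.inr q)) :
    ∃ ξ, Sec (sm _) (rV Sum.inl '' Γ x) (sm _) (dir (sm _)) ξ ∧ ∀ q ∈ Γ x,
      (∃ ζ, (v, ζ) ∈ Tan (Tt Γ) (x, q) ∧ rV Sum.inl ζ = ξ (rV Sum.inl q) ∧ rV Sum.inr ζ = η (rV Sum.inr q)) ∧
      ∀ ζ (α : ι₀ → ℂ), (v, ζ) ∈ Tan (Tt Γ) (x, q) → rV Sum.inr ζ = η (rV Sum.inr q) + α • rV Sum.inr q →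
        ξ (rV Sum.inl q) - rV Sum.inl ζ ∈ dir (sm _) (rV Sum.inl q) := by
  let Z := fun q ζ : V M => q ∈ Γ x ∧ (v, ζ) ∈ Tan (Tt Γ) (x, q) ∧
    ∃ α : ι₀ → ℂ, rV Sum.inr ζ = η (rV Sum.inr q) + α • rV Sum.inr q
  have ne := hL.ne_zero.self_of_nhds
  have un : ∀ {q q' ζ ζ'} {t : ι → ℂ}, Z q ζ → Z q' ζ' → (∀ i, t i ≠ 0) →
      rV Sum.inl q' = t • rV Sum.inl q → rV Sum.inl ζ' - t • rV Sum.inl ζ ∈ dir (sm _) (rV Sum.inl q') := by
    rintro q q' ζ ζ' t ⟨a1, a2, α, a3⟩ ⟨b1, b2, β, b3⟩ ht e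
    obtain ⟨s, s1, rfl⟩ := iL _ a1 _ b1 ⟨t, ht, e⟩
    obtain rfl : t = fun i => s (.inl i) :=
      funext fun i => smul_left_injective ℂ (ne _ a1 (.inl i)) (congrFun e i).symm
    have k := tan_sub b2 (tan_smul hL s1 a2)
    rw [Prod.mk_sub_mk, sub_self] at k
    obtain ⟨α', k'⟩ := vert hR b1 k (s := β o₀ - α o₀) (by
      have e1 := congrFun b3 o₀
      have e2 := congrArg (s (.inr o₀) • ·) (congrFun a3 o₀)
      rw [rV_smul, hη'] at e1
      simp only [rV_apply, Pi.add_apply, Pi.smul_apply', Pi.sub_apply] at e1 e2 ⊢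
      rw [e1, e2]
      module)
    exact ⟨fun i => α' (.inl i), by rw [← rV_smul, ← map_sub, k']; rfl⟩
  have ex := fun q hq => exists_lift hR Sum.inr_injective iR hη h (q := q) hq
  have z0 : ∀ {q ζ}, q ∈ Γ x → (v, ζ) ∈ Tan (Tt Γ) (x, q) ∧ rV Sum.inr ζ = η (rV Sum.inr q) → Z q ζ :=
    fun a b => ⟨a, b.1, 0, by rw [b.2, zero_smul, add_zero]⟩
  have : ∀ c ∈ rV Sum.inl '' Γ x, ∃ q ζ, Z q ζ ∧ rV Sum.inl q = c := by
    rintro _ ⟨q, hq, rfl⟩
    obtain ⟨ζ, -, k⟩ := ex q hq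
    exact ⟨q, _, z0 hq (k.self_of_nhds hq), rfl⟩
  choose! a b h1 h2 using this
  have un' : ∀ {q ζ}, Z q ζ → rV Sum.inl (b (rV Sum.inl q)) - rV Sum.inl ζ ∈ dir (sm _) (rV Sum.inl q) :=
    fun {q ζ} k => by
      have m : rV Sum.inl q ∈ rV Sum.inl '' Γ x := ⟨q, k.1, rfl⟩
      simpa only [one_smul, h2 _ m] using
        un k (h1 _ m) (t := 1) (fun _ => one_ne_zero) (by rw [h2 _ m, one_smul])
  refine ⟨fun c => rV Sum.inl (b c), fun c hc => ⟨fun t ht => ?_, ?_⟩, fun q hq => ⟨?_,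
    fun ζ α k1 k2 => un' ⟨hq, k1, α, k2⟩⟩⟩
  · have m : t • c ∈ rV Sum.inl '' Γ x :=
      (hL.prj Sum.inl_injective iL).cone.self_of_nhds t (isUnit_t.1 ht) c hc
    simpa only [h2 _ m] using un (h1 c hc) (h1 _ m) (isUnit_t.1 ht) (by rw [h2 _ m, h2 c hc])
  · obtain ⟨q, hq, rfl⟩ := hc
    obtain ⟨Λ, k1, k2, k3, k4⟩ := hL.exists_lam Sum.inl_injective iL hq
    simp only [id] at k1 k2 k4
    obtain ⟨ζ, k5, k6⟩ := ex q hq
    have a1 : AnalyticAt ℂ (fun y => (x, y)) (rV Sum.inl q) := analyticAt_const.prod analyticAt_id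
    have a2 : AnalyticAt ℂ (fun y => Λ (x, y)) (rV Sum.inl q) := k1.comp_of_eq a1 rfl
    refine ⟨fun y => rV Sum.inl (ζ (Λ (x, y))), an_rV (k5.comp_of_eq a2 k2), ?_⟩
    filter_upwards [self_mem_nhdsWithin, nhdsWithin_le_nhds (a1.continuousAt.eventually k4),
      nhdsWithin_le_nhds (a2.continuousAt.eventually (k2.symm ▸ k6))] with y e1 e2 e3
    simpa only [k3] using un' (z0 (e2 e1) (e3 (e2 e1)))
  · obtain ⟨ζ, -, k⟩ := ex q hq
    obtain ⟨k1, k2⟩ := k.self_of_nhds hq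
    obtain ⟨α, k3⟩ := un' (z0 hq ⟨k1, k2⟩)
    have k4 := tan_sub k1 (tan_tor hL hq (Sum.elim (-α) 0))
    rw [Prod.mk_sub_mk, sub_zero] at k4
    refine ⟨_, k4, ?_, ?_⟩
    · rw [map_sub, rV_smul]
      exact ((congrArg _ (neg_smul α (rV Sum.inl q))).trans (sub_neg_eq_add _ _)).trans
        (eq_add_of_sub_eq' k3.symm).symm
    · rw [map_sub, rV_smul, k2]
      exact (congrArg _ (zero_smul _ _)).trans (sub_zero _)

end Vale.Agent.P269L.K.Kr
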