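import Vale.Agent.P269L.K.Ker0
import Vale.Agent.P269.Base.Push
import Vale.Agent.P269.Base.OpenA
import Vale.Agent.P269.Base.Cut

/-!
# Tangent vectors of orbits and their lifts
-/

set_option linter.unusedSectionVars false

namespace Vale.Agent.P269L.K.Kr

open Set Function Topology Filter P269 P269.Holo P269.Base I

section rep

variable {A E E' : Type} [NormedRing A] [NormedAlgebra ℂ A] [NormedAddCommGroup E] [NormedSpace ℂ E]
  [NormedAddCommGroup E'] [NormedSpace ℂ E'] {ε : A → E → E} {ε' : A → E' → E'} (h : I.Rep ε)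
include h

theorem complete : CompleteSpace A :=
  have := h.1
  have : FiniteDimensional ℂ A := .of_injective (LinearMap.inl ℂ A E) LinearMap.inl_injective
  FiniteDimensional.complete ℂ A

theorem hfd (c : E) :
    HasFDerivAt (ε · c) (fderiv ℂ (uncurry ε) (1, c) ∘L .inl ℂ A E) 1 :=
  HasFDerivAt.comp (1 : A) (g := uncurry ε) (f := fun u => (u, c))
    ((h.2.2 1 isUnit_one).2 c).1.differentiableAt.hasFDerivAt (hasFDerivAt_prodMk_left 1 c)

theorem an_eta (u : A) (c : E) : AnalyticAt ℂ (fun c => fderiv ℂ (ε · c) 1 u) c := by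
  have := h.1
  have : FiniteDimensional ℂ E := .of_injective (LinearMap.inr ℂ A E) LinearMap.inr_injective
  have := FiniteDimensional.complete ℂ E
  simp only [(hfd h _).fderiv]
  exact an_apply (f := fun _ => (u, (0 : E))) (((h.2.2 1 isUnit_one).2 c).1.fderiv.comp_of_eq
    (analyticAt_const.prod analyticAt_id) rfl) analyticAt_const

theorem an_act {g : ℂ → A} {y : ℂ → E} (hg : AnalyticAt ℂ g 0) (g0 : g 0 = 1)
    (hy : AnalyticAt ℂ y 0) : AnalyticAt ℂ (fun t => ε (g t) (y t)) 0 :=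
  ((h.2.2 1 isUnit_one).2 (y 0)).1.comp_of_eq (hg.prod hy) (by rw [g0])

theorem hd_act {g : ℂ → A} {y : ℂ → E} {u : A} {w : E} (hg : HasDerivAt g u 0) (g0 : g 0 = 1)
    (hy : HasDerivAt y w 0) :
    HasDerivAt (fun t => ε (g t) (y t)) (fderiv ℂ (ε · (y 0)) 1 u + w) 0 := by
  have a := ((h.2.2 1 isUnit_one).2 (y 0)).1.differentiableAt.hasFDerivAt
  have b := (HasFDerivAt.comp (y 0) (g := uncurry ε) a (hasFDerivAt_prodMk_right 1 (y 0))).unique
    ((hasFDerivAt_id (y 0)).congr_of_eventuallyEq (.of_forall h.2.1))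
  refine (a.comp_hasDerivAt_of_eq 0 (hg.prodMk hy) (by rw [g0])).congr_deriv (Eq.symm ?_)
  rw [(hfd h _).fderiv, show (u, w) = (u, 0) + (0, w) by simp, map_add]
  exact congrArg _ (congrArg (· w) b).symm

theorem ev_unit : ∀ᶠ u in 𝓝 (1 : A), IsUnit u :=
  have := complete h
  Units.isOpen.mem_nhds isUnit_one

theorem eta_map (φ : E →L[ℂ] E') {c : E} (u : A)
    (e : ∀ u, IsUnit u → ε' u (φ c) = φ (ε u c)) :
    fderiv ℂ (ε' · (φ c)) 1 u = φ (fderiv ℂ (ε · c) 1 u) := by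
  rw [((φ.hasFDerivAt.comp 1 (hfd h c)).congr_of_eventuallyEq ((ev_unit h).mono e)).fderiv,
    (hfd h c).fderiv]
  rfl

end rep

theorem an_one {A : Type} [NormedRing A] [NormedAlgebra ℂ A] (u : A) :
    AnalyticAt ℂ (fun t : ℂ => 1 + t • u) 0 ∧ HasDerivAt (fun t : ℂ => 1 + t • u) u 0 ∧
      1 + (0 : ℂ) • u = 1 :=
  ⟨analyticAt_const.add (analyticAt_id.smul analyticAt_const),
    by simpa using ((hasDerivAt_id (0 : ℂ)).smul_const u).const_add 1, by simp⟩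

variable {A W U P X ι Λ : Type} [NormedRing A] [NormedAlgebra ℂ A] [NormedAddCommGroup W]
  [NormedSpace ℂ W] [NormedAddCommGroup U] [NormedSpace ℂ U] [NormedAddCommGroup P] [NormedSpace ℂ P]
  [NormedAddCommGroup X] [NormedSpace ℂ X] [Fintype ι] [DecidableEq ι] {M : ι → ℕ} {n : ℕ} {o : ι}
  {D : Dat A (ι → ℂ) W (V M) U P X ι Λ n} {x : W} {c : V M} {γ : ℂ → W} {u : A} (he : D.Eqv)
include he

theorem ev_one (u : A) : ∀ᶠ t : ℂ in 𝓝 0, IsUnit (1 + t • u) :=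
  (an_one u).1.continuousAt.eventually (by simpa only [(an_one u).2.2] using ev_unit he.1)

/-- An arc tangent to the orbit is the translate of a stationary arc. -/
theorem exists_stat (a : Arc D.S x γ) (hd : deriv γ 0 = fderiv ℂ (D.α · x) 1 u) :
    ∃ y, Arc D.S x y ∧ HasDerivAt y 0 0 ∧ ∀ᶠ t : ℂ in 𝓝 0, D.α (1 + t • u) (y t) = γ t := by
  have := complete he.1
  obtain ⟨g1, g2, g3⟩ := an_one u
  have i1 : AnalyticAt ℂ (fun t : ℂ => Ring.inverse (1 + t • u)) 0 :=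
    (analyticAt_inverse (1 : Aˣ)).comp_of_eq g1 g3
  have i0 : Ring.inverse (1 + (0 : ℂ) • u) = 1 := by rw [g3, Ring.inverse_one]
  have y1 := an_act he.1 i1 i0 a.an
  have y0 : D.α (Ring.inverse (1 + (0 : ℂ) • u)) (γ 0) = x := by rw [i0, he.1.2.1, a.zero]
  have e : ∀ᶠ t : ℂ in 𝓝 0, D.α (1 + t • u) (D.α (Ring.inverse (1 + t • u)) (γ t)) = γ t :=
    (ev_one he u).mono fun t k => by
      rw [← ((he.1.2.2 _ k).2 _).2 _ k.ringInverse, Ring.mul_inverse_cancel _ k, he.1.2.1]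
  refine ⟨_, ⟨y1, y0, ((ev_one he u).and a.mem).mono fun t k =>
    ((he.2.2.2.2.2.2 _ k.1.ringInverse).2.2 _ k.2).1⟩, ?_, e⟩
  have k := ((hd_act he.1 g2 g3 y1.differentiableAt.hasDerivAt).congr_of_eventuallyEq
    (e.mono fun _ k => k.symm)).deriv
  rw [hd, y0, left_eq_add] at k
  exact k ▸ y1.differentiableAt.hasDerivAt

/-- The infinitesimal action lifts an arc tangent to the orbit. -/
theorem tan_orb {hx : x ∈ D.S} (hf : LocFam o (fun y : D.S => D.C y) Subtype.val ⟨x, hx⟩)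
    (hN : Nod o (D.C x)) (a : Arc D.S x γ) (hd : deriv γ 0 = fderiv ℂ (D.α · x) 1 u)
    (hc : c ∈ D.C x) : (1, fderiv ℂ (D.ε · c) 1 u) ∈ Tan (Tt fun t => D.C (γ t)) (0, c) := by
  obtain ⟨y, y1, y2, y3⟩ := exists_stat he a hd
  obtain ⟨g1, g2, g3⟩ := an_one u
  refine tan_lim (l := 𝓝[D.C x] c) (g := fun c => (0, c))
    (u := fun c => (1, fderiv ℂ (D.ε · c) 1 u))
    (tendsto_const_nhds.prodMk_nhds (tendsto_id.mono_left nhdsWithin_le_nhds))
    (tendsto_const_nhds.prodMk_nhds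
      ((an_eta he.2.1 u c).continuousAt.tendsto.mono_left nhdsWithin_le_nhds))
    (((hN.frequently_not_node Empty.elim hc).and_eventually self_mem_nhdsWithin).mono ?_)
  rintro c ⟨⟨-, hn⟩, hc⟩
  obtain ⟨σ, e, k⟩ := hf.smAt hc hn
  have a1 : AnalyticAt ℂ (fun t => (y t, (0 : ℂ))) 0 := y1.an.prod analyticAt_const
  have e1 : (y 0, (0 : ℂ)) = (x, 0) := by rw [y1.zero]
  have e2 : σ (y 0, 0) = c := e1 ▸ e
  have a2 := k.an.differentiableAt.hasFDerivAt.comp_hasDerivAt_of_eq 0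
    (y2.prodMk (hasDerivAt_const (0 : ℂ) (0 : ℂ))) e1.symm
  rw [Prod.mk_zero_zero, map_zero] at a2
  have a3 := hd_act he.2.1 g2 g3 a2
  rw [add_zero] at a3
  refine tan_der (γ := fun t => (t, D.ε (1 + t • u) (σ (y t, 0))))
    (analyticAt_id.prod (an_act he.2.1 g1 g3 (k.an.comp_of_eq a1 e1)))
    (by rw [g3, he.2.1.2.1, e2]) ?_ ((hasDerivAt_id _).prodMk (e2 ▸ a3))
  filter_upwards [y3, y1.mem, ev_one he u,
    a1.continuousAt.eventually (e1.symm ▸ Base.ev_sub k.mem)] with t b1 b2 b3 b4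
  change _ ∈ D.C (γ t)
  rw [← b1, ((he.2.2.2.2.2.2 _ b3).2.2 _ b2).2.1]
  exact ⟨_, b4 b2 trivial, rfl⟩

/-- The derivative of the map along an orbit. -/
theorem ds_orb (hx : x ∈ D.S) (hc : c ∈ D.C x) {y : X} (e : D.s (x, c) = D.j (c, y))
    (hj : Differentiable ℂ D.j) {g : W × V M → U} (hg : Ext D.U D.s (x, c) g) :
    fderiv ℂ g (x, c) (fderiv ℂ (D.α · x) 1 u, fderiv ℂ (D.ε · c) 1 u) =
      fderiv ℂ D.j (c, y) (fderiv ℂ (D.ε · c) 1 u, 0) := by
  obtain ⟨g1, g2, g3⟩ := an_one u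
  have a1 := hd_act he.1 g2 g3 (hasDerivAt_const 0 x)
  have a2 := hd_act he.2.1 g2 g3 (hasDerivAt_const 0 c)
  rw [add_zero] at a1 a2
  have e1 : D.α (1 + (0 : ℂ) • u) x = x := by rw [g3, he.1.2.1]
  have e2 : D.ε (1 + (0 : ℂ) • u) c = c := by rw [g3, he.2.1.2.1]
  have k1 := hg.1.differentiableAt.hasFDerivAt.comp_hasDerivAt_of_eq 0 (a1.prodMk a2) (by rw [e1, e2])
  have k2 := (hj (c, y)).hasFDerivAt.comp_hasDerivAt_of_eq 0 (a2.prodMk (hasDerivAt_const 0 y))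
    (by rw [e2])
  have m : ∀ᶠ t : ℂ in 𝓝 0, (D.α (1 + t • u) x, D.ε (1 + t • u) c) ∈ D.U :=
    (ev_one he u).mono fun t k => let b := (he.2.2.2.2.2.2 _ k).2.2 _ hx
      ⟨b.1, b.2.1.ge ⟨_, hc, rfl⟩⟩
  have k3 := (a1.prodMk a2).continuousAt.tendsto
  rw [e1, e2] at k3
  refine k1.unique (k2.congr_of_eventuallyEq ?_)
  filter_upwards [(tendsto_nhdsWithin_iff.2 ⟨k3, m⟩).eventually hg.2, ev_one he u] with t b1 b2
  have b := he.2.2.2.2.2.2 _ b2
  exact b1.symm.trans (((b.2.2 _ hx).2.2.2 c hc).1.trans (e ▸ ((b.2.1 c).2.1 y).symm))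

/-- The derivative of the marked points along an orbit. -/
theorem dp_orb (ht : D.τ = tor) (hx : x ∈ D.S) (i : Fin n) (hp : Differentiable ℂ (D.p i))
    (hne : ∀ j, D.p i x j ≠ 0) : ∃ α : ι → ℂ,
      fderiv ℂ (D.p i) x (fderiv ℂ (D.α · x) 1 u) = fderiv ℂ (D.ε · (D.p i x)) 1 u + α • D.p i x := by
  obtain ⟨g1, g2, g3⟩ := an_one u
  have a1 := hd_act he.1 g2 g3 (hasDerivAt_const 0 x)
  have a2 := hd_act he.2.1 g2 g3 (hasDerivAt_const 0 (D.p i x))
  rw [add_zero] at a1 a2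
  have e1 : D.α (1 + (0 : ℂ) • u) x = x := by rw [g3, he.1.2.1]
  have e2 : D.ε (1 + (0 : ℂ) • u) (D.p i x) = D.p i x := by rw [g3, he.2.1.2.1]
  have := he.1.1
  have : FiniteDimensional ℂ W := .of_injective (LinearMap.inr ℂ A W) LinearMap.inr_injective
  obtain ⟨s, α, -, k1, k2⟩ := orb_deriv (γ' := fun t => D.p i (D.α (1 + t • u) x))
    (an_act he.2.1 g1 g3 (analyticAt_const (v := D.p i x)))
    ((an_of_diff hp _).comp (an_act he.1 g1 g3 analyticAt_const))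
    (e2.symm ▸ hne) ((ev_one he u).mono fun t k => let b := he.2.2.2.2.2.2 _ k
      ⟨_, isUnit_t.1 (b.1 i), ((b.2.2 _ hx).2.2.1 i).trans (by rw [ht])⟩)
  simp only [e1, e2] at k1 k2
  obtain rfl : s = 1 := funext fun j => smul_left_injective ℂ (hne j)
    ((congrFun k1 j).symm.trans (one_smul _ _).symm)
  rw [a2.deriv, one_smul] at k2
  exact ⟨α, ((hp x).hasFDerivAt.comp_hasDerivAt_of_eq 0 a1 e1.symm).deriv.symm.trans k2⟩

end Vale.Agent.P269L.K.Kr
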