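import Vale.Agent.P269L.K.Ker1
import Vale.Agent.P269L.K.Fr0

/-!
# The lift of an arc whose image in the second presentation is tangent to the orbit
-/

set_option linter.unusedSectionVars false

namespace Vale.Agent.P269L.K.Kr

open Set Function Topology Filter P269 P269.Holo P269.Base I

section jd

variable {E X U : Type} [NormedAddCommGroup E] [NormedSpace ℂ E] [NormedAddCommGroup X]
  [NormedSpace ℂ X] [NormedAddCommGroup U] [NormedSpace ℂ U] {j : E × X → U}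
  (hj : Differentiable ℂ j) (hl : ∀ c, IsLinearMap ℂ fun y => j (c, y)) (c : E) (y : X)
include hj hl

theorem dj_smul (r : ℂ) (e : E) : fderiv ℂ j (c, r • y) (e, 0) = r • fderiv ℂ j (c, y) (e, 0) := by
  have h1 : ∀ y, HasFDerivAt (fun c => j (c, y)) (fderiv ℂ j (c, y) ∘L .inl ℂ _ _) c := fun y =>
    (hj _).hasFDerivAt.comp c (hasFDerivAt_prodMk_left c y)
  exact DFunLike.congr_fun ((h1 (r • y)).unique (((h1 y).const_smul r).congr_of_eventuallyEq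
    (.of_forall fun c => (hl c).map_smul r y))) e

theorem dj_add (e : E) (w : X) :
    fderiv ℂ j (c, y) (e, w) = fderiv ℂ j (c, y) (e, 0) + j (c, w) := by
  rw [show (e, w) = (e, 0) + (0, w) by simp, map_add]
  simpa only [one_smul, add_right_inj] using ((hj (c, y)).hasFDerivAt.comp_hasDerivAt_of_eq 0
    ((hasDerivAt_const 0 c).prodMk (((hasDerivAt_id (0 : ℂ)).smul_const w).const_add y))
    (by simp)).unique ((((hasDerivAt_id (0 : ℂ)).smul_const (j (c, w))).const_add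
      (j (c, y))).congr_of_eventuallyEq
      (.of_forall fun t => ((hl c).map_add _ _).trans (congrArg _ ((hl c).map_smul t w))))

end jd

variable {A A₀ W W₀ U U₀ X B ι ι₀ Λ Λ₀ : Type} [NormedRing A] [NormedAlgebra ℂ A] [NormedRing A₀]
  [NormedAlgebra ℂ A₀] [NormedAddCommGroup W] [NormedSpace ℂ W] [NormedAddCommGroup W₀]
  [NormedSpace ℂ W₀] [NormedAddCommGroup U] [NormedSpace ℂ U] [NormedAddCommGroup U₀]
  [NormedSpace ℂ U₀] [NormedAddCommGroup X] [NormedSpace ℂ X] [Monoid B] [Fintype ι] [DecidableEq ι]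
  [Fintype ι₀] [DecidableEq ι₀] {M : ι ⊕ ι₀ → ℕ} {r r₀ n : ℕ}
  {D : Dat A (ι → ℂ) W (V fun i => M (.inl i)) U (Fin r → ℂ) X ι Λ n}
  {D₀ : Dat A₀ (ι₀ → ℂ) W₀ (V fun i => M (.inr i)) U₀ (Fin r₀ → ℂ) X ι₀ Λ₀ n} {sc : B → X → X}
  {K : Set X} {TK : X → Set X} {g : ℤ} {o : ι} {o₀ : ι₀} (h : Nf D sc K TK g o)
  (h₀ : Nf D₀ sc K TK g o₀) {x : W} {x₀ : W₀} {γ : ℂ → W} {γ₀ : ℂ → W₀} {u : A₀}
  (a : Arc D.S x γ) (a₀ : Arc D₀.S x₀ γ₀) (hd : deriv γ₀ 0 = fderiv ℂ (D₀.α · x₀) 1 u)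
  {Γ : ℂ → Set (V M)} (eL : ∀ᶠ t in 𝓝 0, rV Sum.inl '' Γ t = D.C (γ t))
  (eR : ∀ᶠ t in 𝓝 0, rV Sum.inr '' Γ t = D₀.C (γ₀ t))
include h h₀ a a₀ hd eL eR

omit h h₀ a₀ hd eR in
theorem ev_U (q : V M) : ∀ᶠ z in 𝓝[Tt Γ] (0, q), (γ z.1, rV Sum.inl z.2) ∈ D.U := by
  filter_upwards [self_mem_nhdsWithin, nhdsWithin_le_nhds
    ((continuousAt_fst (p := ((0 : ℂ), q))).eventually (eL.and a.mem))] with z b1 b2
  exact ⟨b2.2, b2.1.le ⟨_, b1, rfl⟩⟩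

omit h h₀ a hd eL in
theorem ev_U₀ (q : V M) : ∀ᶠ z in 𝓝[Tt Γ] (0, q), (γ₀ z.1, rV Sum.inr z.2) ∈ D₀.U := by
  filter_upwards [self_mem_nhdsWithin, nhdsWithin_le_nhds
    ((continuousAt_fst (p := ((0 : ℂ), q))).eventually (eR.and a₀.mem))] with z b1 b2
  exact ⟨b2.2, b2.1.le ⟨_, b1, rfl⟩⟩

/-- **The lift.** -/
theorem exists_tl (hL : LocFam (.inl o) Γ id 0) (hR : LocFam (.inr o₀) Γ id 0)
    (iL : ∀ c ∈ Γ 0, ∀ c' ∈ Γ 0, Orb (rV Sum.inl c) (rV Sum.inl c') → Orb c c')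
    (iR : ∀ c ∈ Γ 0, ∀ c' ∈ Γ 0, Orb (rV Sum.inr c) (rV Sum.inr c') → Orb c c')
    {p : ℂ → Fin n → V M} (hp : AnalyticAt ℂ p 0) (hp' : ∀ᶠ t in 𝓝 0, ∀ i, p t i ∈ Γ t ∧
      rV Sum.inl (p t i) = D.p i (γ t) ∧ rV Sum.inr (p t i) = D₀.p i (γ₀ t)) :
    ∃ ξ, D.Tl x (deriv γ 0) ξ ∧ ∀ q ∈ Γ 0, ∃ ζ, (1, ζ) ∈ Tan (Tt Γ) (0, q) ∧
      rV Sum.inl ζ = ξ (rV Sum.inl q) ∧ rV Sum.inr ζ = fderiv ℂ (D₀.ε · (rV Sum.inr q)) 1 u := by
  have hx₀ : x₀ ∈ D₀.S := a₀.zero ▸ a₀.mem.self_of_nhds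
  have e0 : rV Sum.inl '' Γ 0 = D.C x := a.zero ▸ eL.self_of_nhds
  have e1 : rV Sum.inr '' Γ 0 = D₀.C x₀ := a₀.zero ▸ eR.self_of_nhds
  obtain ⟨ξ, k1, k2⟩ := exists_xi (v := (1 : ℂ)) hL hR iL iR (an_eta h₀.eqv.2.1 u)
    (fun t c => eta_map h₀.eqv.2.1 (tL t) u fun w hw => h₀.ε_smul hw t c)
    fun q hq => tan_lin (.id ℂ _) (tan_orb h₀.eqv (h₀.locFam hx₀) (h₀.crv _ hx₀).nod a₀ hd
      (e1.le ⟨q, hq, rfl⟩)) (by
        filter_upwards [self_mem_nhdsWithin, nhdsWithin_le_nhds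
          ((continuousAt_fst (p := ((0 : ℂ), rV Sum.inr q))).eventually eR)] with z b1 b2
        exact b2.ge b1)
  refine ⟨ξ, ⟨arc_mem_Tan a, by rw [h.tor, ← e0]; exact k1, fun c hc => ?_, fun i => ?_⟩,
    fun q hq => (k2 q hq).1⟩
  · obtain ⟨q, hq, rfl⟩ := e0.ge hc
    obtain ⟨ζ, k3, k4, -⟩ := (k2 q hq).1
    have b : HasFDerivAt (fun z : ℂ × V M => (γ z.1, rV Sum.inl z.2)) _ (0, q) :=
      (a.an.differentiableAt.hasDerivAt.hasFDerivAt.comp (0, q) hasFDerivAt_fst).prodMk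
        ((rV Sum.inl).hasFDerivAt.comp (0, q) hasFDerivAt_snd)
    have k5 := tan_map k3 (g := fun z => (γ z.1, rV Sum.inl z.2))
      ((a.an.comp_of_eq analyticAt_fst rfl).prod (an_rV analyticAt_snd)) (ev_U a eL q)
    simpa [b.fderiv, a.zero, k4] using k5
  · have b := analyticAt_pi_iff.1 hp i
    obtain ⟨b1, b2, b3⟩ := hp'.self_of_nhds i
    rw [a.zero] at b2
    rw [a₀.zero] at b3
    obtain ⟨α, k3⟩ := dp_orb (u := u) h₀.eqv h₀.tor hx₀ i (h₀.fam.2.1 i)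
      (b3 ▸ fun j => hL.ne_zero.self_of_nhds _ b1 _)
    have k4 := (k2 _ b1).2 (deriv (p · i) 0) α (tan_der (γ := fun t => (t, p t i))
      (analyticAt_id.prod b) rfl (hp'.mono fun t k => (k i).1)
      ((hasDerivAt_id _).prodMk b.differentiableAt.hasDerivAt)) (by
        rw [b3, ← k3, ← hd]
        exact ((rV Sum.inr).hasFDerivAt.comp_hasDerivAt 0 b.differentiableAt.hasDerivAt).unique
          ((((h₀.fam.2.1 i) x₀).hasFDerivAt.comp_hasDerivAt_of_eq 0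
            a₀.an.differentiableAt.hasDerivAt a₀.zero.symm).congr_of_eventuallyEq
              (hp'.mono fun t k => (k i).2.2)))
    rw [h.tor, ← ((rV Sum.inl).hasFDerivAt.comp_hasDerivAt 0 b.differentiableAt.hasDerivAt).unique
      ((((h.fam.2.1 i) x).hasFDerivAt.comp_hasDerivAt_of_eq 0 a.an.differentiableAt.hasDerivAt
        a.zero.symm).congr_of_eventuallyEq (hp'.mono fun t k => (k i).2.1)), ← b2]
    exact k4

/-- **The derivative of the third equation.** -/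
theorem rl {q ζ : V M} (hq : q ∈ Γ 0) (hζ : (1, ζ) ∈ Tan (Tt Γ) (0, q))
    (eζ : rV Sum.inr ζ = fderiv ℂ (D₀.ε · (rV Sum.inr q)) 1 u) {l : ℂ × V M → ℂ}
    (hl : AnalyticAt ℂ l (0, q)) (l0 : l (0, q) ≠ 0) (ap : U₀ →L[ℂ] X)
    {m : V (fun i => M (.inr i)) → ℂ} (hm : AnalyticAt ℂ m (rV Sum.inr q))
    (m0 : m (rV Sum.inr q) ≠ 0) (ham : ∀ c y, ap (D₀.j (c, y)) = m c • y) {Φ : ℂ × V M → U}
    (hΦ : AnalyticAt ℂ Φ (0, q)) (dΦ : fderiv ℂ Φ (0, q) (1, ζ) = 0)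
    (eΦ : ∀ᶠ z in 𝓝[Tt Γ] (0, q), Φ z = l z • D.j (rV Sum.inl z.2,
      ap (D₀.s (γ₀ z.1, rV Sum.inr z.2))) - m (rV Sum.inr z.2) • D.s (γ z.1, rV Sum.inl z.2))
    {y : X} (s₀ : D₀.s (x₀, rV Sum.inr q) = D₀.j (rV Sum.inr q, y))
    (s₁ : D.s (x, rV Sum.inl q) = D.j (rV Sum.inl q, l (0, q) • y)) {G : _ → U}
    (hG : Ext D.U D.s (x, rV Sum.inl q) G) :
    fderiv ℂ G (x, rV Sum.inl q) (deriv γ 0, rV Sum.inl ζ) -
      fderiv ℂ D.j (rV Sum.inl q, l (0, q) • y) (rV Sum.inl ζ, 0) - 0 ∈ D.Ln x (rV Sum.inl q) := by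
  have := h.fdU
  have := FiniteDimensional.complete ℂ U
  have hx₀ : x₀ ∈ D₀.S := a₀.zero ▸ a₀.mem.self_of_nhds
  have c₀ : rV Sum.inr q ∈ D₀.C x₀ := a₀.zero ▸ eR.self_of_nhds.le ⟨q, hq, rfl⟩
  have m1 : (x, rV Sum.inl q) ∈ D.U := a.zero ▸ (ev_U a eL q).self_of_nhdsWithin hq
  obtain ⟨G₀, hG₀⟩ := ((h₀.fam.2.2.2 _ hx₀).2.2.2.2 _ c₀).1
  have a1 : AnalyticAt ℂ (fun z : ℂ × V M => (γ z.1, rV Sum.inl z.2)) (0, q) :=
    (a.an.comp_of_eq analyticAt_fst rfl).prod (an_rV analyticAt_snd)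
  have a2 : AnalyticAt ℂ (fun z : ℂ × V M => (γ₀ z.1, rV Sum.inr z.2)) (0, q) :=
    (a₀.an.comp_of_eq analyticAt_fst rfl).prod (an_rV analyticAt_snd)
  have e1 : (γ 0, rV Sum.inl q) = (x, rV Sum.inl q) := by rw [a.zero]
  have e2 : (γ₀ 0, rV Sum.inr q) = (x₀, rV Sum.inr q) := by rw [a₀.zero]
  have : FiniteDimensional ℂ (V (fun i => M (.inl i)) × X) := by
    have : FiniteDimensional ℂ X := .of_injective ((h.emb.2.2 _).1.mk' _) (h.j_inj m1.1 m1.2)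
    infer_instance
  have a3 : AnalyticAt ℂ (fun z : ℂ × V M => l z • D.j (rV Sum.inl z.2,
      ap (G₀ (γ₀ z.1, rV Sum.inr z.2))) - m (rV Sum.inr z.2) • G (γ z.1, rV Sum.inl z.2)) (0, q) :=
    (hl.smul ((an_of_diff h.emb.1 _).comp ((an_rV analyticAt_snd).prod ((ap.analyticAt _).comp
      (hG₀.1.comp_of_eq a2 e2))))).sub
      ((hm.comp_of_eq (an_rV analyticAt_snd) rfl).smul (hG.1.comp_of_eq a1 e1))
  have k1 := tan_eq hζ hΦ a3 (by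
    filter_upwards [eΦ, (tendsto_nhdsWithin_iff.2 ⟨(e1 ▸ a1.continuousAt.tendsto :).mono_left
      nhdsWithin_le_nhds, ev_U a eL q⟩).eventually hG.2, (tendsto_nhdsWithin_iff.2
      ⟨(e2 ▸ a2.continuousAt.tendsto :).mono_left nhdsWithin_le_nhds, ev_U₀ a₀ eR q⟩).eventually hG₀.2]
      with z b1 b2 b3
    rw [b1, b2, b3])
  have d0 : HasDerivAt (fun t : ℂ => q + t • ζ) ζ 0 := by
    simpa using ((hasDerivAt_id (0 : ℂ)).smul_const ζ).const_add q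
  have z0 : q = q + (0 : ℂ) • ζ := by simp
  have d1 := (hasDerivAt_id (0 : ℂ)).prodMk d0
  have dL := (rV Sum.inl).hasFDerivAt.comp_hasDerivAt 0 d0
  have dR := (rV Sum.inr).hasFDerivAt.comp_hasDerivAt 0 d0
  have d2 := hG.1.differentiableAt.hasFDerivAt.comp_hasDerivAt_of_eq 0
    (a.an.differentiableAt.hasDerivAt.prodMk dL) (by rw [a.zero, comp_apply, ← z0])
  have d3 := hG₀.1.differentiableAt.hasFDerivAt.comp_hasDerivAt_of_eq 0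
    (a₀.an.differentiableAt.hasDerivAt.prodMk dR) (by rw [a₀.zero, comp_apply, ← z0])
  rw [hd, eζ, ds_orb h₀.eqv hx₀ c₀ s₀ h₀.emb.1 hG₀, ← eζ] at d3
  have d4 := hm.differentiableAt.hasFDerivAt.comp_hasDerivAt_of_eq 0 dR (by rw [comp_apply, ← z0])
  have d5 := ap.hasFDerivAt.comp_hasDerivAt 0 d3
  rw [(ap.hasFDerivAt.comp_hasDerivAt 0 ((h₀.emb.1 (rV Sum.inr q, y)).hasFDerivAt.comp_hasDerivAt_of_eq
    0 (dR.prodMk (hasDerivAt_const 0 y)) (by rw [comp_apply, ← z0]))).unique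
    ((d4.smul_const y).congr_of_eventuallyEq (.of_forall fun t => ham _ _))] at d5
  have d6 := hl.differentiableAt.hasFDerivAt.comp_hasDerivAt_of_eq 0 d1 (by rw [← z0, id])
  have k2 := (a3.differentiableAt.hasFDerivAt.comp_hasDerivAt_of_eq 0 d1 (by rw [← z0, id])).unique
    ((d6.smul ((h.emb.1 _).hasFDerivAt.comp_hasDerivAt 0 (dL.prodMk d5))).sub (d4.smul d2))
  have lin := fun c => (h.emb.2.2 c).1
  simp only [← k1, dΦ, comp_apply, ← z0, id, a.zero, a₀.zero, ← hG.2.self_of_nhdsWithin m1,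
    ← hG₀.2.self_of_nhdsWithin ⟨hx₀, c₀⟩, s₀, s₁, ham] at k2
  rw [dj_add h.emb.1 lin, dj_smul h.emb.1 lin, (lin _).map_smul, (lin _).map_smul,
    (lin _).map_smul] at k2
  refine ⟨fderiv ℂ l (0, q) (1, ζ) / l (0, q), smul_right_injective U m0 ?_⟩
  simp only [s₁, (lin _).map_smul, dj_smul h.emb.1 lin, smul_smul (_ / _), div_mul_cancel₀ _ l0]
  linear_combination (norm := module) (-1 : ℂ) • k2

end Vale.Agent.P269L.K.Kr
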