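import Vale.Agent.P269L.K.Ab
import Vale.Agent.P269L.K.Gen

/-!
# Symmetric local models: general lemmas
-/

set_option linter.unusedSectionVars false
set_option linter.unusedVariables false

noncomputable section

namespace Vale.Agent.P269L.K.Sy

open Set Function Topology Filter Module P291Z P269 P269.Holo P269.Orb P269.Ch

section

variable {Ω Ω' E E' W Γ Γ' F R R' A : Type} [NormedAddCommGroup Ω] [NormedSpace ℂ Ω]
  [NormedAddCommGroup Ω'] [NormedSpace ℂ Ω'] [NormedAddCommGroup E] [NormedSpace ℂ E]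
  [NormedAddCommGroup E'] [NormedSpace ℂ E'] [NormedAddCommGroup W] [NormedSpace ℂ W]
  [NormedAddCommGroup Γ] [NormedSpace ℂ Γ] [NormedAddCommGroup Γ'] [NormedSpace ℂ Γ']
  [NormedAddCommGroup F] [NormedSpace ℂ F]
  [NormedAddCommGroup R] [NormedSpace ℂ R] [NormedAddCommGroup R'] [NormedSpace ℂ R']
  [NormedRing A] [NormedAlgebra ℂ A]

/-- A parametrisation of a manifold. -/
theorem exists_par {S : Set W} {n : ℕ} {x : W} (h : MfdAt S n x) :
    ∃ (φ : (Fin n → ℂ) → W) (r : W → Fin n → ℂ), AnalyticAt ℂ φ 0 ∧ AnalyticAt ℂ r x ∧ φ 0 = x ∧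
      r x = 0 ∧ (∀ s, φ s ∈ S) ∧ (∀ᶠ s in 𝓝 0, r (φ s) = s) ∧ ∀ᶠ y in 𝓝[S] x, φ (r y) = y := by
  obtain ⟨ha, ψ, h1, h0⟩ := h
  obtain ⟨w, h2, h3, h5, h4, -⟩ := h1.exists_inv
  rw [h0] at h2 h3 h4
  exact ⟨fun z => (ψ z).1, w, h1.an, h2, congrArg Subtype.val h0, h3, fun s => (ψ s).2, h5,
    eventually_nhdsWithin_iff.2 ((ev_sub ha (p := fun y => (ψ (w y)).1 = y)).1
      (h4.mono fun _ => congrArg Subtype.val))⟩

theorem fderiv_mem_Tan {S : Set W} {φ : E → W} {s : E} (h : AnalyticAt ℂ φ s)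
    (hS : ∀ᶠ t in 𝓝 s, φ t ∈ S) (v : E) : fderiv ℂ φ s v ∈ I.Tan S (φ s) := fun g ⟨a, b⟩ => by
  have c : (fun t => g (φ t)) =ᶠ[𝓝 s] fun _ => 0 :=
    ((tendsto_nhdsWithin_iff.2 ⟨h.continuousAt.tendsto, hS⟩).eventually b).mono fun _ e => e.symm
  have d := c.fderiv_eq (𝕜 := ℂ)
  rw [fderiv_comp_an a h, fderiv_fun_const] at d
  exact congr($d v)

/-- An immersion into `S × Γ × F` between spaces of the same dimension. -/
theorem exists_giso [FiniteDimensional ℂ Ω] [FiniteDimensional ℂ Γ] [FiniteDimensional ℂ F]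
    {S : Set W} {d : ℕ} {ω : Ω} {π : Ω → W} {γ : Ω → Γ} {w : Ω → F} (hS : MfdAt S d (π ω))
    (hπ : AnalyticAt ℂ π ω) (hγ : AnalyticAt ℂ γ ω) (hw : AnalyticAt ℂ w ω)
    (hm : ∀ᶠ z in 𝓝 ω, π z ∈ S) (h0 : w ω = 0)
    (hd : finrank ℂ Ω = d + (finrank ℂ Γ + finrank ℂ F))
    (hi : ∀ v, fderiv ℂ π ω v = 0 → fderiv ℂ γ ω v = 0 → fderiv ℂ w ω v = 0 → v = 0) :
    ∃ e, GIso univ ω (S ×ˢ univ) (π ω, γ ω, 0) (fun z => (π z, γ z, w z)) e := by
  obtain ⟨φ, r, a1, a2, a3, a4, a5, a6, a7⟩ := exists_par hS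
  have b1 : AnalyticAt ℂ (fun z => r (π z)) ω := a2.comp (f := π) hπ
  have b2 : ∀ᶠ z in 𝓝 ω, φ (r (π z)) = π z :=
    (tendsto_nhdsWithin_iff.2 ⟨hπ.continuousAt.tendsto, hm⟩).eventually a7
  have b3 := EventuallyEq.fderiv_eq (𝕜 := ℂ) b2
  rw [fderiv_comp_an (f := fun z => r (π z)) (a4.symm ▸ a1) b1] at b3
  have b4 := b1.prod (hγ.prod hw)
  obtain ⟨-, g, c1, c2, c3, c4⟩ := ift b4 (bijective_of_injective _
    ((injective_iff_map_eq_zero _).2 fun v e => by
      rw [(b1.differentiableAt.hasFDerivAt.prodMk (hγ.differentiableAt.hasFDerivAt.prodMk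
        hw.differentiableAt.hasFDerivAt)).fderiv] at e
      refine hi v ?_ (congrArg (·.2.1) e) (congrArg (·.2.2) e)
      rw [← b3, ContinuousLinearMap.comp_apply, show fderiv ℂ (fun z => r (π z)) ω v = 0 from
        congrArg (·.1) e, map_zero]) (by simp [hd]))
  simp only [h0] at c1 c2 c4
  have d1 : AnalyticAt ℂ (fun p : W × Γ × F => (r p.1, p.2)) (π ω, γ ω, 0) :=
    (a2.comp_of_eq analyticAt_fst rfl).prod analyticAt_snd
  refine ⟨fun p => g (r p.1, p.2), hπ.prod (hγ.prod hw), c1.comp_of_eq d1 rfl, by rw [h0], c2, ?_, ?_⟩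
  · filter_upwards [nhdsWithin_le_nhds hm, nhdsWithin_le_nhds c3] with z x y using ⟨⟨x, trivial⟩, y⟩
  · have d2 := d1.continuousAt.tendsto
    have d3 := (c2 ▸ c1.continuousAt.tendsto :).comp d2
    have d4 : Tendsto Prod.fst (𝓝[S ×ˢ univ] (π ω, γ ω, (0 : F))) (𝓝[S] π ω) :=
      tendsto_nhdsWithin_iff.2 ⟨continuousAt_fst.tendsto.mono_left nhdsWithin_le_nhds,
        eventually_mem_nhdsWithin.mono fun _ e => e.1⟩
    filter_upwards [nhdsWithin_le_nhds (d2.eventually c4), nhdsWithin_le_nhds (d3.eventually b2),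
      d4.eventually a7] with p x y z
    obtain ⟨x1, x2⟩ := Prod.mk.inj x
    exact ⟨trivial, Prod.ext ((y.symm.trans (congrArg φ x1)).trans z) x2⟩

theorem gen_fderiv {ω : Ω} {f : Ω → E} {g : Ω → E'} (a : Gen univ ω f g) (hg : AnalyticAt ℂ g ω)
    (h0 : g ω = 0) {v : Ω} (hv : fderiv ℂ g ω v = 0) : fderiv ℂ f ω v = 0 := by
  obtain ⟨B, b, c⟩ := a
  rw [nhdsWithin_univ] at c
  rw [EventuallyEq.fderiv_eq c, (b.differentiableAt.hasFDerivAt.clm_apply
    hg.differentiableAt.hasFDerivAt).fderiv]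
  simp [h0, hv]

variable {act : A → W → W}

theorem rep_isAct (h : I.Rep act) {S : Set W} (hS : ∀ u, IsUnit u → ∀ x ∈ S, act u x ∈ S) :
    IsAct act S :=
  ⟨fun x _ => h.2.1 x, fun a b ha hb x _ => ((h.2.2 a ha).2 x).2 b hb, hS,
    fun a ha x _ => ((h.2.2 a ha).2 x).1⟩

theorem rep_an (h : I.Rep act) {u : Ω → A} {x : Ω → W} {ω : Ω} (hu : AnalyticAt ℂ u ω)
    (hx : AnalyticAt ℂ x ω) (k : IsUnit (u ω)) : AnalyticAt ℂ (fun z => act (u z) (x z)) ω :=
  ((h.2.2 _ k).2 (x ω)).1.comp (f := fun z => (u z, x z)) (hu.prod hx)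

theorem rep_mul (h : I.Rep act) {u w : A} (hu : IsUnit u) (hw : IsUnit w) (x : W) :
    act (u * w) x = act u (act w x) := ((h.2.2 u hu).2 x).2 w hw

theorem rep_finL (h : I.Rep act) : FiniteDimensional ℂ A :=
  have := h.1
  .of_injective (LinearMap.inl ℂ A W) LinearMap.inl_injective

theorem rep_finR (h : I.Rep act) : FiniteDimensional ℂ W :=
  have := h.1
  .of_injective (LinearMap.inr ℂ A W) LinearMap.inr_injective

theorem rep_inv (h : I.Rep act) {u : A} (hu : IsUnit u) (x : W) :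
    act (Ring.inverse u) (act u x) = x := by
  rw [← rep_mul h hu.ringInverse hu, Ring.inverse_mul_cancel _ hu, h.2.1]

theorem rep_inv' (h : I.Rep act) {u : A} (hu : IsUnit u) (x : W) :
    act u (act (Ring.inverse u) x) = x := by
  rw [← rep_mul h hu hu.ringInverse, Ring.mul_inverse_cancel _ hu, h.2.1]

theorem an_inv [CompleteSpace A] {u : Ω → A} {ω : Ω} (hu : AnalyticAt ℂ u ω) (k : IsUnit (u ω)) :
    AnalyticAt ℂ (fun z => Ring.inverse (u z)) ω :=
  (analyticAt_inverse (𝕜 := ℂ) k.unit).comp_of_eq hu k.unit_spec.symm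

/-- A representation as a family of continuous linear maps. -/
theorem rep_clm (h : I.Rep act) : ∃ L : A → W →L[ℂ] W, ∀ u, IsUnit u →
    AnalyticAt ℂ L u ∧ ∀ x, L u x = act u x := by
  classical
  have := rep_finL h
  have := rep_finR h
  have := FiniteDimensional.complete ℂ A
  have := FiniteDimensional.complete ℂ W
  let L : A → W →L[ℂ] W := fun u =>
    if k : IsUnit u then LinearMap.toContinuousLinearMap ((h.2.2 u k).1.mk' _) else 0
  have e : ∀ u, IsUnit u → ∀ x, L u x = act u x := fun u k x => by simp [L, dif_pos k]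
  refine ⟨L, fun u k => ⟨analyticAt_of_apply fun x => ?_, e u k⟩⟩
  exact (rep_an h analyticAt_id analyticAt_const k).congr
    ((Units.isOpen.eventually_mem k).mono fun w b => (e w b x).symm)

/-- The orbit map of a point with finite stabiliser is an immersion. -/
theorem orbit_inj [FiniteDimensional ℂ A] [FiniteDimensional ℂ W] {S : Set W} (h : IsAct act S)
    {x : W} (hx : x ∈ S) (hf : {u | IsUnit u ∧ act u x = x}.Finite) :
    Injective (fderiv ℂ (act · x) 1) := by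
  have := FiniteDimensional.complete ℂ A
  have := FiniteDimensional.complete ℂ W
  have := hf.to_subtype
  have k := Sp.inf_injective_of_finite (x := Sp.of act x hx) (Finite.of_injective
    (β := {u | IsUnit u ∧ act u x = x}) (fun g => ⟨g.1, g.1.isUnit, congrArg Sp.val g.2⟩)
    fun g g' e => Subtype.ext (Units.ext (congrArg Subtype.val e)))
  rwa [Sp.inf_eq] at k

/-- Proper actions along an ultrafilter. -/
theorem exists_lim {S : Set W} [IsAct act S] [ProperSMul Aˣ (Holo.Sp act S)] {κ : Type}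
    (𝒰 : Ultrafilter κ) {u : κ → A} {x : κ → W} {a b : W} (ha : a ∈ S) (hb : b ∈ S)
    (h : ∀ᶠ i in 𝒰, IsUnit (u i) ∧ x i ∈ S) (h1 : Tendsto x 𝒰 (𝓝 a))
    (h2 : Tendsto (fun i => act (u i) (x i)) 𝒰 (𝓝 b)) : ∃ g, IsUnit g ∧ Tendsto u 𝒰 (𝓝 g) := by
  classical
  let p : κ → Aˣ × Holo.Sp act S := fun i =>
    if k : IsUnit (u i) ∧ x i ∈ S then (k.1.unit, Sp.of act _ k.2) else (1, Sp.of act a ha)
  have e : ∀ᶠ i in 𝒰, ((p i).1 : A) = u i ∧ (p i).2.val = x i :=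
    h.mono fun i k => by simp [p, dif_pos k]
  have t1 : Tendsto (fun i => (p i).1 • (p i).2) 𝒰 (𝓝 (Sp.of act b hb)) :=
    Sp.isEmbedding_val.tendsto_nhds_iff.2 (h2.congr' (e.mono fun i k => by simp [k.1, k.2]))
  have t2 : Tendsto (fun i => (p i).2) 𝒰 (𝓝 (Sp.of act a ha)) :=
    Sp.isEmbedding_val.tendsto_nhds_iff.2 (h1.congr' (e.mono fun i k => k.2.symm))
  obtain ⟨g, -, k⟩ := (properSMul_iff_continuousSMul_ultrafilter_tendsto.1
    (inferInstanceAs (ProperSMul Aˣ (Holo.Sp act S)))).2 (𝒰.map p) _ _ (t1.prodMk_nhds t2)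
  exact ⟨g, g.isUnit, ((Units.continuous_val.tendsto g).comp k).congr' (e.mono fun i k => k.1)⟩

theorem giso_comp {B : Set Ω} {B' : Set E} {ω : Ω'} {b : E} {Φ : Ω → E} {Ψ : E → Ω} (L : Ω' ≃L[ℂ] Ω)
    (h : GIso B (L ω) B' b Φ Ψ) :
    GIso (L ⁻¹' B) ω B' b (fun z => Φ (L z)) fun y => L.symm (Ψ y) :=
  ⟨h.an.comp (L.analyticAt ω), (L.symm.analyticAt _).comp h.an', h.eq, by rw [h.eq', L.symm_apply_apply],
    ((L.continuous.continuousWithinAt.tendsto_nhdsWithin (mapsTo_preimage L B)).eventually h.ev).mono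
      fun z e => ⟨e.1, by rw [e.2, L.symm_apply_apply]⟩,
    h.ev'.mono fun y e => by simpa using e⟩

theorem stab_comp {S : Set W} {a : W → R} {ω : Ω'} {π : Ω → W} {γ : Ω → Γ} {w : Ω → F} {b : Ω → R'}
    {e : W × Γ × F → Ω} (L : Ω' ≃L[ℂ] Ω) (G : Γ ≃L[ℂ] Γ') (h : Stab S a (L ω) π γ w b e) :
    Stab S a ω (fun z => π (L z)) (fun z => G (γ (L z))) (fun z => w (L z)) (fun z => b (L z))
      fun p => L.symm (e (p.1, G.symm p.2.1, p.2.2)) := by
  have k := giso_comp L h.iso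
  have a1 : ∀ q, AnalyticAt ℂ (fun p : W × Γ × F => (p.1, G p.2.1, p.2.2)) q := fun q =>
    analyticAt_fst.prod (((G.analyticAt _).comp (analyticAt_fst.comp analyticAt_snd)).prod
      (analyticAt_snd.comp analyticAt_snd))
  have a2 : ∀ q, AnalyticAt ℂ (fun p : W × Γ' × F => (p.1, G.symm p.2.1, p.2.2)) q := fun q =>
    analyticAt_fst.prod (((G.symm.analyticAt _).comp (analyticAt_fst.comp analyticAt_snd)).prod
      (analyticAt_snd.comp analyticAt_snd))
  refine ⟨⟨(a1 _).comp k.an, k.an'.comp_of_eq (a2 _) (by simp), by simpa using k.eq,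
    by simpa using k.eq', k.ev.mono fun z x => ⟨⟨x.1.1, trivial⟩, by simpa using x.2⟩, ?_⟩, h.ana,
    h.anb.comp (L.analyticAt ω), h.zero, h.g1.comp (L.analyticAt ω) rfl (.of_forall fun _ => trivial),
    h.g2.comp (L.analyticAt ω) rfl (.of_forall fun _ => trivial)⟩
  have t : Tendsto (fun p : W × Γ' × F => (p.1, G.symm p.2.1, p.2.2))
      (𝓝[S ×ˢ univ] (π (L ω), G (γ (L ω)), 0)) (𝓝[S ×ˢ univ] (π (L ω), γ (L ω), 0)) :=
    tendsto_nhdsWithin_iff.2 ⟨by
      simpa using (a2 (π (L ω), G (γ (L ω)), 0)).continuousAt.tendsto.mono_left nhdsWithin_le_nhds,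
      eventually_mem_nhdsWithin.mono fun _ x => ⟨x.1, trivial⟩⟩
  refine (t.eventually k.ev').mono fun p x => ⟨trivial, ?_⟩
  have y := congrArg (fun p : W × Γ × F => (p.1, G p.2.1, p.2.2)) x.2
  simpa using y

end

end Vale.Agent.P269L.K.Sy
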