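import Vale.Agent.P269L.K.LSm0

/-!
# Symmetric local models: frames, transport and the use of properness
-/

set_option linter.unusedSectionVars false
set_option linter.unusedVariables false

noncomputable section

namespace Vale.Agent.P269L.K.Sy

open Set Function Topology Filter Module P291Z P269 P269.Holo P269.Orb P269.Ch

variable {A A₀ A₃ W W₀ Q P₃ F F₀ R R₀ ι ι₀ Ω Ω' Γ Γ' Γ₀ Γ₀' : Type} [NormedRing A] [NormedAlgebra ℂ A]
  [NormedRing A₀] [NormedAlgebra ℂ A₀] [NormedRing A₃] [NormedAlgebra ℂ A₃] [NormedAddCommGroup W]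
  [NormedSpace ℂ W] [NormedAddCommGroup W₀] [NormedSpace ℂ W₀] [NormedAddCommGroup Q] [NormedSpace ℂ Q]
  [NormedAddCommGroup P₃] [NormedSpace ℂ P₃] [NormedAddCommGroup F] [NormedSpace ℂ F]
  [NormedAddCommGroup F₀] [NormedSpace ℂ F₀] [NormedAddCommGroup R] [NormedSpace ℂ R]
  [NormedAddCommGroup R₀] [NormedSpace ℂ R₀] [Fintype ι] [Fintype ι₀]
  [NormedAddCommGroup Ω] [NormedSpace ℂ Ω] [NormedAddCommGroup Ω'] [NormedSpace ℂ Ω']
  [NormedAddCommGroup Γ] [NormedSpace ℂ Γ] [NormedAddCommGroup Γ'] [NormedSpace ℂ Γ']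
  [NormedAddCommGroup Γ₀] [NormedSpace ℂ Γ₀] [NormedAddCommGroup Γ₀'] [NormedSpace ℂ Γ₀']
  {D : Sd A W ι} {D₀ : Sd A₀ W₀ ι₀} {T : Rf A₃ Q P₃ D D₀} {d d₀ N N₀ : ℕ}

theorem rep_fderiv {act : A → W → W} (h : I.Rep act) {u : Ω → A} {y : Ω → W} {ω : Ω}
    (hu : AnalyticAt ℂ u ω) (hy : AnalyticAt ℂ y ω) (h1 : u ω = 1) (v : Ω) :
    fderiv ℂ (fun z => act (u z) (y z)) ω v =
      fderiv ℂ (act · (y ω)) 1 (fderiv ℂ u ω v) + fderiv ℂ y ω v := by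
  have a := ((h.2.2 1 isUnit_one).2 (y ω)).1
  have b := fderiv_comp_an (g := uncurry act) (f := fun z => (u z, y z)) (h1.symm ▸ a) (hu.prod hy)
  rw [(hu.differentiableAt.hasFDerivAt.prodMk hy.differentiableAt.hasFDerivAt).fderiv, h1] at b
  refine (congr($b v)).trans ((fderiv_prod_apply a _ _).trans ?_)
  simp [h.2.1]

theorem fr_zero {x : W} {η : W → (ι → ℂ) →L[ℂ] R} {a : W → R} (g : D.Gd d) (f : D.Fr x η a)
    (hx : x ∈ D.Z) : ∀ᶠ y in 𝓝[D.S] x, y ∈ D.Z ↔ a y = 0 := by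
  filter_upwards [g.zero x hx, f.ev] with y b c using by rw [b, ← c.1, c.2]

theorem van_inv (g : D.Gd d) {u : A} (hu : IsUnit u) {y : W} (hy : y ∈ D.S) {κ : ι → ℂ}
    (k : D.ρ u κ ∈ D.van (D.act u y)) : κ ∈ D.van y := by
  simpa only [rep_inv g.rep hu, rep_inv g.act hu] using
    g.invV _ hu.ringInverse _ (g.invS u hu y hy) _ k

/-- The ideal of the section is invariant. -/
theorem fr_act [FiniteDimensional ℂ R] {x : W} {η : W → (ι → ℂ) →L[ℂ] R} {a : W → R} (g : D.Gd d)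
    (f : D.Fr x η a) {u : Ω → A} {y : Ω → W} {ω : Ω} (hu : AnalyticAt ℂ u ω) (hy : AnalyticAt ℂ y ω)
    (h1 : u ω = 1) (h2 : y ω = x) (hS : ∀ᶠ z in 𝓝 ω, y z ∈ D.S) :
    Gen univ ω (fun z => a (D.act (u z) (y z))) (fun z => a (y z)) ∧
      Gen univ ω (fun z => a (y z)) fun z => a (D.act (u z) (y z)) := by
  have := rep_finL g.act
  have := FiniteDimensional.complete ℂ A
  obtain ⟨L, hL⟩ := rep_clm g.rep
  have k : IsUnit (u ω) := h1 ▸ isUnit_one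
  have a1 := rep_an g.act hu hy k
  have a2 : D.act (u ω) (y ω) = x := by rw [h1, h2, g.act.2.1]
  have a3 : ∀ᶠ z in 𝓝 ω, IsUnit (u z) := hu.continuousAt.eventually (Units.isOpen.eventually_mem k)
  have a4 : AnalyticAt ℂ (fun z => η (y z)) ω := f.an.comp_of_eq hy h2
  have a5 : AnalyticAt ℂ (fun z => η (D.act (u z) (y z)) ∘L L (u z)) ω :=
    an_comp (f.an.comp_of_eq a1 a2) ((hL _ k).1.comp hu)
  have a6 := (tendsto_nhdsWithin_iff.2 ⟨h2 ▸ hy.continuousAt.tendsto, hS⟩).eventually f.ev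
  have a7 := (tendsto_nhdsWithin_iff.2 ⟨a2 ▸ a1.continuousAt.tendsto,
    (a3.and hS).mono fun z e => g.invS _ e.1 _ e.2⟩).eventually f.ev
  have b1 : ∀ᶠ z in 𝓝[univ] ω, ∀ κ, η (y z) κ = 0 ↔ (η (D.act (u z) (y z)) ∘L L (u z)) κ = 0 := by
    filter_upwards [nhdsWithin_le_nhds (a3.and (hS.and (a6.and a7)))] with z ⟨c1, c2, c3, c4⟩ κ
    rw [ContinuousLinearMap.comp_apply, c3.1, c4.1, (hL _ c1).2]
    exact ⟨g.invV _ c1 _ c2 _, van_inv g c1 c2⟩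
  have b2 : ∀ᶠ z in 𝓝[univ] ω, η (y z) (D.σ (y z)) = a (y z) :=
    nhdsWithin_le_nhds (a6.mono fun _ e => e.2)
  have b3 : ∀ᶠ z in 𝓝[univ] ω,
      (η (D.act (u z) (y z)) ∘L L (u z)) (D.σ (y z)) = a (D.act (u z) (y z)) := by
    filter_upwards [nhdsWithin_le_nhds (a3.and (hS.and a7))] with z ⟨c1, c2, c4⟩
    rw [ContinuousLinearMap.comp_apply, ← c4.2, (hL _ c1).2, eq_comm, ← sub_eq_zero, ← map_sub, c4.1]
    exact g.invσ _ c1 _ c2
  exact ⟨(Gen.of_ker a4 (h2 ▸ f.surj) a5 (b1.mono fun z e κ => (e κ).1)).congr b3 b2,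
    (Gen.of_ker a5 (fun v => let ⟨κ, e⟩ := f.surj v; ⟨κ, by
      rw [ContinuousLinearMap.comp_apply, a2, (hL _ k).2, h1, g.rep.2.1, e]⟩) a4
      (b1.mono fun z e κ => (e κ).2)).congr b2 b3⟩

theorem rep_gen {ρ : A → W → W} (g : I.Rep ρ) {u : Ω → A} {ω : Ω} (hu : AnalyticAt ℂ u ω)
    (k : IsUnit (u ω)) (y : Ω → W) :
    Gen univ ω (fun z => ρ (u z) (y z)) y ∧ Gen univ ω y fun z => ρ (u z) (y z) := by
  have := rep_finL g
  have := FiniteDimensional.complete ℂ A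
  obtain ⟨L, hL⟩ := rep_clm g
  have a3 : ∀ᶠ z in 𝓝[univ] ω, IsUnit (u z) :=
    nhdsWithin_le_nhds (hu.continuousAt.eventually (Units.isOpen.eventually_mem k))
  exact ⟨⟨fun z => L (u z), (hL _ k).1.comp hu, a3.mono fun z e => ((hL _ e).2 _).symm⟩,
    ⟨fun z => L (Ring.inverse (u z)), (hL _ k.ringInverse).1.comp (f := fun z => Ring.inverse (u z))
      (an_inv hu k), a3.mono fun z e => by rw [(hL _ e.ringInverse).2, rep_inv g e]⟩⟩

theorem sm_comp {ω : Ω'} {ζ : Ω → W × W₀ × Q} {ϱ : W × W₀ × Q → Ω} {δ : Ω → P₃} {γ : Ω → Γ}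
    {w : Ω → F₀} {e : W × Γ × F₀ → Ω} {γ₀ : Ω → Γ₀} {w₀ : Ω → F} {e₀ : W₀ × Γ₀ × F → Ω}
    {η : W → (ι → ℂ) →L[ℂ] R} {a : W → R} {η₀ : W₀ → (ι₀ → ℂ) →L[ℂ] R₀} {a₀ : W₀ → R₀}
    (L : Ω' ≃L[ℂ] Ω) (G : Γ ≃L[ℂ] Γ') (G₀ : Γ₀ ≃L[ℂ] Γ₀')
    (h : T.Sm (L ω) ζ ϱ δ γ w e γ₀ w₀ e₀ η a η₀ a₀) :
    T.Sm ω (fun z => ζ (L z)) (fun y => L.symm (ϱ y)) (fun z => δ (L z)) (fun z => G (γ (L z)))
      (fun z => w (L z)) (fun p => L.symm (e (p.1, G.symm p.2.1, p.2.2))) (fun z => G₀ (γ₀ (L z)))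
      (fun z => w₀ (L z)) (fun p => L.symm (e₀ (p.1, G₀.symm p.2.1, p.2.2))) η a η₀ a₀ :=
  ⟨h.fr, h.fr₀, stab_comp L G h.st, stab_comp L G₀ h.st₀, giso_comp L h.iso,
    G₀.toLinearEquiv.finrank_eq.symm.trans h.dim₀,
    ((L.continuous.continuousWithinAt.tendsto_nhdsWithin (mapsTo_preimage L _)).eventually h.lim).mono
      fun z k c b => k c (map_mem_closure (f := Prod.map (Prod.map L id) id) (by fun_prop) b
        fun q b => b)⟩

theorem unit3 {u : A₀ × A₃} (h : IsUnit u) : IsUnit ((1 : A), u) := Prod.isUnit_iff.2 ⟨isUnit_one, h⟩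

theorem act_mul (h : T.Ok d d₀ N N₀) {u u' : A × A₀ × A₃} (hu : IsUnit u) (hu' : IsUnit u')
    (z : W × W₀ × Q) : T.act (u * u') z = T.act u (T.act u' z) :=
  have a := Prod.isUnit_iff.1 hu
  have b := Prod.isUnit_iff.1 hu'
  Prod.ext (rep_mul h.gd.act a.1 b.1 _) (Prod.ext (rep_mul h.gd₀.act (Prod.isUnit_iff.1 a.2).1
    (Prod.isUnit_iff.1 b.2).1 _) (rep_mul h.repq hu hu' _))

theorem act_one (h : T.Ok d d₀ N N₀) (z : W × W₀ × Q) : T.act 1 z = z :=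
  Prod.ext (h.gd.act.2.1 _) (Prod.ext (h.gd₀.act.2.1 _) (h.repq.2.1 _))

theorem act_an (h : T.Ok d d₀ N N₀) {u : Ω → A × A₀ × A₃} {y : Ω → W × W₀ × Q} {ω : Ω}
    (hu : AnalyticAt ℂ u ω) (hy : AnalyticAt ℂ y ω) (k : IsUnit (u ω)) :
    AnalyticAt ℂ (fun z => T.act (u z) (y z)) ω :=
  have a := Prod.isUnit_iff.1 k
  (rep_an h.gd.act (analyticAt_fst.comp hu) (analyticAt_fst.comp hy) a.1).prod
    ((rep_an h.gd₀.act (analyticAt_fst.comp (analyticAt_snd.comp hu))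
      (analyticAt_fst.comp (analyticAt_snd.comp hy)) (Prod.isUnit_iff.1 a.2).1).prod
      (rep_an h.repq hu (analyticAt_snd.comp (analyticAt_snd.comp hy)) k))

theorem free (h : T.Ok d d₀ N N₀) {z : W × W₀ × Q} (hz : z ∈ T.Z) {u : A₀ × A₃} (hu : IsUnit u)
    (e : T.act (1, u) z = z) : u = 1 :=
  (h.t1 z hz z hz rfl).unique ⟨hu, e⟩ ⟨isUnit_one, act_one h z⟩

theorem fin₃ (h : T.Ok d d₀ N N₀) : FiniteDimensional ℂ A₃ :=
  have := rep_finL h.repq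
  .of_surjective (LinearMap.snd ℂ A₀ A₃ ∘ₗ LinearMap.snd ℂ A _) fun u => ⟨(0, 0, u), rfl⟩

theorem orbit_inj' (h : T.Ok d d₀ N N₀) {z : W × W₀ × Q} (hz : z ∈ T.Z) :
    Injective (fderiv ℂ (fun u : A₀ × A₃ => T.act (1, u) z) 1) := by
  have := rep_finL h.gd₀.act
  have := fin₃ h
  have := rep_finR h.gd.act
  have := rep_finR h.gd₀.act
  have := rep_finR h.repq
  exact orbit_inj (act := fun u : A₀ × A₃ => T.act (1, u)) (S := T.Z) ⟨fun z _ => act_one h z,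
    fun u u' a b z _ => by rw [← act_mul h (unit3 a) (unit3 b), Prod.mk_mul_mk (1 : A), mul_one],
    fun u a => h.inv _ (unit3 a), fun u a z _ => act_an h (analyticAt_const.prod analyticAt_fst)
      analyticAt_snd (unit3 a)⟩ hz ((finite_singleton 1).subset fun u a => free h hz a.1 a.2)

/-- The points of the roof near `z` are small translates of the values of a section. -/
theorem exists_tr (h : T.Ok d d₀ N N₀) {z : W × W₀ × Q} (hz : z ∈ T.Z) {s : W → W₀ × Q}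
    (hs : ContinuousAt s z.1) (h0 : s z.1 = z.2) (hm : ∀ᶠ y in 𝓝[D.Z] z.1, (y, s y) ∈ T.Z) :
    ∃ u : W × W₀ × Q → A₀ × A₃, Tendsto u (𝓝[T.Z] z) (𝓝 1) ∧
      ∀ᶠ q in 𝓝[T.Z] z, T.act (1, u q) (q.1, s q.1) = q := by
  have t1 : Tendsto Prod.fst (𝓝[T.Z] z) (𝓝[D.Z] z.1) :=
    continuous_fst.continuousWithinAt.tendsto_nhdsWithin fun q b => (h.mem q b).1
  have : ∀ q : W × W₀ × Q, ∃ u : A₀ × A₃, q ∈ T.Z ∧ (q.1, s q.1) ∈ T.Z →
      IsUnit u ∧ T.act (1, u) (q.1, s q.1) = q := fun q => by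
    by_cases k : q ∈ T.Z ∧ (q.1, s q.1) ∈ T.Z
    · exact ⟨_, fun _ => (h.t1 _ k.2 _ k.1 rfl).exists.choose_spec⟩
    · exact ⟨1, fun k' => (k k').elim⟩
  choose u hu using this
  have e : ∀ᶠ q in 𝓝[T.Z] z, (q.1, s q.1) ∈ T.Z ∧ IsUnit (u q) ∧ T.act (1, u q) (q.1, s q.1) = q := by
    filter_upwards [self_mem_nhdsWithin, t1.eventually hm] with q a b using ⟨b, hu q ⟨a, b⟩⟩
  refine ⟨u, (tendsto_iff_ultrafilter _ _ _).2 fun 𝒰 hU => ?_, e.mono fun _ b => b.2.2⟩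
  replace e := e.filter_mono hU
  have t0 : Tendsto id (𝒰 : Filter _) (𝓝 z) := hU.trans nhdsWithin_le_nhds
  have t2 : Tendsto (fun q : W × W₀ × Q => s q.1) 𝒰 (𝓝 z.2) :=
    h0 ▸ hs.tendsto.comp (continuous_fst.continuousAt.tendsto.comp t0)
  obtain ⟨m1, m2, m3⟩ := h.mem z hz
  have i0 := rep_isAct h.gd₀.act h.gd₀.invZ
  have := h.prp.prop i0
  obtain ⟨g₀, k₀, l₀⟩ := exists_lim (act := D₀.act) 𝒰 (u := fun q => (u q).1)
    (x := fun q => (s q.1).1) m2 m2 (e.mono fun q b => ⟨(Prod.isUnit_iff.1 b.2.1).1, (h.mem _ b.1).2.1⟩)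
    (continuous_fst.continuousAt.tendsto.comp t2)
    (((continuous_fst.comp continuous_snd).continuousAt.tendsto.comp t0).congr'
      (e.mono fun q b => (congrArg (·.2.1) b.2.2).symm))
  have u1 : ∀ {v : A₃}, IsUnit v → IsUnit ((1 : A), (1 : A₀), v) := fun b =>
    unit3 (Prod.isUnit_iff.2 ⟨isUnit_one, b⟩)
  have u2 : ∀ {v : A₀}, IsUnit v → IsUnit ((1 : A), v, (1 : A₃)) := fun b =>
    unit3 (Prod.isUnit_iff.2 ⟨b, isUnit_one⟩)
  have i3 : IsAct (fun u => T.aq (1, 1, u)) T.O := ⟨fun q _ => h.repq.2.1 q,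
    fun v v' a b q _ => by rw [← rep_mul h.repq (u1 a) (u1 b)]; simp,
    fun v a => h.invO _ (u1 a), fun v a q _ => rep_an h.repq
      (analyticAt_const.prod (analyticAt_const.prod analyticAt_fst)) analyticAt_snd (u1 a)⟩
  have := h.prop₃ i3
  obtain ⟨g₃, k₃, l₃⟩ := exists_lim (act := fun u => T.aq (1, 1, u)) 𝒰 (u := fun q => (u q).2)
    (x := fun q => T.aq (1, (u q).1, 1) (s q.1).2) (h.invO _ (u2 k₀) _ m3) m3
    (e.mono fun q b => ⟨(Prod.isUnit_iff.1 b.2.1).2,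
      h.invO _ (u2 (Prod.isUnit_iff.1 b.2.1).1) _ (h.mem _ b.1).2.2⟩)
    (((h.repq.2.2 _ (u2 k₀)).2 z.2.2).1.continuousAt.tendsto.comp
      ((tendsto_const_nhds.prodMk_nhds (l₀.prodMk_nhds tendsto_const_nhds)).prodMk_nhds
        (continuous_snd.continuousAt.tendsto.comp t2)))
    (((continuous_snd.comp continuous_snd).continuousAt.tendsto.comp t0).congr'
      (e.mono fun q b => (congrArg (·.2.2) b.2.2).symm.trans (by
        have c := Prod.isUnit_iff.1 b.2.1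
        simp only [← rep_mul h.repq (u1 c.2) (u2 c.1), Prod.mk_mul_mk, mul_one, one_mul]
        rfl)))
  have k : IsUnit (g₀, g₃) := Prod.isUnit_iff.2 ⟨k₀, k₃⟩
  have l : Tendsto u 𝒰 (𝓝 (g₀, g₃)) := l₀.prodMk_nhds l₃
  have t3 := (act_an h (ω := (((1 : A), g₀, g₃), z)) analyticAt_fst analyticAt_snd
    (unit3 k)).continuousAt.tendsto.comp ((tendsto_const_nhds.prodMk_nhds l).prodMk_nhds
      ((continuous_fst.continuousAt.tendsto.comp t0).prodMk_nhds t2))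
  exact free h hz k (tendsto_nhds_unique t3 (t0.congr' (e.mono fun q b => b.2.2.symm))) ▸ l

end Vale.Agent.P269L.K.Sy
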