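import Vale.Agent.P269L.K.Jt0
import Vale.Agent.P269L.K.Id2

/-!
# The section of the local model lies in the roof over the solutions
-/

set_option linter.unusedSectionVars false
set_option linter.unusedVariables false
set_option maxSynthPendingDepth 3

noncomputable section

namespace Vale.Agent.P269L.K

open Set Function Topology Filter Module P291Z P269 P269.Ch P269.Base P269.Holo I

variable {N c : ℕ} {F : Fin c → MvPolynomial (Fin (N + 1)) ℂ} {A W U ι Λ : Type} [NormedRing A]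
  [NormedAlgebra ℂ A] [NormedAddCommGroup W] [NormedSpace ℂ W] [NormedAddCommGroup U]
  [NormedSpace ℂ U] [Fintype ι] [DecidableEq ι] {M : ι → ℕ} {r n : ℕ} {s : Su A W U ι Λ M r n F}

/-- The third equation determines the second section. -/
theorem Su.of_dl (hs : s.Ok) {x : W} (hx : x ∈ s.Z) {q : V s.MM} (hq : s.L q ∈ s.D.C x) {l : ℂ}
    (hl : l ≠ 0) {e₀ : Vv s.ch} (h : ∀ μ, s.dl q l (s.D.s (x, s.L q)) e₀ μ = 0) :
    e₀ = s.D₀.j (s.R q, l⁻¹ • s.D.f x (s.L q)) := by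
  refine funext fun j => ContinuousLinearMap.ext fun ν => ?_
  obtain ⟨μ, rfl⟩ := (hs.cs j).1.2 ν
  have a := sub_eq_zero.1 (h μ)
  have b := (hs.nf.emb.2.2 (s.L q)).1.map_smul
  rw [hs.nf.s_eq hx hq, ← b, ← b] at a
  have k : l * e₀ j (s.cs j μ) = val μ (s.R q) * s.D.f x (s.L q) j := congrFun (hs.nf.j_inj hx.1 hq a) j
  change _ = l⁻¹ * s.D.f x (s.L q) j * val (s.cs j μ) (s.R q)
  rw [(hs.cs j).2, mul_assoc, mul_comm _ (val μ _), ← k, inv_mul_cancel_left₀ hl]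

variable {z : W × s.ch.W (Fin n) × s.Q} {hz : z.1 ∈ s.D.S} {θ : W → s.ch.W (Fin n)}
  {Γ : s.D.S → Set (V s.MM)} {lk : s.D.S → V s.MM → ℂ} {Qf : W → s.Q} {v : W → s.P₃}
  {Lf : W → s.ch.Fld →L[ℂ] s.P₃} {X : W → s.ch.Fld}

theorem Su.Ex.memS (h : s.Ex z hz θ Γ lk Qf v Lf) (X : W → s.ch.Fld) :
    ∀ᶠ ω in 𝓝[s.D.S ×ˢ univ] (z.1, 0), (s.sec θ Qf X ω).1 ∈ s.D₀.S :=
  have t : Tendsto Prod.fst (𝓝[s.D.S ×ˢ univ] (z.1, (0 : s.ch.Fld))) (𝓝[s.D.S] z.1) :=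
    continuous_fst.continuousWithinAt.tendsto_nhdsWithin fun _ e => e.1
  t.eventually (eventually_nhdsWithin_iff.2 ((ev_sub hz (p := fun y => θ y ∈ s.ch.base (Fin n))).1 h.th.base))

/-- Near the point, a solution and a field that kills the third section give a point of the roof. -/
theorem Su.Ex.ev_mem (hs : s.Ok) (h : s.Ex z hz θ Γ lk Qf v Lf) :
    ∀ᶠ y : s.D.S in 𝓝 ⟨z.1, hz⟩, y.1 ∈ s.Z → ∀ X, v y + Lf y X = 0 →
      (y.1, setX (θ y) X, Qf y) ∈ s.rf.Z ∧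
        ∀ q ∈ Γ y, s.D.f y (s.L q) = lk y q • fld (setX (θ y) X) (s.R q) := by
  filter_upwards [h.th.eventually hs, h.hp, h.del] with y a b d hy X e
  obtain ⟨dg, hF⟩ := hs.sm
  obtain ⟨u, -, -, hu⟩ := b.2.1.exists_evl
  have b1 : ∀ q ∈ Γ y, s.L q ∈ s.D.C y := fun q e => a.left.self_of_nhds.1 ▸ mem_image_of_mem _ e
  have k : ∀ q ∈ Γ y, s.D₀.s (setX (θ y) X, s.R q) = s.D₀.j (s.R q, (lk y q)⁻¹ • s.D.f y (s.L q)) :=
    fun q hq => Su.of_dl hs hy (b1 q hq) (a.ne q hq) fun μ => by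
      rw [← d X q hq _ (hu q hq), e]
      rfl
  have m : setX (θ y) X ∈ s.Z₀ := ⟨a.base.self_of_nhds, fun c (hc : c ∈ crv (θ y)) => by
    obtain ⟨q, hq, rfl⟩ := a.right.self_of_nhds.1.ge hc
    exact ⟨_, (rt_ci hF).smul _ (inv_ne_zero (a.ne q hq)) _ (hs.nf.f_mem hy (b1 q hq)), (k q hq).symm⟩⟩
  have l : ∀ q ∈ Γ y, s.D.f y (s.L q) = lk y q • fld (setX (θ y) X) (s.R q) := fun q hq => by
    have c : s.R q ∈ s.D₀.C (setX (θ y) X) := a.right.self_of_nhds.1.le (mem_image_of_mem _ hq)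
    rw [show fld (setX (θ y) X) (s.R q) = _ from
      hs.nf₀.j_inj m.1 c ((hs.nf₀.s_eq m c).symm.trans (k q hq)), smul_inv_smul₀ (a.ne q hq)]
  exact ⟨⟨hy, m, _, a.jt l, b.1, b.2.1⟩, l⟩

theorem Su.Ex.memZ (hs : s.Ok) (h : s.Ex z hz θ Γ lk Qf v Lf)
    (hδ : ∀ᶠ y in 𝓝[s.Z] z.1, s.del v Lf X (y, 0) = 0) :
    ∀ᶠ y in 𝓝[s.Z] z.1, (y, s.sec θ Qf X (y, 0)) ∈ s.rf.Z := by
  filter_upwards [nhdsWithin_le_nhds ((ev_sub hz (p := fun y => y ∈ s.Z → ∀ X, v y + Lf y X = 0 →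
    (y, setX (θ y) X, Qf y) ∈ s.rf.Z)).1 ((h.ev_mem hs).mono fun y a b X c => (a b X c).1)), hδ,
    self_mem_nhdsWithin] with y a b d using a d.1 d _ b

end Vale.Agent.P269L.K
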