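import Vale.Agent.P269L.K.Ab
import Vale.Agent.P269L.K.Mu

/-!
# Stably isomorphic deformations have the same multiplicities
-/

set_option linter.unusedSectionVars false

namespace Vale.Agent.P269L.K

open Set Function Topology Filter P269.Holo

section

variable {Ω Ω' : Type} [NormedAddCommGroup Ω] [NormedSpace ℂ Ω] [NormedAddCommGroup Ω']
  [NormedSpace ℂ Ω'] {B : Set Ω} {b : Ω} {B' : Set Ω'} {b' : Ω'} {Φ : Ω → Ω'} {Ψ : Ω' → Ω}

theorem GIso.li (h : GIso B b B' b' Φ Ψ) : LI B B' b b' Φ Ψ :=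
  ⟨h.an, h.an', h.eq, h.eq', eventually_nhdsWithin_iff.1 h.ev, eventually_nhdsWithin_iff.1 h.ev'⟩

theorem LI.gIso (h : LI B B' b b' Φ Ψ) : GIso B b B' b' Φ Ψ :=
  ⟨h.an, h.an', h.pt, h.pt', eventually_nhdsWithin_iff.2 h.fw, eventually_nhdsWithin_iff.2 h.fr⟩

end

theorem mem_BM_prod {W T E : Type} [NormedAddCommGroup W] [NormedSpace ℂ W] [NormedAddCommGroup T]
    [NormedSpace ℂ T] [NormedAddCommGroup E] [NormedSpace ℂ E] {M : Set (W × E)}
    {z : ((W × T) × E) × ℂ} :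
    z ∈ D.BM {q : (W × T) × E | (q.1.1, q.2) ∈ M} ↔ ((z.1.1.1, z.1.2), z.2) ∈ D.BM M :=
  (Set.ext_iff.1 (((isOpenMap_fst.prodMap IsOpenMap.id).prodMap
    IsOpenMap.id).preimage_closure_eq_closure_preimage
    ((continuous_fst.prodMap continuous_id).prodMap continuous_id)
    {b : (W × E) × ℂ | b.2 ≠ 0 ∧ (b.1.1, b.2 • b.1.2) ∈ M}) z).symm

theorem lMul : LMul := by
  intro W _ _ _ W₀ _ _ _ X _ _ _ T _ _ _ T₀ _ _ _ ι ι₀ _ _ M M₀ y y₀ n n₀ k B b t t₀ Φ Ψ Φ₀ Ψ₀ hM hM₀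
    h e h₀ e₀ hC m
  have := FiniteDimensional.complete ℂ W
  have := FiniteDimensional.complete ℂ T
  let M' := {q : (W × T) × (ι → ℂ) | (q.1.1, q.2) ∈ M}
  have a : MfdAt M' _ ((y.1, t), 0) := (hM.prod (MfdAt.univ t)).iso
    (F := fun q => ((q.1.1, q.2), q.1.2)) (G := fun q => ((q.1.1, q.2), q.1.2))
    (((analyticAt_fst.comp analyticAt_fst).prod analyticAt_snd).prod
      (analyticAt_snd.comp analyticAt_fst))
    (((analyticAt_fst.comp analyticAt_fst).prod analyticAt_snd).prod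
      (analyticAt_snd.comp analyticAt_fst))
    (.of_forall fun _ c => ⟨c.1, rfl⟩) (.of_forall fun _ c => ⟨⟨c, trivial⟩, rfl⟩)
  have l : LI (D.BM M') (D.BM M ×ˢ univ) (((y.1, t), y.2), 0) ((y, 0), t)
      (fun z => (((z.1.1.1, z.1.2), z.2), z.1.1.2)) fun q => (((q.1.1.1, q.2), q.1.1.2), q.1.2) :=
    ⟨(((analyticAt_fst.comp (analyticAt_fst.comp analyticAt_fst)).prod
      (analyticAt_snd.comp analyticAt_fst)).prod analyticAt_snd).prod
      (analyticAt_snd.comp (analyticAt_fst.comp analyticAt_fst)),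
      (((analyticAt_fst.comp (analyticAt_fst.comp analyticAt_fst)).prod analyticAt_snd).prod
      (analyticAt_snd.comp (analyticAt_fst.comp analyticAt_fst))).prod
      (analyticAt_snd.comp analyticAt_fst), rfl, rfl, .of_forall fun _ c => ⟨⟨mem_BM_prod.1 c, trivial⟩, rfl⟩,
      .of_forall fun _ c => ⟨mem_BM_prod.2 c.1, rfl⟩⟩
  have c1 := mul_iff (y' := ((y.1, t), y.2)) hM a (.of_forall fun _ => Iff.rfl) hC l
    (.of_forall fun _ _ => rfl) m
  have c2 := (li_cone (y' := ((y.1, t), y.2)) (C' := {z | (z, (0 : ℂ)) ∈ D.BM M'})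
    (.of_forall fun _ => Iff.rfl) (.of_forall fun _ => Iff.rfl) l
    (.of_forall fun _ _ => rfl)).symm.mfd (hC.prod (MfdAt.univ t))
  refine c1.symm.trans (mul_iff' (y' := ((y.1, t), y.2)) (C := {z | (z, (0 : ℂ)) ∈ D.BM M₀}) hM₀ a
    (.of_forall fun _ => Iff.rfl) (.of_forall fun _ => Iff.rfl) c2
    (h₀.li.trans (h.li.symm.trans l)) ?_ m)
  filter_upwards [l.tendsto.eventually h.li.fr] with z c d
  exact (e₀ _).trans ((e _).symm.trans (congrArg (·.1.2) (c ⟨mem_BM_prod.1 d, trivial⟩).2))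

end Vale.Agent.P269L.K
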