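import Vale.Agent.P269L.K.Imm

/-!
# The normal form of a presentation: coordinates and the Segre factor
-/

set_option linter.unusedSectionVars false

noncomputable section

namespace Vale.Agent.P269L.K

open Set Function Topology Filter P269 P269.Holo P269.Base I

section segre

variable {ι : Type} [Fintype ι] [DecidableEq ι] (M : ι → ℕ)

/-- The sizes with the Segre factor. -/
def Mx : Option ι → ℕ := fun o => o.elim (Fintype.card ((∀ i, Fin (M i)) ⊕ Fin 3)) M

theorem three_le : 3 ≤ Mx M none := by simp [Mx]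

/-- The multi-indices. -/
def ix : Fin (Mx M none) ≃ (∀ i, Fin (M i)) ⊕ Fin 3 := (Fintype.equivFin _).symm

/-- Forget the Segre factor. -/
def tl : V (Mx M) →L[ℂ] V M :=
  .pi fun i => .proj (R := ℂ) (φ := fun o => Fin (Mx M o) → ℂ) (some i)

variable {M}

theorem tl_apply (c : V (Mx M)) (i : ι) : tl M c i = c (some i) := rfl

/-- The Segre map. -/
def seg (c : V M) : Fin (Mx M none) → ℂ := fun k => (ix M k).elim (fun l => ∏ i, c i (l i)) 0

theorem seg_inl (c : V M) (l) : seg c ((ix M).symm (.inl l)) = ∏ i, c i (l i) := by simp [seg]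

theorem seg_inr (c : V M) (l) : seg c ((ix M).symm (.inr l)) = 0 := by simp [seg]

/-- A vector from its components. -/
def cns (w : Fin (Mx M none) → ℂ) (c : V M) : V (Mx M) := fun o => Option.rec w c o

@[simp] theorem cns_none (w) (c : V M) : cns w c none = w := rfl

@[simp] theorem cns_some (w) (c : V M) (i) : cns w c (some i) = c i := rfl

@[simp] theorem tl_cns (w) (c : V M) : tl M (cns w c) = c := rfl

theorem cns_tl (c : V (Mx M)) : cns (c none) (tl M c) = c := funext fun o => by cases o <;> rfl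

theorem vx_ext {c c' : V (Mx M)} (h : c none = c' none) (h' : tl M c = tl M c') : c = c' := by
  rw [← cns_tl c, h, h', cns_tl]

/-- The graph of the Segre map. -/
def sg (c : V M) : V (Mx M) := cns (seg c) c

/-- The tuples of basis vectors. -/
def bas (l : ∀ i, Fin (M i)) : V M := fun i => Pi.single (l i) 1

/-- The action on the Segre factor. -/
def sgm (g : V M → V M) (w : Fin (Mx M none) → ℂ) : Fin (Mx M none) → ℂ :=
  ∑ k, w k • (ix M k).elim (fun l => seg (g (bas l))) fun _ => Pi.single k 1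

theorem tl_smul (t : Option ι → ℂ) (c : V (Mx M)) : tl M (t • c) = (fun i => t (some i)) • tl M c :=
  rfl

theorem seg_smul (t : ι → ℂ) (c : V M) : seg (t • c) = (∏ i, t i) • seg c := funext fun k => by
  obtain ⟨l | l, rfl⟩ := (ix M).symm.surjective k <;> simp [seg, Finset.prod_mul_distrib]

theorem seg_ne {c : V M} (h : ∀ i, c i ≠ 0) : seg c ≠ 0 := by
  choose l hl using fun i => ne_iff.1 (h i)
  exact ne_iff.2 ⟨(ix M).symm (.inl l), seg_inl c l ▸ Finset.prod_ne_zero_iff.2 fun i _ => hl i⟩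

theorem seg_bas (l : ∀ i, Fin (M i)) : seg (bas l) = Pi.single ((ix M).symm (.inl l)) 1 :=
  funext fun k => by
    obtain ⟨k | k, rfl⟩ := (ix M).symm.surjective k
    · by_cases h : k = l
      · simp [seg, bas, h]
      · obtain ⟨i, hi⟩ := ne_iff.1 h
        rw [Pi.single_eq_of_ne (by simpa using h), seg_inl]
        exact Finset.prod_eq_zero (Finset.mem_univ i) (Pi.single_eq_of_ne hi _)
    · simp [seg]

section

variable {Q : Type} [NormedAddCommGroup Q] [NormedSpace ℂ Q] {c : Q → V M} {q : Q}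

theorem an_seg (h : AnalyticAt ℂ c q) : AnalyticAt ℂ (fun z => seg (c z)) q :=
  AnalyticAt.pi fun k => by
    obtain ⟨l | l, rfl⟩ := (ix M).symm.surjective k
    · simp only [seg_inl]
      exact Finset.analyticAt_fun_prod _ fun i _ => analyticAt_pi_iff.1 (analyticAt_pi_iff.1 h i) _
    · simp only [seg_inr]
      exact analyticAt_const

theorem an_cns {w : Q → Fin (Mx M none) → ℂ} (hw : AnalyticAt ℂ w q) (h : AnalyticAt ℂ c q) :
    AnalyticAt ℂ (fun z => cns (w z) (c z)) q :=
  AnalyticAt.pi fun o => by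
    cases o
    exacts [hw, analyticAt_pi_iff.1 h _]

theorem an_sg (h : AnalyticAt ℂ c q) : AnalyticAt ℂ (fun z => sg (c z)) q := an_cns (an_seg h) h

end

variable {g h : V M → V M}

theorem sgm_lin : IsLinearMap ℂ (sgm g) :=
  ⟨fun v w => by simp [sgm, add_smul, Finset.sum_add_distrib],
    fun s w => by simp [sgm, Finset.smul_sum, mul_smul]⟩

theorem sgm_id (h : ∀ c, g c = c) (w) : sgm g w = w := by
  refine (Finset.sum_congr rfl fun k _ => ?_).trans (pi_eq_sum_univ' w).symm
  obtain ⟨l | l, rfl⟩ := (ix M).symm.surjective k <;> simp [h, seg_bas]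

theorem sgm_single (k) :
    sgm g (Pi.single k 1) = (ix M k).elim (fun l => seg (g (bas l))) fun _ => Pi.single k 1 := by
  simp [sgm, Pi.single_apply]

theorem blk (h : ∀ (t : ι → ℂ) c, g (t • c) = t • g c) {c c' : V M} {i : ι} (e : c i = c' i) :
    g c i = g c' i := by
  have k : ∀ c, g c i = g ((Pi.single i 1 : ι → ℂ) • c) i := fun c => by simp [h]
  rw [k c, k c']
  refine congrArg (g · i) (funext fun j => ?_)
  by_cases b : j = i
  · rw [b, Pi.smul_apply', Pi.smul_apply', e]
  · simp [b]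

theorem sgm_seg (hl : IsLinearMap ℂ g) (h : ∀ (t : ι → ℂ) c, g (t • c) = t • g c) (c : V M) :
    sgm g (seg c) = seg (g c) := by
  rw [sgm, ← (ix M).symm.sum_comp, Fintype.sum_sum_type]
  simp only [seg_inl, seg_inr, zero_smul, Finset.sum_const_zero, add_zero, Equiv.apply_symm_apply,
    Sum.elim_inl]
  funext k
  obtain ⟨k | k, rfl⟩ := (ix M).symm.surjective k
  · have e : ∀ i, g c i (k i) = ∑ b, c i b * g (Pi.single i (Pi.single b 1)) i (k i) := fun i => by
      rw [blk h (c' := ∑ b, c i b • Pi.single i (Pi.single b 1)) (i := i) (by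
        simp only [Finset.sum_apply, Pi.smul_apply, Pi.single_eq_same]
        exact pi_eq_sum_univ' _), show g _ = _ from map_sum (hl.mk' g) _ _]
      simp
    simp only [seg_inl, e, Finset.sum_apply, Pi.smul_apply, smul_eq_mul, Fintype.prod_sum,
      ← Finset.prod_mul_distrib]
    refine Finset.sum_congr rfl fun l _ => Finset.prod_congr rfl fun i _ => ?_
    rw [blk h (c := bas l) (c' := Pi.single i (Pi.single (l i) 1)) (by simp [bas])]
  · simp [seg_inr]

theorem sgm_comp (hl : IsLinearMap ℂ g) (hg : ∀ (t : ι → ℂ) c, g (t • c) = t • g c) (w) :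
    sgm (fun c => g (h c)) w = sgm g (sgm h w) := by
  rw [show sgm g (sgm h w) = _ from map_sum (sgm_lin.mk' _) _ _]
  refine Finset.sum_congr rfl fun k _ => ?_
  rw [map_smul, IsLinearMap.mk'_apply]
  obtain ⟨l | l, rfl⟩ := (ix M).symm.surjective k <;> simp [sgm_seg hl hg, sgm_single]

end segre

/-- Coordinates adapted to the torus action. -/
theorem exists_crd {E ι : Type} [NormedAddCommGroup E] [NormedSpace ℂ E] [Fintype ι]
    {τ : (ι → ℂ) → E → E} (h : Rep τ) (hl : ∀ c, IsLinearMap ℂ fun w => τ w c) :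
    ∃ (M : ι → ℕ) (e : E ≃L[ℂ] V M), ∀ t c, e (τ t c) = t • e c := by
  classical
  obtain ⟨h0, h1, h2⟩ := h
  have : FiniteDimensional ℂ E := .of_injective (LinearMap.inr ℂ (ι → ℂ) E) LinearMap.inr_injective
  have hu : ∀ i, IsUnit (1 + Pi.single i 1 : ι → ℂ) := fun i => Pi.isUnit_iff.2 fun j => by
    by_cases b : j = i <;> simp [b]
  have e1 : ∀ i c, τ (Pi.single i 1) c = τ (1 + Pi.single i 1) c - c := fun i c => by
    rw [(hl c).map_add, h1, add_sub_cancel_left]
  let p : ι → E →ₗ[ℂ] E := fun i => (h2 _ (hu i)).1.mk' _ - .id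
  have hp : ∀ i c, p i c = τ (Pi.single i 1) c := fun i c => (e1 i c).symm
  have ht : ∀ t c, τ t c = ∑ i, t i • p i c := fun t c => by
    conv_lhs => rw [pi_eq_sum_univ' t]
    rw [show τ _ c = _ from map_sum ((hl c).mk' _) _ _]
    simp only [map_smul, IsLinearMap.mk'_apply, hp]
  have hpp : ∀ i j c, p i (p j c) = if i = j then p i c else 0 := fun i j c => by
    have e : p i (p j c) = τ (Pi.single i 1 * Pi.single j 1) c := by
      rw [hp j, e1 j, map_sub, hp, hp, e1 i (τ _ _), ← ((h2 _ (hu i)).2 c).2 _ (hu j), add_mul,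
        mul_add, mul_add, (hl c).map_add, (hl c).map_add (Pi.single i 1 * 1)]
      simp
    rw [e]
    split_ifs with b
    · rw [b, hp, ← Pi.single_mul, mul_one]
    · rw [show (Pi.single i 1 * Pi.single j 1 : ι → ℂ) = 0 from funext fun k => by
        by_cases a : k = i <;> simp [a, b], (hl c).map_zero]
  have hs : ∀ c, ∑ i, p i c = c := fun c => by simpa [h1] using (ht 1 c).symm
  let b := fun i => (Module.finBasis ℂ (LinearMap.range (p i))).equivFun
  let f : E →ₗ[ℂ] V fun i => Module.finrank ℂ (LinearMap.range (p i)) :=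
    .pi fun i => b i ∘ₗ (p i).rangeRestrict
  have hf : Bijective f := ⟨(injective_iff_map_eq_zero f).2 fun c e => by
      rw [← hs c]
      exact Finset.sum_eq_zero fun i _ =>
        congrArg Subtype.val ((b i).map_eq_zero_iff.1 (congrFun e i)),
    fun y => ⟨∑ j, ((b j).symm (y j)).1, funext fun i => (b i).eq_symm_apply.1 (Subtype.ext (by
      choose z hz using fun j => ((b j).symm (y j)).2
      simp [← hz, hpp]))⟩⟩
  refine ⟨_, (LinearEquiv.ofBijective f hf).toContinuousLinearEquiv, fun t c => funext fun i => ?_⟩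
  refine Eq.trans (congrArg (b i) (Subtype.ext ?_)) ((b i).map_smul (t i) ((p i).rangeRestrict c))
  simp [ht t c, hpp]

variable {A W E U P X ι Λ : Type} [NormedRing A] [NormedAlgebra ℂ A] [NormedAddCommGroup W]
  [NormedSpace ℂ W] [NormedAddCommGroup E] [NormedSpace ℂ E] [NormedAddCommGroup U] [NormedSpace ℂ U]
  [NormedAddCommGroup P] [NormedSpace ℂ P] [NormedAddCommGroup X] [NormedSpace ℂ X] [Fintype ι]
  [DecidableEq ι] {n r : ℕ} {M : ι → ℕ} (e : E ≃L[ℂ] V M)

/-- The projection to the old space. -/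
def pr : V (Mx M) →L[ℂ] E := (e.symm : V M →L[ℂ] E) ∘L tl M

theorem pr_apply (c : V (Mx M)) : pr e c = e.symm (tl M c) := rfl

@[simp] theorem pr_cns (w) (c : E) : pr e (cns w (e c)) = c := e.symm_apply_apply c

@[simp] theorem pr_sg (c : E) : pr e (sg (e c)) = c := e.symm_apply_apply c

theorem e_pr (c : V (Mx M)) : e (pr e c) = tl M c := e.apply_symm_apply _

/-- The multicone with the Segre factor. -/
def up (C : Set E) : Set (V (Mx M)) :=
  {c | pr e c ∈ C ∧ ∃ s : ℂ, s ≠ 0 ∧ c none = s • seg (tl M c)}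

/-- The action with the Segre factor. -/
def upA (ε : A → E → E) (u : A) (c : V (Mx M)) : V (Mx M) :=
  cns (sgm (fun z => e (ε u (e.symm z))) (c none)) (e (ε u (pr e c)))

theorem upA_n (ε : A → E → E) (u : A) (c : V (Mx M)) :
    upA e ε u c none = sgm (fun z => e (ε u (e.symm z))) (c none) := rfl

theorem tl_upA (ε : A → E → E) (u : A) (c : V (Mx M)) :
    tl M (upA e ε u c) = e (ε u (pr e c)) := rfl

@[simp] theorem pr_upA (ε : A → E → E) (u : A) (c : V (Mx M)) :
    pr e (upA e ε u c) = ε u (pr e c) := pr_cns ..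

/-- **The normal form.** -/
def nrm (D : Dat A (ι → ℂ) W E U P X ι Λ n) (eP : P ≃L[ℂ] (Fin r → ℂ)) :
    Dat A (Option ι → ℂ) W (V (Mx M)) U (Fin r → ℂ) X (Option ι) Λ n where
  α := D.α
  ε := upA e D.ε
  ν := D.ν
  ρ u κ := eP (D.ρ u (eP.symm κ))
  τ := sm (Mx M)
  r := D.r
  t i u o := o.elim (∏ j, D.t i u j) (D.t i u)
  S := D.S
  d := D.d
  C x := up e (D.C x)
  m o := o.elim (∑ i, D.m i) D.m
  p i x := sg (e (D.p i x))
  a o := o.elim 0 D.a
  b o := o.elim 0 D.b
  s q := D.s (q.1, pr e q.2)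
  j q := D.j (pr e q.1, q.2)
  H l q := D.H l (pr e q.1, q.2)
  ev κ l q := D.ev (eP.symm κ) l (q.1, pr e q.2)
  σ x := eP (D.σ x)
  f x c := D.f x (pr e c)

variable {e} {τ : (ι → ℂ) → E → E} (he : ∀ t c, e (τ t c) = t • e c)
include he

theorem pr_smul (t : Option ι → ℂ) (c : V (Mx M)) :
    pr e (t • c) = τ (fun i => t (some i)) (pr e c) :=
  e.injective (by rw [he, e_pr, e_pr, tl_smul])

theorem symm_smul (t : ι → ℂ) (c : V M) : e.symm (t • c) = τ t (e.symm c) :=
  e.injective (by rw [he, e.apply_symm_apply, e.apply_symm_apply])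

theorem sg_tau (t : ι → ℂ) (c : E) :
    sg (e (τ t c)) = (fun o : Option ι => o.elim (∏ j, t j) t) • sg (e c) :=
  vx_ext ((congrArg seg (he t c)).trans (seg_smul _ _)) (he t c)

variable {ε : A → E → E} (hε : Rep ε) (hc : ∀ u, IsUnit u → ∀ c w, ε u (τ w c) = τ w (ε u c))
  {u : A} (hu : IsUnit u)
include hε hc hu

omit he hc in
theorem cj_lin : IsLinearMap ℂ fun z => e (ε u (e.symm z)) :=
  ((e : E →ₗ[ℂ] V M) ∘ₗ (hε.2.2 u hu).1.mk' _ ∘ₗ (e.symm : V M →ₗ[ℂ] E)).isLinear

omit hε in
theorem cj_smul (t : ι → ℂ) (z : V M) : e (ε u (e.symm (t • z))) = t • e (ε u (e.symm z)) := by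
  rw [symm_smul he, hc u hu, he]

theorem upA_none {c : V (Mx M)} {s : ℂ} (h : c none = s • seg (tl M c)) :
    upA e ε u c none = s • seg (tl M (upA e ε u c)) := by
  rw [upA_n, h, sgm_lin.map_smul, sgm_seg (cj_lin hε hu) (cj_smul he hc hu), tl_upA, pr_apply]

theorem upA_sg (c : E) : upA e ε u (sg (e c)) = sg (e (ε u c)) :=
  have k : tl M (upA e ε u (sg (e c))) = e (ε u c) := congrArg (fun z => e (ε u z)) (pr_sg e c)
  vx_ext ((upA_none he hε hc hu (one_smul _ _).symm).trans ((one_smul _ _).trans (congrArg seg k))) k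

omit hε in
theorem upA_smul (t : Option ι → ℂ) (c : V (Mx M)) : upA e ε u (t • c) = t • upA e ε u c :=
  vx_ext (by rw [Pi.smul_apply', upA_n, upA_n, Pi.smul_apply', sgm_lin.map_smul]) (by
    rw [tl_smul, tl_upA, tl_upA, pr_smul he, hc u hu, he])

omit hu in
theorem rep_upA : Rep (upA e ε) := by
  have : FiniteDimensional ℂ A :=
    have := hε.1
    .of_injective (LinearMap.inl ℂ A E) LinearMap.inl_injective
  refine ⟨inferInstance, fun c => vx_ext ?_ ?_, fun u hu => ⟨⟨fun v w => vx_ext ?_ ?_,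
      fun s w => vx_ext ?_ ?_⟩, fun c => ⟨?_, fun w hw => vx_ext ?_ ?_⟩⟩⟩
  · rw [upA_n, sgm_id fun z => by rw [hε.2.1, e.apply_symm_apply]]
  · rw [tl_upA, hε.2.1, e_pr]
  · rw [Pi.add_apply, upA_n, upA_n, upA_n, Pi.add_apply, sgm_lin.map_add]
  · rw [map_add, tl_upA, tl_upA, tl_upA, map_add, (hε.2.2 u hu).1.map_add, map_add]
  · rw [Pi.smul_apply, upA_n, upA_n, Pi.smul_apply, sgm_lin.map_smul]
  · rw [map_smul, tl_upA, tl_upA, map_smul, (hε.2.2 u hu).1.map_smul, map_smul]
  · have k : ∀ {z : A × V (Mx M) → E}, AnalyticAt ℂ z (u, c) →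
        AnalyticAt ℂ (fun q => e (ε q.1 (z q))) (u, c) := fun a =>
      (e.analyticAt _).comp (((hε.2.2 u hu).2 _).1.comp_of_eq (analyticAt_fst.prod a) rfl)
    have k0 : AnalyticAt ℂ (fun (q : A × V (Mx M)) l => q.2 none l) (u, c) :=
      analyticAt_pi_iff.1 analyticAt_snd none
    refine an_cns (w := fun q : A × V (Mx M) => sgm (fun z => e (ε q.1 (e.symm z))) (q.2 none))
      (Finset.analyticAt_fun_sum _ fun l _ =>
        (analyticAt_pi_iff.1 k0 l).fun_smul ?_)
      (k (((pr e).analyticAt _).comp analyticAt_snd))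
    obtain ⟨l | l, rfl⟩ := (ix M).symm.surjective l <;> simp only [Equiv.apply_symm_apply]
    exacts [an_seg (k analyticAt_const), analyticAt_const]
  · rw [upA_n, upA_n, upA_n, ← sgm_comp (cj_lin hε hu) (cj_smul he hc hu)]
    refine congrArg (sgm · (c none)) (funext fun z => ?_)
    rw [((hε.2.2 u hu).2 _).2 w hw, e.symm_apply_apply]
  · rw [tl_upA, tl_upA, pr_upA, ((hε.2.2 u hu).2 _).2 w hw]

end Vale.Agent.P269L.K
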