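import Vale.Agent.P269L.K.Nb

/-!
# Adding a factor to the ambient product of projective spaces: the data
-/

set_option linter.unusedSectionVars false

noncomputable section

namespace Vale.Agent.P269L.K.Nr

open Set Function Topology Filter P269 I

variable {A B₀ W E E' V P P' X Y ι ι' Λ : Type} [NormedRing A] [NormedAlgebra ℂ A] [Monoid B₀]
  [NormedAddCommGroup W] [NormedSpace ℂ W] [NormedAddCommGroup E] [NormedSpace ℂ E]
  [NormedAddCommGroup E'] [NormedSpace ℂ E'] [NormedAddCommGroup V] [NormedSpace ℂ V]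
  [NormedAddCommGroup P] [NormedSpace ℂ P] [NormedAddCommGroup P'] [NormedSpace ℂ P']
  [NormedAddCommGroup X] [NormedSpace ℂ X] [TopologicalSpace Y] [Fintype ι] [Fintype ι'] {n : ℕ}

variable (A ι ι' E E' P P') in
/-- The parameters of the change of the ambient spaces. -/
structure Cp where
  τ : (ι' → ℂ) → E' → E'
  pr : E' →L[ℂ] E
  sg : E → E'
  θ : (ι' → ℂ) →L[ℂ] ι → ℂ
  lam : (ι → ℂ) → ι' → ℂ
  G : Set E'
  ε : A → E' → E'
  a : ι' → ℕ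
  b : ι' → ℕ
  m : ι' → ℤ
  e : P ≃L[ℂ] P'

namespace Cp

variable (k : Cp A E E' P P' ι ι') (D : Dat A (ι → ℂ) W E V P X ι Λ n)

/-- The new data. -/
def dat : Dat A (ι' → ℂ) W E' V P' X ι' Λ n where
  α := D.α
  ε := k.ε
  ν := D.ν
  ρ u κ := k.e (D.ρ u (k.e.symm κ))
  τ := k.τ
  r := D.r
  t i u := k.lam (D.t i u)
  S := D.S
  d := D.d
  C x := k.G ∩ k.pr ⁻¹' D.C x
  m := k.m
  p i x := k.sg (D.p i x)
  a := k.a
  b := k.b
  s q := D.s (q.1, k.pr q.2)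
  j q := D.j (k.pr q.1, q.2)
  H l q := D.H l (k.pr q.1, q.2)
  ev κ l q := D.ev (k.e.symm κ) l (q.1, k.pr q.2)
  σ x := k.e (D.σ x)
  f x c := D.f x (k.pr c)

/-- The parameters fit the data. -/
structure Ok : Prop where
  cov : Cov D.τ k.τ k.pr k.sg k.θ k.lam k.G
  rep : Rep k.ε
  ε_τ : ∀ u, IsUnit u → ∀ c w, k.ε u (k.τ w c) = k.τ w (k.ε u c)
  pr_ε : ∀ u, IsUnit u → ∀ c, k.pr (k.ε u c) = D.ε u (k.pr c)
  ε_sg : ∀ u, IsUnit u → ∀ c, k.ε u (k.sg c) = k.sg (D.ε u c)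
  chr_a : ∀ t, chr k.a t = chr D.a (k.θ t)
  chr_b : ∀ t, chr k.b t = chr D.b (k.θ t)
  a_ne : (∃ i, D.a i ≠ 0) → ∃ i, k.a i ≠ 0
  deg : ∑ i, k.a i * k.m i = ∑ i, D.a i * D.m i

/-- The curves of the new data, and their flatness. -/
def Fl (g : ℤ) : Prop := ∀ x ∈ D.S, Crv k.τ ((k.dat D).C x) chr g k.m ((k.dat D).p · x) ∧
  ∀ a, ∀ q ∈ pol k.τ chr a, (∀ c ∈ (k.dat D).C x, q c = 0) → ∃ Q : W × E' → ℂ,
    (∀ c, Q (x, c) = q c) ∧ (∀ y, (fun c => Q (y, c)) ∈ pol k.τ chr a) ∧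
    (∀ c, AnalyticAt ℂ Q (x, c)) ∧ ∀ᶠ y in 𝓝[D.S] x, ∀ c ∈ (k.dat D).C y, Q (y, c) = 0

end Cp

end Vale.Agent.P269L.K.Nr
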