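import Vale.Agent.P269L.K.N0
import Vale.Agent.P269L.K.Nc

/-!
# The Segre factor: the parameters fit, and the projection to the new factor is an immersion
-/

set_option linter.unusedSectionVars false

noncomputable section

namespace Vale.Agent.P269L.K

open Set Function Topology Filter P269 P269.Holo P269.Base I Nr

variable {A W E U P X ι Λ : Type} [NormedRing A] [NormedAlgebra ℂ A] [NormedAddCommGroup W]
  [NormedSpace ℂ W] [NormedAddCommGroup E] [NormedSpace ℂ E] [NormedAddCommGroup U] [NormedSpace ℂ U]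
  [NormedAddCommGroup P] [NormedSpace ℂ P] [NormedAddCommGroup X] [NormedSpace ℂ X] [Fintype ι]
  [DecidableEq ι] {n r : ℕ} {M : ι → ℕ} {e : E ≃L[ℂ] V M} {τ : (ι → ℂ) → E → E}

variable (M) in
/-- The multicone over the graph of the Segre map. -/
def Gs : Set (V (Mx M)) := {c | ∃ s : ℂ, s ≠ 0 ∧ c none = s • seg (tl M c)}

variable (ι) in
/-- Forget the first coordinate of the torus. -/
def th : (Option ι → ℂ) →L[ℂ] ι → ℂ := .pi fun i => .proj (some i)

/-- The torus element with the product as first coordinate. -/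
def lm (t : ι → ℂ) : Option ι → ℂ := fun o => o.elim (∏ j, t j) t

omit [DecidableEq ι] in
theorem tor_of (he : ∀ t c, e (τ t c) = t • e c) : ∃ b, Tor τ b := by
  let b : (ι → ℂ) →ₗ[ℂ] V M →L[ℂ] V M :=
    { toFun t := .pi fun i => t i • .proj i
      map_add' s t := by ext; simp [add_mul]
      map_smul' s t := by ext; simp [mul_assoc] }
  exact ⟨(ContinuousLinearMap.compL ℂ E (V M) E (e.symm : V M →L[ℂ] E)) ∘L
    ((ContinuousLinearMap.compL ℂ E (V M) (V M)).flip (e : E →L[ℂ] V M)) ∘L b.toContinuousLinearMap,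
    fun t c => e.eq_symm_apply.2 (he t c), fun c => e.injective (by rw [he, one_smul]),
    fun s t c => e.injective (by rw [he, he, he, mul_smul])⟩

omit [DecidableEq ι] in
theorem inj_tau (he : ∀ t c, e (τ t c) = t • e c) {c : E} :
    (Injective fun t => τ t c) ↔ ∀ i, e c i ≠ 0 := by
  rw [← inj_iff, ← e.injective.of_comp_iff, show (e ∘ fun t => τ t c) = _ from funext (he · c)]

theorem ne_of_gs {c : V (Mx M)} (hc : c ∈ Gs M) (h : ∀ i, tl M c i ≠ 0) (o) : c o ≠ 0 := by
  obtain ⟨s, a, b⟩ := hc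
  cases o
  exacts [b ▸ smul_ne_zero a (seg_ne h), h _]

theorem an_ev (o) (k : Fin (Mx M o)) (c : V (Mx M)) : AnalyticAt ℂ (fun y : V (Mx M) => y o k) c :=
  ((ContinuousLinearMap.proj (R := ℂ) (φ := fun _ => ℂ) k).comp
    (.proj o : V (Mx M) →L[ℂ] _)).analyticAt c

theorem gs_eq {c : V (Mx M)} {s : ℂ} (b : c none = s • seg (tl M c)) :
    c = (fun o : Option ι => o.elim s 1) • sg (tl M c) :=
  vx_ext b (one_smul (ι → ℂ) _).symm

theorem cov (he : ∀ t c, e (τ t c) = t • e c) :
    Cov τ (sm (Mx M)) (pr e) (fun c => sg (e c)) (th ι) lm (Gs M) where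
  tor := tor_of he
  tor' := tor_of (e := .refl ℂ _) fun _ _ => rfl
  an c := an_sg (e.analyticAt c)
  pr_sg := pr_sg e
  pr_τ := pr_smul he
  sg_τ := sg_tau he
  θ_lam _ := rfl
  θ_one := rfl
  θ_mul _ _ := rfl
  anl t := AnalyticAt.pi fun o => by
    cases o
    exacts [Finset.analyticAt_fun_prod _ fun i _ => analyticAt_pi_iff.1 analyticAt_id i,
      analyticAt_pi_iff.1 analyticAt_id _]
  lam_one := funext fun o => by cases o <;> simp [lm]
  lam_unit t h := Pi.isUnit_iff.2 fun o => by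
    cases o
    exacts [IsUnit.prod_univ_iff.2 (Pi.isUnit_iff.1 h), Pi.isUnit_iff.1 h _]
  mem c := ⟨1, one_ne_zero, (one_smul _ _).symm⟩
  sat := by
    rintro c ⟨s, a, b⟩ _ ⟨t, h, rfl⟩
    have k : ∏ i, t (some i) ≠ 0 :=
      Finset.prod_ne_zero_iff.2 fun i _ => (Pi.isUnit_iff.1 h _).ne_zero
    refine ⟨t none * s / ∏ i, t (some i),
      div_ne_zero (mul_ne_zero (Pi.isUnit_iff.1 h _).ne_zero a) k, ?_⟩
    rw [sm, tl_smul, seg_smul, smul_smul, div_mul_cancel₀ _ k, mul_smul, ← b]
    rfl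
  loc c hc h := by
    obtain ⟨k, hk⟩ := ne_iff.1 (seg_ne ((inj_tau he).1 h))
    rw [e_pr] at hk
    have a : AnalyticAt ℂ (fun y => seg (tl M y) k) c :=
      analyticAt_pi_iff.1 (an_seg ((tl M).analyticAt c)) k
    refine ⟨fun y o => o.elim (y none k / seg (tl M y) k) 1, AnalyticAt.pi fun o => ?_, ?_⟩
    · cases o
      exacts [(an_ev none k c).fun_div a hk, analyticAt_const]
    filter_upwards [self_mem_nhdsWithin, nhdsWithin_le_nhds (a.continuousAt.eventually_ne hk)]
      with y ⟨s, b1, b2⟩ b3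
    rw [show y none k / seg (tl M y) k = s by rw [b2]; exact mul_div_cancel_right₀ _ b3, e_pr]
    refine ⟨Pi.isUnit_iff.2 fun o => ?_, rfl, gs_eq b2⟩
    cases o
    exacts [b1.isUnit, isUnit_one]
  fr c h := (inj_tau he).2 fun i => e_pr e c ▸ inj_iff.1 h (some i)
  fr' c h := inj_iff.2 (ne_of_gs ⟨1, one_ne_zero, (one_smul _ _).symm⟩ ((inj_tau he).1 h))

variable (e) in
/-- The parameters. -/
def cp (D : Dat A (ι → ℂ) W E U P X ι Λ n) (eP : P ≃L[ℂ] (Fin r → ℂ)) :
    Cp A E (V (Mx M)) P (Fin r → ℂ) ι (Option ι) where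
  τ := sm (Mx M)
  pr := pr e
  sg c := sg (e c)
  θ := th ι
  lam := lm
  G := Gs M
  ε := upA e D.ε
  a o := o.elim 0 D.a
  b o := o.elim 0 D.b
  m o := o.elim (∑ i, D.m i) D.m
  e := eP

theorem cp_ok {D : Dat A (ι → ℂ) W E U P X ι Λ n} (he : ∀ t c, e (D.τ t c) = t • e c) (h : D.Eqv)
    (eP : P ≃L[ℂ] (Fin r → ℂ)) : (cp e D eP).Ok D :=
  have hc := fun u hu c => ((h.2.2.2.2.2.2 u hu).2.1 c).1
  { cov := cov he
    rep := rep_upA he h.2.1 hc
    ε_τ := fun _ hu c w => upA_smul he hc hu w c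
    pr_ε := fun u _ => pr_upA e _ u
    ε_sg := fun _ hu => upA_sg he h.2.1 hc hu
    chr_a := fun t => (Fintype.prod_option _).trans (one_mul _)
    chr_b := fun t => (Fintype.prod_option _).trans (one_mul _)
    a_ne := fun ⟨i, a⟩ => ⟨some i, a⟩
    deg := (Fintype.sum_option _).trans (by simp [cp]) }

/-- **The projection to the Segre factor is an immersion.** -/
theorem imm_gs {C : Set (V (Mx M))} (h : C ⊆ Gs M) (h0 : ∀ c ∈ C, ∀ i, tl M c i ≠ 0) :
    Imm none C := by
  intro c hc v hv z hz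
  choose l hl using fun i => ne_iff.1 (h0 c hc i)
  obtain ⟨s, s0, hs⟩ := h hc
  have a : ∀ (o) (k : Fin (Mx M o)), HasFDerivAt (fun y : V (Mx M) => y o k)
      ((ContinuousLinearMap.proj (R := ℂ) (φ := fun _ => ℂ) k).comp (.proj o)) c :=
    fun o k => ((ContinuousLinearMap.proj (R := ℂ) (φ := fun _ => ℂ) k).comp
      (.proj o : V (Mx M) →L[ℂ] _)).hasFDerivAt
  have a' := fun o k => an_ev o k c
  have u : ∀ (y : V M) i b, seg y ((ix M).symm (.inl (update l i b))) * y i (l i) =
      seg y ((ix M).symm (.inl l)) * y i b := fun y i b => by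
    rw [seg_inl, seg_inl, ← Finset.mul_prod_erase _ _ (Finset.mem_univ i),
      ← Finset.mul_prod_erase _ _ (Finset.mem_univ i), update_self,
      Finset.prod_congr rfl fun j hj => by rw [update_of_ne (Finset.ne_of_mem_erase hj)]]
    ring
  refine ⟨fun o => o.elim z fun i => v (some i) (l i) / c (some i) (l i), vx_ext hz.symm
    (funext₂ fun i b => ?_)⟩
  have k := Tan.fderiv_eq_zero hv (((a' none ((ix M).symm (.inl (update l i b)))).fun_mul
    (a' (some i) (l i))).fun_sub ((a' none ((ix M).symm (.inl l))).fun_mul (a' (some i) b)))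
    (eventually_nhdsWithin_of_forall fun y hy => by
      obtain ⟨t, -, ht⟩ := h hy
      rw [ht, Pi.smul_apply, Pi.smul_apply, smul_mul_assoc, smul_mul_assoc, sub_eq_zero]
      exact congrArg _ (u (tl M y) i b))
  replace k := (congrArg (· v) (((a none _).fun_mul (a (some i) _)).fun_sub
    ((a none _).fun_mul (a (some i) _))).fderiv).symm.trans k
  have k2 := u (tl M c) i b
  have k3 : seg (tl M c) ((ix M).symm (.inl l)) ≠ 0 :=
    seg_inl _ l ▸ Finset.prod_ne_zero_iff.2 fun j _ => hl j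
  have k4 : c (some i) (l i) ≠ 0 := hl i
  simp only [sub_apply, add_apply, smul_apply, ContinuousLinearMap.comp_apply,
    ContinuousLinearMap.proj_apply, hz, hs, Pi.smul_apply, smul_eq_mul, tl_apply] at k k2
  change _ * v (some i) (l i) + _ - (_ * v (some i) b + _) = 0 at k
  show v (some i) (l i) / c (some i) (l i) * c (some i) b = v (some i) b
  rw [div_mul_eq_mul_div, div_eq_iff k4]
  refine mul_left_cancel₀ (mul_ne_zero s0 k3) ?_
  linear_combination c (some i) (l i) * k - s * (v (some i) (l i) + z * c (some i) (l i)) * k2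

end Vale.Agent.P269L.K
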