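import Vale.Agent.P269L.K.N1
import Vale.Agent.P269L.K.Gen

/-!
# The Segre factor: flatness
-/

set_option linter.unusedSectionVars false

noncomputable section

namespace Vale.Agent.P269L.K

open Set Function Topology Filter P269 P269.Holo P269.Base I Nr

variable {W E ι : Type} [NormedAddCommGroup W] [NormedSpace ℂ W] [NormedAddCommGroup E]
  [NormedSpace ℂ E] [Fintype ι] [DecidableEq ι] {M : ι → ℕ} {e : E ≃L[ℂ] V M}
  {τ : (ι → ℂ) → E → E}

/-- Polynomials are determined linearly by finitely many values. -/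
theorem Fl4.exists_interp (k : ι → ℕ) : ∃ (s : Finset (V M)) (φ : s → V M → ℂ),
    (∀ j, φ j ∈ Pol M k) ∧ ∀ p ∈ Pol M k, ∀ c, p c = ∑ j : s, p j * φ j c := by
  classical
  obtain ⟨s, hs⟩ := exists_fin_ker (fun c : V M => evL k c)
  let L : Pol M k →ₗ[ℂ] (s → ℂ) := .pi fun j => LinearMap.proj (j : V M) ∘ₗ (Pol M k).subtype
  obtain ⟨R, hR⟩ := L.exists_leftInverse_of_injective (LinearMap.ker_eq_bot'.2 (by
    rintro ⟨_, μ, rfl⟩ h
    exact Subtype.ext (funext (hs μ fun l hl => congrFun h ⟨l, hl⟩))))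
  refine ⟨s, fun j => R (Pi.single j 1), fun j => (R _).2, fun p hp c => ?_⟩
  have h1 : R (L ⟨p, hp⟩) = ⟨p, hp⟩ := LinearMap.congr_fun hR _
  rw [pi_eq_sum_univ' (L ⟨p, hp⟩), map_sum] at h1
  have h2 := congrFun (congrArg Subtype.val h1) c
  simpa [L] using h2.symm

theorem Fl4.chr_lm (a : Option ι → ℕ) (t : ι → ℂ) :
    I.chr a (fun o : Option ι => o.elim (∏ j, t j) t) = I.chr (fun i => a (some i) + a none) t := by
  simp [I.chr, pow_add, Finset.prod_mul_distrib, Finset.prod_pow, mul_comm]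

theorem Fl4.pol_sg (he : ∀ t c, e (τ t c) = t • e c) {a : Option ι → ℕ} {q : V (Mx M) → ℂ}
    (hq : q ∈ pol (sm (Mx M)) I.chr a) :
    (fun c => q (sg (e c))) ∈ pol τ I.chr fun i => a (some i) + a none :=
  ⟨fun c => (hq.1 _).comp c (an_sg (e.analyticAt c)).differentiableAt, fun t c => by
    rw [← Fl4.chr_lm, ← hq.2]
    exact congrArg q (sg_tau he t c)⟩

theorem Fl4.pol_symm (he : ∀ t c, e (τ t c) = t • e c) {k : ι → ℕ} {f : E → ℂ} (hf : f ∈ pol τ I.chr k) :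
    (fun c => f (e.symm c)) ∈ Pol M k :=
  pol_eq.le ⟨hf.1.comp e.symm.differentiable, fun t c =>
    (congrArg f (symm_smul he t c)).trans (hf.2 _ _)⟩

theorem Fl4.exists_lift {a : Option ι → ℕ} {p : V M → ℂ} (hp : p ∈ Pol M fun i => a (some i) + a none) :
    ∃ q ∈ Pol (Mx M) a, ∀ c, q (sg c) = p c := by
  rw [Pol_eq_span] at hp
  induction hp using Submodule.span_induction with
  | zero => exact ⟨0, zero_mem _, fun _ => rfl⟩
  | add _ _ _ _ h h' =>
    obtain ⟨q, a1, a2⟩ := h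
    obtain ⟨q', b1, b2⟩ := h'
    exact ⟨q + q', add_mem a1 b1, fun c => by simp [a2, b2]⟩
  | smul s _ _ h =>
    obtain ⟨q, a1, a2⟩ := h
    exact ⟨s • q, Submodule.smul_mem _ _ a1, fun c => by simp [a2]⟩
  | mem _ h =>
    obtain ⟨ℓ, rfl⟩ := h
    let lam : Fin (a none) → (Fin (Mx M none) → ℂ) →L[ℂ] ℂ := fun k =>
      ∑ l : ∀ i, Fin (M i), (∏ i, ℓ ⟨i, Fin.natAdd _ k⟩ (Pi.single (l i) 1)) •
        ContinuousLinearMap.proj (R := ℂ) (φ := fun _ => ℂ) ((ix M).symm (.inl l))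
    have hl : ∀ k c, lam k (seg c) = ∏ i, ℓ ⟨i, Fin.natAdd _ k⟩ (c i) := fun k c => by
      have e : ∀ i, ℓ ⟨i, Fin.natAdd _ k⟩ (c i) =
          ∑ b, ℓ ⟨i, Fin.natAdd _ k⟩ (Pi.single b 1) * c i b := fun i => by
        conv_lhs => rw [pi_eq_sum_univ' (c i)]
        simp [mul_comm]
      simp only [e, Fintype.prod_sum, lam, sum_apply,
        smul_apply, ContinuousLinearMap.proj_apply, seg_inl, smul_eq_mul,
        Finset.prod_mul_distrib]
    refine ⟨_, prod_lin_mem (M := Mx M) (a := a) fun s => Option.rec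
      (motive := fun o => Fin (a o) → (Fin (Mx M o) → ℂ) →L[ℂ] ℂ) lam
      (fun i k => ℓ ⟨i, Fin.castAdd _ k⟩) s.1 s.2, fun c => ?_⟩
    refine (Fintype.prod_sigma _).trans ((Fintype.prod_option _).trans
      (Eq.trans ?_ (Fintype.prod_sigma _).symm))
    change (∏ k, lam k (seg c)) * ∏ i, ∏ k, ℓ ⟨i, Fin.castAdd _ k⟩ (c i) = _
    simp only [Fin.prod_univ_add, Finset.prod_mul_distrib, hl]
    rw [mul_comm, Finset.prod_comm (s := (Finset.univ : Finset (Fin (a none))))]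

/-- **The family of multicones with the Segre factor is flat.** -/
theorem flat_gs (he : ∀ t c, e (τ t c) = t • e c) {S : Set W} {C : W → Set E} {x : W}
    (hfl : ∀ k, ∀ q ∈ pol τ I.chr k, (∀ c ∈ C x, q c = 0) → ∃ Q : W × E → ℂ,
      (∀ c, Q (x, c) = q c) ∧ (∀ y, (fun c => Q (y, c)) ∈ pol τ I.chr k) ∧
      (∀ c, AnalyticAt ℂ Q (x, c)) ∧ ∀ᶠ y in 𝓝[S] x, ∀ c ∈ C y, Q (y, c) = 0) :
    ∀ a, ∀ q ∈ pol (sm (Mx M)) I.chr a, (∀ c ∈ Gs M ∩ pr e ⁻¹' C x, q c = 0) →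
      ∃ Q : W × V (Mx M) → ℂ, (∀ c, Q (x, c) = q c) ∧
      (∀ y, (fun c => Q (y, c)) ∈ pol (sm (Mx M)) I.chr a) ∧ (∀ c, AnalyticAt ℂ Q (x, c)) ∧
      ∀ᶠ y in 𝓝[S] x, ∀ c ∈ Gs M ∩ pr e ⁻¹' C y, Q (y, c) = 0 := by
  intro a q hq h0
  obtain ⟨Q, h1, h2, h3, h4⟩ := hfl _ _ (Fl4.pol_sg he hq) fun c hc => h0 _ ((cov he).sg_mem hc)
  obtain ⟨s, φ, k1, k2⟩ := Fl4.exists_interp (M := M) fun i => a (some i) + a none
  choose ψ k3 k4 using fun j => Fl4.exists_lift (k1 j)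
  have m : ∀ y, (fun c => q c + ∑ j : s, (Q (y, e.symm j) - Q (x, e.symm j)) * ψ j c) ∈
      Pol (Mx M) a := fun y => by
    have := add_mem (pol_eq.le hq) (Submodule.sum_mem (Pol (Mx M) a) fun (j : s) (_ : j ∈ Finset.univ) =>
      Submodule.smul_mem _ (Q (y, e.symm j) - Q (x, e.symm j)) (k3 j))
    convert this using 1
    funext c
    simp
  refine ⟨fun z => q z.2 + ∑ j : s, (Q (z.1, e.symm j) - Q (x, e.symm j)) * ψ j z.2,
    fun c => by simp, fun y => pol_eq.ge (m y), fun c => ?_, h4.mono fun y hy c hc => ?_⟩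
  · exact ((Pol.an (pol_eq.le hq) _).comp analyticAt_snd).add (Finset.analyticAt_fun_sum _ fun j _ =>
      (((h3 (e.symm j)).comp_of_eq (analyticAt_fst.prod analyticAt_const) rfl).sub
        analyticAt_const).mul ((Pol.an (k3 j) _).comp analyticAt_snd))
  · obtain ⟨⟨t, -, b⟩, hc⟩ := hc
    have := Pol.hom (m y) (fun o : Option ι => o.elim t 1) (sg (tl M c))
    rw [← gs_eq b] at this
    refine this.trans (mul_eq_zero_of_right _ ?_)
    simp only [k4, sub_mul, Finset.sum_sub_distrib]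
    rw [← k2 _ (Fl4.pol_symm he (h2 y)), ← k2 _ (Fl4.pol_symm he (h2 x)), h1, e.apply_symm_apply,
      add_sub_cancel]
    exact hy _ hc

end Vale.Agent.P269L.K
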