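import Vale.Agent.P269L.K.N2a
import Vale.Agent.P269L.K.N4

/-!
# The multicone with the Segre factor is a curve
-/

set_option linter.unusedSectionVars false

namespace Vale.Agent.P269L.K

open Set Function Topology Filter P269 P269.Holo P269.Base I Nr

namespace Nr.Cov

variable {ι ι' E E' : Type} [Fintype ι] [Fintype ι'] [NormedAddCommGroup E] [NormedSpace ℂ E]
  [NormedAddCommGroup E'] [NormedSpace ℂ E'] {n : ℕ} {τ : (ι → ℂ) → E → E}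
  {τ' : (ι' → ℂ) → E' → E'} {pr : E' →L[ℂ] E} {sg : E → E'} {θ : (ι' → ℂ) →L[ℂ] ι → ℂ}
  {lam : (ι → ℂ) → ι' → ℂ} {G : Set E'} (h : Cov τ τ' pr sg θ lam G) {C : Set E} {t : ι' → ℂ}
  {γ δ : ℂ → E} {γ' δ' : ℂ → E'} {c : E} {c' : E'}
include h

omit h in
theorem pr_deriv (a : AnalyticAt ℂ γ' 0) : deriv (fun z => pr (γ' z)) 0 = pr (deriv γ' 0) :=
  (pr.hasFDerivAt.comp_hasDerivAt (0 : ℂ) a.differentiableAt.hasDerivAt).deriv

theorem pr_up (h1 : θ t = 1) (c : E) : pr (τ' t (sg c)) = c := by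
  rw [h.pr_τ, h1, h.ac.one, h.pr_sg]

theorem an_up (a : AnalyticAt ℂ γ 0) : AnalyticAt ℂ (fun z => τ' t (sg (γ z))) 0 :=
  let ⟨_, k⟩ := h.tor'
  k.an analyticAt_const ((h.an _).comp a)

theorem d_up (h1 : θ t = 1) (a : AnalyticAt ℂ γ 0) :
    pr (deriv (fun z => τ' t (sg (γ z))) 0) = deriv γ 0 := by
  rw [← pr_deriv (h.an_up a), funext fun z => h.pr_up h1 (γ z)]

theorem br_up (ht : IsUnit t) (h1 : θ t = 1) (a : Br τ C γ) :
    Br τ' (G ∩ pr ⁻¹' C) fun z => τ' t (sg (γ z)) :=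
  ⟨h.an_up a.1, a.2.1.mono fun _ b => ⟨h.sat _ (h.mem _) _ ⟨t, ht, rfl⟩,
    show pr _ ∈ C from (h.pr_up h1 _).symm ▸ b⟩,
    fun b => a.2.2 (h.d_up h1 a.1 ▸ h.pr_up h1 (γ 0) ▸ h.dir_pr b)⟩

variable (hf : ∀ c ∈ C, Injective fun t => τ t c)
include hf

theorem br_pr (a : Br τ' (G ∩ pr ⁻¹' C) γ') : Br τ C fun z => pr (γ' z) :=
  have m := a.2.1.self_of_nhds
  ⟨(pr.analyticAt _).comp a.1, a.2.1.mono fun _ b => b.2, fun b => a.2.2 (h.dir_of m.1 (hf _ m.2)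
    (tan_mono (arc_mem_Tan ⟨a.1, rfl, a.2.1⟩) inter_subset_left) (pr_deriv (pr := pr) a.1 ▸ b))⟩

theorem cross_pr (a : Cross τ' (G ∩ pr ⁻¹' C) c' γ' δ') :
    Cross τ C (pr c') (fun z => pr (γ' z)) fun z => pr (δ' z) := by
  obtain ⟨a1, a2, a3, a4, a5⟩ := a
  have m : c' ∈ G ∩ pr ⁻¹' C := a3 ▸ a1.2.1.self_of_nhds
  refine ⟨h.br_pr hf a1, h.br_pr hf a2, congrArg pr a3, congrArg pr a4, fun s b => a5 s
    (h.dir_of m.1 (hf _ m.2) (tan_mono (fun k hk => ?_) (inter_subset_left (t := pr ⁻¹' C))) ?_)⟩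
  · rw [map_sub, map_smul, arc_mem_Tan ⟨a1.1, a3, a1.2.1⟩ k hk, arc_mem_Tan ⟨a2.1, a4, a2.2.1⟩ k hk,
      smul_zero, sub_zero]
  · rwa [map_sub, map_smul, ← pr_deriv a1.1, ← pr_deriv a2.1]

theorem finrank_up {a : ι → ℕ} {a' : ι' → ℕ} (h1 : ∀ t, I.chr a' (lam t) = I.chr a t)
    (h2 : ∀ f ∈ pol τ I.chr a, ∃ q ∈ pol τ' I.chr a', ∀ c, q (sg c) = f c) :
    Set.finrank ℂ ((G ∩ pr ⁻¹' C).domRestrict '' pol τ' I.chr a') =
      Set.finrank ℂ (C.domRestrict '' pol τ I.chr a) := by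
  choose t ht et using fun c : (G ∩ pr ⁻¹' C : Set E') => h.same c.2.1 (hf _ c.2.2)
  let S : (C → ℂ) →ₗ[ℂ] (G ∩ pr ⁻¹' C : Set E') → ℂ :=
    .pi fun c => I.chr a' (t c) • .proj ⟨pr c, c.2.2⟩
  have k : ∀ q ∈ pol τ' I.chr a', S (C.domRestrict fun c => q (sg c)) = domRestrict _ q :=
    fun q hq => funext fun c => (hq.2 _ _).symm.trans (congrArg q (et c).symm)
  have e : (G ∩ pr ⁻¹' C).domRestrict '' pol τ' I.chr a' = S '' (C.domRestrict '' pol τ I.chr a) := by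
    refine subset_antisymm ?_ ?_
    · rintro _ ⟨q, hq, rfl⟩
      exact ⟨_, ⟨_, ⟨hq.1.comp fun c => (h.an c).differentiableAt, fun s c =>
        (congrArg q (h.sg_τ s c)).trans (h1 s ▸ hq.2 _ _)⟩, rfl⟩, k q hq⟩
    · rintro _ ⟨_, ⟨f, hf, rfl⟩, rfl⟩
      obtain ⟨q, hq, b⟩ := h2 f hf
      exact ⟨q, hq, funext b ▸ (k q hq).symm⟩
  rw [e, Set.finrank, Submodule.span_image]
  refine (Submodule.equivMapOfInjective S ((injective_iff_map_eq_zero S).2 fun f b =>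
    funext fun c => ?_) _).finrank_eq.symm
  refine (congrArg f (Subtype.ext (h.pr_sg c))).symm.trans ((mul_eq_zero.1
    (congrFun b ⟨sg c, h.sg_mem c.2⟩)).resolve_left ?_)
  exact chr_ne_zero fun i => (Pi.isUnit_iff.1 (ht _) i).ne_zero

omit hf in
/-- **The multicone over the graph is a curve.** -/
theorem crv {g : ℤ} {m : ι → ℤ} {m' : ι' → ℤ} {p : Fin n → E} (hC : Crv τ C I.chr g m p)
    (cl : ∀ c ∈ closure G, (Injective fun t => τ' t c) → c ∈ G)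
    (hl : ∀ a' : ι' → ℕ, (∃ i, a' i ≠ 0) → ∃ a : ι → ℕ, (∃ i, a i ≠ 0) ∧
      (∀ t, I.chr a' (lam t) = I.chr a t) ∧
      (∀ f ∈ pol τ I.chr a, ∃ q ∈ pol τ' I.chr a', ∀ c, q (sg c) = f c) ∧
      ∑ i, a' i * m' i = ∑ i, a i * m i) :
    Crv τ' (G ∩ pr ⁻¹' C) I.chr g m' fun i => sg (p i) := by
  obtain ⟨h1, h2, h3, h4, h5, h6⟩ := hC
  have hf : ∀ c ∈ C, Injective fun t => τ t c := fun c b => (h1 c (subset_closure b)).1 b
  refine ⟨fun c hc => ⟨fun b s s' e => ?_, fun b => ⟨cl c (closure_mono inter_subset_left hc) b,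
      (h1 _ (map_mem_closure pr.continuous hc fun _ a => a.2)).2 (h.fr c b)⟩⟩, h.sat' h2,
    fun c hc => ?_, fun a' ha => ?_, fun i => ⟨h.sg_mem (h5 i).1, fun γ δ b =>
      (h5 i).2 _ _ (h.pr_sg (p i) ▸ h.cross_pr hf b)⟩,
    fun i j b => h6 i j (h.pr_sg (p i) ▸ h.pr_sg (p j) ▸ h.same_pr b)⟩
  · obtain ⟨t, ht, k⟩ := h.same b.1 (hf _ b.2)
    rw [k] at e
    exact ht.mul_right_cancel (h.fr' _ (hf _ b.2)
      ((h.ac'.mul _ _ _).trans (e.trans (h.ac'.mul _ _ _).symm)))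
  · obtain ⟨t, ht, t1, k⟩ := h.exists_eq hc.1 (hf _ hc.2)
    obtain ⟨γ, δ, b, d⟩ := h3 _ hc.2
    have k0 : ∀ {w}, w = pr c → τ' t (sg w) = c := fun e => e ▸ k.symm
    refine ⟨fun z => τ' t (sg (γ z)), fun z => τ' t (sg (δ z)), b.imp (fun ⟨b1, b2, b3⟩ =>
      ⟨h.br_up ht t1 b1, k0 b2, b3 ▸ rfl⟩) fun ⟨b1, b2, b3, b4, b5⟩ =>
      ⟨h.br_up ht t1 b1, h.br_up ht t1 b2, k0 b3, k0 b4, fun s e => b5 s (by
        simpa only [map_sub, map_smul, h.d_up t1 b1.1, h.d_up t1 b2.1] using h.dir_pr e)⟩,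
      fun ε hε => ?_⟩
    filter_upwards [h.tendsto_pr (d ε hε), self_mem_nhdsWithin] with y ⟨s, z, e1, e2⟩ hy
    obtain ⟨u, -, k'⟩ := h.same hy.1 (hf _ hy.2)
    obtain ⟨t, rfl⟩ := ht
    have l : ∀ w, pr y = τ s w → y = τ' (u * lam s * t⁻¹.1) (τ' t (sg w)) := fun w e => by
      rw [← h.ac'.mul, mul_assoc, t.inv_mul, mul_one, h.ac'.mul, ← h.sg_τ, ← e, ← k']
    exact ⟨_, z, e1, e2.imp (l _) (l _)⟩
  · obtain ⟨a, a0, a1, a2, a3⟩ := hl a' ha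
    refine ⟨fun f hs => ?_, by rw [h.finrank_up hf a1 a2, (h4 a a0).2, a3]⟩
    obtain ⟨q₀, b, e⟩ := (h4 a a0).1 (fun c => f (sg c)) fun c hc =>
      have ⟨k1, G, k2, k3⟩ := hs _ (h.sg_mem hc)
      ⟨fun t ht => by simpa only [h.sg_τ, a1] using k1 _ (h.lam_unit t ht), _, k2.comp (h.an c),
        h.tendsto_sg k3⟩
    obtain ⟨q, hq, e'⟩ := a2 q₀ b
    refine ⟨q, hq, fun c hc => ?_⟩
    obtain ⟨t, ht, k⟩ := h.same hc.1 (hf _ hc.2)
    rw [k, hq.2, e', ← e hc.2]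
    exact sub_eq_zero.1 ((hs _ (h.sg_mem hc.2)).1 t ht)

end Nr.Cov

variable {E ι : Type} [NormedAddCommGroup E] [NormedSpace ℂ E] [Fintype ι] [DecidableEq ι]
  {M : ι → ℕ} {e : E ≃L[ℂ] V M} {τ : (ι → ℂ) → E → E} {n : ℕ}

/-- **The multicone with the Segre factor is a curve.** -/
theorem crv_gs [Nonempty ι] (he : ∀ t c, e (τ t c) = t • e c) {C : Set E} {g : ℤ} {m : ι → ℤ}
    {p : Fin n → E} (hC : Crv τ C I.chr g m p) :
    Crv (sm (Mx M)) (Gs M ∩ pr e ⁻¹' C) I.chr g (fun o => o.elim (∑ i, m i) m) fun i => sg (e (p i)) :=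
  (cov he).crv hC (fun _ a b => gs_closed a (inj_iff.1 b)) fun a ⟨o, ho⟩ =>
    ⟨fun i => a (some i) + a none, by
      cases o
      exacts [⟨Classical.arbitrary ι, fun z => ho (Nat.add_eq_zero_iff.1 z).2⟩,
        ⟨_, fun z => ho (Nat.add_eq_zero_iff.1 z).1⟩], chr_lm a,
      fun _ => lift_pol he, by
        simp [Fintype.sum_option, add_mul, Finset.sum_add_distrib, Finset.mul_sum, add_comm]⟩

omit [DecidableEq ι] in
/-- **The parameters of the normal form exist.** -/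
theorem exists_cp {A W U P X Λ : Type} [NormedRing A] [NormedAlgebra ℂ A] [NormedAddCommGroup W]
    [NormedSpace ℂ W] [NormedAddCommGroup U] [NormedSpace ℂ U] [NormedAddCommGroup P]
    [NormedSpace ℂ P] [NormedAddCommGroup X] [NormedSpace ℂ X]
    {D : Dat A (ι → ℂ) W E U P X ι Λ n} {g : ℤ} (h : D.Eqv) (hF : D.Fam I.chr g) :
    ∃ (M' : Option ι → ℕ) (r : ℕ) (k : Cp A E (V M') P (Fin r → ℂ) ι (Option ι)),
      k.τ = sm M' ∧ 3 ≤ M' none ∧ k.Ok D ∧ k.Fl D g ∧ ∀ x ∈ D.S, Imm none ((k.dat D).C x) := by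
  classical
  obtain ⟨M, e, he⟩ := exists_crd h.2.2.2.2.1 h.2.2.2.2.2.1
  have : Nonempty ι := hF.1.nonempty
  have : FiniteDimensional ℂ P :=
    have := h.2.2.2.1.1
    .of_injective (LinearMap.inr ℂ A P) LinearMap.inr_injective
  refine ⟨_, _, cp e D (Module.finBasis ℂ P).equivFun.toContinuousLinearEquiv, rfl, three_le M,
    cp_ok he h _, fun x hx => ?_, fun x hx => imm_gs inter_subset_left fun c hc => ?_⟩
  · obtain ⟨-, -, a, b, -⟩ := hF.2.2.2 x hx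
    exact ⟨crv_gs he a, flat_gs he b⟩
  · exact e_pr e c ▸ (inj_tau he).1 (((hF.2.2.2 x hx).2.2.1.1 _ (subset_closure hc.2)).1 hc.2)

end Vale.Agent.P269L.K
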