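import Vale.Agent.P269L.K.N1

/-!
# Polynomials lift to the Segre factor
-/

set_option linter.unusedSectionVars false

namespace Vale.Agent.P269L.K

open Set Function Topology Filter P269 P269.Holo P269.Base I Nr

variable {E ι : Type} [NormedAddCommGroup E] [NormedSpace ℂ E] [Fintype ι] [DecidableEq ι]
  {M : ι → ℕ} {e : E ≃L[ℂ] V M} {τ : (ι → ℂ) → E → E}

theorem lift_Pol (a : ι → ℕ) : ∀ k : ℕ, Pol M (fun i => a i + k) ≤
    (Pol (Mx M) fun o => o.elim k a).map (LinearMap.funLeft ℂ ℂ sg)
  | 0 => fun f hf => ⟨fun c => f (tl M c), mem_Pol_of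
      (fun c => ((Pol.an hf _).comp ((tl M).analyticAt c)).differentiableAt) fun t _ c =>
        (Pol.hom hf (fun i => t (some i)) (tl M c)).trans (congrArg (· * _)
          ((Fintype.prod_option fun o => t o ^ o.elim 0 a).trans (one_mul _)).symm), rfl⟩
  | k + 1 => by
    rw [Pol_eq_span, Submodule.span_le]
    rintro _ ⟨l, rfl⟩
    obtain ⟨q, hq, b⟩ := lift_Pol a k (prod_lin_mem fun s => l ⟨s.1, s.2.castSucc⟩)
    refine ⟨_, Pol.mul' (Pol.lin none (∑ j : ∀ i, Fin (M i), (∏ i, l ⟨i, .last _⟩ (Pi.single (j i) 1)) •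
      .proj ((ix M).symm (.inl j)))) hq (funext fun o => ?_), funext fun c => ?_⟩
    · cases o <;> simp [add_comm]
    · have u : ∀ i, l ⟨i, .last _⟩ (c i) = ∑ j, l ⟨i, .last _⟩ (Pi.single j 1) * c i j := fun i => by
        conv_lhs => rw [pi_eq_sum_univ' (c i), map_sum]
        simp only [map_smul, smul_eq_mul, mul_comm]
      have b' : q (sg c) = _ := congrFun b c
      simp only [LinearMap.funLeft_apply, b', Fintype.prod_sigma, sum_apply, smul_apply,
        ContinuousLinearMap.proj_apply, show sg c none = seg c from rfl, seg_inl, smul_eq_mul,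
        ← Finset.prod_mul_distrib]
      rw [← Fintype.prod_sum fun i j => l ⟨i, .last _⟩ (Pi.single j 1) * c i j,
        ← Finset.prod_mul_distrib]
      exact Finset.prod_congr rfl fun i _ => by
        rw [← u, mul_comm]
        exact (Fin.prod_univ_castSucc fun j => l ⟨i, j⟩ (c i)).symm

omit [DecidableEq ι] in
theorem pol_tau (he : ∀ t c, e (τ t c) = t • e c) {f : E → ℂ} {a : ι → ℕ}
    (hf : f ∈ pol τ I.chr a) : (fun z => f (e.symm z)) ∈ Pol M a :=
  mem_Pol_of (hf.1.comp e.symm.differentiable) fun t _ c => by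
    rw [show e.symm (t • c) = τ t (e.symm c) from
      e.injective (by rw [he, e.apply_symm_apply, e.apply_symm_apply]), hf.2]
    rfl

/-- **Polynomials lift.** -/
theorem lift_pol (he : ∀ t c, e (τ t c) = t • e c) {a : Option ι → ℕ} {f : E → ℂ}
    (hf : f ∈ pol τ I.chr fun i => a (some i) + a none) :
    ∃ q ∈ pol (sm (Mx M)) I.chr a, ∀ c, q (sg (e c)) = f c := by
  obtain ⟨q, hq, b⟩ := lift_Pol _ _ (pol_tau he hf)
  rw [show (fun o : Option ι => o.elim (a none) fun i => a (some i)) = a from
    funext fun o => by cases o <;> rfl] at hq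
  exact ⟨q, pol_eq.ge hq, fun c => (congrFun b (e c)).trans (congrArg f (e.symm_apply_apply c))⟩

theorem chr_lm (a : Option ι → ℕ) (t : ι → ℂ) :
    I.chr a (lm t) = I.chr (fun i => a (some i) + a none) t := by
  simp [I.chr, lm, Fintype.prod_option, pow_add, Finset.prod_mul_distrib, Finset.prod_pow, mul_comm]

theorem gs_closed {c : V (Mx M)} (hc : c ∈ closure (Gs M)) (h : ∀ o, c o ≠ 0) : c ∈ Gs M := by
  obtain ⟨k, hk⟩ := ne_iff.1 (seg_ne (c := tl M c) fun i => h (some i))
  have a : ∀ k, Continuous fun y : V (Mx M) => y none k := fun k =>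
    continuous_iff_continuousAt.2 fun y => (an_ev none k y).continuousAt
  have a' : ∀ k, Continuous fun y => seg (tl M y) k := fun k => continuous_iff_continuousAt.2 fun y =>
    (analyticAt_pi_iff.1 (an_seg ((tl M).analyticAt y)) k).continuousAt
  have b : c none = (c none k / seg (tl M c) k) • seg (tl M c) := funext fun j => by
    rw [Pi.smul_apply, smul_eq_mul, div_mul_eq_mul_div, eq_div_iff hk]
    refine (isClosed_eq ((a j).mul (a' k)) ((a k).mul (a' j))).closure_subset_iff.2 ?_ hc
    rintro y ⟨s, -, b⟩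
    show y none j * seg (tl M y) k = y none k * seg (tl M y) j
    simp only [b, Pi.smul_apply, smul_eq_mul]
    ring
  exact ⟨_, fun z => h none (by rw [b, z, zero_smul]), b⟩

end Vale.Agent.P269L.K
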