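import Vale.Agent.P269L.K.N0

/-!
# The projection to the Segre factor is an immersion
-/

set_option linter.unusedSectionVars false

noncomputable section

namespace Vale.Agent.P269L.K

open Set Function Topology Filter P269 P269.Holo P269.Base I

variable {ι : Type} [Fintype ι] [DecidableEq ι] {M : ι → ℕ}

theorem seg_update (c : V M) (l : ∀ i, Fin (M i)) (i : ι) (k : Fin (M i)) :
    seg c ((ix M).symm (.inl (update l i k))) * c i (l i) = seg c ((ix M).symm (.inl l)) * c i k := by
  rw [seg_inl, seg_inl, ← Finset.mul_prod_erase _ _ (Finset.mem_univ i),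
    ← Finset.mul_prod_erase _ (fun j => c j (l j)) (Finset.mem_univ i), update_self,
    Finset.prod_congr rfl fun j h => by rw [update_of_ne (Finset.ne_of_mem_erase h)]]
  ring

/-- A set on the graph of the Segre map is immersed by the Segre factor. -/
theorem imm_seg {C : Set (V (Mx M))} (h0 : ∀ c ∈ C, ∀ i, c (some i) ≠ 0)
    (h : ∀ c ∈ C, ∃ s : ℂ, s ≠ 0 ∧ c none = s • seg (tl M c)) : Imm none C := by
  intro c hc v hv z hz
  obtain ⟨l, hl⟩ : ∃ l : ∀ i, Fin (M i), ∀ i, tl M c i (l i) ≠ 0 := by
    choose l hl using fun i => ne_iff.1 (h0 c hc i)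
    exact ⟨l, hl⟩
  let π : ∀ o, Fin (Mx M o) → V (Mx M) →L[ℂ] ℂ := fun o k =>
    (ContinuousLinearMap.proj (R := ℂ) (φ := fun _ : Fin (Mx M o) => ℂ) k) ∘L
      ContinuousLinearMap.proj (R := ℂ) (φ := fun o => Fin (Mx M o) → ℂ) o
  have key : ∀ w ∈ C, ∀ i k, w none ((ix M).symm (.inl (update l i k))) * w (some i) (l i) -
      w none ((ix M).symm (.inl l)) * w (some i) k = 0 := fun w hw i k => by
    obtain ⟨s, -, e⟩ := h w hw
    have := seg_update (tl M w) l i k
    rw [e, Pi.smul_apply, Pi.smul_apply, smul_eq_mul, smul_eq_mul, mul_assoc, mul_assoc, sub_eq_zero]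
    exact congrArg (s * ·) this
  have hn : c none ((ix M).symm (.inl l)) ≠ 0 := by
    obtain ⟨s, s0, e⟩ := h c hc
    rw [e, Pi.smul_apply, smul_eq_mul, seg_inl]
    exact mul_ne_zero s0 (Finset.prod_ne_zero_iff.2 fun i _ => hl i)
  refine ⟨fun o => o.elim z fun i => v (some i) (l i) / c (some i) (l i), funext fun o => ?_⟩
  cases o with
  | none => exact hz.symm
  | some i =>
    funext k
    have k1 := (((π none ((ix M).symm (.inl (update l i k)))).hasFDerivAt (x := c)).mul
      ((π (some i) (l i)).hasFDerivAt (x := c))).sub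
      (((π none ((ix M).symm (.inl l))).hasFDerivAt (x := c)).mul
      ((π (some i) k).hasFDerivAt (x := c)))
    have k2 := Tan.fderiv_eq_zero hv ((((π none ((ix M).symm (.inl (update l i k)))).analyticAt c).mul
      ((π (some i) (l i)).analyticAt c)).sub (((π none ((ix M).symm (.inl l))).analyticAt c).mul
      ((π (some i) k).analyticAt c))) (eventually_nhdsWithin_of_forall fun w hw => key w hw i k)
    rw [k1.fderiv] at k2
    have k3 : c none ((ix M).symm (.inl (update l i k))) * v (some i) (l i) +
        c (some i) (l i) * v none ((ix M).symm (.inl (update l i k))) -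
        (c none ((ix M).symm (.inl l)) * v (some i) k +
        c (some i) k * v none ((ix M).symm (.inl l))) = 0 := k2
    have k4 := key c hc i k
    have k5 : c (some i) (l i) ≠ 0 := hl i
    rw [hz, Pi.smul_apply, Pi.smul_apply, smul_eq_mul, smul_eq_mul] at k3
    change v (some i) (l i) / c (some i) (l i) * c (some i) k = v (some i) k
    rw [div_mul_eq_mul_div, div_eq_iff k5]
    refine mul_left_cancel₀ hn ?_
    linear_combination c (some i) (l i) * k3 - (v (some i) (l i) + z * c (some i) (l i)) * k4

/-- **The multicone with the Segre factor is immersed by that factor.** -/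
theorem imm_up {E : Type} [NormedAddCommGroup E] [NormedSpace ℂ E] (e : E ≃L[ℂ] V M) {C : Set E}
    (h0 : ∀ c ∈ C, ∀ i, e c i ≠ 0) : Imm none (up e C) :=
  imm_seg (fun c hc i => by
    have := h0 _ hc.1 i
    rwa [e_pr] at this) fun _ hc => hc.2

end Vale.Agent.P269L.K
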