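import Vale.Agent.P269L.I.Crd
import Vale.Agent.P269.Br.Tr

/-!
# Transport of cycles, Euler cocycles and virtual classes of the text
-/

set_option linter.unusedSectionVars false

namespace Vale.Agent.P269L.K.Nr

open Set Function Topology Filter P291Z P269

section ring

variable {R R' : Type} [CommRing R] [CommRing R'] {m : ℂ}

theorem len_eq (e : R ≃+* R') : Tx.len R = Tx.len R' := by
  have : RingHomSurjective (e : R →+* R') := ⟨e.surjective⟩
  let l : R →ₛₗ[(e : R →+* R')] R' := ⟨e.toAddMonoidHom.toAddHom, fun a b => e.map_mul a b⟩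
  have k : Module.length R R = Module.length R' R' :=
    WithBot.coe_injective (by
      rw [Module.coe_length, Module.coe_length]
      exact Order.krullDim_eq_of_orderIso (Submodule.orderIsoMapComapOfBijective l e.bijective))
  rw [Tx.len, Tx.len, k]

theorem mlt_map (e : R ≃+* R') (h : Tx.Mlt R m) : Tx.Mlt R' m := by
  obtain ⟨p, hp, h1, rfl⟩ := h
  refine ⟨p.comap e.symm, inferInstance, ?_, len_eq (IsLocalization.ringEquivOfRingEquiv
    (M := p.primeCompl) (T := (p.comap e.symm).primeCompl) _ _ e ?_)⟩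
  · have := Ideal.comap_minimalPrimes_eq_of_surjective (f := (e.symm : R' →+* R))
      e.symm.surjective ⊥
    rw [Ideal.comap_bot_of_injective (e.symm : R' →+* R) e.symm.injective] at this
    exact this.ge ⟨p, h1, rfl⟩
  · ext x
    obtain ⟨x, rfl⟩ := e.surjective x
    refine ⟨fun ⟨y, a, b⟩ c => a ?_, fun a => ⟨x, fun c => a ?_, rfl⟩⟩
    · rw [show y = x from e.injective b, ← e.symm_apply_apply x]
      exact c
    · rw [← e.symm_apply_apply x] at c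
      exact c

theorem mltQ_map (e : R ≃+* R') {k : Set R} {k' : Set R'} (hk : ∀ f, e f ∈ k' ↔ f ∈ k)
    (h : Tx.MltQ k m) : Tx.MltQ k' m :=
  mlt_map (Ideal.quotientEquiv _ _ e (by
    rw [Ideal.map_span]
    exact congrArg _ (Set.ext (e.surjective.forall.2 fun f => (hk f).trans
      (e.injective.mem_set_image (s := k)).symm)))) h

theorem mltS_map (e : R ≃+* R') {a k : Set R} {a' k' : Set R'} (ha : ∀ f, e f ∈ a' ↔ f ∈ a)
    (hk : ∀ f, e f ∈ k' ↔ f ∈ k) (h : Tx.MltS a k m) : Tx.MltS a' k' m := by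
  have b : (Subring.closure a).map (e : R →+* R') = Subring.closure a' := by
    rw [RingHom.map_closure]
    exact congrArg _ (Set.ext (e.surjective.forall.2 fun f =>
      (e.injective.mem_set_image (s := a)).trans (ha f).symm))
  exact mltQ_map ((e.subringMap).trans (RingEquiv.subringCongr b)) (fun f => hk f.1) h

end ring

section cyc

variable {X Y Z : Type}

theorem ppull (f : X → Y) (g : Y → Z) (a : Pub.Co Z) :
    Pub.pull f (Pub.pull g a) = Pub.pull (g ∘ f) a := funext fun _ => congrArg a List.map_map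

theorem ppull_id (a : Pub.Co X) : Pub.pull id a = a := funext fun l => congrArg a l.map_id

theorem ppull_cup (f : X → Y) (a b : Pub.Co Y) :
    Pub.pull f (Pub.cup a b) = Pub.cup (Pub.pull f a) (Pub.pull f b) := funext fun l => by
  simp only [Pub.pull, Pub.cup, List.length_map, List.map_take, List.map_drop]

variable [TopologicalSpace X] [TopologicalSpace Y] (Ψ : X ≃ₜ Y)

theorem cup_symm (π : X → Z) (a : Pub.Co Z) (t : Pub.Co X) : Pub.cup (Pub.pull π a) t =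
    Pub.pull Ψ (Pub.cup (Pub.pull (π ∘ Ψ.symm) a) (Pub.pull Ψ.symm t)) := by
  rw [ppull_cup, ppull, ppull, comp_assoc, Ψ.symm_comp_self, comp_id, ppull_id]

theorem zc_pull {a : Pub.Co Y} (h : Pub.Zc a) : Pub.Zc (Pub.pull Ψ a) := by
  obtain ⟨a, k, rfl⟩ := Tf.zc_iff.1 h
  exact Tf.zc_val.2 ((IsPr.of_homeomorph Ψ).pull_Zc k)

theorem isBM_pull {β : Pub.Bm X} (h : Pub.IsBM β) : Pub.IsBM fun a => β (Pub.pull Ψ a) := by
  obtain ⟨γ, rfl⟩ := Tf.isBM_iff.1 h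
  refine Tf.isBM_iff.2 ⟨push Ψ γ, funext fun a => ?_⟩
  by_cases k : Pub.Bd a
  · obtain ⟨a, rfl⟩ := Tf.exists_val k
    exact (Tf.fn_val _ a).trans ((Br.ev_push_homeo Ψ γ a).trans (Tf.fn_val γ (pull Ψ a)).symm)
  · rw [Tf.fn_of_not _ k, Tf.fn_of_not]
    refine fun b => k ?_
    have : Pub.Bd (Pub.pull Ψ.symm (Pub.pull Ψ a)) := (pull Ψ.symm (⟨_, b⟩ : Coch X)).2
    rwa [ppull, Ψ.self_comp_symm, ppull_id] at this

end cyc

variable {A A' W W' P P' : Type} [NormedRing A] [NormedAlgebra ℂ A] [NormedRing A']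
  [NormedAlgebra ℂ A'] [NormedAddCommGroup W] [NormedSpace ℂ W] [NormedAddCommGroup W']
  [NormedSpace ℂ W']

/-- `Φ` is a slice. -/
def Sl (act : A → W → W) (S : Set W) {r : ℕ} (Φ : (Fin r → ℂ) → W) : Prop :=
  Injective (fderiv ℂ (fun y : A × (Fin r → ℂ) => act y.1 (Φ y.2)) (1, 0)) ∧
    𝓝[S] (Φ 0) ≤ map (fun y : A × (Fin r → ℂ) => act y.1 (Φ y.2)) (𝓝 (1, 0))

/-- **Transport of cycles** along a map that sends slices to slices. -/
theorem isCyc_map {act : A → W → W} {act' : A' → W' → W'} {S : Set W} {S' : Set W'}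
    (Ψ : Pub.Quo act S ≃ₜ Pub.Quo act' S') {f : W' → W} (hf : ∀ x ∈ S', AnalyticAt ℂ f x)
    (hm : ∀ x ∈ S', f x ∈ S) (hΨ : ∀ x : S', Ψ (Quot.mk _ ⟨f x, hm _ x.2⟩) = Quot.mk _ x)
    (hs : ∀ (r : ℕ) (Φ : (Fin r → ℂ) → W'), AnalyticAt ℂ Φ 0 → (∀ᶠ z in 𝓝 0, Φ z ∈ S') →
      Sl act' S' Φ → Sl act S fun z => f (Φ z))
    (hc : ∀ x ∈ S', Nat.card {g // IsUnit g ∧ act g (f x) = f x} =
      Nat.card {g // IsUnit g ∧ act' g x = x})
    {m : W → ℂ → Prop} {m' : W' → ℂ → Prop} (hm' : ∀ x ∈ S', ∀ z, m (f x) z → m' x z)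
    {β : Pub.Bm (Pub.Quo act S)} (h : Tx.IsCyc act S m β) :
    Tx.IsCyc act' S' m' fun a => β (Pub.pull Ψ a) := by
  obtain ⟨h1, d, h2, h3⟩ := h
  refine ⟨isBM_pull Ψ h1, d, fun j a hj ha => h2 j _ hj fun l hl => ha _ (by simpa using hl),
    fun r U φ h0 Φ k1 k2 k3 k4 k5 => ?_⟩
  have e : ∀ z ∈ U, Φ z ∈ S' := fun z hz => k3 ⟨z, hz⟩ ▸ (φ _).2
  obtain ⟨b1, b2⟩ := hs r Φ (k2 0 h0) (mem_of_superset (k1.mem_nhds h0) e) ⟨k4, k5⟩
  obtain ⟨b3, b4⟩ := h3 r U (fun z => ⟨f (φ z), hm _ (φ z).2⟩) h0 (fun z => f (Φ z)) k1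
    (fun z hz => (hf _ (e z hz)).comp (k2 z hz)) (fun z => congrArg f (k3 z)) b1 b2
  refine ⟨b3, fun a a1 a2 a3 => hm' _ (e 0 h0) _ ?_⟩
  rw [← hc _ (e 0 h0)]
  refine b4 _ (zc_pull Ψ a1) (fun y hy => Ψ.injective ((a2 _ ?_).trans (hΨ _).symm)) ?_
  · obtain ⟨a, -, rfl⟩ := Tf.zc_iff.1 a1
    exact supp_pull Ψ.continuous a hy
  · exact (congrArg (fun b => Pub.Cohom _ b _) ((ppull _ Ψ a).trans
      (congrArg (fun ψ => Pub.pull ψ a) (funext fun z => hΨ (φ z))))).mpr a3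

section loc

variable [AddCommGroup P] [Module ℂ P] [TopologicalSpace P] [AddCommGroup P']
  [Module ℂ P'] [TopologicalSpace P'] {act : A → W → W} {act' : A' → W' → W'} {ρ : A → P → P}
  {ρ' : A' → P' → P'} {S : Set W} {S' : Set W'} {B N : W → Submodule ℂ P}
  {B' N' : W' → Submodule ℂ P'} {σ : W → P} {σ' : W' → P'}

/-- **Pull-back of localised Euler cocycles** along a fibrewise isomorphism. -/
theorem isLoc_pull {f : W' → W} (hf : ContinuousOn f S') (hm : ∀ x ∈ S', f x ∈ S)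
    (k : P' →ₗ[ℂ] P) (hc : Continuous k) (hB : ∀ x ∈ S', (B' x).map k ⊔ N (f x) = B (f x) ⊔ N (f x))
    (hb : ∀ x ∈ S', ∀ v ∈ B' x, k v ∈ B (f x))
    (hN : ∀ x ∈ S', ∀ v ∈ B' x, k v ∈ N (f x) → v ∈ N' x)
    (hN' : ∀ x ∈ S', ∀ v ∈ N' x, k v ∈ N (f x))
    (he : ∀ x ∈ S', ∀ a, IsUnit a → ∃ b, IsUnit b ∧ f (act' a x) = act b (f x) ∧
      ∀ v, k (ρ' a v) = ρ b (k v))
    (h0 : ∀ x ∈ S, ∀ v ∈ B x, ∀ a, IsUnit a → (ρ a v ∈ N (act a x) ↔ v ∈ N x))
    (h1 : ∀ x ∈ S', act' 1 x = x ∧ ρ' 1 0 = 0) (hNB : ∀ x ∈ S, N x ≤ B x)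
    (hσ : ∀ x ∈ S', σ' x ∈ B' x ∧ k (σ' x) = σ (f x))
    (hσe : ∀ x ∈ S, σ x ∈ B x ∧ ∀ a, IsUnit a → σ (act a x) = ρ a (σ x))
    {Ψ : Quo act' S' → Quo act S} (hΨ : ∀ x : S', Ψ (Quot.mk _ x) = Quot.mk _ ⟨f x, hm _ x.2⟩)
    {e : Pub.Co (Quo act S)} (h : Pub.IsLoc act ρ S B N σ e) :
    Pub.IsLoc act' ρ' S' B' N' σ' (Pub.pull Ψ e) := by
  obtain ⟨t, ⟨t1, t2, t3⟩, rfl⟩ := Tf.isLoc_iff.1 h
  let Θ : Tot act' ρ' S' B' N' → Tot act ρ S B N :=
    Quot.map (fun y => ⟨(f y.1.1, k y.1.2), hm _ y.2.1, hb _ y.2.1 _ y.2.2⟩)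
      fun x y ⟨a, ha, e1, e2⟩ =>
        let ⟨b, b1, b2, b3⟩ := he _ x.2.1 a ha
        ⟨b, b1, (congrArg f e1).trans b2, by
          have := hN' _ y.2.1 _ e2
          rwa [map_sub, b3] at this⟩
  have hΘ : Continuous Θ := continuous_quot_lift _ (continuous_quot_mk.comp
    (((hf.comp_continuous (continuous_fst.comp continuous_subtype_val) fun y => y.2.1).prodMk
      (hc.comp (continuous_snd.comp continuous_subtype_val))).subtype_mk _))
  let z0 : Tot act ρ S B N → Prop := Quot.lift (fun y => y.1.2 ∈ N y.1.1)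
    fun x y ⟨a, ha, e1, e⟩ => propext ((h0 _ x.2.1 _ x.2.2 a ha).symm.trans (by
      rw [← e1]
      exact ⟨fun c => by simpa using add_mem e c, fun c => by simpa using sub_mem c e⟩))
  refine Tf.isLoc_iff.2 ⟨pull Θ t, ⟨cocycle_pull hΘ t1, fun z hz => ?_, ?_⟩, ?_⟩
  · obtain ⟨x, k1, k2⟩ := t2 (supp_pull hΘ t hz)
    obtain ⟨y, rfl⟩ := Quot.exists_rep z
    have k3 := hN _ y.2.1 _ y.2.2 ((congrArg z0 k2).mpr (k1 ▸ zero_mem _ : x.1.2 ∈ N x.1.1))
    refine ⟨⟨(y.1.1, 0), y.2.1, zero_mem _⟩, rfl, (Quot.sound ⟨1, isUnit_one, (h1 _ y.2.1).1.symm,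
      ?_⟩).symm⟩
    rwa [(h1 _ y.2.1).2, sub_zero]
  · rintro r φ ⟨x, hx, l, k1, k2, k3⟩
    have k4 : ∀ v, l v ∈ B' x := fun v => (k3 v).1.2
    have := t3 r (Θ ∘ φ) ⟨f x, hm x hx, k ∘ₗ l, fun v hv => k1 v (hN x hx _ (k4 v) hv), by
      have k5 := hB x hx
      rw [← k2, Submodule.map_sup, sup_assoc, sup_eq_right.2 (show (N' x).map k ≤ N (f x) from
        Submodule.map_le_iff_le_comap.2 (hN' x hx)), sup_eq_left.2 (hNB _ (hm x hx))] at k5
      rw [LinearMap.range_comp, k5], fun v =>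
        let ⟨a, b⟩ := k3 v
        ⟨⟨hm x hx, hb x hx _ a.2⟩, congrArg Θ b⟩⟩
    exact ⟨(congrArg (Cohom {0} · (tau r)) (pull_pull φ Θ t)).mpr this.1, fun z l hl =>
      this.2 z (l.map Θ) fun e => hl ((List.length_map Θ).symm.trans e)⟩
  · refine (ppull _ Θ t.1).trans (.trans (congrArg (fun f => Pub.pull f t.1) (funext fun z => ?_))
      (ppull Ψ _ t.1).symm)
    obtain ⟨a, b⟩ := hσ _ z.out.2
    have c : Ψ z = Quo.mk act ⟨f z.out, hm _ z.out.2⟩ :=
      (congrArg Ψ (Quot.out_eq z).symm).trans (hΨ _)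
    rw [comp_apply, comp_apply, c, Br.sec_mk hσe]
    exact congrArg (Quot.mk _) (Subtype.ext (Prod.ext rfl ((congrArg k (if_pos a)).trans b)))

end loc

section vir

variable {E E' : Type} [NormedAddCommGroup E] [NormedSpace ℂ E] [NormedAddCommGroup E']
  [NormedSpace ℂ E'] (e : E ≃L[ℂ] E')

/-- The change of coordinates in the second factor. -/
abbrev om (W : Type) [NormedAddCommGroup W] [NormedSpace ℂ W] : (W × E) ≃L[ℂ] W × E' :=
  (ContinuousLinearEquiv.refl ℂ W).prodCongr e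

theorem ini_map {M : Set (W × E)} {M' : Set (W × E')} (h : ∀ z ∈ M, om e W z ∈ M') {y : W × E}
    {f : W × E' → ℂ} (hf : f ∈ Tx.Ini M' (om e W y)) : f ∘ om e W ∈ Tx.Ini M y := by
  obtain ⟨n, q, q', a1, a2, a3, a4⟩ := hf
  have z0 : om e W (y.1, 0) = (y.1, 0) := Prod.ext rfl e.map_zero
  have k : ∀ {m : ℕ} {p : (W × E') × E' → ℂ}, Tx.Form m (y.1, (0 : E')) p →
      Tx.Form m (y.1, (0 : E)) fun w => p (om e W w.1, e w.2) := fun {m p} hp =>
    ⟨hp.1.comp_of_eq (((om e W).prodCongr e).analyticAt _) (Prod.ext z0 e.map_zero), fun z u s =>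
      (congrArg (fun w => p (_, w)) (e.map_smul s u)).trans (hp.2 _ _ s)⟩
  refine ⟨n, _, _, k a1, k a2, ((om e W).continuous.continuousWithinAt.tendsto_nhdsWithin
    h).eventually (z0.symm ▸ a3), ?_⟩
  filter_upwards [(om e W).continuous.continuousAt.eventually a4] with z hz
  exact hz.trans (congrArg (fun w => q (w, e z.2)) (Prod.ext rfl e.map_zero.symm))

theorem ini_iff {M : Set (W × E)} {M' : Set (W × E')} (h : ∀ z, om e W z ∈ M' ↔ z ∈ M) {y : W × E}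
    {f : W × E' → ℂ} : f ∘ om e W ∈ Tx.Ini M y ↔ f ∈ Tx.Ini M' (om e W y) :=
  ⟨fun a => by
    have := ini_map e.symm (M := M') (M' := M) (y := om e W y) (f := f ∘ om e W)
      (fun z hz => (h _).1 (((om e W).apply_symm_apply z).symm ▸ hz :))
      (((om e W).symm_apply_apply y).symm ▸ a :)
    rwa [show (f ∘ om e W) ∘ om e.symm W = f from funext fun z =>
      congrArg f ((om e W).apply_symm_apply z)] at this, ini_map e fun z => (h z).2⟩

theorem mul_map {M : Set (W × E)} {M' : Set (W × E')} (h : ∀ z, om e W z ∈ M' ↔ z ∈ M) {y : W × E}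
    {m : ℂ} (a : Tx.Mul M y m) : Tx.Mul M' (om e W y) m := by
  let r : (W × E' → ℂ) ≃+* (W × E → ℂ) := (RingEquiv.piCongrLeft' (fun _ => ℂ)
    (om e W).symm.toEquiv)
  refine mltS_map r.symm (r.surjective.forall.2 fun f => ?_) (r.surjective.forall.2 fun f => ?_) a
  · rw [r.symm_apply_apply]
    exact ⟨fun b => b.comp_of_eq ((om e W).analyticAt y) rfl, fun b =>
      (AnalyticAt.comp_of_eq (g := f ∘ om e W) b ((om e W).symm.analyticAt _)
        ((om e W).symm_apply_apply y)).congr (.of_forall fun z =>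
          congrArg f ((om e W).apply_symm_apply z))⟩
  · rw [r.symm_apply_apply]
    exact (ini_iff e h).symm

theorem sl_lin {act : A → W → W} {act' : A → W' → W'} {S : Set W} {S' : Set W'} (ω : W' ≃L[ℂ] W)
    (he : ∀ a x, ω (act' a x) = act a (ω x)) (h : ∀ x, ω x ∈ S ↔ x ∈ S') {r : ℕ}
    {Φ : (Fin r → ℂ) → W'} (a : Sl act' S' Φ) : Sl act S fun z => ω (Φ z) := by
  have k : (fun y : A × (Fin r → ℂ) => act y.1 (ω (Φ y.2))) =
      ω ∘ fun y : A × (Fin r → ℂ) => act' y.1 (Φ y.2) := funext fun y => (he _ _).symm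
  refine ⟨?_, ?_⟩
  · rw [k, ω.comp_fderiv]
    exact ω.injective.comp a.1
  · rw [k, ← map_map, show S = ω '' S' from Set.ext (ω.surjective.forall.2 fun x =>
      (h x).trans ω.injective.mem_set_image.symm)]
    exact (ω.toHomeomorph.isEmbedding.map_nhdsWithin_eq S' (Φ 0)).ge.trans (map_mono a.2)

variable {act : A → W → W} {ρ : A → E → E} {ρ' : A → E' → E'} {S sol : Set W}
  {van obs : W → Set E} {van' obs' : W → Set E'} {σ : W → E} {σ' : W → E'}
  (hρ : ∀ a u, e (ρ a u) = ρ' a (e u)) (ho : ∀ x ∈ sol, ∀ u, e u ∈ obs' x ↔ u ∈ obs x)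
  (h0 : ∀ a, IsUnit a → ∀ u, ρ a u = 0 ↔ u = 0) (h1 : ∀ x ∈ sol, act 1 x = x) (h1' : ∀ u, ρ 1 u = u)
  {v : Pub.Bm (Pub.Quo act sol)}
include hρ ho h0 h1 h1'

theorem cap_map {C : Set (W × E)} {C' : Set (W × E')} (hC : ∀ z, om e W z ∈ C' ↔ z ∈ C)
    (hs : ∀ y ∈ C', y.1 ∈ sol) {m : W × E → ℂ → Prop} {m' : W × E' → ℂ → Prop}
    (hm : ∀ y z, m y z → m' (om e W y) z) (h : I.Cap act ρ sol obs id ρ v m C) :
    I.Cap act ρ' sol obs' id ρ' v m' C' := by
  obtain ⟨a, β, t, π, b, c, d, f, g⟩ := h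
  have hC' : ∀ z, (om e W).symm z ∈ C ↔ z ∈ C' := fun z => by rw [← hC, (om e W).apply_symm_apply]
  have tr : Br.Tr (Tx.act2 act ρ) (Tx.act2 act ρ') (.refl ℂ A) (om e W) :=
    ⟨rfl, fun _ _ => rfl, fun a x => Prod.ext rfl (hρ a x.2)⟩
  have te : ∀ a x, (om e W).symm (Tx.act2 act ρ' a x) = Tx.act2 act ρ a ((om e W).symm x) :=
    tr.symm.eqv
  obtain ⟨Ψ, hΨ⟩ := tr.exists_quo fun z => (hC z).symm
  have hΨ' := Br.symm_mk (fun z => (hC z).symm) hΨ
  have o' : ∀ x ∈ sol, (Submodule.span ℂ (obs' x)).map (e.symm : E' →ₗ[ℂ] E) =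
      Submodule.span ℂ (obs x) := fun x hx => by
    rw [Submodule.map_span]
    exact congrArg _ (Set.ext fun u => ⟨fun ⟨w, k, l⟩ => (ho x hx u).1
      (by rwa [← l, show e ((e.symm : E' →ₗ[ℂ] E) w) = w from e.apply_symm_apply w]),
      fun k => ⟨e u, (ho x hx u).2 k, e.symm_apply_apply u⟩⟩)
  have a' : ∀ y ∈ C', y.2 ∈ obs' y.1 := fun y hy =>
    e.apply_symm_apply y.2 ▸ (ho _ (hs y hy) _).2 (a _ ((hC' y).2 hy))
  have r1 : ∀ u, ρ' 1 u = u := e.surjective.forall.2 fun u =>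
    (hρ 1 u).symm.trans (congrArg e (h1' u))
  have b' : Tx.IsCyc (Tx.act2 act ρ') C' m' fun a => β (Pub.pull Ψ a) :=
    isCyc_map Ψ (f := (om e W).symm) (fun x _ => (om e W).symm.analyticAt x)
      (fun x hx => (hC' x).2 hx) (fun x => (congrArg Ψ (hΨ' x).symm).trans (Ψ.apply_symm_apply _))
      (fun r Φ _ _ k => sl_lin (om e W).symm te hC' k)
      (fun x _ => congrArg (fun p : A → Prop => Nat.card {g // p g}) (funext fun g => propext
        (and_congr_right fun _ => by rw [← te, (om e W).symm.injective.eq_iff])))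
      (fun x _ z k => (om e W).apply_symm_apply x ▸ hm _ _ k) b
  have c' : Pub.IsLoc (Tx.act2 act ρ') ρ' C' (fun y => Submodule.span ℂ (obs' y.1)) (fun _ => ⊥)
      (fun y => id y.2) (Pub.pull Ψ.symm t) :=
    isLoc_pull (act := Tx.act2 act ρ) (ρ := ρ) (S := C) (B := fun y => Submodule.span ℂ (obs y.1))
      (N := fun _ => ⊥) (σ := fun y => id y.2) (f := (om e W).symm) (om e W).symm.continuous.continuousOn
      (fun x hx => (hC' x).2 hx) (e.symm : E' →ₗ[ℂ] E) e.symm.continuous (fun x hx => congrArg (· ⊔ ⊥) (o' _ (hs x hx)))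
      (fun x hx u hu => (o' _ (hs x hx)).le ⟨u, hu, rfl⟩)
      (fun x _ u _ k => e.symm.injective (k.trans e.symm.map_zero.symm))
      (fun x _ u k => (congrArg e.symm k).trans e.symm.map_zero)
      (fun x _ a ha => ⟨a, ha, te a x, fun u => congrArg Prod.snd (te a (x.1, u))⟩)
      (fun x _ u _ a ha => h0 a ha u) (fun x hx => ⟨Prod.ext (h1 _ (hs x hx)) (r1 _), r1 _⟩)
      (fun _ _ => bot_le) (fun x hx => ⟨Submodule.subset_span (a' x hx), rfl⟩)
      (fun x hx => ⟨Submodule.subset_span (a x hx), fun _ _ => rfl⟩) hΨ' c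
  refine ⟨a', _, _, π ∘ Ψ.symm, b', c', fun y => ?_, f, fun a ha =>
    (g a ha).trans (congrArg β (cup_symm Ψ π a t))⟩
  obtain ⟨x, k1, k2⟩ := d ⟨_, (hC' y).2 y.2⟩
  exact ⟨x, k1, (congrArg π (hΨ' y)).trans k2⟩

/-- **The virtual class in other coordinates.** -/
theorem virE_map (hv : ∀ x ∈ S, ∀ u, σ' x - e u ∈ van' x ↔ σ x - u ∈ van x)
    (h : Tx.VirE act ρ S sol univ van obs σ id ρ v) :
    Tx.VirE act ρ' S sol univ van' obs' σ' id ρ' v := by
  have hM : ∀ z, om e W z ∈ Tx.Rp S van' σ' id ↔ z ∈ Tx.Rp S van σ id := fun z =>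
    and_congr_right fun hz => hv _ hz _
  refine ⟨LinearMap.id.isLinear, injective_id, range_id, fun _ _ _ => rfl, cap_map e hρ ho h0 h1 h1'
    (C := Tx.Cone sol (Tx.Rp S van σ id)) (C' := Tx.Cone sol (Tx.Rp S van' σ' id))
    (fun z => and_congr_right fun _ => ⟨fun k f hf => ?_, fun k f hf => k _ ((ini_iff e hM).2 hf)⟩)
    (fun _ k => k.1) (fun _ _ => mul_map e hM) h.2.2.2.2⟩
  have := k (f ∘ (om e W).symm) ((ini_iff e hM).1 (by
    rwa [comp_assoc, (om e W).symm_comp_self, comp_id]))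
  rwa [comp_apply, (om e W).symm_apply_apply] at this

end vir

end Vale.Agent.P269L.K.Nr
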