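import Vale.Agent.P269L.I.Shr
import Vale.Agent.P269L.I.St
import Vale.Agent.P269.Holo.Act

/-!
# Proper actions, shrinking a presentation
-/

set_option linter.unusedSectionVars false

namespace Vale.Agent.P269L.Nw

open Set Function Topology Filter P269 P269.Pub I

variable {A B B' W E V P X Y ι Λ : Type} [NormedRing A] [NormedAlgebra ℂ A] [NormedRing B]
  [NormedAlgebra ℂ B] [Monoid B'] [NormedAddCommGroup W] [NormedSpace ℂ W] [NormedAddCommGroup E]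
  [NormedSpace ℂ E] [NormedAddCommGroup V] [NormedSpace ℂ V] [NormedAddCommGroup P] [NormedSpace ℂ P]
  [NormedAddCommGroup X] [NormedSpace ℂ X] [TopologicalSpace Y] [Fintype ι] {n : ℕ}

/-- The group `Aˣ` acts properly on `S`. -/
def Prp (α : A → W → W) (S : Set W) : Prop :=
  ∀ L ⊆ S, IsCompact L → IsCompact {u | IsUnit u ∧ ∃ x ∈ L, α u x ∈ L}

open Pointwise in
theorem prp_iff [CompleteSpace A] {α : A → W → W} {S : Set W} [Holo.IsAct α S] :
    Prp α S ↔ ProperSMul Aˣ (Holo.Sp α S) := by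
  have e := (Units.isOpenEmbedding_val (R := A)).isEmbedding
  have k : ∀ L : Set (Holo.Sp α S), Units.val '' {g : Aˣ | (g • L ∩ L).Nonempty} =
      {u | IsUnit u ∧ ∃ x ∈ Holo.Sp.val '' L, α u x ∈ Holo.Sp.val '' L} := fun L => Set.ext fun u =>
    ⟨by
      rintro ⟨g, ⟨_, ⟨x, a, rfl⟩, b⟩, rfl⟩
      exact ⟨g.isUnit, _, ⟨x, a, rfl⟩, _, b, rfl⟩, by
      rintro ⟨⟨g, rfl⟩, _, ⟨x, a, rfl⟩, y, b, c⟩
      exact ⟨g, ⟨y, ⟨x, a, Holo.Sp.ext c.symm⟩, b⟩, rfl⟩⟩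
  refine ⟨fun h => MulAction.properSMul_iff_isCompact_setOfPred_inter_nonempty.2 fun {U V} a b => ?_,
    fun h L a b => ?_⟩
  · have c := h _ (image_subset_range _ _ |>.trans Holo.Sp.range_val.le)
      ((a.union b).image Holo.Sp.continuous_val)
    rw [← k, ← e.isCompact_iff] at c
    have d : IsCompact {q : Aˣ × Holo.Sp α S | q ∈ {g : Aˣ | (g • (U ∪ V) ∩ (U ∪ V)).Nonempty} ×ˢ U ∧
        q.1 • q.2 ∈ V} := (c.prod a).inter_right (b.isClosed.preimage continuous_smul)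
    convert d.image continuous_fst using 1
    ext g
    exact ⟨by
      rintro ⟨_, ⟨x, u, rfl⟩, v⟩
      exact ⟨(g, x), ⟨⟨⟨_, ⟨x, .inl u, rfl⟩, .inr v⟩, u⟩, v⟩, rfl⟩, by
      rintro ⟨⟨g, x⟩, ⟨⟨-, u⟩, v⟩, rfl⟩
      exact ⟨_, ⟨x, u, rfl⟩, v⟩⟩
  · have c : Holo.Sp.val '' (Holo.Sp.val ⁻¹' L : Set (Holo.Sp α S)) = L :=
      image_preimage_eq_of_subset (a.trans Holo.Sp.range_val.ge)
    have d := Holo.Sp.isEmbedding_val.isCompact_iff.2 (c.symm ▸ b)
    rw [← c, ← k, ← e.isCompact_iff]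
    exact ProperSMul.isCompact_setOfPred_inter_nonempty d d

variable (D : Dat A B W E V P X ι Λ n) {χ : (ι → ℕ) → B → ℂ} {sc : B' → X → X} {K : Set X}
  {TK : X → Set X} {g : ℤ} (O : Set W)

/-- The presentation over the open part `O`. -/
def shk : Dat A B W E V P X ι Λ n := { D with S := D.S ∩ O }

variable {D O}

theorem nhds_shk (hO : IsOpen O) {x : W} (hx : x ∈ O) : 𝓝[D.S ∩ O] x = 𝓝[D.S] x :=
  nhdsWithin_inter_of_mem' (mem_nhdsWithin_of_mem_nhds (hO.mem_nhds hx))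

theorem nhds_U (hO : IsOpen O) {x : W} (hx : x ∈ O) (c : E) :
    𝓝[(shk D O).U] (x, c) = 𝓝[D.U] (x, c) := by
  rw [show (shk D O).U = D.U ∩ Prod.fst ⁻¹' O from Set.ext fun _ => and_right_comm]
  exact nhdsWithin_inter_of_mem' (mem_nhdsWithin_of_mem_nhds
    ((hO.preimage continuous_fst).mem_nhds hx))

theorem ext_congr {F : Type} [NormedAddCommGroup F] [NormedSpace ℂ F] {S S' : Set E} {x : E}
    (h : 𝓝[S] x = 𝓝[S'] x) (s : E → F) : I.Ext S s x = I.Ext S' s x := by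
  funext g
  rw [I.Ext, I.Ext, h]

theorem tan_congr {S S' : Set E} {x : E} (h : 𝓝[S] x = 𝓝[S'] x) : Tan S x = Tan S' x := by
  rw [Tan, Tan, ext_congr h]

theorem sol_shk (hs : D.sol K ⊆ O) : (shk D O).sol K = D.sol K :=
  Set.ext fun _ => ⟨fun h => ⟨h.1.1, h.2⟩, fun h => ⟨⟨h.1, hs h⟩, h.2⟩⟩

theorem virE_inter {act : A → W → W} {ρ : A → P → P} {S sol : Set W} {van obs : W → Set P} {σ : W → P}
    (hO : IsOpen O) (hs : sol ⊆ O) {v : Bm (Pub.Quo act sol)} :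
    Tx.VirE act ρ (S ∩ O) sol univ van obs σ id ρ v ↔ Tx.VirE act ρ S sol univ van obs σ id ρ v := by
  have k : ∀ y : W × P, y.1 ∈ sol →
      Tx.Ini (Tx.Rp (S ∩ O) van σ id) y = Tx.Ini (Tx.Rp S van σ id) y := fun y hy =>
    ini_congr (((continuousAt_fst (p := (y.1, (0 : P)))).eventually (hO.mem_nhds (hs hy))).mono
      fun z hz => propext (and_congr_left' (and_iff_left hz)))
  have e : Tx.Cone sol (Tx.Rp (S ∩ O) van σ id) = Tx.Cone sol (Tx.Rp S van σ id) :=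
    Set.ext fun y => and_congr_right fun hy => by rw [k y hy]
  refine and_congr_right' (and_congr_right' (and_congr_right' (and_congr_right' ?_)))
  change Cap act ρ sol obs id ρ v (Tx.Mul (Tx.Rp (S ∩ O) van σ id))
    (Tx.Cone sol (Tx.Rp (S ∩ O) van σ id)) ↔
    Cap act ρ sol obs id ρ v (Tx.Mul (Tx.Rp S van σ id)) (Tx.Cone sol (Tx.Rp S van σ id))
  rw [e]
  exact ⟨fun ⟨a, β, t, π, b, c⟩ => ⟨a, β, t, π,
      isCyc_congr (fun y hy => congrArg (Tx.MltS _) (k y hy.1)) b, c⟩,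
    fun ⟨a, β, t, π, b, c⟩ => ⟨a, β, t, π,
      isCyc_congr (fun y hy => congrArg (Tx.MltS _) (k y hy.1).symm) b, c⟩⟩

/-- **Shrinking a presentation.** -/
theorem pres_shk (hO : IsOpen O) (hs : D.sol K ⊆ O)
    (hi : ∀ u, IsUnit u → ∀ x ∈ D.S ∩ O, D.α u x ∈ O) {π : K → Y} {β : Bm Y} {N}
    (h : D.Pres χ sc K TK g π β N) : (shk D O).Pres χ sc K TK g π β N := by
  obtain ⟨⟨a1, a2, a3, a4, a5, a6, a7⟩, h2, ⟨b1, b2, b3, b4⟩, h4, h5, h6⟩ := h
  unfold Dat.Pres Dat.Grp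
  rw [sol_shk hs]
  refine ⟨⟨a1, a2, a3, a4, a5, a6, fun u hu => ⟨(a7 u hu).1, (a7 u hu).2.1, fun x hx =>
    ⟨⟨((a7 u hu).2.2 x hx.1).1, hi u hu x hx⟩, ((a7 u hu).2.2 x hx.1).2⟩⟩⟩, h2,
    ⟨b1, b2, b3, fun x hx => ?_⟩, fun x hx => ⟨(h4 x hx).1, ?_⟩, h5, fun l z a => ?_⟩
  · have := b4 x hx.1
    have e1 := fun c => ext_congr (E := W × E) (nhds_U (D := D) hO hx.2 c) D.s
    have e2 := fun c κ l => ext_congr (E := W × E) (nhds_U (D := D) hO hx.2 c) (D.ev κ l)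
    simp only [← nhds_shk hO hx.2, ← e1, ← e2] at this
    exact this
  · have := (h4 x hx).2
    unfold Dat.Obs at this ⊢
    have e1 := fun c => ext_congr (E := W × E) (nhds_U (D := D) hO (hs hx) c) D.s
    have e2 := fun c => tan_congr (E := W × E) (nhds_U (D := D) hO (hs hx) c)
    simp only [← tan_congr (nhds_shk hO (hs hx)), ← nhds_shk hO (hs hx), ← e1, ← e2] at this
    exact this
  · refine Iff.trans ?_ (h6 l z a)
    unfold I.Intg
    exact exists₃_congr fun v u e => and_congr_left' (virE_inter hO hs)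

end Vale.Agent.P269L.Nw
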