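import Vale.Agent.P269L.K.Imm
import Vale.Agent.P269L.K.Shk
import Vale.Agent.P269L.J.Fin
import Vale.Agent.P269L.J.Chk3

/-!
# Normal presentations: the chart gives one
-/

set_option linter.unusedSectionVars false

noncomputable section

namespace Vale.Agent.P269L.Nw

open Set Function Topology Filter MvPolynomial P291Z P269 P269.Ch P269.Tf I J K

section

variable {A B' W V X Y ι Λ : Type} [NormedRing A] [NormedAlgebra ℂ A] [Monoid B']
  [NormedAddCommGroup W] [NormedSpace ℂ W] [NormedAddCommGroup V] [NormedSpace ℂ V]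
  [NormedAddCommGroup X] [NormedSpace ℂ X] [TopologicalSpace Y] [Fintype ι] {n r : ℕ} {M : ι → ℕ}

/-- Normal data: curves in a product of projective spaces immersed by the factor `o`, and a proper
action. -/
structure Nrm (D : Dat A (ι → ℂ) W (P269.V M) V (Fin r → ℂ) X ι Λ n) (o : ι) : Prop where
  tau : D.τ = sm M
  imm : ∀ x ∈ D.S, Imm o (D.C x)
  prp : Prp D.α D.S

theorem Nrm.isCurve {D : Dat A (ι → ℂ) W (P269.V M) V (Fin r → ℂ) X ι Λ n} {o : ι} (h : Nrm D o)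
    {g : ℤ} (hf : D.Fam I.chr g) {x : W} (hx : x ∈ D.S) : IsCurve o g D.m (D.C x) ∧
      (∀ i, D.p i x ∈ D.C x ∧ ¬IsNode o (D.C x) (D.p i x)) ∧
      ∀ i j, ∀ s : ι → ℂ, D.p i x = s • D.p j x → i = j :=
  (h.imm x hx).isCurve (h.tau ▸ (hf.2.2.2 x hx).2.2.1)

/-- The invariants, through normal presentations. -/
def IsGW (sc : B' → X → X) (K : Set X) (TK : X → Set X) (π : K → Y) (g : ℤ) (β : Pub.Bm Y) (n : ℕ)
    (N : (Fin n → ℕ × Pub.Co Y) → ℂ) : Prop :=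
  ∃ (A W V ι Λ : Type) (_ : NormedRing A) (_ : NormedAlgebra ℂ A) (_ : NormedAddCommGroup W)
    (_ : NormedSpace ℂ W) (_ : NormedAddCommGroup V) (_ : NormedSpace ℂ V) (_ : Fintype ι)
    (M : ι → ℕ) (r : ℕ) (o : ι) (D : Dat A (ι → ℂ) W (P269.V M) V (Fin r → ℂ) X ι Λ n),
    Nrm D o ∧ D.Pres I.chr sc K TK g π β N

end

variable {N c : ℕ} {F : Fin c → MvPolynomial (Fin (N + 1)) ℂ} {dg : Fin c → ℕ} {g d : ℤ}
  {n k D r : ℕ} {jj ρ'}

theorem exists_nrm (h : @Hyp N c F g d n k D r jj ρ' dg) : ∃ O, IsOpen O ∧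
    (dt F g d n k D jj ρ').sol (ci F).cone ⊆ O ∧
    (∀ u, IsUnit u → ∀ x ∈ (dt F g d n k D jj ρ').S ∩ O, (dt F g d n k D jj ρ').α u x ∈ O) ∧
    Nrm (shk (dt F g d n k D jj ρ') O) none := by
  obtain ⟨_, _, _, _, a⟩ := h.kur
  obtain ⟨O, b, rfl⟩ := a.dom.opn
  have := a.dom.isAct
  exact ⟨O, b, fun x hx => (a.dom.sub ((lSol _ _ _ _ _ _ _ _ _ _ _ _ h).1.le hx)).2,
    fun u hu x hx => (this.mem u hu x hx).2, rfl, fun x hx => imm_of hx.1.2.2.1.nod,
    (@prp_iff _ _ _ _ _ _ _ _ _ this).2 a.dom.orb.proper⟩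

/-- There is a normal presentation in which the integrals are the sums of the invariants. -/
theorem hasPres (hF : ∀ k, (F k).IsHomogeneous (dg k))
    (hs : ∀ x ∈ Pub.cone F, LinearIndependent ℂ fun k j => eval x (pderiv j (F k)))
    (hc : ConnectedSpace (Pub.Var F)) :
    ∀ g β n (V : (Fin n → ℕ × Pub.Co (Pub.Var F)) → ℤ → ℂ), 0 ≤ g → Pub.IsBM β →
      (∀ l d z, (∀ i, Pub.Zc (l i).2) →
        (Pub.IsGW F (Pub.cone F) (Y := Pub.Var F) (Quot.mk _) g β n l d z ↔ z = V l d)) →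
      IsGW (Y := Pub.Var F) Pub.scal (Pub.cone F)
        (fun x => {v | ∀ k, ∑ j, v j * eval x (pderiv j (F k)) = 0}) (Quot.mk _) g β n
        fun l => ∑ᶠ d, V l d := by
  revert hs hc
  refine transport (F := F) (P := fun act S => (∀ x ∈ S, LinearIndependent ℂ fun k j =>
    eval x (pderiv j (F k))) → ConnectedSpace (Pub.Quo act S) →
    ∀ g β n (V : (Fin n → ℕ × Pub.Co (Pub.Quo act S)) → ℤ → ℂ), 0 ≤ g → Pub.IsBM β →
      (∀ l d z, (∀ i, Pub.Zc (l i).2) →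
        (Pub.IsGW F S (Y := Pub.Quo act S) (Quot.mk _) g β n l d z ↔ z = V l d)) →
      IsGW (Y := Pub.Quo act S) act S (ci F).tan (Quot.mk _) g β n fun l => ∑ᶠ d, V l d)
    fun hs (hc : ConnectedSpace (ci F).X) g β n V hg hβ hV => ?_
  obtain ⟨⟨x, hx⟩, -⟩ := Quot.exists_rep (Classical.arbitrary (ci F).X)
  obtain ⟨β, rfl⟩ := (isBM_iff (X := (ci F).X)).1 hβ
  obtain ⟨D, hD⟩ := ((ciF F dg).eventually_bigD 30).exists
  obtain ⟨e, e0, e1, e2⟩ := exists_deg (deg (ci F) (fun k _ => dg k) β) hg n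
  obtain ⟨r, jj, ρ', h⟩ := hyp_big n (smCI hF hs hx) ⟨x, hx⟩ hg e0 e1 (ciF_big le_rfl) hD
  obtain ⟨O, a, b, c, d⟩ := exists_nrm h
  exact ⟨_, _, _, _, _, _, _, _, _, _, _, _, _, _, _, _, d, pres_shk a b c (lv.pres h e2 hV)⟩

section

variable {J K : Type} [Fintype J] (F : K → MvPolynomial J ℂ)

/-- All normal presentations give the same invariants. -/
def Uniq : Prop :=
  ∀ g β n (N M : (Fin n → ℕ × Pub.Co (Pub.Var F)) → ℂ), 0 ≤ g → Pub.IsBM β →
    IsGW (Y := Pub.Var F) Pub.scal (Pub.cone F)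
      (fun x : J → ℂ => {v | ∀ k, ∑ j, v j * eval x (pderiv j (F k)) = 0}) (Quot.mk _) g β n N →
    IsGW (Y := Pub.Var F) Pub.scal (Pub.cone F)
      (fun x : J → ℂ => {v | ∀ k, ∑ j, v j * eval x (pderiv j (F k)) = 0}) (Quot.mk _) g β n M →
    ∀ l, (∀ i, Pub.Zc (l i).2) → M l = N l

/-- The statement with the three checks, through normal presentations. -/
def Conj (d : K → ℕ) (n : ℕ) : Prop :=
  let S := Pub.cone F
  let T := fun x : J → ℂ => {v | ∀ k, ∑ j, v j * eval x (pderiv j (F k)) = 0}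
  let π : S → Pub.Var F := Quot.mk _
  let X : Pub.Bm (Pub.Var F) → Prop := Tx.IsFund Pub.scal S
  VirC (Pub.IsHodge S T π) X (Pub.IsCan Pub.scal S T (fun t => t ()) n) (IsGW Pub.scal S T π)
    (fun N _ => (n = 1 → (∀ k, d k = 1) → ∀ β, X β → ∀ m (a : Fin m → Pub.Co (Pub.Var F)),
        (∀ i, Pub.Zc (a i) ∧ Pub.IsDeg 2 (a i)) → N 0 β m (fun i => (0, a i)) = ∏ i, β (a i)) ∧
      (n = 2 → Fintype.card J = 4 → (∀ k, d k = 3) → ∑ᶠ β, N 0 β 0 Fin.elim0 = 27) ∧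
      (n = 1 → Fintype.card J = 3 → (∀ k, d k = 3) → ∀ β, X β → N 1 β 0 Fin.elim0 = 1)) n

end

theorem conj (N r : ℕ) (d : Fin r → ℕ) (F : Fin r → MvPolynomial (Fin (N + 1)) ℂ)
    (hF : ∀ k, (F k).IsHomogeneous (d k))
    (hs : ∀ x ∈ Pub.cone F, LinearIndependent ℂ fun k j => eval x (pderiv j (F k)))
    (hc : ConnectedSpace (Pub.Var F)) : Conj F d (N - r) := by
  have e : Tx.IsFund Pub.scal (Pub.cone F) = Pub.IsFund Pub.scal (Pub.cone F) :=
    funext fun b => propext (U.isFund_iff (Fr.fp_cone hF) b)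
  have h := P269.Pc.fin N r d F hF hs hc
  unfold P269.Pc.c102 at h
  rw [P269.Pc.eVirasoro, P269.Pc.eIsHodge, P269.Pc.eIsFund, P269.Pc.eIsCan, P269.Pc.eIsGW] at h
  unfold Conj
  simp only [e]
  refine virE_of h.1 (fun M h1 h2 h3 => ⟨fun a a' β b m c f => ?_, fun a b c => ?_,
    fun a b c β hβ => ?_⟩) (hasPres hF hs hc)
  · have e0 := (h1 _ _ _ _ _ _ le_rfl b.1 fun i => i.elim0).1
      (h.2.1 a a' β b 0 Fin.elim0 fun i => i.elim0)
    rw [Fintype.prod_empty] at e0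
    exact (h3 _ _ _ _ _ _ _ _ (e0 ▸ one_ne_zero)).trans
      ((h1 _ _ _ _ _ _ le_rfl b.1 fun i => (f i).1).1 (h.2.1 a a' β b m c f)).symm
  · rw [Fintype.card_fin] at b
    exact cubic_sum N r d F hF hs hc c (by omega) (by omega) (fun β e => M 0 β 0 Fin.elim0 e)
      (fun β e z b => h1 _ _ _ _ _ _ le_rfl b fun i => i.elim0) fun β e b => h2 _ _ _ _ _ b
  · rw [Fintype.card_fin] at b
    have e0 := (h1 _ _ _ _ _ _ zero_le_one hβ.1 fun i => i.elim0).1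
      (Tf.ell N r d F hF hs hc c (by omega) (by omega) β hβ)
    exact (h3 _ _ _ _ _ _ _ _ (e0 ▸ one_ne_zero)).trans e0.symm

end Vale.Agent.P269L.Nw
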