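import Vale.Agent.P269L.K.Nc

/-!
# Adding a factor to the ambient product of projective spaces: sections and classes
-/

set_option linter.unusedSectionVars false

namespace Vale.Agent.P269L.K.Nr

open Set Function Topology Filter P269 I

variable {ι ι' E E' F B₀ X Y : Type} [Fintype ι] [Fintype ι'] [NormedAddCommGroup E]
  [NormedSpace ℂ E] [NormedAddCommGroup E'] [NormedSpace ℂ E'] [NormedAddCommGroup F]
  [NormedSpace ℂ F] [Monoid B₀] [NormedAddCommGroup X] [NormedSpace ℂ X] [TopologicalSpace Y] {n : ℕ}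
  {τ : (ι → ℂ) → E → E} {τ' : (ι' → ℂ) → E' → E'} {C : Set E} {C' : Set E'} {c v : E} {c' v' : E'}

theorem tan_sub {S : Set E} {w : E} (a : v ∈ Tan S c) (b : w ∈ Tan S c) : v - w ∈ Tan S c :=
  fun k hk => by rw [map_sub, a k hk, b k hk, sub_zero]

theorem span_tan (S : Set E) (c : E) : (Submodule.span ℂ (Tan S c) : Set E) = Tan S c :=
  subset_antisymm (fun _ a k hk => Submodule.span_le.2
    (show Tan S c ⊆ LinearMap.ker (fderiv ℂ k c).toLinearMap from fun _ b => b k hk) a)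
    Submodule.subset_span

theorem tan_univ (c v : E) : v ∈ Tan univ c := fun k hk => by
  have := hk.2
  rw [nhdsWithin_univ] at this
  rw [← EventuallyEq.fderiv_eq this]
  simp

theorem mk_same (a : Ac τ) {x y : C} (e : Quot.mk (Pub.Orb τ C) x = Quot.mk _ y) : Same τ x.1 y.1 :=
  (Equivalence.eqvGen_iff (r := Pub.Orb τ C) ⟨fun x => a.refl x.1, fun e => a.symm e,
    fun e e' => a.trans e e'⟩).1 (Quot.eqvGen_exact e)

theorem card_one (a : Ac τ) (f : Injective fun t => τ t c) :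
    Nat.card {g // IsUnit g ∧ τ g c = c} = 1 :=
  Nat.card_eq_one_iff_unique.2 ⟨⟨fun x y => Subtype.ext (f (x.2.2.trans y.2.2.symm))⟩,
    ⟨1, isUnit_one, a.one c⟩⟩

theorem cls_map {sc : B₀ → X → X} {K : Set X} {π : K → Y} {f : E → X} {f' : E' → X} {β : Pub.Bm Y}
    (a : Ac τ) (hπ : ∀ y y' : K, Same sc y.1 y'.1 → π y = π y') (Ψ : Pub.Quo τ C ≃ₜ Pub.Quo τ' C')
    {φ : E' → E} (hm : ∀ c ∈ C', φ c ∈ C) (hΨ : ∀ x : C', Ψ (Quot.mk _ ⟨φ x, hm _ x.2⟩) = Quot.mk _ x)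
    (h1 : ∀ γ, Tx.IsFund τ C γ → Tx.IsFund τ' C' fun a => γ (Pub.pull Ψ a))
    (h2 : IsConnected C → IsConnected C') (hf : Hol τ sc C K f) (hf' : ∀ c ∈ C', f' c = f (φ c))
    (h : Cls τ C π f β) : Cls τ' C' π f' β := by
  obtain ⟨k1, γ, u, k2, k3, k4⟩ := h
  refine ⟨h2 k1, _, u ∘ Ψ.symm, h1 γ k2, fun z => ?_, fun b hb => (k4 b hb).trans (congrArg γ ?_)⟩
  · obtain ⟨l, e⟩ := k3 (Ψ.symm z)
    have m := (Quot.out z).2
    have s := mk_same a ((Quot.out_eq (Ψ.symm z)).trans (Ψ.symm_apply_eq.2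
      ((hΨ (Quot.out z)).trans (Quot.out_eq z)).symm))
    exact ⟨hf' _ m ▸ (hf _ (hm _ m)).1, e.trans (hπ _ _
      (hf' _ m ▸ hol_same hf (Quot.out (Ψ.symm z)).2 s :))⟩
  · rw [ppull, comp_assoc, Ψ.symm_comp_self, comp_id]

namespace Tor

variable {b : (ι → ℂ) →L[ℂ] E →L[ℂ] E} (h : Tor τ b)
include h

theorem zero (c : E) : τ 0 c = 0 := by rw [h.eq, map_zero, zero_apply]

theorem fd_sl {Z : Type} [NormedAddCommGroup Z] [NormedSpace ℂ Z] {Φ : Z → E} {z : Z}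
    (a : AnalyticAt ℂ Φ z) (s : ι → ℂ) (w : Z) :
    fderiv ℂ (fun y : (ι → ℂ) × Z => τ y.1 (Φ y.2)) (1, z) (s, w) = fderiv ℂ Φ z w + τ s (Φ z) := by
  rw [h.fd (s := fun y : (ι → ℂ) × Z => y.1) (c := fun y => Φ y.2) analyticAt_fst
    (a.comp_of_eq analyticAt_snd rfl), h.one, fderiv_fst, show fderiv ℂ (fun y : (ι → ℂ) × Z => Φ y.2) (1, z) = _ from
      (HasFDerivAt.comp (1, z) a.differentiableAt.hasFDerivAt hasFDerivAt_snd).fderiv]
  rfl

theorem dir_tan (s : Sat τ C) (hc : c ∈ C) (a : v ∈ dir τ c) : v ∈ Tan C c := by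
  obtain ⟨t, rfl⟩ := a
  have := tan_map (tan_univ (1 : ι → ℂ) t) (h.an analyticAt_id (analyticAt_const (v := c)))
    (mem_nhdsWithin_of_mem_nhds (mem_of_superset (Units.isOpen.mem_nhds isUnit_one)
      fun u hu => s c hc _ ⟨u, hu, rfl⟩))
  rwa [h.fd analyticAt_id analyticAt_const, fderiv_fun_const, Pi.zero_apply, zero_apply, h.eq _ 0,
    map_zero, zero_add, fderiv_id, id, h.one] at this

theorem tan_act (s : Sat τ C) {t : ι → ℂ} (ht : IsUnit t) (a : v ∈ Tan C c) :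
    τ t v ∈ Tan C (τ t c) := by
  have := tan_map a (h.ac.an t c) (eventually_mem_nhdsWithin.mono fun y hy => s y hy _ ⟨t, ht, rfl⟩)
  rwa [show τ t = b t from funext (h.eq t), (b t).fderiv, ← h.eq, ← h.eq] at this

end Tor

namespace Cov

variable {pr : E' →L[ℂ] E} {sg : E → E'} {θ : (ι' → ℂ) →L[ℂ] ι → ℂ} {lam : (ι → ℂ) → ι' → ℂ}
  {G : Set E'} (h : Cov τ τ' pr sg θ lam G)
include h

theorem forall_iff {q : E → Prop} : (∀ c ∈ G ∩ pr ⁻¹' C, q (pr c)) ↔ ∀ c ∈ C, q c :=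
  ⟨fun a c hc => h.pr_sg c ▸ a _ (h.sg_mem hc), fun a _ hc => a _ hc.2⟩

theorem pr_sec {t : ι' → ℂ} (ht : θ t = 1) (v : E') : pr (τ' t v) = pr v := by
  rw [h.pr_τ, ht, h.ac.one]

theorem an_sec (t : ι' → ℂ) (c : E) : AnalyticAt ℂ (fun y => τ' t (sg y)) c :=
  (h.ac'.an t _).comp (h.an c)

theorem fd_sec (t : ι' → ℂ) (c v : E) :
    fderiv ℂ (fun y => τ' t (sg y)) c v = τ' t (fderiv ℂ sg c v) := by
  obtain ⟨b', k'⟩ := h.tor'
  rw [k'.fd analyticAt_const (h.an c), fderiv_fun_const, Pi.zero_apply, zero_apply, k'.zero,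
    add_zero]

theorem sec_mem {t : ι' → ℂ} (u : IsUnit t) (ht : θ t = 1) (hc : c ∈ C) :
    τ' t (sg c) ∈ G ∩ pr ⁻¹' C :=
  ⟨h.sat _ (h.mem c) _ ⟨t, u, rfl⟩, show pr _ ∈ C by rwa [h.pr_sec ht, h.pr_sg]⟩

theorem lift_tan {t : ι' → ℂ} (u : IsUnit t) (c v : E) :
    τ' t (fderiv ℂ sg c v) ∈ Tan G (τ' t (sg c)) :=
  h.fd_sec t c v ▸ tan_map (tan_univ c v) (h.an_sec t c)
    (.of_forall fun y => h.sat _ (h.mem y) _ ⟨t, u, rfl⟩)

section sec

variable {χ : (ι → ℂ) → F → F} {χ' : (ι' → ℂ) → F → F} {T : E → Set F} {e : E → F} {e' : E' → F}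
  (hχ : ∀ t w, χ' t w = χ (θ t) w)
include hχ

theorem sec_pr (a : Sec τ C χ T e) :
    Sec τ' (G ∩ pr ⁻¹' C) χ' (fun c => T (pr c)) fun c => e (pr c) := fun c hc =>
  let ⟨a1, g, a2, a3⟩ := a _ hc.2
  ⟨fun t ht => by simpa only [h.pr_τ, hχ] using a1 _ (h.θ_unit ht), fun y => g (pr y),
    a2.comp (pr.analyticAt c), h.tendsto_pr a3⟩

theorem sec_sg (a : Sec τ' (G ∩ pr ⁻¹' C) χ' (fun c => T (pr c)) e') :
    Sec τ C χ T fun c => e' (sg c) := fun c hc =>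
  let ⟨a1, g, a2, a3⟩ := a _ (h.sg_mem hc)
  ⟨fun t ht => by simpa only [← h.sg_τ, hχ, h.θ_lam, h.pr_sg] using a1 _ (h.lam_unit t ht),
    fun y => g (sg y), a2.comp (h.an c), by simpa only [h.pr_sg] using h.tendsto_sg.eventually a3⟩

theorem sec_sub (h1 : ∀ w, χ 1 w = w) (a : Sec τ' (G ∩ pr ⁻¹' C) χ' (fun c => T (pr c)) e')
    (hc : c' ∈ G ∩ pr ⁻¹' C) (f : Injective fun t => τ t (pr c')) :
    e' c' - e' (sg (pr c')) ∈ T (pr c') := by
  obtain ⟨t, b1, b2, b3⟩ := h.exists_eq hc.1 f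
  have := (a _ (h.sg_mem hc.2)).1 t b1
  rwa [← b3, hχ, b2, h1] at this

end sec

variable (hf : ∀ c ∈ C, Injective fun t => τ t c)
include hf

theorem exists_homeo : ∃ Ψ : Pub.Quo τ C ≃ₜ Pub.Quo τ' (G ∩ pr ⁻¹' C),
    (∀ x : C, Ψ (Quot.mk _ x) = Quot.mk _ ⟨sg x, h.sg_mem x.2⟩) ∧
      ∀ x : ↥(G ∩ pr ⁻¹' C), Ψ.symm (Quot.mk _ x) = Quot.mk _ ⟨pr x, x.2.2⟩ :=
  ⟨⟨⟨Quot.map (fun x => ⟨sg x, h.sg_mem x.2⟩) fun _ _ e => h.same_sg e,
    Quot.map (fun x => ⟨pr x, x.2.2⟩) fun _ _ e => h.same_pr e,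
    Quot.ind fun x => congrArg (Quot.mk _) (Subtype.ext (h.pr_sg x)),
    Quot.ind fun x => Quot.sound (h.same x.2.1 (hf _ x.2.2))⟩,
    continuous_quot_lift _ (continuous_quot_mk.comp (((continuous_iff_continuousAt.2 fun c =>
      (h.an c).continuousAt).comp continuous_subtype_val).subtype_mk _)),
    continuous_quot_lift _ (continuous_quot_mk.comp
      ((pr.continuous.comp continuous_subtype_val).subtype_mk _))⟩, fun _ => rfl, fun _ => rfl⟩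

theorem sl_pr {r : ℕ} {Φ : (Fin r → ℂ) → E'} (a : AnalyticAt ℂ Φ 0)
    (m : ∀ᶠ z in 𝓝 0, Φ z ∈ G ∩ pr ⁻¹' C) (s : Sl τ' (G ∩ pr ⁻¹' C) Φ) :
    Sl τ C fun z => pr (Φ z) := by
  obtain ⟨b, k⟩ := h.tor
  obtain ⟨b', k'⟩ := h.tor'
  have m0 := m.self_of_nhds
  refine ⟨(injective_iff_map_eq_zero _).2 fun ⟨t, w⟩ e => ?_, ?_⟩
  · rw [k.fd_sl (Φ := fun z => pr (Φ z)) ((pr.analyticAt _).comp a), show fderiv ℂ (fun z => pr (Φ z)) 0 = _ from
      (pr.hasFDerivAt.comp 0 a.differentiableAt.hasFDerivAt).fderiv] at e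
    obtain ⟨t', e'⟩ := h.dir_of m0.1 (hf _ m0.2) (tan_map (tan_univ 0 w) a
      (mem_nhdsWithin_of_mem_nhds (m.mono fun _ => And.left))) ⟨-t, (k.eq _ _).trans (by
        rw [map_neg, neg_apply, ← k.eq]
        exact (eq_neg_of_add_eq_zero_left e).symm)⟩
    obtain rfl : w = 0 := congrArg Prod.snd ((injective_iff_map_eq_zero _).1 s.1 (-t', w) (by
      rw [k'.fd_sl a, ← e', k'.eq (-t'), map_neg, neg_apply, ← k'.eq, add_neg_cancel]))
    rw [map_zero, zero_add] at e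
    exact Prod.ext (hf _ m0.2 (e.trans (k.zero _).symm)) rfl
  · obtain ⟨t, b1, b2, b3⟩ := h.exists_eq m0.1 (hf _ m0.2)
    have a1 : Tendsto (fun y => τ' t (sg y)) (𝓝[C] pr (Φ 0)) (𝓝[G ∩ pr ⁻¹' C] Φ 0) :=
      tendsto_nhdsWithin_iff.2 ⟨((h.an_sec t (pr (Φ 0))).continuousAt.tendsto.mono_right
        (congrArg 𝓝 b3.symm).le).mono_left nhdsWithin_le_nhds,
          eventually_mem_nhdsWithin.mono fun _ => h.sec_mem b1 b2⟩
    have a2 : Tendsto (Prod.map θ id) (𝓝 ((1 : ι' → ℂ), (0 : Fin r → ℂ))) (𝓝 (1, 0)) :=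
      (θ.continuous.prodMap continuous_id).tendsto' _ _ (Prod.ext h.θ_one rfl)
    refine (le_of_eq ?_).trans ((map_mono (m := pr) (a1.trans s.2)).trans
      ((le_of_eq ?_).trans (map_mono a2)))
    · rw [map_map, show (pr ∘ fun y => τ' t (sg y)) = id from funext fun y =>
        (h.pr_sec b2 _).trans (h.pr_sg y), map_id]
    · rw [map_map, map_map]
      exact congrArg (map · _) (funext fun y => h.pr_τ _ _)

theorem sl_sg {r : ℕ} {Φ : (Fin r → ℂ) → E} (a : AnalyticAt ℂ Φ 0) (m : ∀ᶠ z in 𝓝 0, Φ z ∈ C)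
    (s : Sl τ C Φ) : Sl τ' (G ∩ pr ⁻¹' C) fun z => sg (Φ z) := by
  obtain ⟨b, k⟩ := h.tor
  obtain ⟨b', k'⟩ := h.tor'
  have m0 := m.self_of_nhds
  have f' := h.fr' _ (hf _ m0)
  refine ⟨(injective_iff_map_eq_zero _).2 fun ⟨t, w⟩ e => ?_, fun N hN => ?_⟩
  · rw [k'.fd_sl (Φ := fun z => sg (Φ z)) ((h.an _).comp a), show fderiv ℂ (fun z => sg (Φ z)) 0 = _ from
      ((h.an _).differentiableAt.hasFDerivAt.comp 0 a.differentiableAt.hasFDerivAt).fderiv] at e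
    obtain rfl : w = 0 := congrArg Prod.snd ((injective_iff_map_eq_zero _).1 s.1 (θ t, w) (by
      have := congrArg pr e
      rwa [map_add, map_zero, ContinuousLinearMap.comp_apply, h.pr_dsg, h.pr_τ, h.pr_sg,
        ← k.fd_sl a] at this))
    rw [map_zero, zero_add] at e
    exact Prod.ext (f' (e.trans (k'.zero _).symm)) rfl
  · obtain ⟨u, b1, b2⟩ := h.loc _ (h.mem (Φ 0)) ((h.pr_sg (Φ 0)).symm ▸ hf _ m0)
    have u1 : u (sg (Φ 0)) = 1 := f' (by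
      have := (b2.self_of_nhdsWithin (h.mem _)).2.2
      rw [h.pr_sg] at this
      exact this.symm.trans (k'.one _).symm)
    have a1 : Tendsto (fun y : (ι' → ℂ) × (ι → ℂ) × (Fin r → ℂ) => (y.1 * lam y.2.1, y.2.2))
        (𝓝 1 ×ˢ 𝓝 (1, 0)) (𝓝 (1, 0)) := by
      rw [← nhds_prod_eq]
      exact ((continuousAt_fst.mul ((h.anl 1).continuousAt.comp_of_eq (continuousAt_fst.comp
        continuousAt_snd) rfl)).prodMk (continuousAt_snd.comp continuousAt_snd)).tendsto.mono_right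
          (by simp [h.lam_one])
    obtain ⟨N1, n1, N2, n2, n3⟩ := mem_prod_iff.1 (a1 hN)
    have a2 := h.tendsto_pr (C := C) (c' := sg (Φ 0))
    rw [h.pr_sg] at a2
    filter_upwards [a2 (s.2 (image_mem_map n2)), mem_nhdsWithin_of_mem_nhds
      ((u1 ▸ b1.continuousAt.tendsto : Tendsto u _ (𝓝 1)) n1),
      b2.filter_mono (nhdsWithin_mono _ inter_subset_left)] with y ⟨z, z1, z2⟩ y1 y2
    have := n3 (mk_mem_prod y1 z1)
    rw [y2.2.2, ← z2, h.sg_τ, ← k'.mul]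
    exact this

theorem isConnected_iff (s : Sat τ C) : IsConnected (G ∩ pr ⁻¹' C) ↔ IsConnected C := by
  obtain ⟨b', k'⟩ := h.tor'
  refine ⟨fun a => ?_, fun a => ?_⟩
  · rw [show C = pr '' (G ∩ pr ⁻¹' C) from Set.ext fun c => ⟨fun hc => ⟨_, h.sg_mem hc, h.pr_sg c⟩,
      fun ⟨_, a, b⟩ => b ▸ a.2⟩]
    exact a.image _ pr.continuous.continuousOn
  · have u : IsConnected {t : ι' → ℂ | IsUnit t} := by
      rw [show {t : ι' → ℂ | IsUnit t} = univ.pi fun _ => {0}ᶜ from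
        Set.ext fun t => by simp [Pi.isUnit_iff]]
      exact isConnected_univ_pi.2 fun _ => isConnected_compl_singleton_of_one_lt_rank (by simp) 0
    rw [show G ∩ pr ⁻¹' C = (fun y : (ι' → ℂ) × E => τ' y.1 (sg y.2)) '' ({t | IsUnit t} ×ˢ C) from
      Set.ext fun c => ⟨fun hc => let ⟨t, b1, b2⟩ := h.same hc.1 (hf _ hc.2)
        ⟨(t, pr c), ⟨b1, hc.2⟩, b2.symm⟩,
        fun ⟨y, b1, b2⟩ => h.sat' s _ (h.sg_mem b1.2) _ ⟨_, b1.1, b2.symm⟩⟩]
    exact (u.prod a).image _ fun y _ => (k'.an analyticAt_fst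
      ((h.an _).comp analyticAt_snd)).continuousAt.continuousWithinAt

/-- **The class of the map does not change.** -/
theorem cls_iff {sc : B₀ → X → X} {K : Set X} {π : K → Y} {f : E → X} {β : Pub.Bm Y} (s : Sat τ C)
    (hπ : ∀ y y' : K, Same sc y.1 y'.1 → π y = π y') (a : Hol τ sc C K f)
    (a' : Hol τ' sc (G ∩ pr ⁻¹' C) K fun c => f (pr c)) :
    Cls τ' (G ∩ pr ⁻¹' C) π (fun c => f (pr c)) β ↔ Cls τ C π f β := by
  obtain ⟨Ψ, e1, e2⟩ := h.exists_homeo hf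
  have m : ∀ c ∈ G ∩ pr ⁻¹' C, pr c ∈ C := fun _ b => b.2
  have m' : ∀ c ∈ C, sg c ∈ G ∩ pr ⁻¹' C := fun _ => h.sg_mem
  have e3 : ∀ x : C, Ψ.symm (Quot.mk _ ⟨sg x, m' _ x.2⟩) = Quot.mk _ x := fun x =>
    (congrArg Ψ.symm (e1 x).symm).trans (Ψ.symm_apply_apply _)
  have e4 : ∀ x : ↥(G ∩ pr ⁻¹' C), Ψ (Quot.mk _ ⟨pr x, m _ x.2⟩) = Quot.mk _ x := fun x =>
    (congrArg Ψ (e2 x).symm).trans (Ψ.apply_symm_apply _)
  have f' : ∀ c ∈ G ∩ pr ⁻¹' C, Injective fun t => τ' t c := fun c hc => by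
    obtain ⟨b', k'⟩ := h.tor'
    obtain ⟨t, b1, b2⟩ := h.same hc.1 (hf _ hc.2)
    refine fun x y e => b1.mul_right_cancel (h.fr' _ (hf _ hc.2) ?_)
    simpa only [k'.mul, ← b2] using e
  exact ⟨cls_map h.ac' hπ Ψ.symm m' e3 (fun γ => isCyc_map Ψ.symm (fun c _ => h.an c) m' e3
    (fun _ _ => h.sl_sg hf) (fun c hc => (card_one h.ac' (f' _ (m' c hc))).trans
      (card_one h.ac (hf c hc)).symm) fun _ _ _ => id) (h.isConnected_iff hf s).1 a'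
        fun c _ => by rw [h.pr_sg],
    cls_map h.ac hπ Ψ m e4 (fun γ => isCyc_map Ψ (fun c _ => pr.analyticAt c) m e4
      (fun _ _ => h.sl_pr hf) (fun c hc => (card_one h.ac (hf _ (m c hc))).trans
        (card_one h.ac' (f' c hc)).symm) fun _ _ _ => id) (h.isConnected_iff hf s).2 a
          fun _ _ => rfl⟩

end Cov

end Vale.Agent.P269L.K.Nr
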