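import Vale.Agent.P269L.K.Nd

/-!
# Adding a factor to the ambient product of projective spaces: equivariance, family, groupoid
-/

set_option linter.unusedSectionVars false

namespace Vale.Agent.P269L.K.Nr

open Set Function Topology Filter P269 I

variable {A B₀ W E E' V P P' X Y Z ι ι' Λ : Type} [NormedRing A] [NormedAlgebra ℂ A] [Monoid B₀]
  [NormedAddCommGroup W] [NormedSpace ℂ W] [NormedAddCommGroup E] [NormedSpace ℂ E]
  [NormedAddCommGroup E'] [NormedSpace ℂ E'] [NormedAddCommGroup V] [NormedSpace ℂ V]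
  [NormedAddCommGroup P] [NormedSpace ℂ P] [NormedAddCommGroup P'] [NormedSpace ℂ P']
  [NormedAddCommGroup X] [NormedSpace ℂ X] [NormedAddCommGroup Z] [NormedSpace ℂ Z]
  [TopologicalSpace Y] [Fintype ι] [Fintype ι'] {n : ℕ}

theorem rep_conj {ρ : A → P → P} (e : P ≃L[ℂ] P') (h : Rep ρ) :
    Rep fun u κ => e (ρ u (e.symm κ)) := by
  obtain ⟨h1, h2, h3⟩ := h
  refine ⟨((LinearEquiv.refl ℂ A).prodCongr e.toLinearEquiv).finiteDimensional, fun x => by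
    simp only [h2, e.apply_symm_apply], fun u hu => ⟨⟨fun x y => ?_, fun c x => ?_⟩, fun x =>
      ⟨(e.analyticAt _).comp (f := fun q : A × P' => uncurry ρ (q.1, e.symm q.2))
        (((h3 u hu).2 (e.symm x)).1.comp_of_eq (analyticAt_fst.prod
        ((e.symm.analyticAt _).comp analyticAt_snd)) rfl), fun w hw => ?_⟩⟩⟩
  · simp only [map_add, (h3 u hu).1.map_add]
  · simp only [map_smul, (h3 u hu).1.map_smul]
  · simp only [((h3 u hu).2 _).2 w hw, e.symm_apply_apply]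

theorem Tor.rep {τ : (ι → ℂ) → E → E} {b : (ι → ℂ) →L[ℂ] E →L[ℂ] E} (h : Tor τ b)
    [FiniteDimensional ℂ E] : Rep τ :=
  ⟨inferInstance, h.one, fun u _ => ⟨(show τ u = b u from funext (h.eq u)) ▸ (b u).isLinear,
    fun x => ⟨h.an analyticAt_fst analyticAt_snd, fun w _ => h.mul u w x⟩⟩⟩

theorem fd_pr (pr : E' →L[ℂ] E) {H : E × V → Z} (hH : Differentiable ℂ H) (c a : E') (w₀ w : V) :
    fderiv ℂ (fun q : E' × V => H (pr q.1, q.2)) (c, w₀) (a, w) = fderiv ℂ H (pr c, w₀) (pr a, w) :=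
  congr($(((hH (pr c, w₀)).hasFDerivAt.comp (c, w₀)
    (pr.prodMap (.id ℂ V)).hasFDerivAt).fderiv) (a, w))

theorem fam_free {D : Dat A (ι → ℂ) W E V P X ι Λ n} {g : ℤ} (h : D.Fam chr g) {x : W}
    (hx : x ∈ D.S) : ∀ c ∈ D.C x, Injective fun t => D.τ t c := fun c hc =>
  ((h.2.2.2 x hx).2.2.1.1 c (subset_closure hc)).1 hc

theorem fam_sat {D : Dat A (ι → ℂ) W E V P X ι Λ n} {g : ℤ} (h : D.Fam chr g) {x : W}
    (hx : x ∈ D.S) : Sat D.τ (D.C x) := (h.2.2.2 x hx).2.2.1.2.1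

theorem fam_pt {D : Dat A (ι → ℂ) W E V P X ι Λ n} {g : ℤ} (h : D.Fam chr g) {x : W}
    (hx : x ∈ D.S) (i : Fin n) : D.p i x ∈ D.C x := ((h.2.2.2 x hx).2.2.1.2.2.2.2.1 i).1

namespace Cp.Ok

variable {k : Cp A E E' P P' ι ι'} {D : Dat A (ι → ℂ) W E V P X ι Λ n} (h : k.Ok D) {g : ℤ}
  {sc : B₀ → X → X} {K : Set X} {TK : X → Set X} {x : W}
include h

theorem ε_sec {u : A} (hu : IsUnit u) (t : ι' → ℂ) (c : E) :
    k.ε u (k.τ t (k.sg c)) = k.τ t (k.sg (D.ε u c)) := by rw [h.ε_τ u hu, h.ε_sg u hu]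

theorem eqv (fm : D.Fam chr g) (e : D.Eqv) : (k.dat D).Eqv := by
  obtain ⟨e1, e2, e3, e4, e5, e6, e7⟩ := e
  obtain ⟨b', k'⟩ := h.cov.tor'
  have := h.rep.1
  have : FiniteDimensional ℂ E' := .of_surjective (LinearMap.snd ℂ A E') Prod.snd_surjective
  refine ⟨e1, h.rep, e3, rep_conj k.e e4, k'.rep, fun c => (show (fun w => k.τ w c) = b'.flip c from
    funext fun w => k'.eq w c) ▸ (b'.flip c).isLinear, fun u hu => ?_⟩
  obtain ⟨a1, a2, a3⟩ := e7 u hu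
  refine ⟨fun i => h.cov.lam_unit _ (a1 i), fun c => ⟨h.ε_τ u hu c, fun y => ?_, fun l w => ?_⟩,
    fun x hx => ?_⟩
  · exact (congrArg (fun c => D.j (c, y)) (h.pr_ε u hu c)).trans ((a2 _).2.1 y)
  · exact (congrArg (fun c => D.H l (c, D.ν u w)) (h.pr_ε u hu c)).trans ((a2 _).2.2 l w)
  obtain ⟨b1, b2, b3, b4⟩ := a3 x hx
  refine ⟨b1, Set.ext fun c => ⟨fun hc => ?_, fun ⟨c₀, hc, e⟩ => ?_⟩, fun i => ?_, fun c hc =>
    ⟨?_, fun κ l => ?_⟩⟩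
  · obtain ⟨t, c1, c2, c3⟩ := h.cov.exists_eq hc.1 (fam_free fm b1 _ hc.2)
    obtain ⟨c₀, c4, c5⟩ := b2.le hc.2
    exact ⟨_, h.cov.sec_mem c1 c2 c4, (h.ε_sec hu t c₀).trans (by rw [c5, ← c3])⟩
  · obtain ⟨t, c1, c2, c3⟩ := h.cov.exists_eq hc.1 (fam_free fm hx _ hc.2)
    rw [show c = _ from e.symm.trans ((congrArg _ c3).trans (h.ε_sec hu t _))]
    exact h.cov.sec_mem c1 c2 (b2.ge ⟨_, hc.2, rfl⟩)
  · exact (congrArg k.sg (b3 i)).trans ((h.cov.sg_τ _ _).trans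
      (congrArg _ (h.ε_sg u hu _).symm))
  · exact (congrArg (fun c => D.s (D.α u x, c)) (h.pr_ε u hu c)).trans (b4 _ hc.2).1
  · exact (congrArg₂ (fun κ c => D.ev κ l (D.α u x, c)) (k.e.symm_apply_apply _)
      (h.pr_ε u hu c)).trans ((b4 _ hc.2).2 _ l)

theorem emb (e : D.Emb chr K TK) : (k.dat D).Emb chr K TK := by
  obtain ⟨e1, e2, e3⟩ := e
  have d : Differentiable ℂ fun q : E' × X => (k.pr q.1, q.2) := by fun_prop
  have d' : Differentiable ℂ fun q : E' × V => (k.pr q.1, q.2) := by fun_prop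
  refine ⟨e1.comp d, fun l => (e2 l).comp d', fun c => ⟨(e3 (k.pr c)).1, fun u y => ?_, fun f => ?_⟩⟩
  · exact (congrArg (fun c => D.j (c, y)) (h.cov.pr_τ u c)).trans (((e3 _).2.1 _ y).trans
      (congrArg (· • _) (h.chr_b u).symm))
  · obtain ⟨a1, a2, a3⟩ := (e3 _).2.2 (h.cov.fr c f)
    refine ⟨a1, a2, fun y hy w => .trans (forall_congr' fun l => ?_) (a3 y hy w)⟩
    exact (congrArg (· = 0) ((fd_pr k.pr (e2 l) c 0 _ w).trans (by rw [map_zero]; rfl))).to_iff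

theorem tendsto_U (q : W × E') : Tendsto (fun q : W × E' => (q.1, k.pr q.2)) (𝓝[(k.dat D).U] q)
    (𝓝[D.U] (q.1, k.pr q.2)) :=
  (show Continuous fun q : W × E' => (q.1, k.pr q.2) by
    fun_prop).continuousWithinAt.tendsto_nhdsWithin fun _ a => ⟨a.1, a.2.2⟩

theorem ext_pr {s G : W × E → Z} {c : E'} (a : Ext D.U s (x, k.pr c) G) :
    Ext (k.dat D).U (fun q => s (q.1, k.pr q.2)) (x, c) fun q => G (q.1, k.pr q.2) :=
  ⟨a.1.comp_of_eq (analyticAt_fst.prod ((k.pr.analyticAt _).comp analyticAt_snd)) rfl,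
    h.tendsto_U (x, c) a.2⟩

theorem fam (fl : k.Fl D g) (e : D.Fam chr g) : (k.dat D).Fam chr g := by
  obtain ⟨e1, e2, e3, e4⟩ := e
  refine ⟨h.a_ne e1, fun i y => (h.cov.an _).differentiableAt.comp y (e2 i y), fun l q =>
    ⟨fun a b => ?_, fun a b => ?_⟩, fun x hx => ?_⟩
  · exact (congrArg (D.ev · l _) (k.e.symm.map_add a b)).trans ((e3 l _).map_add _ _)
  · exact (congrArg (D.ev · l _) (k.e.symm.map_smul a b)).trans ((e3 l _).map_smul _ _)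
  obtain ⟨a1, a2, -, -, a5⟩ := e4 x hx
  refine ⟨a1.trans (by rw [← h.deg]; rfl), a2, (fl x hx).1, (fl x hx).2, fun c hc => ?_⟩
  obtain ⟨⟨G, b1⟩, b2, b3⟩ := a5 _ hc.2
  refine ⟨⟨_, h.ext_pr b1⟩, fun u hu => ?_, fun l => ⟨?_, fun κ => ?_⟩⟩
  · exact (congrArg (fun c => D.s (x, c)) (h.cov.pr_τ u c)).trans ((b2 _ (h.cov.θ_unit hu)).trans
      (congrArg (· • _) (h.chr_a u).symm))
  · exact (congrArg (D.ev · l _) (k.e.symm_apply_apply _)).trans (b3 l).1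
  · exact let ⟨_, b4⟩ := (b3 l).2 (k.e.symm κ); ⟨_, h.ext_pr b4⟩

theorem sol_eq (K : Set X) : (k.dat D).sol K = D.sol K :=
  Set.ext fun x => and_congr_right fun _ =>
    h.cov.forall_iff (C := D.C x) (q := fun c => D.s (x, c) ∈ D.im K c)

theorem van_iff (x : W) (κ : P') : κ ∈ (k.dat D).van x ↔ k.e.symm κ ∈ D.van x :=
  h.cov.forall_iff (C := D.C x) (q := fun c => ∀ l, D.ev (k.e.symm κ) l (x, c) = 0)

theorem same_iff (f : ∀ c ∈ D.C x, Injective fun t => D.τ t c) {y : W}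
    (f' : ∀ c ∈ D.C y, Injective fun t => D.τ t c) {φ ψ : E' → E'} {ψ₀ : E → E}
    (a : Hol k.τ k.τ ((k.dat D).C x) ((k.dat D).C y) φ)
    (b : ∀ c ∈ (k.dat D).C x, Same k.τ (ψ c) (k.sg (ψ₀ (k.pr c))))
    (e : ∀ c ∈ D.C x, Same D.τ (ψ₀ c) (k.pr (φ (k.sg c)))) :
    ∀ c ∈ (k.dat D).C x, Same k.τ (ψ c) (φ c) := fun c hc =>
  have m := h.cov.sg_mem hc.2
  h.cov.ac'.trans (b c hc) (h.cov.ac'.trans (h.cov.same_sg (e _ hc.2)) (h.cov.ac'.trans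
    (h.cov.same (a _ m).1.1 (f' _ (a _ m).1.2)) (hol_same a m (h.cov.same hc.1 (f _ hc.2)))))

theorem iso_down (b : Ac sc) (fm : D.Fam chr g) (hx : x ∈ D.S) {y : W} (hy : y ∈ D.S) {φ : E' → E'}
    (a : Iso k.τ k.τ sc ((k.dat D).C x) ((k.dat D).C y) ((k.dat D).p · x) ((k.dat D).p · y)
      ((k.dat D).f x) ((k.dat D).f y) φ) :
    Iso D.τ D.τ sc (D.C x) (D.C y) (D.p · x) (D.p · y) (D.f x) (D.f y)
      fun c => k.pr (φ (k.sg c)) :=
  iso_comp h.cov.ac h.cov.ac' h.cov.ac b (h.cov.sat' (fam_sat fm hy))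
    (fun i => h.cov.sg_mem (fam_pt fm hy i)) (iso_comp h.cov.ac h.cov.ac' h.cov.ac' b
      (h.cov.sat' (fam_sat fm hx)) (fun i => h.cov.sg_mem (fam_pt fm hx i))
      (h.cov.iso_sg b (fam_free fm hx)) a) (h.cov.iso_pr b (fam_free fm hy))

theorem hol_f (b : Ac sc) (fm : D.Fam chr g) (hx : x ∈ D.S) (a : Hol D.τ sc (D.C x) K (D.f x)) :
    Hol k.τ sc ((k.dat D).C x) K ((k.dat D).f x) :=
  hol_comp (φ := k.pr) h.cov.ac b (fam_sat fm hx) h.cov.hol_pr a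

theorem grp (b : Ac sc) (fl : k.Fl D g) (fm : D.Fam chr g) (hx : x ∈ D.S)
    (e : D.Grp chr sc K g x) : (k.dat D).Grp chr sc K g x := by
  classical
  obtain ⟨e1, ⟨-, e2, Φ, e3⟩, e4⟩ := e
  have f := fam_free fm hx
  refine ⟨fun c hc => e1 _ hc.2, ⟨(fl x hx).1, h.hol_f b fm hx e2,
    Φ.image fun ψ c => k.sg (ψ (k.pr c)), fun φ a => ?_⟩, fun y hy φ a => ?_⟩
  · obtain ⟨ψ, a1, a2⟩ := e3 _ (h.iso_down b fm hx hx a)
    exact ⟨_, Finset.mem_image_of_mem _ a1, h.same_iff f f a.1 (fun _ _ => h.cov.ac'.refl _) a2⟩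
  · refine (existsUnique_congr fun u => and_congr_right fun hu => and_congr_right fun _ =>
      ⟨fun a1 => h.same_iff f (fam_free fm hy.1) a.1 (fun c hc => ?_) a1, fun a1 c hc => ?_⟩).1
      (e4 y (h.sol_eq K ▸ hy) _ (h.iso_down b fm hx hy.1 a))
    · obtain ⟨t, c1, -, c3⟩ := h.cov.exists_eq hc.1 (f _ hc.2)
      exact h.cov.ac'.symm ⟨t, c1, (congrArg _ c3).trans (h.ε_sec hu t _)⟩
    · have := h.cov.same_pr (a1 _ (h.cov.sg_mem hc))
      rwa [show k.pr ((k.dat D).ε u (k.sg c)) = D.ε u c from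
        (h.pr_ε u hu _).trans (by rw [h.cov.pr_sg])] at this

theorem occ (b : Ac sc) (fm : D.Fam chr g) {M : ℕ} {C : Set (Fin M → ℂ)} {p : Fin n → Fin M → ℂ}
    {f : (Fin M → ℂ) → X}
    (e : ∃ x ∈ D.sol K, ∃ φ, Iso Pub.scal D.τ sc C (D.C x) p (D.p · x) f (D.f x) φ) :
    ∃ x ∈ (k.dat D).sol K, ∃ φ, Iso Pub.scal (k.dat D).τ sc C ((k.dat D).C x) p ((k.dat D).p · x) f
      ((k.dat D).f x) φ :=
  let ⟨x, hx, _, a⟩ := e
  ⟨x, (h.sol_eq K).ge hx, _, iso_comp ac_scal h.cov.ac h.cov.ac' b (fam_sat fm hx.1)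
    (fam_pt fm hx.1) a (h.cov.iso_sg b (fam_free fm hx.1))⟩

end Cp.Ok

end Vale.Agent.P269L.K.Nr
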