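import Vale.Agent.P269L.K.No

/-!
# Adding a factor to the ambient product of projective spaces: the integrals
-/

set_option linter.unusedSectionVars false

namespace Vale.Agent.P269L.K.Nr

open Set Function Topology Filter P291Z P269 I

variable {A B₀ W E E' V P P' X Y Z ι ι' Λ : Type} [NormedRing A] [NormedAlgebra ℂ A] [Monoid B₀]
  [NormedAddCommGroup W] [NormedSpace ℂ W] [NormedAddCommGroup E] [NormedSpace ℂ E]
  [NormedAddCommGroup E'] [NormedSpace ℂ E'] [NormedAddCommGroup V] [NormedSpace ℂ V]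
  [NormedAddCommGroup P] [NormedSpace ℂ P] [NormedAddCommGroup P'] [NormedSpace ℂ P']
  [NormedAddCommGroup X] [NormedSpace ℂ X] [NormedAddCommGroup Z] [NormedSpace ℂ Z]
  [TopologicalSpace Y] [Fintype ι] [Fintype ι'] {n : ℕ}

/-- **Euler cocycles of isomorphic bundles.** -/
theorem isLoc_iso {act : A → W → W} {ρ : A → P → P} {ρ' : A → P' → P'} {S : Set W}
    {B N : W → Submodule ℂ P} {B' N' : W → Submodule ℂ P'} (k : W → P' →L[ℂ] P)
    (hc : Continuous fun y : W × P' => k y.1 y.2)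
    (hB : ∀ x ∈ S, ∀ w ∈ B x, ∃ v ∈ B' x, w - k x v ∈ N x) (hb : ∀ x ∈ S, ∀ v ∈ B' x, k x v ∈ B x)
    (hN : ∀ x ∈ S, ∀ v ∈ B' x, k x v ∈ N x → v ∈ N' x) (hN' : ∀ x ∈ S, ∀ v ∈ N' x, k x v ∈ N x)
    (he : ∀ x ∈ S, ∀ a, IsUnit a → ∀ v, k (act a x) (ρ' a v) = ρ a (k x v))
    (h0 : ∀ x ∈ S, ∀ v ∈ B x, ∀ a, IsUnit a → (ρ a v ∈ N (act a x) ↔ v ∈ N x))
    (h1 : ∀ x ∈ S, act 1 x = x ∧ ρ' 1 0 = 0) (hNB : ∀ x ∈ S, N x ≤ B x) {e : Pub.Co (Quo act S)}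
    (h : Pub.IsLoc act ρ S B N (fun _ => 0) e) : Pub.IsLoc act ρ' S B' N' (fun _ => 0) e := by
  obtain ⟨t, ⟨t1, t2, t3⟩, rfl⟩ := Tf.isLoc_iff.1 h
  let Θ : Tot act ρ' S B' N' → Tot act ρ S B N :=
    Quot.map (fun y => ⟨(y.1.1, k y.1.1 y.1.2), y.2.1, hb _ y.2.1 _ y.2.2⟩)
      fun x y ⟨a, ha, e1, e2⟩ => ⟨a, ha, e1, by
        have := hN' _ y.2.1 _ e2
        rwa [map_sub, congrArg (k · (ρ' a x.1.2)) e1, he _ x.2.1 a ha] at this⟩
  have hΘ : Continuous Θ := continuous_quot_lift _ (continuous_quot_mk.comp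
    (((continuous_fst.prodMk hc).comp continuous_subtype_val).subtype_mk _))
  let z0 : Tot act ρ S B N → Prop := Quot.lift (fun y => y.1.2 ∈ N y.1.1)
    fun x y ⟨a, ha, e1, e⟩ => propext ((h0 _ x.2.1 _ x.2.2 a ha).symm.trans (by
      rw [← e1]
      exact ⟨fun c => by simpa using add_mem e c, fun c => by simpa using sub_mem c e⟩))
  refine Tf.isLoc_iff.2 ⟨pull Θ t, ⟨cocycle_pull hΘ t1, fun z hz => ?_, ?_⟩, ?_⟩
  · obtain ⟨x, k1, k2⟩ := t2 (supp_pull hΘ t hz)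
    obtain ⟨y, rfl⟩ := Quot.exists_rep z
    have k3 := hN _ y.2.1 _ y.2.2 ((congrArg z0 k2).mpr (k1 ▸ zero_mem _ : x.1.2 ∈ N x.1.1))
    refine ⟨⟨(y.1.1, 0), y.2.1, zero_mem _⟩, rfl, (Quot.sound ⟨1, isUnit_one, (h1 _ y.2.1).1.symm,
      ?_⟩).symm⟩
    rwa [(h1 _ y.2.1).2, sub_zero]
  · rintro r φ ⟨x, hx, l, k1, k2, k3⟩
    have k4 : ∀ v, l v ∈ B' x := fun v => (k3 v).1.2
    have := t3 r (Θ ∘ φ) ⟨x, hx, (k x).toLinearMap ∘ₗ l, fun v hv => k1 v (hN x hx _ (k4 v) hv),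
      le_antisymm (sup_le (fun _ ⟨v, e⟩ => e ▸ hb x hx _ (k4 v)) (hNB x hx)) fun w hw => by
        obtain ⟨v, a, b⟩ := hB x hx w hw
        obtain ⟨_, ⟨u, rfl⟩, v', c, rfl⟩ := Submodule.mem_sup.1 (k2.ge a)
        exact Submodule.mem_sup.2 ⟨_, ⟨u, rfl⟩, _, add_mem b (hN' x hx _ c), by
          rw [map_add, ← sub_sub, sub_add_cancel]
          exact add_sub_cancel _ _⟩, fun v =>
        let ⟨a, b⟩ := k3 v
        ⟨⟨hx, hb x hx _ a.2⟩, congrArg Θ b⟩⟩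
    exact ⟨(congrArg (Cohom {0} · (tau r)) (pull_pull φ Θ t)).mpr this.1, fun z l hl =>
      this.2 z (l.map Θ) fun e => hl ((List.length_map Θ).symm.trans e)⟩
  · refine (ppull _ Θ t.1).trans (congrArg (fun f => Pub.pull f t.1) (funext fun z => ?_))
    refine congrArg (Quot.mk _) (Subtype.ext (Prod.ext rfl ?_))
    exact (congrArg (k _) (if_pos (zero_mem _))).trans ((map_zero _).trans
      (if_pos (zero_mem _)).symm)

theorem intg_map {act : A → W → W} {ρ : A → P → P} {ρ' : A → P' → P'} {S sol : Set W}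
    {van obs : W → Set P} {van' obs' : W → Set P'} {σ : W → P} {σ' : W → P'} {q q' : W → Prop}
    {ev ev' : Fin n → W → Y → Prop} {r : Fin n → A → E → E} {r' : Fin n → A → E' → E'}
    {T D : Fin n → W → Set E} {T' D' : Fin n → W → Set E'} {l : Fin n → ℕ × Pub.Co Y} {z : ℂ}
    (hv : ∀ v, Tx.VirE act ρ S sol univ van obs σ id ρ v →
      Tx.VirE act ρ' S sol univ van' obs' σ' id ρ' v)
    (hq : ∀ x ∈ sol, q x ↔ q' x) (he : ∀ i, ∀ x ∈ sol, ∀ y, ev i x y → ev' i x y)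
    (hE : ∀ i e, Pub.IsEuler act (r i) sol (T i) (D i) e → Pub.IsEuler act (r' i) sol (T' i) (D' i) e)
    (h : Intg act ρ S sol van obs σ q ev r T D l z) :
    Intg act ρ' S sol van' obs' σ' q' ev' r' T' D' l z := by
  obtain ⟨v, u, e, a1, a2, a3, a4⟩ := h
  refine ⟨v, u, e, hv v a1, fun i y => he i _ (Quot.out y).2 _ (a2 i y), fun i => hE i _ (a3 i), ?_⟩
  rwa [show (fun y => q' (Pub.pick act sol y)) = fun y => q (Pub.pick act sol y) from
    funext fun y => propext (hq _ (Quot.out y).2).symm]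

theorem mem_tan {S : Set E} {c v : E} : v ∈ Submodule.span ℂ (Tan S c) ↔ v ∈ Tan S c :=
  (congrArg (v ∈ ·) (span_tan S c)).to_iff

theorem Tor.mem_dir {τ : (ι → ℂ) → E → E} {b : (ι → ℂ) →L[ℂ] E →L[ℂ] E} (h : Tor τ b) {c v : E} :
    v ∈ Submodule.span ℂ (dir τ c) ↔ v ∈ dir τ c := (congrArg (v ∈ ·) (h.span_dir c)).to_iff

theorem rep_inj {ρ : A → P → P} (h : Rep ρ) {a : A} (ha : IsUnit a) : Injective (ρ a) := by
  obtain ⟨a, rfl⟩ := ha
  refine LeftInverse.injective (g := ρ a⁻¹.1) fun v => ?_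
  rw [← ((h.2.2 _ a⁻¹.isUnit).2 v).2 _ a.isUnit, a.inv_mul, h.2.1]

theorem rep_zero {ρ : A → P → P} (h : Rep ρ) {a : A} (ha : IsUnit a) : ρ a 0 = 0 :=
  (h.2.2 a ha).1.map_zero

theorem rep_eq_zero {ρ : A → P → P} (h : Rep ρ) (a : A) (ha : IsUnit a) (u : P) :
    ρ a u = 0 ↔ u = 0 := (rep_inj h ha).eq_iff' (rep_zero h ha)

theorem eqv_dir {D : Dat A (ι → ℂ) W E V P X ι Λ n} {b : (ι → ℂ) →L[ℂ] E →L[ℂ] E} (k : Tor D.τ b)
    (e : D.Eqv) {x : W} (hx : x ∈ D.S) (i : Fin n) (v : E) {a : A} (ha : IsUnit a) :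
    D.τ (D.t i a) (D.ε a v) ∈ Submodule.span ℂ (dir D.τ (D.p i (D.α a x))) ↔
      v ∈ Submodule.span ℂ (dir D.τ (D.p i x)) := by
  obtain ⟨a1, a2, a3⟩ := e.2.2.2.2.2.2 a ha
  rw [k.mem_dir, k.mem_dir, (a3 x hx).2.2.1, k.dir_act (a1 i)]
  exact exists_congr fun t => by
    rw [← (rep_inj e.2.1 ha).eq_iff (a := D.τ t (D.p i x)), (a2 _).1]

namespace Cp.Ok

variable {k : Cp A E E' P P' ι ι'} {D : Dat A (ι → ℂ) W E V P X ι Λ n} (h : k.Ok D) {g : ℤ}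
  {sc : B₀ → X → X} {K : Set X} {TK : X → Set X} {x : W} (eq : D.Eqv) (fm : D.Fam chr g)
include h eq fm

theorem ε_dsg {a : A} (ha : IsUnit a) (c v : E) :
    fderiv ℂ k.sg (D.ε a c) (D.ε a v) = k.ε a (fderiv ℂ k.sg c v) := by
  have := h.rep.1
  have := eq.2.1.1
  have : FiniteDimensional ℂ E' := .of_surjective (LinearMap.snd ℂ A E') Prod.snd_surjective
  have : FiniteDimensional ℂ E := .of_surjective (LinearMap.snd ℂ A E) Prod.snd_surjective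
  let L := LinearMap.toContinuousLinearMap ((eq.2.1.2.2 a ha).1.mk' _)
  let L' := LinearMap.toContinuousLinearMap ((h.rep.2.2 a ha).1.mk' _)
  exact congr($(((h.cov.an (L c)).differentiableAt.hasFDerivAt.comp c L.hasFDerivAt).unique
    ((L'.hasFDerivAt.comp c (h.cov.an c).differentiableAt.hasFDerivAt).congr_of_eventuallyEq
      (.of_forall fun y => (h.ε_sg a ha y).symm))) v)

theorem euler_iff (i : Fin n) (e : Pub.Co (Pub.Quo D.α (D.sol K))) :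
    Pub.IsEuler D.α (fun u c => k.τ (k.lam (D.t i u)) (k.ε u c)) (D.sol K)
      (fun x => Tan ((k.dat D).C x) (k.sg (D.p i x))) (fun x => dir k.τ (k.sg (D.p i x))) e ↔
    Pub.IsEuler D.α (fun u c => D.τ (D.t i u) (D.ε u c)) (D.sol K)
      (fun x => Tan (D.C x) (D.p i x)) (fun x => dir D.τ (D.p i x)) e := by
  obtain ⟨b, k₀⟩ := h.cov.tor
  obtain ⟨b', k'⟩ := h.cov.tor'
  have := h.rep.1
  have : FiniteDimensional ℂ E' := .of_surjective (LinearMap.snd ℂ A E') Prod.snd_surjective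
  have := FiniteDimensional.complete ℂ E'
  have m : ∀ x ∈ D.sol K, k.sg (D.p i x) ∈ (k.dat D).C x := fun x hx =>
    h.cov.sg_mem (fam_pt fm hx.1 i)
  have up : ∀ x v, v ∈ Tan (D.C x) (D.p i x) →
      fderiv ℂ k.sg (D.p i x) v ∈ Tan ((k.dat D).C x) (k.sg (D.p i x)) := fun x v hv =>
    tan_map hv (h.cov.an _) (eventually_mem_nhdsWithin.mono fun _ => h.cov.sg_mem)
  have dn : ∀ x v, v ∈ Tan ((k.dat D).C x) (k.sg (D.p i x)) → k.pr v ∈ Tan (D.C x) (D.p i x) :=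
    fun x v hv => by
      simpa only [k.pr.fderiv, h.cov.pr_sg] using tan_map (S' := D.C x) hv (k.pr.analyticAt _)
        (eventually_mem_nhdsWithin.mono fun _ a => a.2)
  have d1 : ∀ x v, v ∈ dir k.τ (k.sg (D.p i x)) → k.pr v ∈ dir D.τ (D.p i x) := fun x v hv => by
    simpa only [h.cov.pr_sg] using h.cov.dir_pr hv
  have d2 : ∀ x ∈ D.sol K, ∀ v, v ∈ Tan ((k.dat D).C x) (k.sg (D.p i x)) →
      k.pr v ∈ dir D.τ (D.p i x) → v ∈ dir k.τ (k.sg (D.p i x)) := fun x hx v hv a =>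
    h.cov.dir_of (m x hx).1 (fam_free fm hx.1 _ (m x hx).2) (tan_mono hv inter_subset_left)
      ((h.cov.pr_sg _).symm ▸ a)
  have z : D.τ (D.t i 1) (D.ε 1 0) = 0 := by rw [eq.2.1.2.1, k₀.eq, map_zero]
  have z' : k.τ (k.lam (D.t i 1)) (k.ε 1 0) = 0 := by rw [h.rep.2.1, k'.eq, map_zero]
  refine ⟨isLoc_iso (act := D.α) (ρ := fun u c => k.τ (k.lam (D.t i u)) (k.ε u c))
    (ρ' := fun u c => D.τ (D.t i u) (D.ε u c)) (fun x => fderiv ℂ k.sg (D.p i x)) ?_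
    (fun x hx w hw => ⟨_, mem_tan.2 (dn x w (mem_tan.1 hw)), k'.mem_dir.2 (d2 x hx _
      (tan_sub (mem_tan.1 hw) (up x _ (dn x w (mem_tan.1 hw)))) ⟨0, by
        rw [map_sub, h.cov.pr_dsg, sub_self]
        exact k₀.zero _⟩)⟩)
    (fun x _ v hv => mem_tan.2 (up x v (mem_tan.1 hv)))
    (fun x _ v _ a => k₀.mem_dir.2 (h.cov.pr_dsg (D.p i x) v ▸ d1 x _ (k'.mem_dir.1 a)))
    (fun x _ v a => k'.mem_dir.2 (h.cov.dir_sg (k₀.mem_dir.1 a)))
    (fun x hx a ha v => by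
      rw [((eq.2.2.2.2.2.2 a ha).2.2 x hx.1).2.2.1, h.cov.dsg_act, h.ε_dsg eq fm ha])
    (fun x hx v _ a ha => eqv_dir (D := k.dat D) k' (h.eqv fm eq) hx.1 i v ha)
    (fun x _ => ⟨eq.1.2.1 x, z⟩) fun x hx => Submodule.span_mono fun v =>
      k'.dir_tan (h.cov.sat' (fam_sat fm hx.1)) (m x hx),
    isLoc_iso (act := D.α) (ρ' := fun u c => k.τ (k.lam (D.t i u)) (k.ε u c))
    (ρ := fun u c => D.τ (D.t i u) (D.ε u c)) (fun _ => k.pr) (k.pr.continuous.comp continuous_snd)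
    (fun x _ w hw => ⟨_, mem_tan.2 (up x w (mem_tan.1 hw)), by
      rw [h.cov.pr_dsg, sub_self]
      exact zero_mem _⟩)
    (fun x _ v hv => mem_tan.2 (dn x v (mem_tan.1 hv)))
    (fun x hx v hv a => k'.mem_dir.2 (d2 x hx v (mem_tan.1 hv) (k₀.mem_dir.1 a)))
    (fun x _ v a => k₀.mem_dir.2 (d1 x v (k'.mem_dir.1 a)))
    (fun x _ a ha v => by rw [h.cov.pr_τ, h.cov.θ_lam, h.pr_ε a ha])
    (fun x hx v _ a ha => eqv_dir k₀ eq hx.1 i v ha)
    (fun x _ => ⟨eq.1.2.1 x, z'⟩) fun x hx => Submodule.span_mono fun v =>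
      k₀.dir_tan (fam_sat fm hx.1) (fam_pt fm hx.1 i)⟩
  exact (((continuous_iff_continuousAt.2 fun c => (h.cov.an c).fderiv.continuousAt).comp
    (fm.2.1 i).continuous).comp continuous_fst).clm_apply continuous_snd

/-- **The presentation with one more factor.** -/
theorem pres (b : Ac sc) {π : K → Y} (hπ : ∀ y y' : K, Same sc y.1 y'.1 → π y = π y')
    (fl : k.Fl D g) {β : Pub.Bm Y} {N : (Fin n → ℕ × Pub.Co Y) → ℂ}
    (e : D.Pres chr sc K TK g π β N) : (k.dat D).Pres chr sc K TK g π β N := by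
  obtain ⟨-, em, -, e4, e5, e6⟩ := e
  have s := h.sol_eq K
  have eq' := h.eqv fm eq
  refine ⟨eq', h.emb em, h.fam fl fm, fun x hx => let ⟨a1, a2⟩ := e4 x (s.le hx)
    ⟨h.grp b fl fm hx.1 a1, h.obs em fm hx.1 a1 a2⟩, fun M C m p f a1 a2 =>
      h.occ b fm (e5 M C m p f a1 a2), fun l z hl => .trans ?_ (e6 l z hl)⟩
  have q : ∀ x ∈ D.sol K, Cls k.τ ((k.dat D).C x) π ((k.dat D).f x) β ↔
      Cls D.τ (D.C x) π (D.f x) β := fun x hx =>
    h.cov.cls_iff (fam_free fm hx.1) (fam_sat fm hx.1) hπ (e4 x hx).1.2.1.2.1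
      (h.hol_f b fm hx.1 (e4 x hx).1.2.1.2.1)
  have ev : ∀ i x, (k.dat D).f x ((k.dat D).p i x) = D.f x (D.p i x) := fun i x =>
    congrArg (D.f x) (h.cov.pr_sg _)
  rw [s]
  refine ⟨intg_map (fun v => virE_map k.e.symm (fun a u => k.e.symm_apply_apply _)
    (fun x _ u => (h.obs_iff em u).symm) (rep_eq_zero eq'.2.2.2.1) (fun x _ => eq.1.2.1 x)
    eq'.2.2.2.1.2.1 fun x _ u => ?_) q (fun i x _ y => by simp only [ev, imp_self])
    fun i e => (h.euler_iff eq fm i e).1,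
    intg_map (fun v => virE_map k.e (fun a u => congrArg (fun w => k.e (D.ρ a w))
      (k.e.symm_apply_apply u).symm) (fun x _ u => (h.obs_iff em _).trans
        (by rw [k.e.symm_apply_apply]; rfl)) (rep_eq_zero eq.2.2.2.1) (fun x _ => eq.1.2.1 x)
    eq.2.2.2.1.2.1 fun x _ u => ?_) (fun x hx => (q x hx).symm)
    (fun i x _ y => by simp only [ev, imp_self]) fun i e => (h.euler_iff eq fm i e).2⟩
  · rw [h.van_iff, map_sub, show k.e.symm ((k.dat D).σ x) = D.σ x from k.e.symm_apply_apply _]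
  · rw [h.van_iff, map_sub, show k.e.symm ((k.dat D).σ x) = D.σ x from k.e.symm_apply_apply _,
      k.e.symm_apply_apply]

end Cp.Ok

end Vale.Agent.P269L.K.Nr
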