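import Vale.Agent.P269L.K.Ne

/-!
# Adding a factor to the ambient product of projective spaces: the obstruction theory
-/

set_option linter.unusedSectionVars false

namespace Vale.Agent.P269L.K.Nr

open Set Function Topology Filter P269 I

variable {A B₀ W E E' V P P' X Y Z ι ι' Λ : Type} [NormedRing A] [NormedAlgebra ℂ A] [Monoid B₀]
  [NormedAddCommGroup W] [NormedSpace ℂ W] [NormedAddCommGroup E] [NormedSpace ℂ E]
  [NormedAddCommGroup E'] [NormedSpace ℂ E'] [NormedAddCommGroup V] [NormedSpace ℂ V]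
  [NormedAddCommGroup P] [NormedSpace ℂ P] [NormedAddCommGroup P'] [NormedSpace ℂ P']
  [NormedAddCommGroup X] [NormedSpace ℂ X] [NormedAddCommGroup Z] [NormedSpace ℂ Z]
  [TopologicalSpace Y] [Fintype ι] [Fintype ι'] {n : ℕ}

theorem fd_id_prod {s : E → E'} {c : E} (a : AnalyticAt ℂ s c) (x v : W) (w : E) :
    fderiv ℂ (fun q : W × E => (q.1, s q.2)) (x, c) (v, w) = (v, fderiv ℂ s c w) :=
  congr($((hasFDerivAt_fst.prodMk (HasFDerivAt.comp (f := Prod.snd) (x, c)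
    a.differentiableAt.hasFDerivAt hasFDerivAt_snd)).fderiv) (v, w))

theorem fd_comp {s : E → E'} {G : E' → Z} {c : E} (b : AnalyticAt ℂ G (s c)) (a : AnalyticAt ℂ s c)
    (w : E) : fderiv ℂ (fun y => G (s y)) c w = fderiv ℂ G (s c) (fderiv ℂ s c w) :=
  congr($((b.differentiableAt.hasFDerivAt.comp c a.differentiableAt.hasFDerivAt).fderiv) w)

theorem line_sub {s v w : V} (a : v ∈ range fun z : ℂ => z • s) (b : w ∈ range fun z : ℂ => z • s) :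
    v - w ∈ range fun z : ℂ => z • s :=
  let ⟨y, e⟩ := a
  let ⟨z, e'⟩ := b
  ⟨y - z, (sub_smul y z s).trans (congrArg₂ _ e e')⟩

namespace Cov

variable {τ : (ι → ℂ) → E → E} {τ' : (ι' → ℂ) → E' → E'} {pr : E' →L[ℂ] E} {sg : E → E'}
  {θ : (ι' → ℂ) →L[ℂ] ι → ℂ} {lam : (ι → ℂ) → ι' → ℂ} {G : Set E'} (h : Cov τ τ' pr sg θ lam G)
  {C : Set E} (hf : ∀ c ∈ C, Injective fun t => τ t c)
include h

/-- Vector fields along the curve descend. -/
theorem vf_down {ξ : E' → E'} (a : Sec τ' (G ∩ pr ⁻¹' C) τ' (dir τ') ξ) :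
    Sec τ C τ (dir τ) fun c => pr (ξ (sg c)) := fun c hc => by
  obtain ⟨a1, g, a2, a3⟩ := a _ (h.sg_mem hc)
  refine ⟨fun t ht => ?_, fun y => pr (g (sg y)), (pr.analyticAt _).comp (a2.comp (h.an c)),
    (h.tendsto_sg.eventually a3).mono fun y b => ?_⟩
  · simpa only [map_sub, ← h.sg_τ, h.pr_τ, h.θ_lam, h.pr_sg] using
      h.dir_pr (a1 _ (h.lam_unit t ht))
  · simpa only [map_sub, h.pr_sg] using h.dir_pr b

include hf

/-- Vector fields along the curve lift. -/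
theorem vf_up [CompleteSpace E'] (s : Sat τ C) {ξ : E → E} (a : Sec τ C τ (dir τ) ξ) :
    ∃ ξ', Sec τ' (G ∩ pr ⁻¹' C) τ' (dir τ') ξ' ∧ ∀ c ∈ G ∩ pr ⁻¹' C, ∃ t, IsUnit t ∧ θ t = 1 ∧
      c = τ' t (sg (pr c)) ∧ ξ' c = τ' t (fderiv ℂ sg (pr c) (ξ (pr c))) := by
  obtain ⟨b', k'⟩ := h.tor'
  choose! t t1 t2 t3 using fun c (hc : c ∈ G ∩ pr ⁻¹' C) => h.exists_eq hc.1 (hf _ hc.2)
  have T : ∀ {u c} v, IsUnit u → c = τ' u (sg (pr c)) → τ' u (fderiv ℂ sg (pr c) v) ∈ Tan G c :=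
    fun v b1 b2 => (congrArg (Tan G) b2).ge (h.lift_tan b1 _ v)
  refine ⟨fun c => τ' (t c) (fderiv ℂ sg (pr c) (ξ (pr c))), fun c hc => ⟨fun u hu => ?_, ?_⟩,
    fun c hc => ⟨_, t1 c hc, t2 c hc, t3 c hc, rfl⟩⟩
  · have m := h.sat' s c hc _ ⟨u, hu, rfl⟩
    refine h.dir_of m.1 (hf _ m.2) (tan_sub (T _ (t1 _ m) (t3 _ m))
      (k'.tan_act h.sat hu (T _ (t1 c hc) (t3 c hc)))) ?_
    rw [map_sub, h.pr_sec (t2 _ m), h.pr_dsg, h.pr_τ, h.pr_τ, h.pr_sec (t2 c hc), h.pr_dsg]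
    exact (a _ hc.2).1 _ (h.θ_unit hu)
  · obtain ⟨g, a1, a2⟩ := (a _ hc.2).2
    obtain ⟨u, b1, b2⟩ := h.loc c hc.1 (hf _ hc.2)
    refine ⟨fun y => τ' (u y) (fderiv ℂ sg (pr y) (g (pr y))), k'.an b1
      ((((ContinuousLinearMap.id ℂ (E →L[ℂ] E')).analyticAt_bilinear _).comp₂ (h.an _).fderiv
        a1).comp (pr.analyticAt c)), ?_⟩
    filter_upwards [h.tendsto_pr a2, b2.filter_mono (nhdsWithin_mono _ inter_subset_left),
      self_mem_nhdsWithin] with y c1 c2 m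
    refine h.dir_of m.1 (hf _ m.2) (tan_sub (T _ (t1 _ m) (t3 _ m)) (T _ c2.1 c2.2.2)) ?_
    rw [map_sub, h.pr_sec (t2 _ m), h.pr_dsg, h.pr_sec c2.2.1, h.pr_dsg]
    exact c1

end Cov

namespace Cp.Ok

variable {k : Cp A E E' P P' ι ι'} {D : Dat A (ι → ℂ) W E V P X ι Λ n} (h : k.Ok D) {g : ℤ}
  {sc : B₀ → X → X} {K : Set X} {TK : X → Set X} {x : W}
include h

theorem sc_pr {T : E → Set V} {e : E → V} (a : D.Sc chr x T e) :
    (k.dat D).Sc chr x (fun c => T (k.pr c)) fun c => e (k.pr c) :=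
  h.cov.sec_pr (χ := fun u w => chr D.a u • w) (fun t w => congrArg (· • w) (h.chr_a t)) a

theorem sc_sg {T : E → Set V} {e : E' → V} (a : (k.dat D).Sc chr x (fun c => T (k.pr c)) e) :
    D.Sc chr x T fun c => e (k.sg c) :=
  h.cov.sec_sg (fun t w => congrArg (· • w) (h.chr_a t)) a

theorem sc_sub {T : E → Set V} {e : E' → V} (a : (k.dat D).Sc chr x (fun c => T (k.pr c)) e)
    {c : E'} (hc : c ∈ (k.dat D).C x) (f : Injective fun t => D.τ t (k.pr c)) :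
    e c - e (k.sg (k.pr c)) ∈ T (k.pr c) :=
  h.cov.sec_sub (χ := fun u w => chr D.a u • w) (fun t w => congrArg (· • w) (h.chr_a t))
    (fun w => by simp [chr]) a hc f

theorem df_iff (e : D.Emb chr K TK) (κ : P') (e' : E' → V) : (k.dat D).Df x κ e' ↔
    ∀ c ∈ (k.dat D).C x, ∀ l, D.ev (k.e.symm κ) l (x, k.pr c) =
      fderiv ℂ (D.H l) (k.pr c, D.s (x, k.pr c)) (0, e' c) :=
  forall₃_congr fun c _ l => (congrArg (_ = ·) ((fd_pr k.pr (e.2.1 l) c 0 _ _).trans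
    (by rw [map_zero]; rfl))).to_iff

theorem obs_iff (e : D.Emb chr K TK) (κ : P') :
    (∃ e, (k.dat D).Nm chr TK x e ∧ (k.dat D).Df x κ e) ↔
      ∃ e, D.Nm chr TK x e ∧ D.Df x (k.e.symm κ) e :=
  ⟨fun ⟨_, a, b⟩ => ⟨_, h.sc_sg a, fun c hc l => by
    simpa only [h.cov.pr_sg] using (h.df_iff e _ _).1 b _ (h.cov.sg_mem hc) l⟩,
    fun ⟨_, a, b⟩ => ⟨_, h.sc_pr a, (h.df_iff e _ _).2 fun _ hc => b _ hc.2⟩⟩

theorem rank_van (y : W) : Set.finrank ℂ ((k.dat D).van y) = Set.finrank ℂ (D.van y) := by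
  rw [show (k.dat D).van y = (k.e : P →ₗ[ℂ] P') '' D.van y from Set.ext fun κ => (h.van_iff y κ).trans
    ⟨fun a => ⟨_, a, k.e.apply_symm_apply κ⟩, fun ⟨_, a, b⟩ =>
      (k.e.symm_apply_eq.2 b.symm).symm ▸ a⟩, Set.finrank, Submodule.span_image]
  exact k.e.toLinearEquiv.finrank_map_eq _

theorem obs (em : D.Emb chr K TK) (fm : D.Fam chr g) (hx : x ∈ D.S)
    (gr : D.Grp chr sc K g x) (e : D.Obs chr TK x) : (k.dat D).Obs chr TK x := by
  obtain ⟨e1, e2, e3, e4⟩ := e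
  have f := fam_free fm hx
  have := h.rep.1
  have : FiniteDimensional ℂ E' := .of_surjective (LinearMap.snd ℂ A E') Prod.snd_surjective
  have : FiniteDimensional ℂ A := .of_surjective (LinearMap.fst ℂ A E') Prod.fst_surjective
  have := FiniteDimensional.complete ℂ E'
  have := FiniteDimensional.complete ℂ A
  obtain ⟨b, k₀⟩ := h.cov.tor
  have dp : ∀ i v, fderiv ℂ ((k.dat D).p i) x v = fderiv ℂ k.sg (D.p i x) (fderiv ℂ (D.p i) x v) :=
    fun i v => congr($(((h.cov.an _).differentiableAt.hasFDerivAt.comp x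
      (fm.2.1 i x).hasFDerivAt).fderiv) v)
  have dj : ∀ c y v, fderiv ℂ (k.dat D).j (c, y) (v, 0) = fderiv ℂ D.j (k.pr c, y) (k.pr v, 0) :=
    fun c y v => fd_pr k.pr em.1 c v y 0
  refine ⟨e1.mono fun y a => (h.rank_van y).trans (a.trans (h.rank_van x).symm), fun e a => ?_,
    fun e a => ?_, fun v ξ ⟨a1, a2, a3, a4⟩ a5 => ?_⟩
  · obtain ⟨κ, b1⟩ := e2 _ (h.sc_sg a)
    refine ⟨k.e κ, (h.df_iff em _ _).2 fun c hc l => ?_⟩
    have := (((em.2.2 _).2.2 (f _ hc.2)).2.2 _ (gr.2.1.2.1 _ hc.2).1 _).2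
      (h.sc_sub (T := fun c => D.im (TK (D.f x c)) c) a hc (f _ hc.2)) l
    rw [← gr.1 _ hc.2, show ((0 : E), e c - e (k.sg (k.pr c))) = (0, e c) - (0, e (k.sg (k.pr c)))
      from Prod.ext (sub_zero _).symm rfl, map_sub, sub_eq_zero] at this
    rw [k.e.symm_apply_apply, this]
    exact b1 _ hc.2 l
  · obtain ⟨v, ξ, ⟨a1, a2, a3, a4⟩, a5⟩ := e3 _
      (h.sc_sg (T := fun c => range fun z : ℂ => z • D.s (x, c)) a)
    obtain ⟨ξ', b1, b2⟩ := h.cov.vf_up f (fam_sat fm hx) a2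
    have U : ∀ c ∈ (k.dat D).C x, ∃ Φ : W × E → W × E', AnalyticAt ℂ Φ (x, k.pr c) ∧
        Φ (x, k.pr c) = (x, c) ∧ fderiv ℂ Φ (x, k.pr c) (v, ξ (k.pr c)) = (v, ξ' c) ∧
        (∀ q ∈ D.U, Φ q ∈ (k.dat D).U ∧ (k.dat D).s (Φ q) = D.s q) ∧ k.pr (ξ' c) = ξ (k.pr c) ∧
        ξ' c ∈ Tan k.G c := fun c hc => by
      obtain ⟨t, c1, c2, c3, c4⟩ := b2 c hc
      refine ⟨fun q => (q.1, k.τ t (k.sg q.2)), analyticAt_fst.prod
        ((h.cov.an_sec t _).comp (f := Prod.snd) analyticAt_snd), Prod.ext rfl c3.symm,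
        (fd_id_prod (h.cov.an_sec t _) x v _).trans (Prod.ext rfl ((h.cov.fd_sec t _ _).trans
          c4.symm)), fun q hq => ⟨⟨hq.1, h.cov.sec_mem c1 c2 hq.2⟩, congrArg (fun c => D.s (q.1, c))
            ((h.cov.pr_sec c2 _).trans (h.cov.pr_sg _))⟩, ?_, ?_⟩
      · rw [c4, h.cov.pr_sec c2, h.cov.pr_dsg]
      · exact c4 ▸ (congrArg (Tan k.G) c3).ge (h.cov.lift_tan c1 _ _)
    refine ⟨v, ξ', ⟨a1, b1, fun c hc => ?_, fun i => ?_⟩, fun c hc G hG => ?_⟩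
    · obtain ⟨Φ, c1, c2, c3, c4, -⟩ := U c hc
      exact c2 ▸ c3 ▸ tan_map (a3 _ hc.2) c1 (eventually_mem_nhdsWithin.mono fun q hq => (c4 q hq).1)
    · have m := h.cov.sg_mem (fam_pt fm hx i)
      obtain ⟨-, -, -, -, -, c5, c6⟩ := U _ m
      refine h.cov.dir_of m.1 (f _ m.2) (tan_sub c6 ((dp i v).symm ▸ tan_map (tan_univ _ _)
        (h.cov.an _) (.of_forall h.cov.mem))) ?_
      rw [map_sub, dp, h.cov.pr_dsg]
      simpa only [Cp.dat, c5, h.cov.pr_sg] using a4 i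
    · obtain ⟨Φ, c1, c2, c3, c4, c5, -⟩ := U c hc
      have G1 : AnalyticAt ℂ G (Φ (x, k.pr c)) := c2.symm ▸ hG.1
      have := line_sub (a5 _ hc.2 (fun q => G (Φ q)) ⟨G1.comp c1, ?_⟩)
        (h.sc_sub (T := fun c => range fun z : ℂ => z • D.s (x, c)) a hc (f _ hc.2))
      · rw [fd_comp G1 c1, c2, c3, sub_sub, add_sub_cancel, ← c5, ← dj] at this
        exact this
      · filter_upwards [(c2 ▸ c1.continuousAt.continuousWithinAt.tendsto_nhdsWithin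
          fun q hq => (c4 q hq).1 : Tendsto Φ (𝓝[D.U] (x, k.pr c)) (𝓝[(k.dat D).U] (x, c))) hG.2,
          self_mem_nhdsWithin] with q c6 hq using (c4 q hq).2.symm.trans c6
  · have an : ∀ c : E', AnalyticAt ℂ (fun q : W × E' => (q.1, k.pr q.2)) (x, c) := fun c =>
      analyticAt_fst.prod ((k.pr.analyticAt _).comp analyticAt_snd)
    have fd : ∀ c w : E', fderiv ℂ (fun q : W × E' => (q.1, k.pr q.2)) (x, c) (v, w) = (v, k.pr w) :=
      fun c w => (fd_id_prod (k.pr.analyticAt c) x v w).trans (by rw [k.pr.fderiv])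
    obtain ⟨u, b1, b2⟩ := e4 v (fun c => k.pr (ξ (k.sg c))) ⟨a1, h.cov.vf_down a2, fun c hc => by
      simpa only [fd, h.cov.pr_sg] using tan_map (S' := D.U) (a3 _ (h.cov.sg_mem hc)) (an _)
        (eventually_mem_nhdsWithin.mono fun q hq => ⟨hq.1, hq.2.2⟩), fun i => by
      have := h.cov.dir_pr (a4 i)
      rw [map_sub, dp, h.cov.pr_dsg] at this
      exact (congrArg (dir D.τ) (h.cov.pr_sg _)).le this⟩ fun c hc G hG => by
      have hG' : Ext D.U D.s (x, k.pr (k.sg c)) G := (h.cov.pr_sg c).symm ▸ hG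
      have := a5 _ (h.cov.sg_mem hc) _ (h.ext_pr hG')
      rw [fd_comp (s := fun q : W × E' => (q.1, k.pr q.2)) hG'.1 (an _), fd, dj] at this
      simpa only [Cp.dat, h.cov.pr_sg] using this
    refine ⟨u, b1, fun c hc => ?_⟩
    obtain ⟨t, c1, c2, c3⟩ := h.cov.exists_eq hc.1 (f _ hc.2)
    have un : ∀ᶠ a in 𝓝 (1 : A), IsUnit a := Units.isOpen.mem_nhds isUnit_one
    have c4 : AnalyticAt ℂ (k.ε · c) 1 := ((h.rep.2.2 1 isUnit_one).2 c).1.comp_of_eq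
      (analyticAt_id.prod analyticAt_const) rfl
    have c5 : k.pr (fderiv ℂ (k.ε · c) 1 u) = fderiv ℂ (D.ε · (k.pr c)) 1 u :=
      congr($((k.pr.hasFDerivAt.comp 1 c4.differentiableAt.hasFDerivAt).fderiv.symm.trans
        (EventuallyEq.fderiv_eq (un.mono fun a ha => h.pr_ε a ha c))) u)
    have c6 := h.cov.dir_pr ((a2 _ (h.cov.sg_mem hc.2)).1 t c1)
    refine h.cov.dir_of hc.1 (f _ hc.2) (tan_sub ?_ ?_) ?_
    · simpa only [fderiv_snd, ContinuousLinearMap.coe_snd'] using tan_map (S' := k.G) (a3 c hc)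
        analyticAt_snd (eventually_mem_nhdsWithin.mono fun q hq => hq.2.1)
    · exact (congrArg (Tan k.G) (h.rep.2.1 c)).le (tan_map (tan_univ 1 u) c4
        (mem_nhdsWithin_of_mem_nhds (un.mono fun a ha => h.cov.sat _ (h.cov.mem _) _
          ⟨t, c1, (congrArg _ c3).trans (h.ε_sec ha t _)⟩)))
    · rw [show (k.dat D).τ = k.τ from rfl, ← c3, map_sub, h.cov.pr_sec c2] at c6
      have := k₀.dir_add c6 (b2 _ hc.2)
      rw [sub_add_sub_cancel, ← c5, ← map_sub] at this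
      exact this

end Cp.Ok

end Vale.Agent.P269L.K.Nr
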