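import Vale.Agent.P269L.K.Ni
import Vale.Agent.P269L.K.N2
import Vale.Agent.P269L.K.St

/-!
# Every presentation may be put in normal form
-/

namespace Vale.Agent.P269L.K

open Set Function Topology Filter P269 P269.Base I

/-- **Normal form.** -/
theorem exists_nf {B X Y : Type} [Monoid B] [NormedAddCommGroup X] [NormedSpace ℂ X]
    [TopologicalSpace Y] {sc : B → X → X} {K : Set X} {TK : X → Set X} {π : K → Y} {g : ℤ}
    {β : Pub.Bm Y} {n : ℕ} {N : (Fin n → ℕ × Pub.Co Y) → ℂ} (b : Ac sc)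
    (hπ : ∀ y y' : K, Same sc y.1 y'.1 → π y = π y') (h : IsGW sc K TK π g β n N) :
    ∃ (A W U ι Λ : Type) (_ : NormedRing A) (_ : NormedAlgebra ℂ A) (_ : NormedAddCommGroup W)
      (_ : NormedSpace ℂ W) (_ : NormedAddCommGroup U) (_ : NormedSpace ℂ U) (_ : Fintype ι)
      (_ : DecidableEq ι) (M : ι → ℕ) (r : ℕ) (D : Dat A (ι → ℂ) W (V M) U (Fin r → ℂ) X ι Λ n)
      (o : ι), Nf D sc K TK g o ∧ Occ D sc K π g β ∧
        ∀ l z, (∀ i, Pub.Zc (l i).2) → (Itg D K TK π β l z ↔ z = N l) := by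
  classical
  obtain ⟨A, W, E, U, P, ι, Λ, _, _, _, _, _, _, _, _, _, _, _, D, h⟩ := h
  obtain ⟨M, r, k, a1, a2, a3, a4, a5⟩ := exists_cp h.1 h.2.2.1
  obtain ⟨e1, e2, e3, e4, e5, e6⟩ := a3.pres h.1 h.2.2.1 b hπ a4 h
  exact ⟨A, W, U, Option ι, Λ, _, _, _, _, _, _, _, inferInstance, M, r, k.dat D, none,
    ⟨a1, e1, e2, e3, e4, fun x hx => ((a5 x hx).isCurve (a1 ▸ (a4 x hx).1)).1, a2⟩, e5, e6⟩

end Vale.Agent.P269L.K
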