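import Vale.Agent.P269L.K.ObC
import Vale.Agent.P269L.K.Gen

/-!
# The obstruction space of a roof over one curve
-/

set_option linter.unusedSectionVars false
set_option linter.unusedVariables false

noncomputable section

namespace Vale.Agent.P269L.K.O7

open Set Function Topology Filter Module P269 P269.Cv.Dict I

variable {ι F P : Type} [Fintype ι] {M : ι → ℕ} [NormedAddCommGroup F] [NormedSpace ℂ F]
  [AddCommGroup P] [Module ℂ P] {o : ι} {C : Set (V M)} {a : ι → ℕ} {g : ℤ} {m : ι → ℤ}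

variable (C a) in
/-- a section of `O(a) ⊗ F` -/
def Hz (ψ : V M → F) : Prop := Hm C a ψ ∧ ∀ c ∈ C, ∃ k, Ext C ψ c k

variable (C a) in
/-- `E` identifies `P` with the sections of `O(a) ⊗ F` -/
structure Fm (E : P →ₗ[ℂ] V M → F) : Prop where
  hz : ∀ p, Hz C a (E p)
  sur : ∀ ψ, Hz C a ψ → ∃ p, ∀ c ∈ C, E p c = ψ c
  inj : ∀ p, (∀ c ∈ C, E p c = 0) → p = 0

theorem Hz.pol (hC : IsCurve o g m C) (ha : a ≠ 0) {ψ : V M → F} (h : Hz C a ψ) (l : F →L[ℂ] ℂ) :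
    ∃ μ : Tens M a, ∀ c ∈ C, l (ψ c) = val μ c :=
  hC.normal a ha _ (Base.isSec_of_hol (fun t ht c hc => by
    rw [h.1 c hc t (isUnit_t.2 ht), map_smul]; rfl) fun c hc =>
      let ⟨k, k1, k2⟩ := h.2 c hc
      ⟨fun y => l (k y), (l.analyticAt _).comp k1, k2.mono fun _ e => congrArg l e⟩)

theorem exists_fm [FiniteDimensional ℂ F] (hC : IsCurve o g m C) (ha : a ≠ 0) :
    ∃ (n : ℕ) (E : (Fin n → ℂ) →ₗ[ℂ] V M → F), Fm C a E ∧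
      (n : ℤ) = finrank ℂ F * (∑ i, a i * m i + 1 - g) := by
  obtain ⟨σ, hσ⟩ := (Base.resL C a).rangeRestrict.exists_rightInverse_of_surjective
    (LinearMap.range_rangeRestrict _)
  have h1 : ∀ s (c : C), val (σ s) c.1 = s.1 c := fun s c =>
    congrFun (congrArg Subtype.val (LinearMap.congr_fun hσ s)) c
  let b := finBasis ℂ F
  let E : (Fin (finrank ℂ F) → Base.Hs C a) →ₗ[ℂ] V M → F :=
    { toFun := fun s c => ∑ i, val (σ (s i)) c • b i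
      map_add' := fun s t => funext fun c => by
        simp only [Pi.add_apply, map_add, ← Finset.sum_add_distrib, ← add_smul]; rfl
      map_smul' := fun r s => funext fun c => by
        simp only [Pi.smul_apply, map_smul, Finset.smul_sum, ← mul_smul, RingHom.id_apply]; rfl }
  let e := (finBasis ℂ (Fin (finrank ℂ F) → Base.Hs C a)).equivFun
  refine ⟨_, E ∘ₗ e.symm.toLinearMap, ⟨fun p => ⟨fun y _ t _ => ?_, fun c _ =>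
    ⟨fun y => ∑ i, val (σ (e.symm p i)) y • b i,
      Finset.analyticAt_fun_sum _ fun i _ => (an_val _ c).smul analyticAt_const,
      .of_forall fun _ => rfl⟩⟩, fun ψ h => ?_, fun p h => ?_⟩, ?_⟩
  · simp only [E, LinearMap.comp_apply, LinearMap.coe_mk, AddHom.coe_mk, val_smul, Finset.smul_sum,
      mul_smul, chr]
  · choose μ hμ using fun i => h.pol hC ha (b.coord i).toContinuousLinearMap
    refine ⟨e fun i => ⟨_, μ i, rfl⟩, fun c hc => ?_⟩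
    simp only [E, LinearMap.comp_apply, LinearEquiv.coe_coe, e.symm_apply_apply, LinearMap.coe_mk,
      AddHom.coe_mk, h1 _ ⟨c, hc⟩, Base.resL_apply, ← hμ _ c hc]
    exact b.sum_repr _
  · refine e.symm.map_eq_zero_iff.1 (funext fun i => Subtype.ext (funext fun c => ?_))
    exact (h1 _ c).symm.trans (Fintype.linearIndependent_iff.1 b.linearIndependent _ (h c c.2) i)
  · rw [finrank_pi_fintype, Finset.sum_const, Finset.card_univ, Fintype.card_fin, smul_eq_mul,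
      Nat.cast_mul, hC.finrank_Hs ha]
    rfl

variable {F₁ F₂ Y₁ Y₂ P₁ P₂ P₃ P₄ : Type} [NormedAddCommGroup F₁] [NormedSpace ℂ F₁]
  [NormedAddCommGroup F₂] [NormedSpace ℂ F₂] [AddCommGroup Y₁] [Module ℂ Y₁] [AddCommGroup Y₂]
  [Module ℂ Y₂] [AddCommGroup P₁] [Module ℂ P₁] [AddCommGroup P₂] [Module ℂ P₂] [AddCommGroup P₃]
  [Module ℂ P₃] [AddCommGroup P₄] [Module ℂ P₄] {a₁ a₂ : ι → ℕ}

variable (C a a₁ a₂) in
/-- Two bundles `Fᵢ(aᵢ) / ker Aᵢ` linked by `ℓ`. -/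
structure Lk (T : V M → Submodule ℂ (F₁ × F₂)) (A₁ : V M → F₁ →ₗ[ℂ] Y₁) (A₂ : V M → F₂ →ₗ[ℂ] Y₂)
    (ℓ : V M → F₁ × F₂ →L[ℂ] F) : Prop where
  k1 : ∀ c ∈ C, ∀ e, A₁ c e = 0 ↔ ∃ e', (e, e') ∈ T c
  k2 : ∀ c ∈ C, ∀ e', A₂ c e' = 0 ↔ ∃ e, (e, e') ∈ T c
  k3 : ∀ c ∈ C, ∀ w ∈ T c, ℓ c w = 0
  i1 : ∀ c ∈ C, ∀ e, ℓ c (e, 0) = 0 → e = 0
  i2 : ∀ c ∈ C, ∀ e, ℓ c (0, e) = 0 → e = 0
  an : ∀ c ∈ C, ∃ k, Ext C ℓ c k
  hT : ∀ c ∈ C, ∀ t, IsUnit t → ∀ w ∈ T c, (chr a₁ t • w.1, chr a₂ t • w.2) ∈ T (t • c)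
  hl : ∀ c ∈ C, ∀ t, IsUnit t → ∀ w : F₁ × F₂,
    ℓ (t • c) (chr a₁ t • w.1, chr a₂ t • w.2) = chr a t • ℓ c w

variable {T : V M → Submodule ℂ (F₁ × F₂)} {A₁ : V M → F₁ →ₗ[ℂ] Y₁} {A₂ : V M → F₂ →ₗ[ℂ] Y₂}
  {ℓ : V M → F₁ × F₂ →L[ℂ] F}

theorem Lk.symm (h : Lk C a a₁ a₂ T A₁ A₂ ℓ) :
    Lk C a a₂ a₁ (fun c => (T c).comap (LinearEquiv.prodComm ℂ F₂ F₁).toLinearMap) A₂ A₁
      fun c => ℓ c ∘L (ContinuousLinearEquiv.prodComm ℂ F₂ F₁ :) :=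
  ⟨h.k2, h.k1, fun c hc w k => h.k3 c hc _ k, h.i2, h.i1, fun c hc =>
    let ⟨k, k1, k2⟩ := h.an c hc
    ⟨fun y => k y ∘L (ContinuousLinearEquiv.prodComm ℂ F₂ F₁ :), Holo.an_comp k1 analyticAt_const,
      k2.mono fun _ e => congrArg (· ∘L _) e⟩,
    fun c hc t ht w k => h.hT c hc t ht _ k, fun c hc t ht w => h.hl c hc t ht w.swap⟩

variable (C A₁ A₂ ℓ) in
/-- The triples that are pointwise in the image. -/
def Pw (E₁ : P₁ →ₗ[ℂ] V M → Y₁) (E₂ : P₂ →ₗ[ℂ] V M → Y₂) (E₃ : P₃ →ₗ[ℂ] V M → F) :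
    Submodule ℂ (P₁ × P₂ × P₃) :=
  ⨅ c ∈ C, (LinearMap.range ((A₁ c ∘ₗ .fst ℂ _ _).prod ((A₂ c ∘ₗ .snd ℂ _ _).prod (ℓ c :)))).comap
    (((LinearMap.proj c ∘ₗ E₁).prodMap ((LinearMap.proj c ∘ₗ E₂).prodMap (.proj c ∘ₗ E₃))))

variable {E₁ : P₁ →ₗ[ℂ] V M → Y₁} {E₂ : P₂ →ₗ[ℂ] V M → Y₂} {E₃ : P₃ →ₗ[ℂ] V M → F}
  {E₄ : P₄ →ₗ[ℂ] V M → F₂}

theorem mem_Pw {κ : P₁ × P₂ × P₃} : κ ∈ Pw C A₁ A₂ ℓ E₁ E₂ E₃ ↔ ∀ c ∈ C, ∃ w : F₁ × F₂,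
    A₁ c w.1 = E₁ κ.1 c ∧ A₂ c w.2 = E₂ κ.2.1 c ∧ ℓ c w = E₃ κ.2.2 c := by
  simp [Pw, Submodule.mem_iInf, Prod.ext_iff]

variable [FiniteDimensional ℂ F] [FiniteDimensional ℂ F₁] [FiniteDimensional ℂ F₂]
  (h : Lk C a a₁ a₂ T A₁ A₂ ℓ)
include h

theorem Lk.inv {c : V M} (hc : c ∈ C) : ∃ r : V M → F →L[ℂ] F₂, AnalyticAt ℂ r c ∧
    ∀ᶠ y in 𝓝[C] c, ∀ e, r y (ℓ y (0, e)) = e := by
  obtain ⟨k, k1, k2⟩ := h.an c hc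
  obtain ⟨r, r1, r2⟩ := exists_an_leftInv (L := fun y => k y ∘L .inr ℂ F₁ F₂)
    (Holo.an_comp k1 analyticAt_const) ((injective_iff_map_eq_zero _).2 fun e u =>
      h.i2 c hc e (k2.self_of_nhdsWithin hc ▸ u))
  exact ⟨r, r1, (k2.and (nhdsWithin_le_nhds r2)).mono fun y u e => u.1 ▸ u.2 e⟩

theorem Lk.hz {e : V M → F₁} {e' : V M → F₂} (h1 : Hm C a₁ e) (h2 : Hm C a₂ e')
    (h3 : ∀ c ∈ C, ∃ k : V M → F₁ × F₂, AnalyticAt ℂ k c ∧ ∀ᶠ y in 𝓝[C] c, (e y, e' y) - k y ∈ T y) :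
    Hz C a fun c => ℓ c (e c, e' c) := by
  refine ⟨fun c hc t ht => by simp only [h1 c hc t ht, h2 c hc t ht]; exact h.hl c hc t ht (_, _),
    fun c hc => ?_⟩
  obtain ⟨k, k1, k2⟩ := h.an c hc
  obtain ⟨u, u1, u2⟩ := h3 c hc
  refine ⟨fun y => k y (u y), Holo.an_apply k1 u1, ?_⟩
  filter_upwards [k2, u2, self_mem_nhdsWithin] with y v w hy
  rw [← v, ← sub_eq_zero, ← map_sub, h.k3 y hy _ w]

variable (hC : IsCurve o g m C) (ha : a₂ ≠ 0) (h3 : Fm C a E₃)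
  (h2 : ∀ e, Hm C a₂ e → (∀ c ∈ C, ∃ k, AnalyticAt ℂ k c ∧ ∀ᶠ y in 𝓝[C] c, A₂ y (e y - k y) = 0) →
    ∃ ξ, ∀ c ∈ C, E₂ ξ c = A₂ c (e c))
include h2 h3

include hC ha in
/-- **The projection is onto.** -/
theorem Lk.sur {ξ : P₁} {e : V M → F₁}
    (he : Sec (sm M) C (fun t w => chr a₁ t • w) (fun c => {w | A₁ c w = 0}) e)
    (hξ : ∀ c ∈ C, E₁ ξ c = A₁ c (e c)) : ∃ κ ∈ Pw C A₁ A₂ ℓ E₁ E₂ E₃, κ.1 = ξ := by
  have k0 : ∀ c ∈ C, ∀ w, A₁ c w = 0 ↔ w ∈ Prod.fst '' (T c : Set (F₁ × F₂)) := fun c hc w => by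
    simpa using h.k1 c hc w
  obtain ⟨e₁, e₂, m1, m2, m3⟩ := split hC ha h.hT (fun c hc => by
    obtain ⟨r, r1, r2⟩ := h.inv hc
    obtain ⟨k, k1, k2⟩ := h.an c hc
    refine ⟨fun y => -(r y ∘L k y ∘L .inl ℂ F₁ F₂),
      (Holo.an_comp r1 (Holo.an_comp k1 analyticAt_const)).neg, ?_⟩
    filter_upwards [r2, k2, self_mem_nhdsWithin] with y u v hy w hw
    have : ℓ y (0, w.2) = -ℓ y (w.1, 0) := by
      rw [eq_neg_iff_add_eq_zero, ← map_add, ← h.k3 y hy w hw]; simp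
    rw [← u w.2, this, ← v]
    simp) (e := e) fun c hc => ⟨fun t ht => (k0 _ (hC.cone t (isUnit_t.1 ht) c hc) _).1
      ((he c hc).1 t ht), ((he c hc).2).imp fun k u => ⟨u.1, (u.2.and self_mem_nhdsWithin).mono
        fun y v => (k0 y v.2 _).1 v.1⟩⟩
  obtain ⟨ξ₂, n2⟩ := h2 e₂ m2 fun c hc =>
    let ⟨k, k1, k2⟩ := (m3 c hc).2
    ⟨fun y => (k y).2, analyticAt_snd.comp k1, (k2.and self_mem_nhdsWithin).mono fun y v =>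
      (h.k2 y v.2 _).2 ⟨_, v.1⟩⟩
  obtain ⟨δ, n3⟩ := h3.sur _ (h.hz m1 m2 fun c hc => (m3 c hc).2)
  refine ⟨(ξ, ξ₂, δ), mem_Pw.2 fun c hc => ⟨(e₁ c, e₂ c), ?_, (n2 c hc).symm, (n3 c hc).symm⟩, rfl⟩
  have := (k0 c hc _).2 (m3 c hc).1
  rw [map_sub, sub_eq_zero] at this
  exact this.symm.trans (hξ c hc).symm

/-- **The rank.** -/
theorem Lk.rk [FiniteDimensional ℂ P₁] [FiniteDimensional ℂ P₂] [FiniteDimensional ℂ P₃]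
    [FiniteDimensional ℂ P₄] (h4 : Fm C a₂ E₄)
    (hc0 : ∀ c ∈ C, ∀ t : ι → ℂ, IsUnit t → t • c ∈ C) {ob₁ : Submodule ℂ P₁} {v₂ : Submodule ℂ P₂}
    (hv : ∀ ξ, ξ ∈ v₂ ↔ ∀ c ∈ C, E₂ ξ c = 0)
    (hs : ∀ ξ, ξ ∈ ob₁ ↔ ∃ κ ∈ Pw C A₁ A₂ ℓ E₁ E₂ E₃, κ.1 = ξ) :
    finrank ℂ (Pw C A₁ A₂ ℓ E₁ E₂ E₃) = finrank ℂ ob₁ + finrank ℂ P₄ + finrank ℂ v₂ := by
  let G : Submodule ℂ (P₄ × P₂ × P₃) :=
    { carrier := {κ | ∀ c ∈ C, A₂ c (E₄ κ.1 c) = E₂ κ.2.1 c ∧ ℓ c (0, E₄ κ.1 c) = E₃ κ.2.2 c}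
      zero_mem' := fun c _ => by simp [Prod.mk_zero_zero]
      add_mem' := fun u v c hc => by
        simp only [Prod.fst_add, Prod.snd_add, map_add, Pi.add_apply, ← (u c hc).1, ← (u c hc).2,
          ← (v c hc).1, ← (v c hc).2, true_and]
        rw [← map_add, Prod.mk_add_mk, add_zero]
      smul_mem' := fun r _ u c hc => by
        simp only [Prod.smul_fst, Prod.smul_snd, map_smul, Pi.smul_apply, ← (u c hc).1,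
          ← (u c hc).2, true_and]
        rw [← map_smul, Prod.smul_mk, smul_zero] }
  let p := LinearMap.fst ℂ _ _ ∘ₗ (Pw C A₁ A₂ ℓ E₁ E₂ E₃).subtype
  let q := LinearMap.fst ℂ _ _ ∘ₗ G.subtype
  let ψ := LinearMap.inr ℂ P₁ _ ∘ₗ LinearMap.snd ℂ _ _ ∘ₗ G.subtype
  have n1 : LinearMap.range p = ob₁ := Submodule.ext fun ξ => .trans
    ⟨fun ⟨κ, e⟩ => ⟨κ.1, κ.2, e⟩, fun ⟨κ, e, e'⟩ => ⟨⟨κ, e⟩, e'⟩⟩ (hs ξ).symm
  have n2 : LinearMap.range q = ⊤ := eq_top_iff.2 fun w _ => by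
    obtain ⟨ξ, k1⟩ := h2 _ (h4.hz w).1 fun c hc =>
      let ⟨k, k1, k2⟩ := (h4.hz w).2 c hc
      ⟨k, k1, k2.mono fun y e => by rw [e, sub_self, map_zero]⟩
    obtain ⟨δ, k2⟩ := h3.sur _ (h.hz (e := 0) (fun _ _ _ _ => by simp) (h4.hz w).1 fun c hc =>
      let ⟨k, k1, k2⟩ := (h4.hz w).2 c hc
      ⟨fun y => (0, k y), analyticAt_const.prod k1, k2.mono fun y e => by simp [e]⟩)
    exact ⟨⟨(w, ξ, δ), fun c hc => ⟨(k1 c hc).symm, (k2 c hc).symm⟩⟩, rfl⟩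
  have n3 : Injective ψ := (injective_iff_map_eq_zero _).2 fun κ e => by
    have e' : κ.1.2 = 0 := congrArg Prod.snd e
    exact Subtype.ext (Prod.ext (h4.inj _ fun c hc => h.i2 c hc _ (by
      simpa [e'] using (κ.2 c hc).2)) e')
  have n4 : LinearMap.range ψ = (LinearMap.ker p).map (Submodule.subtype _) := by
    refine Submodule.ext fun κ => ⟨?_, ?_⟩
    · rintro ⟨κ, rfl⟩
      exact ⟨⟨(0, κ.1.2), mem_Pw.2 fun c hc => ⟨(0, E₄ κ.1.1 c), by simp, κ.2 c hc⟩⟩, rfl, rfl⟩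
    · rintro ⟨⟨⟨ξ₁, ξ, δ⟩, u⟩, e, rfl⟩
      obtain rfl : ξ₁ = 0 := e
      have : ∀ c ∈ C, ∃ w, A₂ c w = E₂ ξ c ∧ ℓ c (0, w) = E₃ δ c := fun c hc => by
        obtain ⟨w, w1, w2, w3⟩ := mem_Pw.1 u c hc
        obtain ⟨w', w4⟩ := (h.k1 c hc w.1).1 (by simpa using w1)
        refine ⟨w.2 - w', by rw [map_sub, w2, (h.k2 c hc _).2 ⟨_, w4⟩, sub_zero], ?_⟩
        rw [← w3, ← sub_zero (ℓ c w), ← h.k3 c hc _ w4, ← map_sub]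
        exact congrArg _ (Prod.ext (sub_self _).symm rfl)
      choose! w w1 w2 using this
      refine (h4.sur w ⟨fun c hc t ht => ?_, fun c hc => ?_⟩).elim fun s hs =>
        ⟨⟨(s, ξ, δ), fun c hc => hs c hc ▸ ⟨w1 c hc, w2 c hc⟩⟩, rfl⟩
      · have hc' := hc0 c hc t ht
        refine sub_eq_zero.1 (h.i2 _ hc' _ ?_)
        have := h.hl c hc t ht (0, w c)
        rw [w2 c hc, ← (h3.hz δ).1 c hc t ht, ← w2 _ hc', smul_zero] at this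
        rw [← sub_eq_zero.2 this.symm, ← map_sub, Prod.mk_sub_mk, sub_zero]
      · obtain ⟨r, r1, r2⟩ := h.inv hc
        obtain ⟨k, k1, k2⟩ := (h3.hz δ).2 c hc
        refine ⟨fun y => r y (k y), Holo.an_apply r1 k1, ?_⟩
        filter_upwards [r2, k2, self_mem_nhdsWithin] with y u v hy
        rw [← v, ← w2 y hy, u]
  have n5 : finrank ℂ (LinearMap.ker q) = finrank ℂ v₂ := by
    let χ : LinearMap.ker q →ₗ[ℂ] P₂ := .fst ℂ _ _ ∘ₗ .snd ℂ _ _ ∘ₗ G.subtype ∘ₗ Submodule.subtype _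
    have k : ∀ κ : LinearMap.ker q, κ.1.1.1 = 0 := fun κ => κ.2
    rw [← LinearMap.finrank_range_of_inj (f := χ) ((injective_iff_map_eq_zero _).2 fun κ e =>
      Subtype.ext (Subtype.ext (Prod.ext (k κ) (Prod.ext (by exact e) (h3.inj _ fun c hc => by
        simpa [k κ, Prod.mk_zero_zero] using (κ.1.2 c hc).2.symm)))))]
    refine congrArg (fun S : Submodule ℂ P₂ => finrank ℂ S) (Submodule.ext fun ξ => .trans ⟨?_, fun e => ⟨⟨⟨(0, ξ, 0), fun c hc => by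
      simp [e c hc, Prod.mk_zero_zero]⟩, rfl⟩, rfl⟩⟩ (hv ξ).symm)
    rintro ⟨κ, rfl⟩ c hc
    exact (κ.1.2 c hc).1.symm.trans (by simp [k κ])
  rw [← p.finrank_range_add_finrank_ker, n1, ← Submodule.finrank_map_subtype_eq, ← n4,
    LinearMap.finrank_range_of_inj n3, ← q.finrank_range_add_finrank_ker, n2, finrank_top, n5,
    add_assoc]

omit h2 h3 in
theorem Lk.mem {c : V M} (hc : c ∈ C) {w : F₁ × F₂} (u : A₂ c w.2 = 0) (v : ℓ c w = 0) :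
    A₁ c w.1 = 0 := by
  obtain ⟨e, k⟩ := (h.k2 c hc _).1 u
  have : w.1 - e = 0 := h.i1 c hc _ (by
    rw [← sub_eq_zero.2 (v.trans (h.k3 c hc _ k).symm), ← map_sub]
    exact congrArg _ (Prod.ext rfl (sub_self _).symm))
  exact (h.k1 c hc _).2 ⟨_, sub_eq_zero.1 this ▸ k⟩

omit h2 in
/-- The first component is homogeneous along the orbits. -/
theorem Lk.orb {κ : P₁ × P₂ × P₃} (hκ : κ ∈ Pw C A₁ A₂ ℓ E₁ E₂ E₃) {c : V M} (hc : c ∈ C) :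
    ∃ w, ∀ t, IsUnit t → t • c ∈ C → chr a₂ t = 1 → A₂ (t • c) = A₂ c →
      E₂ κ.2.1 (t • c) = E₂ κ.2.1 c → A₁ (t • c) (chr a₁ t • w) = E₁ κ.1 (t • c) := by
  obtain ⟨w, -, w2, w3⟩ := mem_Pw.1 hκ c hc
  refine ⟨w.1, fun t ht hc' k1 k2 k3 => ?_⟩
  obtain ⟨v, v1, v2, v3⟩ := mem_Pw.1 hκ _ hc'
  have := h.mem hc' (w := (chr a₁ t • w.1, chr a₂ t • w.2) - v)
    (by rw [Prod.snd_sub, map_sub, v2, k1, one_smul, k2, w2, k3, sub_self])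
    (by rw [map_sub, v3, h.hl c hc t ht, w3, (h3.hz _).1 c hc t ht, sub_self])
  rwa [Prod.fst_sub, map_sub, v1, sub_eq_zero] at this

omit h2 h3 h in
theorem pw_swap {κ : P₁ × P₂ × P₃} : (κ.2.1, κ.1, κ.2.2) ∈ Pw C A₂ A₁
    (fun c => ℓ c ∘L (ContinuousLinearEquiv.prodComm ℂ F₂ F₁ :)) E₂ E₁ E₃ ↔
      κ ∈ Pw C A₁ A₂ ℓ E₁ E₂ E₃ := by
  simp only [mem_Pw]
  exact forall₂_congr fun c _ => ⟨fun ⟨w, u⟩ => ⟨w.swap, u.2.1, u.1, u.2.2⟩,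
    fun ⟨w, u⟩ => ⟨w.swap, u.2.1, u.1, u.2.2⟩⟩

omit h2 h3 h in
theorem pw_rk : finrank ℂ (Pw C A₁ A₂ ℓ E₁ E₂ E₃) = finrank ℂ (Pw C A₂ A₁
    (fun c => ℓ c ∘L (ContinuousLinearEquiv.prodComm ℂ F₂ F₁ :)) E₂ E₁ E₃) :=
  (LinearEquiv.ofSubmodules ((LinearEquiv.prodAssoc ℂ P₁ P₂ P₃).symm ≪≫ₗ
    (LinearEquiv.prodComm ℂ P₁ P₂).prodCongr (.refl ℂ P₃) ≪≫ₗ .prodAssoc ℂ _ _ _) _ _
    (Submodule.ext fun κ => ⟨fun ⟨_, u, e⟩ => e ▸ pw_swap.2 u,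
      fun u => ⟨(κ.2.1, κ.1, κ.2.2), pw_swap.1 u, rfl⟩⟩)).finrank_eq

end Vale.Agent.P269L.K.O7
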