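import Vale.Agent.P269L.K.Ob27
import Vale.Agent.P269L.K.Fr1
import Vale.Agent.P269.Spl.Prj

/-!
# One side of the roof over one curve
-/

set_option linter.unusedSectionVars false
set_option linter.unusedVariables false
set_option maxSynthPendingDepth 3

noncomputable section

namespace Vale.Agent.P269L.K.O7

open Set Function Topology Filter Module MvPolynomial P269 P269.Cv.Dict I

section hp

variable {ι F : Type} [Fintype ι] {M : ι → ℕ} {e : ι → ℕ} {h : ℕ} [NormedAddCommGroup F]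
  [NormedSpace ℂ F] {Q : Tens M e →L[ℂ] Fin h → ℂ} {Γ : Set (V M)} {o : ι} {g : ℤ} {m : ι → ℤ}

theorem hp_ev (a : HP Q Γ) : ∃ u : V M → (Fin h → ℂ) →L[ℂ] ℂ, (∀ q, AnalyticAt ℂ u q) ∧
    (∀ (t : ι → ℂ) q, u (t • q) = chr e t • u q) ∧ ∀ q ∈ Γ, ∀ v, Evl Q q v ↔ v = u q := by
  obtain ⟨S, hS⟩ := Holo.exists_rightInv a.1
  have k : ∀ q ∈ Γ, ∀ μ, val (S (Q μ)) q = val μ q := fun q hq μ =>
    sub_eq_zero.1 ((a.2 (S (Q μ) - μ)).1 (by rw [map_sub, hS, sub_self]) q hq)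
  refine ⟨fun q => Base.evL e q ∘L S, fun q => Holo.analyticAt_of_apply fun v => an_val _ _,
    fun t q => ContinuousLinearMap.ext fun v => val_smul _ _ _, fun q hq v =>
      ⟨fun u => ContinuousLinearMap.ext fun w => ?_, fun u μ => u ▸ k q hq μ⟩⟩
  obtain ⟨μ, rfl⟩ := a.1 w
  exact (u μ).trans (k q hq μ).symm

variable {T : Type} [NormedAddCommGroup T] [NormedSpace ℂ T]

/-- evaluation of the third component -/
def ev3 (u : V M → (Fin h → ℂ) →L[ℂ] ℂ) :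
    (T →L[ℂ] ((Fin h → ℂ) →L[ℂ] ℂ) →L[ℂ] F) →ₗ[ℂ] V M → T →L[ℂ] F where
  toFun κ q := κ.flip (u q)
  map_add' _ _ := rfl
  map_smul' _ _ := rfl

theorem hp_fm [FiniteDimensional ℂ T] [FiniteDimensional ℂ F] (a : HP Q Γ) (hC : IsCurve o g m Γ)
    (he : e ≠ 0) {u : V M → (Fin h → ℂ) →L[ℂ] ℂ} (h1 : ∀ q, AnalyticAt ℂ u q)
    (h2 : ∀ (t : ι → ℂ) q, u (t • q) = chr e t • u q) (h3 : ∀ q ∈ Γ, Evl Q q (u q)) :
    Fm Γ e (ev3 (F := F) (T := T) u) := by
  refine ⟨fun κ => ⟨fun q _ t _ => (congrArg κ.flip (h2 t q)).trans (map_smul _ _ _), fun q _ =>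
    ⟨_, (κ.flip.analyticAt _).comp (h1 q), .of_forall fun _ => rfl⟩⟩, fun ψ k => ?_, fun κ k => ?_⟩
  · let b := finBasis ℂ (T →L[ℂ] F)
    choose μ hμ using fun i => k.pol hC he (b.coord i).toContinuousLinearMap
    refine ⟨(∑ i, (ContinuousLinearMap.apply ℂ ℂ (Q (μ i))).smulRight (b i)).flip, fun q hq => ?_⟩
    show (∑ i, (ContinuousLinearMap.apply ℂ ℂ (Q (μ i))).smulRight (b i)) (u q) = _
    rw [sum_apply]
    refine (Finset.sum_congr rfl fun i _ => ?_).trans (b.sum_repr (ψ q))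
    exact congrArg (· • b i) ((h3 q hq _).trans (hμ i q hq).symm)
  · refine ContinuousLinearMap.ext fun μ => ContinuousLinearMap.ext fun v =>
      SeparatingDual.eq_zero_of_forall_dual_eq_zero (R := ℂ) fun l => ?_
    obtain ⟨ν, hν⟩ := a.1 fun i => l (κ μ (.proj i))
    have n : ∀ v : (Fin h → ℂ) →L[ℂ] ℂ, l (κ μ v) = v (Q ν) := fun v => by
      have : v = ∑ i, v (Pi.single i 1) • ContinuousLinearMap.proj i := by
        ext w
        conv_lhs => rw [pi_eq_sum_univ' w]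
        simp [mul_comm]
      rw [hν, this]
      simp
    rw [n, (a.2 ν).2 fun q hq => ?_, map_zero]
    rw [← h3 q hq, ← n, show κ μ (u q) = 0 from DFunLike.congr_fun (k q hq) μ, map_zero]

end hp

variable {A W U X B ι ι' Λ : Type} [NormedRing A] [NormedAlgebra ℂ A] [NormedAddCommGroup W]
  [NormedSpace ℂ W] [NormedAddCommGroup U] [NormedSpace ℂ U] [NormedAddCommGroup X] [NormedSpace ℂ X]
  [Monoid B] [Fintype ι] [Fintype ι'] {M : ι → ℕ} {M' : ι' → ℕ} {r n : ℕ}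

/-- `pr` maps the curve `Γ` isomorphically onto `C`. -/
structure Pj (Γ : Set (V M')) (C : Set (V M)) (pr : V M' →L[ℂ] V M) (ρ : ι → ι') : Prop where
  inj : Injective ρ
  img : pr '' Γ = C
  orb : ∀ q ∈ Γ, ∀ q' ∈ Γ, Base.Orb (pr q) (pr q') → Base.Orb q q'
  eqv : ∀ (t : ι' → ℂ) q, pr (t • q) = (fun i => t (ρ i)) • pr q
  ne : ∀ c ∈ C, ∀ i, c i ≠ 0
  cone : ∀ q ∈ Γ, ∀ t : ι' → ℂ, IsUnit t → t • q ∈ Γ
  sec : ∀ c ∈ C, ∃ l : V M → V M', AnalyticAt ℂ l c ∧ ∀ᶠ y in 𝓝[C] c, l y ∈ Γ ∧ pr (l y) = y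

variable (D : Dat A (ι → ℂ) W (V M) U (Fin r → ℂ) X ι Λ n) {sc : B → X → X} {K : Set X}
  {TK : X → Set X} {g : ℤ} {o : ι} (x : W)

/-- the differential of the equations -/
def dH (c : V M) : U →ₗ[ℂ] Λ → ℂ :=
  .pi fun l => (fderiv ℂ (D.H l) (c, D.s (x, c))).toLinearMap ∘ₗ .inr ℂ _ _

variable {D} (h : Nf D sc K TK g o)

/-- the vectors as functions on `Γ` -/
def nev (pr : V M' → V M) : (Fin r → ℂ) →ₗ[ℂ] V M' → Λ → ℂ where
  toFun κ q l := D.ev κ l (x, pr q)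
  map_add' _ _ := funext fun _ => funext fun _ => (h.fam.2.2.1 _ _).map_add _ _
  map_smul' _ _ := funext fun _ => funext fun _ => (h.fam.2.2.1 _ _).map_smul _ _

variable {x} {Γ : Set (V M')} {pr : V M' →L[ℂ] V M} {ρ : ι → ι'} {a' : ι' → ℕ}

theorem npt {q : V M'} {κ e} : Pt D x (pr q) κ e ↔ dH D x (pr q) e = nev x h pr κ q :=
  ⟨fun k => funext fun l => (k l).symm, fun k l => (congrFun k l).symm⟩

variable (hx : x ∈ D.sol K)
include hx

include h in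
theorem nker {c : V M} (hc : c ∈ D.C x) {e : U} :
    dH D x c e = 0 ↔ ∃ η ∈ TK (D.f x c), D.j (c, η) = e :=
  funext_iff.trans (h.ker_dH hx hc e)

variable (p : Pj Γ (D.C x) pr ρ)
include p

theorem nvan {κ} : κ ∈ (sd D K TK).van x ↔ ∀ q ∈ Γ, nev x h pr κ q = 0 := by
  refine ⟨fun k => Submodule.span_induction (fun κ u q hq => funext
    (u _ (p.img.le ⟨q, hq, rfl⟩))) (by simp) (fun _ _ _ _ u v q hq => by simp [u q hq, v q hq])
    (fun _ _ _ u q hq => by simp [u q hq]) k, fun k => Submodule.subset_span fun c hc l => ?_⟩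
  obtain ⟨q, hq, rfl⟩ := p.img.ge hc
  exact congrFun (k q hq) l

variable (ha : ∀ t, chr a' t = chr D.a fun i => t (ρ i))
include ha

include h in
theorem nup {e : V M → U} (he : D.Nm chr TK x e) : Sec (sm M') Γ (fun t w => chr a' t • w)
    (fun q => {w | dH D x (pr q) w = 0}) fun q => e (pr q) := fun q hq => by
  have m : ∀ q ∈ Γ, pr q ∈ D.C x := fun q hq => p.img.le ⟨q, hq, rfl⟩
  obtain ⟨k1, k, k2, k3⟩ := he _ (m q hq)
  refine ⟨fun t ht => (nker h hx (m _ (p.cone q hq t ht))).2 ?_, fun y => k (pr y),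
    k2.comp (pr.analyticAt q), ?_⟩
  · have := k1 (fun i => t (ρ i)) (isUnit_t.2 fun i => isUnit_t.1 ht _)
    rw [h.tor, I.tor, ← p.eqv] at this
    simp only [← ha] at this
    exact this
  · filter_upwards [(pr.continuous.continuousWithinAt.tendsto_nhdsWithin m).eventually k3,
      self_mem_nhdsWithin] with y u hy
    exact (nker h hx (m y hy)).2 u

theorem ndown (h0 : (0 : X) ∈ ⋂ y, TK y) (e : V M' → U) (h1 : Hm Γ a' e) (h2 : ∀ c ∈ Γ, ∃ k,
    AnalyticAt ℂ k c ∧ ∀ᶠ y in 𝓝[Γ] c, dH D x (pr y) (e y - k y) = 0) :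
    ∃ ξ, ∀ c ∈ Γ, nev x h pr ξ c = dH D x (pr c) (e c) := by
  classical
  have m : ∀ q ∈ Γ, pr q ∈ D.C x := fun q hq => p.img.le ⟨q, hq, rfl⟩
  choose! l l1 l2 using fun c (hc : c ∈ D.C x) => p.img.ge hc
  have k0 : ∀ q ∈ Γ, e (l (pr q)) = e q := fun q hq => by
    obtain ⟨t, ht, u⟩ := p.orb q hq _ (l1 _ (m q hq)) (by rw [l2 _ (m q hq)]; exact .refl _)
    have : (fun i => t (ρ i)) = 1 := smul_cancel (p.ne _ (m q hq)) (by
      rw [← p.eqv, ← u, l2 _ (m q hq), one_smul])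
    rw [u, h1 q hq t (isUnit_t.2 ht), ha, this]
    simp [chr]
  refine ((h.grp x hx).2.2.1 (fun c => e (l c)) fun c hc => ⟨fun t ht => ?_, ?_⟩).imp
    fun ξ hξ q hq => funext fun i => (hξ _ (m q hq) i).trans (by simp only [k0 q hq]; rfl)
  · obtain ⟨q, hq, rfl⟩ := p.img.ge hc
    have u : (fun i => extend ρ t 1 (ρ i)) = t := funext fun i => p.inj.extend_apply _ _ _
    have ht' : IsUnit (extend ρ t 1) := isUnit_t.2 fun i => by
      by_cases v : ∃ j, ρ j = i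
      · obtain ⟨j, rfl⟩ := v
        exact p.inj.extend_apply t 1 j ▸ isUnit_t.1 ht j
      · simp [extend_apply' _ _ _ v]
    refine ⟨0, mem_iInter.1 h0 _, ((h.emb.2.2 _).1.map_zero).trans (sub_eq_zero.2 ?_).symm⟩
    rw [h.tor, I.tor, ← u, ← p.eqv]
    simp only [k0 _ (p.cone q hq _ ht'), k0 q hq, h1 q hq _ ht', ha]
  · obtain ⟨L, n1, n2⟩ := p.sec c hc
    obtain ⟨k, k1, k2⟩ := h2 _ (n2.self_of_nhdsWithin hc).1
    refine ⟨fun y => k (L y), k1.comp n1, ?_⟩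
    filter_upwards [(tendsto_nhdsWithin_iff.2 ⟨n1.continuousAt.tendsto.mono_left nhdsWithin_le_nhds,
      n2.mono fun _ u => u.1⟩).eventually k2, n2, self_mem_nhdsWithin] with y u v hy
    rw [← k0 _ v.1, v.2] at u
    exact (nker h hx hy).1 u

omit hx p ha in
theorem pj_of {T P : Type} [TopologicalSpace T] [NormedAddCommGroup P] [NormedSpace ℂ P]
    [FiniteDimensional ℂ P] {G : T → Set (V M')} {π : T → P} {t : T} {o : ι}
    (hf : Base.LocFam (ρ o) G π t) (hr : Injective ρ)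
    (hi : ∀ c ∈ G t, ∀ c' ∈ G t, Base.Orb (rV ρ c) (rV ρ c') → Base.Orb c c') :
    Pj (G t) (rV ρ '' G t) (rV ρ) ρ := by
  classical
  refine ⟨hr, rfl, hi, fun _ _ => rfl, ?_, fun q hq s hs =>
    hf.cone.self_of_nhds s (isUnit_t.1 hs) q hq, ?_⟩
  · rintro _ ⟨q, hq, rfl⟩ i
    exact hf.ne_zero.self_of_nhds q hq _
  · rintro _ ⟨q, hq, rfl⟩
    obtain ⟨L, l1, -, l2, l3⟩ := hf.exists_lam hr hi hq
    refine ⟨fun y => L (π t, y), l1.comp_of_eq (analyticAt_const.prod analyticAt_id) rfl, ?_⟩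
    filter_upwards [nhdsWithin_le_nhds ((Continuous.prodMk_right t).continuousAt.eventually l3),
      self_mem_nhdsWithin] with y u hy
    exact ⟨u hy, l2 _⟩

end Vale.Agent.P269L.K.O7
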