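import Vale.Agent.P269L.K.Gen

/-!
# Limits of values of the differential of a system of equations
-/

set_option linter.unusedSectionVars false
set_option linter.unusedVariables false

noncomputable section

namespace Vale.Agent.P269L.K.Ob

open Set Function Topology Filter P269 P269.Holo

variable {T E E' E'' B X U Λ : Type} [NormedAddCommGroup E] [NormedSpace ℂ E]
  [NormedAddCommGroup E'] [NormedSpace ℂ E'] [NormedAddCommGroup E''] [NormedSpace ℂ E'']
  [NormedAddCommGroup B] [NormedSpace ℂ B] [NormedAddCommGroup X] [NormedSpace ℂ X]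
  [NormedAddCommGroup U] [NormedSpace ℂ U] [FiniteDimensional ℂ E] [FiniteDimensional ℂ E']
  [FiniteDimensional ℂ E''] [FiniteDimensional ℂ B] [FiniteDimensional ℂ X] [FiniteDimensional ℂ U]
  {𝓕 : Filter T} [𝓕.NeBot]

theorem tend_app {L : T → E →L[ℂ] E'} {L₀ : E →L[ℂ] E'} {e : T → E} {e₀ : E}
    (hL : Tendsto L 𝓕 (𝓝 L₀)) (he : Tendsto e 𝓕 (𝓝 e₀)) :
    Tendsto (fun n => L n (e n)) 𝓕 (𝓝 (L₀ e₀)) :=
  (isBoundedBilinearMap_apply.continuous.tendsto (L₀, e₀)).comp (hL.prodMk_nhds he)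

theorem tend_comp {L : T → E →L[ℂ] E'} {L₀ : E →L[ℂ] E'} {M : T → E' →L[ℂ] E''} {M₀ : E' →L[ℂ] E''}
    (hM : Tendsto M 𝓕 (𝓝 M₀)) (hL : Tendsto L 𝓕 (𝓝 L₀)) :
    Tendsto (fun n => (M n).comp (L n)) 𝓕 (𝓝 (M₀.comp L₀)) :=
  (isBoundedBilinearMap_comp.continuous.tendsto (M₀, L₀)).comp (hM.prodMk_nhds hL)

/-- Solutions of a converging system of linear equations with injective limit converge. -/
theorem core {L : Λ → T → E →L[ℂ] E'} {L₀ : Λ → E →L[ℂ] E'} {v : Λ → T → E'} {v₀ : Λ → E'}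
    {e : T → E} (hL : ∀ l, Tendsto (L l) 𝓕 (𝓝 (L₀ l))) (hv : ∀ l, Tendsto (v l) 𝓕 (𝓝 (v₀ l)))
    (hk : ∀ u, (∀ l, L₀ l u = 0) → u = 0) (he : ∀ l, ∀ᶠ n in 𝓕, v l n = L l n (e n)) :
    ∃ e₀, ∀ l, v₀ l = L₀ l e₀ := by
  obtain ⟨s, hs⟩ := exists_fin_ker L₀
  obtain ⟨r, r1, r2⟩ := exists_an_leftInv (L := fun z : E →L[ℂ] s → E' => z)
    (ω := .pi fun l : s => L₀ l) analyticAt_id ((injective_iff_map_eq_zero _).2 fun u h =>
      hk u (hs u fun l hl => congrFun h ⟨l, hl⟩))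
  have h1 : Tendsto (fun n => ContinuousLinearMap.pi fun l : s => L l n) 𝓕
      (𝓝 (.pi fun l : s => L₀ l)) :=
    ((ContinuousLinearMap.piEquivL ℂ E fun _ : s => E').continuous.tendsto _).comp
      (tendsto_pi_nhds.2 fun l : s => hL l)
  have h2 : Tendsto e 𝓕 (𝓝 (r (.pi fun l : s => L₀ l) fun l : s => v₀ l)) := by
    refine (tend_app (r1.continuousAt.tendsto.comp h1)
      (tendsto_pi_nhds.2 fun l : s => hv l)).congr' ?_
    filter_upwards [h1.eventually r2, eventually_all.2 fun l : s => he l] with n a b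
    rw [funext b]
    exact a _
  exact ⟨_, fun l => tendsto_nhds_unique_of_eventuallyEq (hv l) (tend_app (hL l) h2) (he l)⟩

theorem core₂ {L : Λ → T → E →L[ℂ] E'} {L₀ : Λ → E →L[ℂ] E'} {v : Λ → T → E'} {v₀ : Λ → E'}
    {r : T → E →L[ℂ] E''} {r₀ : E →L[ℂ] E''} {e : T → E} (hL : ∀ l, Tendsto (L l) 𝓕 (𝓝 (L₀ l)))
    (hv : ∀ l, Tendsto (v l) 𝓕 (𝓝 (v₀ l))) (hr : Tendsto r 𝓕 (𝓝 r₀))
    (hk : ∀ u, (∀ l, L₀ l u = 0) → r₀ u = 0 → u = 0) (he : ∀ l, ∀ᶠ n in 𝓕, v l n = L l n (e n))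
    (h0 : ∀ᶠ n in 𝓕, r n (e n) = 0) : ∃ e₀, ∀ l, v₀ l = L₀ l e₀ := by
  obtain ⟨e₀, h⟩ := core (𝓕 := 𝓕) (e := e) (E' := E' × E'')
    (L := fun (o : Option Λ) n => o.elim ((ContinuousLinearMap.inr ℂ E' E'').comp (r n))
      fun l => (ContinuousLinearMap.inl ℂ E' E'').comp (L l n))
    (L₀ := fun o => o.elim ((ContinuousLinearMap.inr ℂ E' E'').comp r₀)
      fun l => (ContinuousLinearMap.inl ℂ E' E'').comp (L₀ l))
    (v := fun o n => o.elim 0 fun l => (v l n, 0)) (v₀ := fun o => o.elim 0 fun l => (v₀ l, 0))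
    (Option.rec (tend_comp tendsto_const_nhds hr) fun l => tend_comp tendsto_const_nhds (hL l))
    (Option.rec tendsto_const_nhds fun l => (hv l).prodMk_nhds tendsto_const_nhds)
    (fun u h => hk u (fun l => congrArg Prod.fst (h (some l))) (congrArg Prod.snd (h none)))
    (Option.rec (h0.mono fun n a => Prod.ext rfl a.symm)
      fun l => (he l).mono fun n a => Prod.ext a rfl)
  exact ⟨e₀, fun l => congrArg Prod.fst (h (some l))⟩

/-- The differential in the second variable. -/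
def dv (G : B × U → E) (b : B) (u : U) : U →L[ℂ] E :=
  (fderiv ℂ G (b, u)).comp (ContinuousLinearMap.inr ℂ B U)

theorem dv_apply (G : B × U → E) (b : B) (u e : U) : dv G b u e = fderiv ℂ G (b, u) (0, e) := rfl

/-- Equations `G l (b, ·)` of the image of the manifold `K` under the linear embedding `J b`, reduced
at `(b₀, y₀)`. -/
structure Eqs (K : Set X) (J : B → X →L[ℂ] U) (G : Λ → B × U → E) (b₀ : B) (y₀ : X) (r : X → X) :
    Prop where
  anr : AnalyticAt ℂ r y₀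
  fix : r y₀ = y₀
  ret : ∀ᶠ z in 𝓝 y₀, r z ∈ K ∧ (z ∈ K → r z = z)
  anJ : AnalyticAt ℂ J b₀
  inj : Injective (J b₀)
  anG : ∀ l, AnalyticAt ℂ (G l) (b₀, J b₀ y₀)
  ker : ∀ u, (∀ l, dv (G l) b₀ (J b₀ y₀) u = 0) → ∃ τ, fderiv ℂ r y₀ τ = τ ∧ u = J b₀ τ

variable {K : Set X} {J : B → X →L[ℂ] U} {G : Λ → B × U → E} {b₀ : B} {y₀ : X} {r : X → X}

/-- **Limits of difference quotients are values of the differential.** -/
theorem Eqs.lim (h : Eqs K J G b₀ y₀ r) {b : T → B} {u : T → U} {t : T → ℂ} {v : Λ → T → E}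
    {v₀ : Λ → E} (hb : Tendsto b 𝓕 (𝓝 b₀)) (hu : Tendsto u 𝓕 (𝓝 (J b₀ y₀)))
    (h0 : ∀ᶠ n in 𝓕, ∀ l, ∀ y ∈ K, G l (b n, J (b n) y) = 0)
    (hv : ∀ l, Tendsto (v l) 𝓕 (𝓝 (v₀ l)))
    (he : ∀ᶠ n in 𝓕, t n ≠ 0 ∧ ∀ l, G l (b n, u n) = t n • v l n) :
    ∃ e, ∀ l, v₀ l = dv (G l) b₀ (J b₀ y₀) e := by
  have := FiniteDimensional.complete ℂ E
  have := FiniteDimensional.complete ℂ X
  obtain ⟨ρ, r1, r2⟩ := exists_an_leftInv h.anJ h.inj
  have r0 := r2.self_of_nhds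
  have c0 : AnalyticAt ℂ (fun q : B × U => ρ q.1 q.2) (b₀, J b₀ y₀) :=
    an_apply (r1.comp_of_eq analyticAt_fst rfl) analyticAt_snd
  have c2 : AnalyticAt ℂ (fun q : B × U => r (ρ q.1 q.2)) (b₀, J b₀ y₀) :=
    h.anr.comp_of_eq c0 (r0 _)
  have c3 : AnalyticAt ℂ (fun q : B × U => (q.1, J q.1 (r (ρ q.1 q.2)))) (b₀, J b₀ y₀) :=
    analyticAt_fst.prod (an_apply (h.anJ.comp_of_eq analyticAt_fst rfl) c2)
  choose A d1 d2 d3 using fun l => exists_had (h.anG l) analyticAt_id c3 rfl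
    (by simp only [r0, h.fix])
  obtain ⟨A', e1, e2, e3⟩ := exists_had h.anr c0 c2 (r0 _) (by simp only [r0, h.fix])
  have q := hb.prodMk_nhds hu
  have c4 : Tendsto (fun n => ρ (b n) (u n)) 𝓕 (𝓝 y₀) := by
    simpa only [r0, Function.comp_def] using c0.continuousAt.tendsto.comp q
  have c5 : Tendsto (fun n => r (ρ (b n) (u n))) 𝓕 (𝓝 y₀) :=
    h.fix ▸ h.anr.continuousAt.tendsto.comp c4
  refine core₂ (𝓕 := 𝓕) (e := fun n => (t n)⁻¹ • (u n - J (b n) (r (ρ (b n) (u n)))))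
    (L := fun l n => (A l (b n, u n)).comp (.inr ℂ B U)) (r := fun n => (A' (b n, u n)).comp (ρ (b n)))
    (fun l => tend_comp (d2 l ▸ (d1 l).continuousAt.tendsto.comp q) tendsto_const_nhds) hv
    (tend_comp (e1.continuousAt.tendsto.comp q) (r1.continuousAt.tendsto.comp hb))
    (fun x y z => ?_) (fun l => ?_) ?_
  · obtain ⟨τ, k, rfl⟩ := h.ker x y
    rw [show τ = 0 by simpa only [ContinuousLinearMap.comp_apply, r0, e2, k] using z, map_zero]
  · filter_upwards [h0, he, c4.eventually h.ret] with n x y w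
    have := d3 l (b n, u n)
    simp only [id, x l _ w.1, sub_zero, y.2, Prod.mk_sub_mk, sub_self] at this
    rw [map_smul, ContinuousLinearMap.comp_apply, ContinuousLinearMap.inr_apply, ← this,
      inv_smul_smul₀ y.1]
  · filter_upwards [hb.eventually r2, c4.eventually h.ret, c5.eventually h.ret] with n x y w
    have := e3 (b n, u n)
    rw [w.2 y.1, sub_self] at this
    rw [map_smul, ContinuousLinearMap.comp_apply, map_sub, x, ← this, smul_zero]

/-- **The images of the differentials along the zero set form a closed family.** -/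
theorem Eqs.clo (h : Eqs K J G b₀ y₀ r) {b : T → B} {y : T → X} {v : Λ → T → E}
    {v₀ : Λ → E} (hb : Tendsto b 𝓕 (𝓝 b₀)) (hy : Tendsto y 𝓕 (𝓝[K] y₀))
    (h0 : ∀ᶠ n in 𝓕, ∀ l, ∀ y ∈ K, G l (b n, J (b n) y) = 0)
    (hv : ∀ l, Tendsto (v l) 𝓕 (𝓝 (v₀ l)))
    (he : ∀ᶠ n in 𝓕, ∃ e, ∀ l, v l n = dv (G l) (b n) (J (b n) (y n)) e) :
    ∃ e, ∀ l, v₀ l = dv (G l) b₀ (J b₀ y₀) e := by
  have := FiniteDimensional.complete ℂ E
  have := FiniteDimensional.complete ℂ X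
  obtain ⟨ρ, r1, r2⟩ := exists_an_leftInv h.anJ h.inj
  have r0 := r2.self_of_nhds
  obtain ⟨e, he⟩ := he.choice
  obtain ⟨y', ym⟩ := tendsto_nhdsWithin_iff.1 hy
  have q : Tendsto (fun n => (b n, J (b n) (y n))) 𝓕 _ :=
    hb.prodMk_nhds (tend_app (h.anJ.continuousAt.tendsto.comp hb) y')
  have a7 : ∀ᶠ n in 𝓕, r (y n) = y n := by
    filter_upwards [y'.eventually h.ret, ym] with n a b using a.2 b
  have a8 : ∀ᶠ z in 𝓝 y₀, r (r z) = r z := by
    filter_upwards [h.ret, (h.anr.continuousAt.tendsto.mono_right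
      (congrArg 𝓝 h.fix).le).eventually h.ret] with z a b using b.2 a.1
  refine core₂ (𝓕 := 𝓕) (e := fun n => e n - J (b n) (fderiv ℂ r (y n) (ρ (b n) (e n))))
    (L := fun l n => dv (G l) (b n) (J (b n) (y n))) (r := fun n => (fderiv ℂ r (y n)).comp (ρ (b n)))
    (fun l => tend_comp ((h.anG l).fderiv.continuousAt.tendsto.comp q) tendsto_const_nhds) hv
    (tend_comp (h.anr.fderiv.continuousAt.tendsto.comp y') (r1.continuousAt.tendsto.comp hb))
    (fun x y z => ?_) (fun l => ?_) ?_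
  · obtain ⟨τ, k, rfl⟩ := h.ker x y
    rw [show τ = 0 by simpa only [ContinuousLinearMap.comp_apply, r0, k] using z, map_zero]
  · filter_upwards [h0, he, a7, y'.eventually h.anr.eventually_analyticAt,
      q.eventually (h.anG l).eventually_analyticAt, y'.eventually h.ret.eventually_nhds]
      with n x₁ x₂ x₃ x₄ x₅ x₆
    have k : HasFDerivAt (fun z => G l (b n, J (b n) (r z))) _ (y n) :=
      HasFDerivAt.comp (g := G l) _ (x₃.symm ▸ x₅.differentiableAt.hasFDerivAt)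
        ((hasFDerivAt_const _ _).prodMk ((J (b n)).hasFDerivAt.comp _
          x₄.differentiableAt.hasFDerivAt))
    have k := congr($(k.unique ((hasFDerivAt_const (0 : E) _).congr_of_eventuallyEq
      (x₆.mono fun z a => x₁ l _ a.1))) (ρ (b n) (e n)))
    rw [x₃] at k
    rw [map_sub, x₂ l, eq_comm, sub_eq_self]
    exact k
  · filter_upwards [hb.eventually r2, a7, y'.eventually h.anr.eventually_analyticAt,
      y'.eventually a8.eventually_nhds] with n x₁ x₃ x₄ x₆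
    have k := EventuallyEq.fderiv_eq (𝕜 := ℂ) x₆
    rw [fderiv_comp_an (g := r) (f := r) (x₃.symm ▸ x₄) x₄, x₃] at k
    rw [ContinuousLinearMap.comp_apply, map_sub, x₁, map_sub, sub_eq_zero]
    exact (congr($k _)).symm

end Vale.Agent.P269L.K.Ob
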