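import Vale.Agent.P269L.K.Ob36a
import Vale.Agent.P269L.K.Id0

/-!
# The joint system of equations of two presentations
-/

set_option linter.unusedSectionVars false
set_option linter.unusedVariables false

noncomputable section

namespace Vale.Agent.P269L.K.Ob

open Set Function Topology Filter P269 P269.Holo I

variable {A B W E V P A₀ B₀ W₀ E₀ V₀ P₀ X U ι ι₀ Λ Λ₀ T : Type} [NormedRing A]
  [NormedAlgebra ℂ A] [NormedRing B] [NormedAlgebra ℂ B] [NormedAddCommGroup W] [NormedSpace ℂ W]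
  [NormedAddCommGroup E] [NormedSpace ℂ E] [NormedAddCommGroup V] [NormedSpace ℂ V]
  [NormedAddCommGroup P] [NormedSpace ℂ P] [NormedRing A₀] [NormedAlgebra ℂ A₀] [NormedRing B₀]
  [NormedAlgebra ℂ B₀] [NormedAddCommGroup W₀] [NormedSpace ℂ W₀] [NormedAddCommGroup E₀]
  [NormedSpace ℂ E₀] [NormedAddCommGroup V₀] [NormedSpace ℂ V₀] [NormedAddCommGroup P₀]
  [NormedSpace ℂ P₀] [NormedAddCommGroup X] [NormedSpace ℂ X] [Fintype ι] [Fintype ι₀] {n : ℕ}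
  {K : Set X} {TK : X → Set X} [FiniteDimensional ℂ E] [FiniteDimensional ℂ X]
  [FiniteDimensional ℂ V] [FiniteDimensional ℂ E₀] [FiniteDimensional ℂ V₀] {𝓕 : Filter T} [𝓕.NeBot]

theorem dv_of {G : E × V → X} {b : E} {u : V} (hG : DifferentiableAt ℂ G (b, u)) {L : V →L[ℂ] X}
    (h : HasFDerivAt (fun u => G (b, u)) L u) : dv G b u = L :=
  (hG.hasFDerivAt.comp u (hasFDerivAt_prodMk_right b u)).unique h

theorem has_dv {G : E × V → X} {b : E} {u : V} (hG : DifferentiableAt ℂ G (b, u)) :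
    HasFDerivAt (fun u => G (b, u)) (dv G b u) u :=
  hG.hasFDerivAt.comp u (hasFDerivAt_prodMk_right b u)

/-- Two embeddings of the target and the test vectors. -/
structure Tw (D : Dat A B W E V P X ι Λ n) (D₀ : Dat A₀ B₀ W₀ E₀ V₀ P₀ X ι₀ Λ₀ n) (K : Set X)
    (TK : X → Set X) (ap : U → V₀ →L[ℂ] X) (vl : U → E₀ → ℂ) : Prop where
  emb : ∃ χ, D.Emb χ K TK
  emb₀ : ∃ χ, D₀.Emb χ K TK
  rt : Rt K TK
  anv : ∀ μ e, AnalyticAt ℂ (vl μ) e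
  apj : ∀ μ e y, ap μ (D₀.j (e, y)) = vl μ e • y

/-- The triple `(v, v₀, w)` is a value of the differential. -/
def Im (D : Dat A B W E V P X ι Λ n) (D₀ : Dat A₀ B₀ W₀ E₀ V₀ P₀ X ι₀ Λ₀ n) (ap : U → V₀ →L[ℂ] X)
    (vl : U → E₀ → ℂ) (c : E) (c₀ : E₀) (l : ℂ) (s : V) (s₀ : V₀) (v : Λ → ℂ) (v₀ : Λ₀ → ℂ)
    (w : U → V) : Prop :=
  ∃ e e₀, (∀ k, v k = fderiv ℂ (D.H k) (c, s) (0, e)) ∧ (∀ k, v₀ k = fderiv ℂ (D₀.H k) (c₀, s₀) (0, e₀)) ∧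
    ∀ μ, w μ = l • D.j (c, ap μ e₀) - vl μ c₀ • e

variable {D : Dat A B W E V P X ι Λ n} {D₀ : Dat A₀ B₀ W₀ E₀ V₀ P₀ X ι₀ Λ₀ n} {ap : U → V₀ →L[ℂ] X}
  {vl : U → E₀ → ℂ}

theorem H_j {χ} (hE : D.Emb χ K TK) (hK : Rt K TK) {c : E} (hc : Injective fun u => D.τ u c) {y : X}
    (hy : y ∈ K) (k : Λ) : D.H k (c, D.j (c, y)) = 0 :=
  have e := (hE.2.2 c).2.2 hc
  (e.2.1 _ fun u => hK.ne _ hy (e.1 (u.trans (hE.2.2 _).1.map_zero.symm))).2 ⟨_, hy, rfl⟩ k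

variable (D D₀ ap vl) in
/-- The joint equations. -/
def eqs (k : Λ ⊕ Λ₀ ⊕ U) (p : (E × E₀ × ℂ) × V × V₀) : ℂ × V :=
  k.elim (fun k => (D.H k (p.1.1, p.2.1), 0)) (Sum.elim (fun k => (D₀.H k (p.1.2.1, p.2.2), 0))
    fun μ => (0, p.1.2.2 • D.j (p.1.1, ap μ p.2.2) - vl μ p.1.2.1 • p.2.1))

/-- The joint values. -/
def vls (v : Λ → ℂ) (v₀ : Λ₀ → ℂ) (w : U → V) (k : Λ ⊕ Λ₀ ⊕ U) : ℂ × V :=
  k.elim (fun k => (v k, 0)) (Sum.elim (fun k => (v₀ k, 0)) fun μ => (0, w μ))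

namespace Tw

variable (h : Tw D D₀ K TK ap vl)
include h

theorem an (k p) : AnalyticAt ℂ (eqs D D₀ ap vl k) p := by
  have := FiniteDimensional.complete ℂ V
  obtain ⟨_, a⟩ := h.emb
  obtain ⟨_, b⟩ := h.emb₀
  have a1 := a.1
  refine an_of_diff ?_ p
  rcases k with k | k | μ
  · have := a.2.1 k
    exact Differentiable.prodMk (by fun_prop) (differentiable_const _)
  · have := b.2.1 k
    exact Differentiable.prodMk (by fun_prop) (differentiable_const _)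
  · have : Differentiable ℂ (vl μ) := fun e => (h.anv μ e).differentiableAt
    exact Differentiable.prodMk (differentiable_const _) (by fun_prop)

theorem dv_eq (b : E × E₀ × ℂ) (u e : V × V₀) (k) : dv (eqs D D₀ ap vl k) b u e =
    vls (fun k => fderiv ℂ (D.H k) (b.1, u.1) (0, e.1)) (fun k => fderiv ℂ (D₀.H k) (b.2.1, u.2) (0, e.2))
      (fun μ => b.2.2 • D.j (b.1, ap μ e.2) - vl μ b.2.1 • e.1) k := by
  obtain ⟨_, a⟩ := h.emb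
  obtain ⟨_, a₀⟩ := h.emb₀
  have d := (h.an k (b, u)).differentiableAt
  rcases k with k | k | μ
  · exact congr($(dv_of d (((has_dv (a.2.1 k (b.1, u.1))).comp u hasFDerivAt_fst).prodMk
      (hasFDerivAt_const _ _))) e)
  · exact congr($(dv_of d (((has_dv (a₀.2.1 k (b.2.1, u.2))).comp u hasFDerivAt_snd).prodMk
      (hasFDerivAt_const _ _))) e)
  · obtain ⟨J, -, j2⟩ := exists_clm a.1 fun c => (a.2.2 c).1
    have k := ((b.2.2 • (J b.1).comp ((ap μ).comp (.snd ℂ V V₀)) -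
      vl μ b.2.1 • ContinuousLinearMap.fst ℂ V V₀).hasFDerivAt (x := u))
    refine congr($(dv_of d ((hasFDerivAt_const (0 : ℂ) u).prodMk (k.congr_of_eventuallyEq
      (.of_forall fun z => ?_)))) e).trans (Prod.ext rfl ?_) <;> simp [vls, j2]

theorem im_iff {b : E × E₀ × ℂ} {u : V × V₀} {v v₀ w} :
    (∃ e, ∀ k, vls v v₀ w k = dv (eqs D D₀ ap vl k) b u e) ↔
      Im D D₀ ap vl b.1 b.2.1 b.2.2 u.1 u.2 v v₀ w := by
  simp only [h.dv_eq]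
  exact ⟨fun ⟨e, a⟩ => ⟨e.1, e.2, fun k => congrArg Prod.fst (a (.inl k)),
    fun k => congrArg Prod.fst (a (.inr (.inl k))), fun k => congrArg Prod.snd (a (.inr (.inr k)))⟩,
    fun ⟨e, e₀, a, b, c⟩ => ⟨(e, e₀), Sum.rec (fun k => Prod.ext (a k) rfl)
      (Sum.rec (fun k => Prod.ext (b k) rfl) fun k => Prod.ext rfl (c k))⟩⟩

theorem zero {b : E × E₀ × ℂ} (h1 : Injective fun u => D.τ u b.1) (h2 : Injective fun u => D₀.τ u b.2.1)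
    (h3 : b.2.2 ≠ 0) (k) {y : X} (hy : y ∈ K) :
    eqs D D₀ ap vl k (b, D.j (b.1, b.2.2 • y), D₀.j (b.2.1, y)) = 0 := by
  obtain ⟨_, a⟩ := h.emb
  obtain ⟨_, a₀⟩ := h.emb₀
  rcases k with k | k | μ
  · exact Prod.ext (H_j a h.rt h1 (h.rt.smul _ h3 _ hy) k) rfl
  · exact Prod.ext (H_j a₀ h.rt h2 hy k) rfl
  · refine Prod.ext rfl (sub_eq_zero.2 ?_)
    have l := (a.2.2 b.1).1.map_smul
    simp only [h.apj, l]
    exact smul_comm _ _ _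

theorem exists_eqs {b : E × E₀ × ℂ} (h2 : Injective fun u => D₀.τ u b.2.1)
    (h4 : ∃ μ, vl μ b.2.1 ≠ 0) {y : X} (hy : y ∈ K) :
    ∃ (J : E × E₀ × ℂ → X →L[ℂ] V × V₀) (r : X → X), Eqs K J (eqs D D₀ ap vl) b y r ∧
      ∀ b y, J b y = (D.j (b.1, b.2.2 • y), D₀.j (b.2.1, y)) := by
  obtain ⟨_, a⟩ := h.emb
  obtain ⟨_, a₀⟩ := h.emb₀
  obtain ⟨J, j1, j2⟩ := exists_clm a.1 fun c => (a.2.2 c).1
  obtain ⟨J₀, i1, i2⟩ := exists_clm a₀.1 fun c => (a₀.2.2 c).1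
  obtain ⟨r, r1, r2, r3, r4⟩ := h.rt.retr y hy
  have := FiniteDimensional.complete ℂ V
  have := FiniteDimensional.complete ℂ V₀
  have e : ∀ (b : E × E₀ × ℂ) y, (b.2.2 • J b.1).prod (J₀ b.2.1) y =
      (D.j (b.1, b.2.2 • y), D₀.j (b.2.1, y)) := fun b y => by
    rw [← j2, ← i2, map_smul]
    rfl
  have k := (a₀.2.2 _).2.2 h2
  refine ⟨fun b => (b.2.2 • J b.1).prod (J₀ b.2.1), r, ⟨r1, r2, r3, analyticAt_of_apply fun y =>
    ((analyticAt_snd.comp analyticAt_snd).smul (an_apply ((j1 _).comp analyticAt_fst)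
      analyticAt_const)).prod (an_apply ((i1 _).comp (analyticAt_fst.comp analyticAt_snd))
        analyticAt_const), fun u v w => k.1 ?_, fun k => h.an k _, fun u w => ?_⟩, e⟩
  · exact congrArg Prod.snd ((e b u).symm.trans (w.trans (e b v)))
  · simp only [h.dv_eq, e] at w
    obtain ⟨τ, t1, t2⟩ := (k.2.2 y hy u.2).1 fun l => congrArg Prod.fst (w (.inr (.inl l)))
    obtain ⟨μ, m⟩ := h4
    refine ⟨τ, r4 τ t1, (Prod.ext (smul_right_injective V m ?_) t2.symm).trans (e b τ).symm⟩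
    have := sub_eq_zero.1 (congrArg Prod.snd (w (.inr (.inr μ))))
    have l := (a.2.2 b.1).1.map_smul
    simp only [← t2, h.apj, l] at this ⊢
    rw [← this, smul_comm]

variable {c : T → E} {c₀ : T → E₀} {l : T → ℂ} {v : Λ → T → ℂ} {v₀ : Λ₀ → T → ℂ} {w : U → T → V}
  {c' : E} {c₀' : E₀} {l' : ℂ} {y' : X} {v' : Λ → ℂ} {v₀' : Λ₀ → ℂ} {w' : U → V}
  (hc : Tendsto c 𝓕 (𝓝 c')) (hc₀ : Tendsto c₀ 𝓕 (𝓝 c₀')) (hl : Tendsto l 𝓕 (𝓝 l')) (l0 : l' ≠ 0)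
  (hv : ∀ k, Tendsto (v k) 𝓕 (𝓝 (v' k))) (hv₀ : ∀ k, Tendsto (v₀ k) 𝓕 (𝓝 (v₀' k)))
  (hw : ∀ k, Tendsto (w k) 𝓕 (𝓝 (w' k))) (h1 : ∀ᶠ n in 𝓕, Injective fun u => D.τ u (c n))
  (h2 : ∀ᶠ n in 𝓕, Injective fun u => D₀.τ u (c₀ n)) (h3 : Injective fun u => D₀.τ u c₀')
  (h4 : ∃ μ, vl μ c₀' ≠ 0) (hy : y' ∈ K)
include hc hc₀ hl l0 hv hv₀ hw h1 h2 h3 h4 hy

theorem tend_vls (k) : Tendsto (fun n => vls (v · n) (v₀ · n) (w · n) k) 𝓕 (𝓝 (vls v' v₀' w' k)) := by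
  rcases k with k | k | μ
  exacts [(hv k).prodMk_nhds tendsto_const_nhds, (hv₀ k).prodMk_nhds tendsto_const_nhds,
    tendsto_const_nhds.prodMk_nhds (hw μ)]

/-- **Closedness.** -/
theorem clo {y : T → X} (ty : Tendsto y 𝓕 (𝓝[K] y')) (he : ∀ᶠ n in 𝓕, Im D D₀ ap vl (c n) (c₀ n) (l n)
      (D.j (c n, l n • y n)) (D₀.j (c₀ n, y n)) (v · n) (v₀ · n) (w · n)) :
    Im D D₀ ap vl c' c₀' l' (D.j (c', l' • y')) (D₀.j (c₀', y')) v' v₀' w' := by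
  obtain ⟨J, r, a, e⟩ := h.exists_eqs (b := (c', c₀', l')) h3 h4 hy
  have := a.clo (b := fun n => (c n, c₀ n, l n)) (hc.prodMk_nhds (hc₀.prodMk_nhds hl)) ty (by
    filter_upwards [h1, h2, hl.eventually_ne l0] with n x y z k _ m
    rw [e]
    exact h.zero (b := (c n, c₀ n, l n)) x y z k m)
    (h.tend_vls hc hc₀ hl l0 hv hv₀ hw h1 h2 h3 h4 hy) (he.mono fun n x => h.im_iff.2 (e _ _ ▸ x))
  rw [e] at this
  exact h.im_iff.1 this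

/-- **Limits.** -/
theorem lim {s : T → V} {s₀ : T → V₀} {t : T → ℂ} (hs : Tendsto s 𝓕 (𝓝 (D.j (c', l' • y'))))
    (hs₀ : Tendsto s₀ 𝓕 (𝓝 (D₀.j (c₀', y')))) (he : ∀ᶠ n in 𝓕, t n ≠ 0 ∧
      (∀ k, D.H k (c n, s n) = t n • v k n) ∧ (∀ k, D₀.H k (c₀ n, s₀ n) = t n • v₀ k n) ∧
      ∀ μ, l n • D.j (c n, ap μ (s₀ n)) - vl μ (c₀ n) • s n = t n • w μ n) :
    Im D D₀ ap vl c' c₀' l' (D.j (c', l' • y')) (D₀.j (c₀', y')) v' v₀' w' := by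
  obtain ⟨J, r, a, e⟩ := h.exists_eqs (b := (c', c₀', l')) h3 h4 hy
  have := a.lim (b := fun n => (c n, c₀ n, l n)) (u := fun n => (s n, s₀ n)) (t := t)
    (hc.prodMk_nhds (hc₀.prodMk_nhds hl)) (e _ _ ▸ hs.prodMk_nhds hs₀) (by
    filter_upwards [h1, h2, hl.eventually_ne l0] with n x y z k _ m
    rw [e]
    exact h.zero (b := (c n, c₀ n, l n)) x y z k m)
    (h.tend_vls hc hc₀ hl l0 hv hv₀ hw h1 h2 h3 h4 hy) (he.mono fun n x => ⟨x.1, Sum.rec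
      (fun k => Prod.ext (x.2.1 k) (smul_zero _).symm) (Sum.rec
        (fun k => Prod.ext (x.2.2.1 k) (smul_zero _).symm)
        fun k => Prod.ext (smul_zero _).symm (x.2.2.2 k))⟩)
  rw [e] at this
  exact h.im_iff.1 this

end Tw

end Vale.Agent.P269L.K.Ob
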