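import Vale.Agent.P269L.I.Onto
import Vale.Agent.P269L.I.Hol
import Vale.Agent.P269L.I.Crv
import Vale.Agent.P269.Cv.Emb
import Vale.Agent.P269.Cv.Norm

/-!
# The Cousin problem on the multicone of a curve
-/

set_option linter.unusedSectionVars false

noncomputable section

namespace Vale.Agent.P269L.K.O7

open Set Function Topology Filter Module P269 P269.Cv P269.Cv.Dict I

variable {ι F : Type} [Fintype ι] {M : ι → ℕ} [NormedAddCommGroup F] [NormedSpace ℂ F] {o : ι}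
  {C : Set (V M)} {a : ι → ℕ} {g : ℤ} {m : ι → ℤ}

variable (C a) in
/-- homogeneous of degree `a` on `C` -/
def Hm (ψ : V M → F) : Prop := ∀ y ∈ C, ∀ t : ι → ℂ, IsUnit t → ψ (t • y) = chr a t • ψ y

theorem Hm.sub {ψ ψ' : V M → F} (h : Hm C a ψ) (h' : Hm C a ψ') : Hm C a (ψ - ψ') :=
  fun y hy t ht => by simp only [Pi.sub_apply, h y hy t ht, h' y hy t ht, smul_sub]

theorem an_chr (a : ι → ℕ) (t : ι → ℂ) : AnalyticAt ℂ (chr a) t :=
  Finset.analyticAt_fun_prod _ fun i _ => (analyticAt_pi_iff.1 analyticAt_id i).pow _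

theorem chr_ne {t : ι → ℂ} (ht : IsUnit t) : chr a t ≠ 0 :=
  Finset.prod_ne_zero_iff.2 fun i _ => pow_ne_zero _ (isUnit_t.1 ht i)

section

variable {Y : Type} [TopologicalSpace Y] [T2Space Y] [CompactSpace Y] {R : RS Y}
  {N : Finset (Y × Y)} {A : ι → LB R} {π : Y → V M} (h : Cv.Par o C N A π)
include h

theorem loc_hm {ψ : V M → F} (hψ : Hm C a ψ) (l : F →ₗ[ℂ] ℂ) (x : Y) (z : ℂ) :
    (bz A fun i => a i).loc (fun y => l (ψ (π y))) x z = l (ψ (br A π x z)) := by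
  simpa using (h.loc_bz (a := fun i => a i) (f := fun c => l (ψ c)) (fun y t ht => by
    rw [hψ _ (h.mem y) t (isUnit_t.2 ht), map_smul, chr_eq]; rfl) x z (t := 1)
    fun _ => one_ne_zero).symm

end

/-- **`H¹(O(a) ⊗ F) = 0`**: a torsor of homogeneous germs has a global section. -/
theorem cousinC [FiniteDimensional ℂ F] (hC : IsCurve o g m C) (ha : a ≠ 0)
    {B : V M → (V M → F) → Prop} (h1 : ∀ c ∈ C, ∃ ψ, B c ψ)
    (h2 : ∀ c ∈ C, ∀ ψ, B c ψ → ∀ᶠ y in 𝓝[C] c, B y ψ)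
    (h3 : ∀ c ∈ C, ∀ ψ, B c ψ → ∀ t : ι → ℂ, IsUnit t → B (t • c) ψ)
    (h4 : ∀ c ∈ C, ∀ ψ ψ', B c ψ → B c ψ' → ∃ k, Ext C (ψ - ψ') c k)
    (h5 : ∀ c ∈ C, ∀ ψ, B c ψ → Hm C a ψ) :
    ∃ e, Hm C a e ∧ ∀ c ∈ C, ∃ ψ, B c ψ ∧ ∃ k, Ext C (e - ψ) c k := by
  classical
  obtain ⟨Y, _, _, _, R, N, A, π, h⟩ := hC.isNodal.exists_par
  choose! ψ hψ using h1
  have hm := fun y => h5 _ (h.mem y) _ (hψ _ (h.mem y))
  let f : Dual ℂ F →ₗ[ℂ] Y → Y → ℂ :=
    { toFun := fun l x y => l (ψ (π x) (π y))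
      map_add' := fun _ _ => rfl
      map_smul' := fun _ _ => rfl }
  obtain ⟨Z, hZ, hs⟩ := cousin (L := bz A fun i => a i) (f := f) N fun l x => by
    filter_upwards [R.src_nhds x, (R.tends_e x).eventually ((tends_C h x).eventually
      (h2 _ (h.mem x) _ (hψ _ (h.mem x))))] with y hy k
    have k' := h3 _ (h.br_mem x _) _ k _ (isUnit_t.2 fun i => (A i).ne x y)
    rw [← br_e (A := A) (π := π) hy] at k'
    obtain ⟨u, u1, u2⟩ := h4 _ (h.mem y) _ _ k' (hψ _ (h.mem y))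
    refine ((l.toContinuousLinearMap.analyticAt _).comp
      (u1.comp_of_eq (an_br h.sec y) (br_zero y))).congr (((tends_C h y).eventually u2).mono
        fun z e => ?_)
    have := loc_hm h ((hm x).sub (hm y)) l y z
    simp only [Pi.sub_apply, map_sub] at this e
    refine Eq.trans ?_ this.symm
    rw [← map_sub, e]
    rfl
  rw [(h.numbers hC).2.2 a ha, add_zero] at hZ
  obtain rfl : Z = ⊤ := Submodule.eq_top_of_finrank_eq
    (le_antisymm (Submodule.finrank_le _) (by exact_mod_cast hZ))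
  let b := finBasis ℂ F
  choose G G1 G2 using fun i => hs (b.coord i) trivial
  have G3 : ∀ {x y}, x = y ∨ (x, y) ∈ N ∨ (y, x) ∈ N → ∀ i, G i x = G i y := by
    have : ∀ n ∈ N, ∀ i, G i n.1 = G i n.2 := fun n hn i => by
      have := G2 i n hn
      simp only [f, LinearMap.coe_mk, AddHom.coe_mk, node_eq h.sec hn] at this
      exact sub_left_injective this
    rintro x y (rfl | k | k) i
    exacts [rfl, this _ k i, (this _ k i).symm]
  obtain ⟨e, he⟩ : ∃ e : V M → F, ∀ x (t : ι → ℂ), (∀ i, t i ≠ 0) →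
      e (t • π x) = chr a t • ∑ i, G i x • b i := by
    choose y σ k1 k2 using fun c => (h.img c).1
    refine ⟨fun c => if hc : c ∈ C then chr a (σ c hc) • ∑ i, G i (y c hc) • b i else 0,
      fun x t ht => ?_⟩
    have k3 := k2 _ (h.smul_mem x ht)
    have k4 := h.fibre ht k3
    rw [← h.π_eq k4] at k3
    simp only [dif_pos (h.smul_mem x ht), ← smul_cancel (h.ne x) k3, ← G3 k4]
  have e1 : ∀ x, e (π x) = ∑ i, G i x • b i := fun x => by
    simpa [chr] using he x 1 fun _ => one_ne_zero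
  have e2 : Hm C a e := fun c hc t ht => by
    obtain ⟨x, σ, hσ, rfl⟩ := (h.img c).1 hc
    rw [smul_smul, he _ (t * σ) fun i => mul_ne_zero (isUnit_t.1 ht i) (hσ i), he _ _ hσ, smul_smul]
    simp only [chr, Pi.mul_apply, mul_pow, Finset.prod_mul_distrib]
  refine ⟨e, e2, fun c hc => ?_⟩
  obtain ⟨x, σ, hσ, rfl⟩ := (h.img c).1 hc
  have e3 := e2.sub (hm x)
  refine ⟨_, h3 _ (h.mem x) _ (hψ _ (h.mem x)) σ (isUnit_t.2 hσ),
    ext_br h.isNodal.nod (r := fun y v => (e - ψ (π x)) y = v) (r' := fun y v => (e - ψ (π x)) y = v)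
      (e := e - ψ (π x)) (χ := fun q => chr a q.1 • q.2) hc
      (((an_chr a _).comp analyticAt_fst).smul analyticAt_snd)
      (fun y hy t ht v k => k ▸ e3 y hy t (isUnit_t.2 ht)) fun γ hγ k => ?_⟩
  obtain ⟨x', s, φ, s1, s2, s3, s4, s5⟩ := h.factor hγ.holo hγ.mem
  have k1 : π x = π x' := h.π_eq (h.fibre hσ (k.symm.trans (by
    rw [s5.self_of_nhds, s4, br_zero])))
  have k2 : AnalyticAt ℂ (fun z => (e - ψ (π x)) (br A π x' z)) 0 := by
    have : (fun z => (e - ψ (π x)) (br A π x' z)) = fun z => ∑ i,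
        (bz A fun i => a i).loc (G i - f (b.coord i) x') x' z • b i := funext fun z => by
      rw [← b.sum_repr ((e - ψ (π x)) _)]
      refine Finset.sum_congr rfl fun i _ => congrArg (· • _) ?_
      refine (loc_hm h e3 (b.coord i) x' z).symm.trans (congrArg (LB.loc _ · x' z) (funext fun y => ?_))
      simp [e1, f, k1, Finsupp.single_apply]
    rw [this]
    exact Finset.analyticAt_fun_sum _ fun i _ => AnalyticAt.smul (G1 i x') analyticAt_const
  have k3 : ∀ᶠ z in 𝓝 0, (e - ψ (π x)) (γ z) =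
      chr a (s z) • (e - ψ (π x)) (br A π x' (φ z)) := by
    filter_upwards [s5, eventually_all.2 fun i =>
      (analyticAt_pi_iff.1 s1 i).continuousAt.eventually_ne (s2 i)] with z u1 u2
    rw [u1, e3 _ (h.br_mem _ _) _ (isUnit_t.2 u2)]
  exact ⟨_, ((an_chr a _).comp s1).smul (k2.comp_of_eq s3 s4), k ▸ k3.self_of_nhds.symm, k3⟩

/-- a homogeneous representative -/
theorem exists_hm (hC : Base.Nod o C) {T : V M → Set F} {e : V M → F}
    (he : ∀ c ∈ C, ∀ t, IsUnit t → e (t • c) - chr a t • e c ∈ T (t • c)) :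
    ∃ e', Hm C a e' ∧ ∀ c ∈ C, e c - e' c ∈ T c := by
  classical
  let r : V M → V M := fun c => Classical.epsilon fun y => Base.Orb y c
  have h1 : ∀ c, Base.Orb (r c) c := fun c =>
    Classical.epsilon_spec (p := fun y => Base.Orb y c) ⟨c, .refl c⟩
  choose σ h2 h3 using h1
  have h4 : ∀ c ∈ C, r c ∈ C := fun c hc => hC.orb hc (Base.Orb.symm ⟨_, h2 c, h3 c⟩)
  refine ⟨fun c => chr a (σ c) • e (r c), fun c hc t ht => ?_, fun c hc => ?_⟩
  · have k : r (t • c) = r c := congrArg Classical.epsilon (funext fun y => propext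
      ⟨fun u => u.trans (Base.Orb.symm ⟨t, isUnit_t.1 ht, rfl⟩),
        fun u => u.trans ⟨t, isUnit_t.1 ht, rfl⟩⟩)
    have k2 : σ (t • c) = t * σ c := smul_cancel (hC.ne_zero _ (h4 c hc)) (by
      rw [mul_smul, ← h3 c, ← k, ← h3])
    simp only [k, k2, smul_smul, chr, Pi.mul_apply, mul_pow, Finset.prod_mul_distrib]
  · have := he _ (h4 c hc) _ (isUnit_t.2 (h2 c))
    rwa [← h3 c] at this

/-- a homogeneous germ -/
theorem exists_hm_germ {c : V M} (hc : ∀ i, c i ≠ 0) :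
    ∃ s : V M → ι → ℂ, AnalyticAt ℂ s c ∧ s c = 1 ∧ ∀ (t : ι → ℂ) y, s (t • y) = t * s y := by
  choose l hl using fun i => SeparatingDual.exists_eq_one (R := ℂ) (hc i)
  exact ⟨fun y i => l i (y i), analyticAt_pi_iff.2 fun i =>
    ((l i).analyticAt _).comp (analyticAt_pi_iff.1 analyticAt_id i), funext hl,
    fun t y => funext fun i => map_smul (l i) _ _⟩

variable {F' : Type} [NormedAddCommGroup F'] [NormedSpace ℂ F'] {a' : ι → ℕ}

/-- **Sections lift along `0 → F'(a') → (F(a) × F'(a')) / T → F(a) / T → 0`.** -/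
theorem split [FiniteDimensional ℂ F] [FiniteDimensional ℂ F'] (hC : IsCurve o g m C) (ha : a' ≠ 0)
    {T : V M → Submodule ℂ (F × F')}
    (h1 : ∀ c ∈ C, ∀ t, IsUnit t → ∀ w ∈ T c, (chr a t • w.1, chr a' t • w.2) ∈ T (t • c))
    (h2 : ∀ c ∈ C, ∃ L : V M → F →L[ℂ] F', AnalyticAt ℂ L c ∧
      ∀ᶠ y in 𝓝[C] c, ∀ w ∈ T y, w.2 = L y w.1) {e : V M → F}
    (he : Sec (sm M) C (fun t w => chr a t • w) (fun c => Prod.fst '' (T c : Set (F × F'))) e) :
    ∃ e₁ e₂, Hm C a e₁ ∧ Hm C a' e₂ ∧ ∀ c ∈ C, e c - e₁ c ∈ Prod.fst '' (T c : Set (F × F')) ∧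
      ∃ k : V M → F × F', AnalyticAt ℂ k c ∧ ∀ᶠ y in 𝓝[C] c, (e₁ y, e₂ y) - k y ∈ T y := by
  classical
  have := FiniteDimensional.complete ℂ F
  obtain ⟨e₁, m1, m2⟩ := exists_hm (a := a) (e := e) hC.nod
    (T := fun c => Prod.fst '' (T c : Set (F × F'))) fun c hc => (he c hc).1
  have un : ∀ c ∈ C, ∀ u v v', (u, v) ∈ T c → (u, v') ∈ T c → v = v' := fun c hc u v v' k k' =>
    let ⟨_, _, l⟩ := h2 c hc
    (l.self_of_nhdsWithin hc _ k).trans (l.self_of_nhdsWithin hc _ k').symm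
  refine (cousinC hC ha (B := fun c ψ => Hm C a' ψ ∧ ∃ k, AnalyticAt ℂ k c ∧
      ∀ᶠ y in 𝓝[C] c, (e₁ y - k y, ψ y) ∈ T y) (fun c hc => ?_) ?_ ?_ ?_ fun _ _ _ k => k.1).elim
    fun e₂ m => ⟨e₁, e₂, m1, m.1, fun c hc => ⟨m2 c hc, ?_⟩⟩
  · obtain ⟨k, k1, k2⟩ := (he c hc).2
    obtain ⟨s, s1, s2, s3⟩ := exists_hm_germ (hC.ne_zero c hc)
    have s4 : AnalyticAt ℂ (fun y => (s y)⁻¹ • y) c := an_smul (analyticAt_pi_iff.2 fun i =>
      (analyticAt_pi_iff.1 s1 i).inv (by simp [s2])) analyticAt_id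
    have s5 : (s c)⁻¹ • c = c := by simp [s2]
    have s6 : ∀ᶠ y in 𝓝 c, ∀ i, s y i ≠ 0 := eventually_all.2 fun i =>
      (analyticAt_pi_iff.1 s1 i).continuousAt.eventually_ne (by simp [s2])
    let k' := fun y => chr a (s y) • k ((s y)⁻¹ • y)
    have k3 : Hm C a (e₁ - k') := m1.sub fun y _ t ht => by
      have : (t * s y)⁻¹ • t • y = (s y)⁻¹ • y := by
        rw [mul_inv, mul_comm, mul_smul, inv_smul (isUnit_t.1 ht)]
      simp only [k', s3, this, smul_smul, chr, Pi.mul_apply, mul_pow, Finset.prod_mul_distrib]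
    let ψ := fun y => if h : ∃ v, ((e₁ - k') y, v) ∈ T y then h.choose else 0
    have k4 : ∀ y v, ((e₁ - k') y, v) ∈ T y → ((e₁ - k') y, ψ y) ∈ T y := fun y v u => by
      have u' : ∃ v, ((e₁ - k') y, v) ∈ T y := ⟨v, u⟩
      simp only [ψ, dif_pos u']
      exact u'.choose_spec
    refine ⟨ψ, fun y hy t ht => ?_, k', ((an_chr a _).comp s1).smul (k1.comp_of_eq s4 s5), ?_⟩
    · have hy' := hC.cone t (isUnit_t.1 ht) y hy
      by_cases u : ∃ v, ((e₁ - k') y, v) ∈ T y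
      · have := h1 y hy t ht _ (k4 y _ u.choose_spec)
        rw [← k3 y hy t ht] at this
        exact un _ hy' _ _ _ (k4 _ _ this) this
      · have u' : ¬∃ v, ((e₁ - k') (t • y), v) ∈ T (t • y) := fun ⟨v, u'⟩ => u (by
          have := h1 _ hy' _ ht.inv _ u'
          rw [← k3 _ hy' _ ht.inv, inv_smul (isUnit_t.1 ht)] at this
          exact ⟨_, this⟩)
        simp only [ψ, dif_neg u, dif_neg u', smul_zero]
    · have s7 : Tendsto (fun y => (s y)⁻¹ • y) (𝓝[C] c) (𝓝[C] c) :=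
        tendsto_nhdsWithin_iff.2 ⟨(s5 ▸ s4.continuousAt.tendsto :).mono_left nhdsWithin_le_nhds, by
          filter_upwards [nhdsWithin_le_nhds s6, self_mem_nhdsWithin] with y u hy
          exact hC.cone _ (fun i => inv_ne_zero (u i)) y hy⟩
      filter_upwards [s7.eventually k2, s7.eventually self_mem_nhdsWithin, nhdsWithin_le_nhds s6]
        with y ⟨w, w1, w2⟩ hy u
      obtain ⟨w', w3, w4⟩ := m2 _ hy
      have := h1 _ hy _ (isUnit_t.2 u) _ (sub_mem w1 w3)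
      rw [Prod.fst_sub, w2, w4, sub_sub_sub_cancel_left, smul_sub, ← m1 _ hy _ (isUnit_t.2 u),
        smul_inv u] at this
      exact k4 _ _ this
  · rintro c hc ψ ⟨k1, k, k2, k3⟩
    filter_upwards [nhdsWithin_le_nhds k2.eventually_analyticAt,
      nhdsWithin_le_nhds (eventually_nhds_nhdsWithin.2 k3)] with y u u'
    exact ⟨k1, k, u, u'⟩
  · rintro c hc ψ ⟨k1, k, k2, k3⟩ t ht
    have ht' := isUnit_t.1 ht
    have s4 : AnalyticAt ℂ (fun y : V M => t⁻¹ • y) (t • c) := an_smul analyticAt_const analyticAt_id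
    have s7 : Tendsto (fun y : V M => t⁻¹ • y) (𝓝[C] (t • c)) (𝓝[C] c) :=
      tendsto_nhdsWithin_iff.2 ⟨(inv_smul ht' c ▸ s4.continuousAt.tendsto :).mono_left
        nhdsWithin_le_nhds, eventually_mem_nhdsWithin.mono fun y hy =>
          hC.cone _ (fun i => inv_ne_zero (ht' i)) y hy⟩
    refine ⟨k1, fun y => chr a t • k (t⁻¹ • y),
      analyticAt_const.smul (k2.comp_of_eq s4 (inv_smul ht' c)), ?_⟩
    filter_upwards [s7.eventually k3, s7.eventually self_mem_nhdsWithin] with y u hy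
    have := h1 _ hy t ht _ u
    rwa [smul_sub, ← m1 _ hy _ ht, ← k1 _ hy _ ht, smul_inv ht'] at this
  · rintro c hc ψ ψ' ⟨-, k, k2, k3⟩ ⟨-, k', k2', k3'⟩
    obtain ⟨L, l1, l2⟩ := h2 c hc
    refine ⟨fun y => L y (k' y - k y), Holo.an_apply l1 (k2'.sub k2), ?_⟩
    filter_upwards [l2, k3, k3'] with y u v v'
    simpa using u _ (sub_mem v v')
  · obtain ⟨ψ, ⟨-, k, k1, k2⟩, k', k3, k4⟩ := m.2 c hc
    refine ⟨fun y => (k y, k' y), k1.prod k3, (k2.and k4).mono fun y u => ?_⟩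
    simpa [← u.2] using u.1

end Vale.Agent.P269L.K.O7
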