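import Vale.Agent.P269L.K.Th4a

/-!
# The point of the chart given by a curve with a vector field, and its dependence on parameters
-/

set_option linter.unusedSectionVars false

namespace Vale.Agent.P269L.K.Xi4

open Set Function Topology Filter P269 P269.Holo P269.Base P269.Cv P269.Ch

variable {ι₁ ι J ν κ : Type} [Fintype ι₁] [DecidableEq ι₁] [Fintype ι] [DecidableEq ι] [Fintype J]
  [Fintype ν] [Fintype κ] {M : ι₁ → ℕ} {o : ι₁} {ch : Ch ι J} {m : ι₁ ⊕ ι → ℤ} {w : ι₁ → ℕ}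
  {χ : ι₁ ⊕ ι → ℤ} {U : κ → ℤ}

/-- The projection to the first group of factors. -/
noncomputable abbrev pL {M₀ : ι → ℕ} (c : V (Sum.elim M M₀)) : V M := rV Sum.inl c

/-- The projection to the second group of factors. -/
noncomputable abbrev pR {M₀ : ι → ℕ} (c : V (Sum.elim M M₀)) : V M₀ := rV Sum.inr c

/-- The tensor `Ξ` of `x` is `E ξ ^ k` at the ordinary points of `G`. -/
def IsXi (o : ι₁) (G : Set (V (Sum.elim M ch.M))) (ξ : V M → V M) (E : V (Sum.elim M ch.M) → ℂ)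
    (z : κ → V (Sum.elim M ch.M)) (q : ν → V (Sum.elim M ch.M)) (x : ch.W ν) : Prop :=
  ∀ γ φ, IsBranch (.inl o) G γ → ¬IsNode (.inl o) G (γ 0) → Off z (γ 0) → Off q (γ 0) →
    Along ξ (fun t => pL (γ t)) φ → LeadAt x (pR (γ 0)) (pR (deriv γ 0)) (E (γ 0) * φ 0 ^ ch.k)

section prj

variable {α β : Type} [Fintype α] [Fintype β] [DecidableEq α] [DecidableEq β] {L : β → ℕ}
  {r : α → β} {a : α} {G : Set (V L)} {g : ℤ} {d : β → ℤ} {γ : ℂ → V L} {c c' : V L}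

theorem isBranch_rV (h : IsBranch (r a) G γ) : IsBranch a (rV r '' G) fun t => rV r (γ t) :=
  ⟨an_rV h.holo, h.mem.mono fun t a => ⟨_, a, rfl⟩, by
    rw [deriv_rV h.holo]
    exact h.imm⟩

theorem orb_of_rV (h : IsCurve (r a) g d G) (hc : c ∈ G) (hc' : c' ∈ G)
    (e : Orb (rV r c) (rV r c')) : Orb c c' := by
  obtain ⟨X, _, _, _, R, N, A, π, k⟩ := h.isNodal.exists_par
  obtain ⟨x, s, hs, rfl⟩ := (k.img _).1 hc
  obtain ⟨x', s', hs', rfl⟩ := (k.img _).1 hc'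
  obtain ⟨t, -, e⟩ := ((Orb.smul (π x) hs).prj (r := r)).trans (e.trans (Orb.smul _ hs').prj.symm)
  exact (Orb.smul _ hs).symm.trans (k.π_eq (k.inj_o h (congrFun e a)) ▸ Orb.smul _ hs')

theorem isNode_rV (h : IsCurve (r a) g d G) (hr : Injective r) (hc : c ∈ G) :
    IsNode a (rV r '' G) (rV r c) ↔ IsNode (r a) G c := by
  obtain ⟨X, _, _, _, R, N, A, π, k⟩ := h.isNodal.exists_par
  obtain ⟨x, s, hs, rfl⟩ := (k.img _).1 hc
  rw [k.isNode_iff hs, rV_smul, (k.res h hr).1.isNode_iff fun i => hs _]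

theorem isCurve_rV (h : IsCurve (r a) g d G) (hr : Injective r) :
    IsCurve a g (fun i => d (r i)) (rV r '' G) :=
  let ⟨_, _, _, _, _, _, _, _, k⟩ := h.isNodal.exists_par
  (k.res h hr).2

end prj

theorem exists_xi {G : Set (V (Sum.elim M ch.M))} {ξ : V M → V M} {E : V (Sum.elim M ch.M) → ℂ}
    {z' : κ → V (Sum.elim M ch.M)} {q : ν → V (Sum.elim M ch.M)} {z : κ → V M}
    (hG : IsCurve (.inl o) ch.g m G) (hm : ∀ i, m (.inr i) = ch.m i) (hN : Nod (.inr ch.o) G)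
    (hq : ∀ n, q n ∈ G) (hz : ∀ k, z' k ∈ G) (hz' : ∀ k, Orb (pL (z' k)) (z k))
    (hV : VF o (pL '' G) w ξ (Sum.elim z fun n => pL (q n))) (hE : Triv (.inl o) G χ z' U E)
    (h1 : ∀ i, χ (.inl i) = -(ch.k * w i)) (h2 : ∀ i, χ (.inr i) = ch.χ i)
    (hU : ∀ k, U k = -ch.k) (ha : ch.a none ≠ 0) {l : Option J} (hl : ∀ i, 4 ≤ ch.a l i)
    {Q : ∀ l, Tens ch.M (ch.a l) →L[ℂ] ch.E l}
    (hQ : ∀ l, Surjective (Q l) ∧ ∀ μ, Q l μ = 0 ↔ ∀ c ∈ pR '' G, val μ c = 0) :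
    ∃ Ξ, ∀ F, crv (W.mk' Q (fun n => pR (q n)) Ξ F) = pR '' G ∧
      W.mk' Q (fun n => pR (q n)) Ξ F ∈ ch.base ν ∧
      IsXi o G ξ E z' q (W.mk' Q (fun n => pR (q n)) Ξ F) := by
  classical
  obtain ⟨X, _, _, _, R, N, A, π, h⟩ := hG.isNodal.exists_par
  have hL := (h.res (σ := Sum.inl) hG Sum.inl_injective).1
  obtain ⟨hR, hC⟩ := (h.of_nod hN).res (σ := Sum.inr) (hG.of_nod hN) Sum.inr_injective
  rw [funext hm] at hC
  choose y t t1 t2 using fun k => (h.img _).1 (hz k)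
  choose p s s1 s2 using fun n => (h.img _).1 (hq n)
  have oy : ∀ k, Orb (π (y k)) (z' k) := fun k => ⟨_, t1 k, t2 k⟩
  have op : ∀ n, Orb (π (p n)) (q n) := fun n => ⟨_, s1 n, s2 n⟩
  obtain ⟨⟨y1, y2⟩, ⟨p1, p2⟩, v, v1, v2, v3⟩ := exists_vf hL hV (y := y) (p := p)
    (fun k => (oy k).prj.trans (hz' k)) fun n => (op n).prj
  have hy := fun k => And.intro (y2 k) (oy k)
  obtain ⟨e, e1, e2, e3⟩ := h.exists_sec y1 hy hE.toMer
  have e4 := (h.triv_iff y1 hy hE.toMer e2 e3).1 hE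
  have e5 : v ^ ch.k * e ∈ H0 N ((omega R N (Finset.univ.image p) ^ ch.k)⁻¹ *
      bz (fun i => A (.inr i)) ch.χ) := by
    have := H0.mul_mem (H0.pow_mem v1 ch.k) e1
    have e : bz A χ = (bz (fun i => A (.inl i)) (fun i => w i) ^ ch.k)⁻¹ *
        bz (fun i => A (.inr i)) ch.χ := by
      simp only [bz, Fintype.prod_sum_type, h1, h2, zpow_neg, Finset.prod_inv_distrib,
        zpow_mul', zpow_natCast, Finset.prod_pow]
    simp only [e, hU, zpow_neg, zpow_natCast, zpow_one, Finset.prod_inv_distrib, Finset.prod_pow,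
      div_pow, mul_pow, inv_pow] at this
    generalize (∏ k, R.pt (y k)) ^ ch.k = D at this
    generalize bz (fun i => A (.inl i)) (fun i => (w i : ℤ)) ^ ch.k = B at this
    rwa [div_inv_eq_mul, div_mul_eq_mul_div, ← mul_assoc, mul_div_cancel_right, ← mul_assoc,
      mul_inv_cancel_right] at this
  obtain ⟨Ξ, u, k⟩ := TwBP.exists_base (ch := ch) hR hC ha hQ hl p2 p1 e5 fun x =>
    mul_ne_zero (pow_ne_zero _ (v2 x)) (e4 x)
  refine ⟨Ξ, fun F => ?_⟩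
  obtain ⟨k1, k2⟩ := k (fun n => pR (q n)) F fun n => (op n).prj
  refine ⟨k1, k2.mem, fun γ φ g1 g2 g3 g4 g5 => ?_⟩
  obtain ⟨x, r, ψ, r1, r2, r3, r4, r5, r6⟩ := h.factor_branch g1
  have r7 := h.deriv_factor r1 r3 r4 r6
  have o1 : Orb (π x) (γ 0) := ⟨_, r2, (r7 (.inl o)).1⟩
  have x1 : Sm N x ∧ x ∉ Finset.univ.image p := by
    refine ⟨by_contra fun a => g2 ((r7 (.inl o)).1 ▸ (h.isNode_iff r2).2 a), fun a => ?_⟩
    obtain ⟨n, -, rfl⟩ := Finset.mem_image.1 a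
    exact g4 n ((op n).symm.trans o1)
  have x2 : ∀ k, x ≠ y k := fun k a => g3 k ((oy k).symm.trans (a ▸ o1))
  obtain ⟨φ', g6⟩ := hV.along (hL.isBranch x)
  have g7 := g6.reparam hV.hom (hL.isBranch x) (δ := fun t => pL (γ t))
    (s := fun t i => r t (.inl i)) (analyticAt_pi_iff.2 fun i => analyticAt_pi_iff.1 r1 _) r3
    (fun i => r2 _) r4 r5 (r6.mono fun t a => by rw [a]; rfl)
  have g8 := (g5.unique g7 (isBranch_rV (r := Sum.inl) g1)).self_of_nhds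
  rw [(r7 (.inl o)).1]
  refine (k2.leadAt_iff x1 (t := fun i => r 0 (.inr i)) (fun i => r2 _) r5
    (s := deriv r 0 (.inr ch.o)) ?_).2 ?_
  · exact ((r7 (.inr ch.o)).2.trans (add_comm _ _)).trans (congrArg (fun v : V ch.M =>
      deriv r 0 (.inr ch.o) • pR (π x) ch.o + (r 0 (.inr ch.o) * deriv ψ 0) • v ch.o)
        (deriv_rV (σ := Sum.inr) (an_br h.sec x)).symm)
  · have n1 := chr_ne_zero (a := w) (t := fun i => r 0 (.inl i)) fun i => r2 _
    have n2 : chz χ (r 0) = (chr w (fun i => r 0 (.inl i)) ^ ch.k)⁻¹ *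
        ∏ i, r 0 (.inr i) ^ ch.χ i := by
      simp only [chz, chr, Fintype.prod_sum_type, h1, h2, zpow_neg, Finset.prod_inv_distrib,
        zpow_mul', zpow_natCast, Finset.prod_pow]
    beta_reduce at g8
    rw [hE.hom _ r2 _ (h.mem x), ← e2 x x2, g8, r4, ← v3 x x1 x2 _ g6, n2, Pi.mul_apply,
      Pi.pow_apply, div_pow, mul_pow]
    field_simp

variable {T P : Type*} [TopologicalSpace T] [NormedAddCommGroup P] [NormedSpace ℂ P]
  [FiniteDimensional ℂ P] {Γ : T → Set (V (Sum.elim M ch.M))} {π : T → P} {t₀ : T}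

/-- **A holomorphic family of points of the chart over the projected family.** -/
theorem exists_theta {ξ : P → V M → V M} {E : T → V (Sum.elim M ch.M) → ℂ}
    {σ : κ → P × ℂ → V (Sum.elim M ch.M)} {q : P → ν → V (Sum.elim M ch.M)} {z : P → κ → V M}
    (hL : LocFam (.inl o) Γ π t₀) (hR : LocFam (.inr ch.o) Γ π t₀)
    (hG : IsCurve (.inl o) ch.g m (Γ t₀)) (hm : ∀ i, m (.inr i) = ch.m i)
    (hq : AnalyticAt ℂ q (π t₀)) (hq' : ∀ᶠ t in 𝓝 t₀, ∀ n, q (π t) n ∈ Γ t)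
    (hσ : Pts (.inl o) Γ π t₀ σ) (hz : ∀ᶠ t in 𝓝 t₀, ∀ k, Orb (pL (σ k (π t, 0))) (z (π t) k))
    (hV : VFam o (fun t => pL '' Γ t) π t₀ w ξ fun y => Sum.elim (z y) fun n => pL (q y n))
    (hE : FMer (.inl o) Γ π t₀ χ σ U E) (hE' : Triv (.inl o) (Γ t₀) χ (ctr σ (π t₀)) U (E t₀))
    (h1 : ∀ i, χ (.inl i) = -(ch.k * w i)) (h2 : ∀ i, χ (.inr i) = ch.χ i)
    (hU : ∀ k, U k = -ch.k) (ha : ∀ l, ch.a l ≠ 0) {l : Option J} (hl : ∀ i, 4 ≤ ch.a l i)
    (hh : ∀ l, (ch.h l : ℤ) = dg ch.m (ch.a l) + 1 - ch.g) :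
    ∃ (Q : P → ∀ l, Tens ch.M (ch.a l) →L[ℂ] ch.E l) (Ξ : P → Tn ch.M ch.slot →L[ℂ] ch.E none),
      AnalyticAt ℂ Q (π t₀) ∧ AnalyticAt ℂ Ξ (π t₀) ∧ ∀ᶠ t in 𝓝 t₀, ∀ F,
        crv (W.mk' (Q (π t)) (fun n => pR (q (π t) n)) (Ξ (π t)) F) = pR '' Γ t ∧
        W.mk' (Q (π t)) (fun n => pR (q (π t) n)) (Ξ (π t)) F ∈ ch.base ν ∧
        IsXi o (Γ t) (ξ (π t)) (E t) (ctr σ (π t)) (q (π t))
          (W.mk' (Q (π t)) (fun n => pR (q (π t) n)) (Ξ (π t)) F) := by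
  classical
  have hπ := hL.cont.self_of_nhds
  have hG' := hG.of_nod hR.nod
  have iR := fun c hc c' hc' => orb_of_rV (r := Sum.inr) (c := c) (c' := c') hG' hc hc'
  have fL : LocFam o (fun t => pL '' Γ t) π t₀ :=
    hL.prj Sum.inl_injective fun c hc c' hc' => orb_of_rV hG hc hc'
  have fR : LocFam ch.o (fun t => pR '' Γ t) π t₀ := hR.prj Sum.inr_injective iR
  have hC : IsCurve ch.o ch.g ch.m (pR '' Γ t₀) := by
    have := isCurve_rV (r := Sum.inr) hG' Sum.inr_injective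
    rwa [funext hm] at this
  choose y y1 y2 using fun l => fR.exists_ev' hC (ha l) (hh l)
    (p := Off fun j => pR (Sum.elim (ctr σ (π t₀)) (q (π t₀)) j))
    fun _ hc => hC.nod.frequently_not_node _ hc
  choose c c1 c2 using fun k => (y2 none).self_of_nhds.1 k
  choose Λ l1 l2 l3 l4 using fun k => hR.exists_lam Sum.inr_injective iR (c1 k)
  have a0 : ∀ k, AnalyticAt ℂ (fun p => (p, y none k p)) (π t₀) := fun k =>
    analyticAt_id.prod (y1 none k).1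
  have a1 : ∀ k, AnalyticAt ℂ (fun p => Λ k (p, y none k p)) (π t₀) := fun k =>
    (l1 k).comp_of_eq (a0 k) (Prod.ext rfl (c2 k).symm)
  have a2 : ∀ k, ∀ᶠ t in 𝓝 t₀, Λ k (π t, y none k (π t)) ∈ Γ t := fun k => by
    have e : Tendsto (fun t => (t, y none k (π t))) (𝓝 t₀) (𝓝 (t₀, pR (c k))) :=
      tendsto_id.prodMk_nhds (c2 k ▸ (y1 none k).1.continuousAt.tendsto.comp hπ)
    filter_upwards [e.eventually (l4 k), y2 none] with t k1 k2 using k1 (k2.1 k)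
  have a3 : ∀ k, Λ k (π t₀, y none k (π t₀)) = c k := fun k => c2 k ▸ l2 k
  have a4 : ∀ k j, ¬Orb (Sum.elim (ctr σ (π t₀)) (q (π t₀)) j) (c k) := fun k j e =>
    (y1 none k).2.2 j (c2 k ▸ e.prj)
  choose τ t1 t2 using fun k => hL.exists_pts (y := fun _ : Unit => fun p => Λ k (p, y none k p))
    (fun _ => ⟨a1 k, a2 k⟩) ⟨fun _ => (a2 k).self_of_nhds, fun _ e => (y1 none k).2.1 (by
      rw [a3, isNode_of_nod hG.nod hG'.nod, ← isNode_rV hG' Sum.inr_injective (c1 k)] at e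
      exact c2 k ▸ e), fun _ _ _ => rfl⟩
  have t3 : ∀ k, τ k () (π t₀, 0) = c k := fun k => (t2 k ()).self_of_nhds.trans (a3 k)
  choose φ f1 f2 using fun k => hV.along fL (δ := fun r => pL (τ k () r))
    (an_rV ((t1 k).chart ()).an) (isBranch_rV (r := Sum.inl) ((t1 k).isBranch hL ()))
    (((t1 k).chart ()).mem.mono fun r h => ⟨_, h trivial, rfl⟩)
  choose Φ p1 p2 using fun k => hE.holAt hL (y := fun t => Λ k (π t, y none k (π t)))
    ⟨_, a1 k, .of_forall fun _ => rfl⟩ (a2 k) (a3 k ▸ fun j => a4 k (.inl j))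
  have a5 : AnalyticAt ℂ (fun p : P => (p, (0 : ℂ))) (π t₀) := analyticAt_id.prod analyticAt_const
  refine ⟨fun p l => evP (ch.a l) fun k => y l k p, fun p => .pi fun k =>
    (Φ k p * φ k (p, 0) ^ ch.k) • wedgeL (y none k p) (pR (deriv (fun s => τ k () (p, s)) 0)),
    AnalyticAt.pi fun l => (analyticAt_evP _).comp (f := fun p k => y l k p)
      (AnalyticAt.pi fun k => (y1 l k).1), analyticAt_of_apply fun μ => AnalyticAt.pi fun k => ?_,
    ?_⟩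
  · exact (((p1 k).mul (((f1 k).comp_of_eq a5 rfl).pow ch.k)).mul (an_wedge (μ := fun _ => μ)
      analyticAt_const (y1 none k).1 (an_rV (r := Sum.inr)
        ((an_deriv_snd ((t1 k).chart ()).an).comp_of_eq a5 rfl)))).congr
          (.of_forall fun p => congrArg (_ * ·) (wedgeL_apply _ _ _).symm)
  have b1 : ∀ k, ∀ᶠ t in 𝓝 t₀, Off (ctr σ (π t)) (τ k () (π t, 0)) := fun k =>
    (tendsto_id.prodMk_nhds ((t1 k).tendsto hL ())).eventually (hσ.eventually_off hL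
      ((t1 k).ne hL ()) (t3 k ▸ fun j => a4 k (.inl j)))
  have b2 : ∀ k n, ∀ᶠ t in 𝓝 t₀, ¬Orb (q (π t) n) (τ k () (π t, 0)) := fun k n =>
    ev_not_orb ((analyticAt_pi_iff.1 hq n).continuousAt.tendsto.comp hπ) ((t1 k).tendsto hL ())
      (hG.ne_zero _ (hq'.self_of_nhds n)) ((t1 k).ne hL ()) (t3 k ▸ a4 k (.inr n))
  filter_upwards [hL.isCurve hG, hR.eventually, hL.eventually, hq', hσ.eventually hL, hz, hV.vf,
    hE.eventually_triv hL hσ hE', eventually_all.2 y2, eventually_all.2 b1,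
    eventually_all.2 fun k => eventually_all.2 (b2 k), eventually_all.2 p2,
    eventually_all.2 fun k => t2 k (), eventually_all.2 fun k => (t1 k).eventually hL,
    eventually_all.2 fun k => (tendsto_inl t₀ (0 : ℂ)).eventually (f2 k)]
    with t k1 k2 k3 k4 k5 k6 k7 k8 k9 k10 k11 k12 k13 k14 k15
  obtain ⟨Ξ, hΞ⟩ := exists_xi k1 hm k2.nod k4 k5.mem k6 k7 k8 h1 h2 hU (ha none) hl
    (Q := fun l => evP (ch.a l) fun k => y l k (π t)) fun l => ⟨(k9 l).2.1, fun μ =>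
      ⟨fun e => (k9 l).2.2 _ (Pol.isSec (val_mem _)) (congrFun e),
        fun e => funext fun k => e _ ((k9 l).1 k)⟩⟩
  intro F
  obtain ⟨m1, m2, m3⟩ := hΞ F
  suffices e : Ξ = .pi fun k => (Φ k (π t) * φ k (π t, 0) ^ ch.k) •
      wedgeL (y none k (π t)) (pR (deriv (fun s => τ k () (π t, s)) 0)) from e ▸ ⟨m1, m2, m3⟩
  refine ContinuousLinearMap.ext fun μ => funext fun k => ?_
  have m4 : pR (τ k () (π t, 0)) = y none k (π t) := by
    rw [k13]
    exact l3 k _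
  obtain ⟨u, hu⟩ := mem_crv.1 (m1 ▸ (k9 none).1 k)
  have m5 := m3 _ (fun s => φ k (π t, s)) ((k14 k).isBranch k3 ()) (((k14 k).spt k3).sm ())
    (k10 k) (k11 k) (by simpa only [zero_add] using (k15 k).2) u (m4 ▸ hu) μ
  obtain ⟨μ', e⟩ := (k9 none).2.1 (Ξ μ)
  have m6 : u none (Ξ μ) = Ξ μ k := e ▸ hu.2 none μ'
  rw [← m6]
  refine m5.trans ?_
  rw [m4, k13, k12]
  simp

end Vale.Agent.P269L.K.Xi4
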