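import Vale.Agent.P269L.K.Cls
import Vale.Agent.P269L.K.Th4
import Vale.Agent.P269L.I.LOcc
import Vale.Agent.P269L.I.LIsoG

/-!
# Stable maps of the given class occur on both sides
-/

set_option linter.all false
set_option maxSynthPendingDepth 3

namespace Vale.Agent.P269L.K

open Set Function Topology Filter P291Z P269 P269.Cv P269.Base P269.Ch P269.Tf P269.Br I

section gen

variable {B B' B₀ E E' X ι ι' : Type} [Monoid B] [Monoid B'] [Monoid B₀] [NormedAddCommGroup E]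
  [NormedSpace ℂ E] [NormedAddCommGroup E'] [NormedSpace ℂ E'] [NormedAddCommGroup X]
  [NormedSpace ℂ X] [Fintype ι] [Fintype ι'] {n : ℕ} {τ : B → E → E} {τ' : B' → E' → E'}
  {sc : B₀ → X → X} {C : Set E} {C' : Set E'} {φ : E → E'} {p : Fin n → E} {p' : Fin n → E'}
  {f : E → X} {f' : E' → X} {K : Set X} {χ : (ι → ℕ) → B → ℂ} {χ' : (ι' → ℕ) → B' → ℂ} {g g' : ℤ}
  {m : ι → ℤ} {m' : ι' → ℤ}

/-- Stability is invariant under isomorphisms. -/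
theorem stb_iso (a : Ac τ) (a' : Ac τ') (b : Ac sc) (h : Stb τ sc C K χ g m p f)
    (hc : Crv τ' C' χ' g' m' p') (hf : Hol τ' sc C' K f') (e : Iso τ τ' sc C C' p p' f f' φ) :
    Stb τ' sc C' K χ' g' m' p' f' := by
  classical
  obtain ⟨h1, -, Φ, h3⟩ := h
  have q := fun i => (h1.2.2.2.2.1 i).1
  have q' := fun i => (hc.2.2.2.2.1 i).1
  obtain ⟨ψ, k1, -, k3⟩ := Z2.iso_symm a b q' q hf e
  refine ⟨hc, hf, Φ.image fun β c => φ (β (ψ c)), fun α k => ?_⟩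
  obtain ⟨β, l1, l2⟩ := h3 _ (Nr.iso_comp a a' a b hc.2.1 q'
    (Nr.iso_comp a a' a' b hc.2.1 q' e k) k1)
  refine ⟨_, Finset.mem_image_of_mem _ l1, fun c hc' => ?_⟩
  have m1 := (k1.1 c hc').1
  have m2 := (k.1 _ (e.1 _ m1).1).1
  exact a'.trans (Nr.hol_same e.1 (h1.2.1 _ (k1.1 _ m2).1 _ (a.symm (l2 _ m1))) (l2 _ m1))
    (a'.symm (a'.trans (Nr.hol_same k.1 hc' (k3 c hc')) (k3 _ m2)))

end gen

variable {ι ι' B X Y : Type} [Fintype ι] [Fintype ι'] [Monoid B] [NormedAddCommGroup X]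
  [NormedSpace ℂ X] [TopologicalSpace Y] {n : ℕ} {M : ι → ℕ} {M' : ι' → ℕ} {sc : B → X → X}
  {K : Set X} {π : K → Y} {β : Pub.Bm Y}

theorem cls_scal {M : ℕ} {C : Set (Fin M → ℂ)} {C' : Set (V fun _ : Unit => M)}
    {f : V (fun _ : Unit => M) → X} (hC : ∀ c, c ∈ C ↔ clsω M c ∈ C') (h : Mono.FP tor C')
    (h' : Mono.FP Pub.scal C) (hπ : ∀ y y' : K, Same sc y.1 y'.1 → π y = π y')
    (hf : Hol tor sc C' K f) (c : Cls tor C' π f β) :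
    Cls Pub.scal C π (fun v => f (clsω M v)) β := by
  obtain ⟨k, γ, u, k1, k2, k3⟩ := c
  obtain ⟨Φ, b3⟩ := (cls_tr (M := M)).exists_quo hC
  obtain ⟨γ, k4, rfl⟩ := isFund_iff.1 ((U.isFund_iff h γ).1 k1)
  have k5 : IsFund Pub.scal C (push Φ.symm γ) :=
    (cls_tr (M := M)).symm.isFund (mem_symm hC) (symm_mk hC b3) k4
  have k6 : IsConnected C := by
    rw [show C = (clsω M).toHomeomorph ⁻¹' C' from Set.ext hC]
    exact (clsω M).toHomeomorph.isConnected_preimage.2 k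
  refine ⟨k6, Tf.fn (push Φ.symm γ), u ∘ Φ, (U.isFund_iff h' _).2 (isFund_fn.2 k5),
    fun z => ?_, fun y hy => ?_⟩
  · obtain ⟨l, e⟩ := k2 (Φ z)
    have e1 : Quot.mk _ (Φ z).out = Quo.mk tor ⟨clsω M z.out, (hC _).1 z.out.2⟩ :=
      (Quot.out_eq _).trans ((congrArg Φ (Quot.out_eq z).symm).trans (b3 _))
    have := h.toIsAct
    obtain ⟨t, e2⟩ := (Holo.Sp.mk_eq_iff (act := tor) (x := (Φ z).out)
      (y := ⟨clsω M z.out, (hC _).1 z.out.2⟩)).1 e1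
    exact ⟨(hf _ ((hC _).1 z.out.2)).1, e.trans (hπ _ ⟨_, (hf _ ((hC _).1 z.out.2)).1⟩
      (Nr.hol_same hf (Φ z).out.2 ⟨t, t.isUnit, (congrArg Holo.Sp.val e2).symm⟩))⟩
  · obtain ⟨y, -, rfl⟩ := zc_iff.1 hy
    refine (k3 _ hy).trans ((Tf.fn_val γ (pull u y)).trans
      (.trans ?_ (Tf.fn_val _ (pull (u ∘ Φ) y)).symm))
    rw [ev_push_homeo, pull_pull]
    exact congrArg (fun w => ev γ (pull w y)) (funext fun z =>
      congrArg u (Φ.apply_symm_apply z).symm)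

variable {A W U Λ A' W' U' Λ' : Type} [NormedRing A] [NormedAlgebra ℂ A] [NormedAddCommGroup W]
  [NormedSpace ℂ W] [NormedAddCommGroup U] [NormedSpace ℂ U] [NormedRing A'] [NormedAlgebra ℂ A']
  [NormedAddCommGroup W'] [NormedSpace ℂ W'] [NormedAddCommGroup U'] [NormedSpace ℂ U']
  [DecidableEq ι] [DecidableEq ι'] {r r' : ℕ} {D : Dat A (ι → ℂ) W (V M) U (Fin r → ℂ) X ι Λ n}
  {D' : Dat A' (ι' → ℂ) W' (V M') U' (Fin r' → ℂ) X ι' Λ' n} {TK : X → Set X} {g g' : ℤ} {o : ι}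
  {o' : ι'} {x : W} {x' : W'}

/-- Every stable map of the class, with its curve in any product of projective spaces, occurs. -/
theorem Occ.any (ho : Occ D sc K π g β) (hτ : D.τ = tor) (b : Ac sc)
    (hπ : ∀ y y' : K, Same sc y.1 y'.1 → π y = π y') {C : Set (V M')} {m : ι' → ℤ}
    {p : Fin n → V M'} {f : V M' → X} (hC : IsCurve o' g m C) (hs : Stb tor sc C K I.chr g m p f)
    (hc : Cls tor C π f β) :
    ∃ x ∈ D.sol K, ∃ φ, Iso tor tor sc C (D.C x) p (D.p · x) f (D.f x) φ := by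
  obtain ⟨Z, _, _, _, R, N, L, ϖ, k⟩ := hC.isNodal.exists_par
  have hr : Injective fun _ : Unit => o' := fun _ _ _ => rfl
  obtain ⟨k1, k2⟩ := Par.res (σ := fun _ : Unit => o') (o := ()) k hC hr
  have q := fun i => (hs.1.2.2.2.2.1 i).1
  obtain ⟨ψ, a1, a2⟩ := hol_of_liso k1 k (f := Equiv.refl Z) (LIso.id R) fun _ _ => .rfl
  obtain ⟨φ, a3, -⟩ := iso_of_liso k k1 (f := Equiv.refl Z) (LIso.id R) (fun _ _ => .rfl) (sc := sc)
    (p := p) (p' := fun i => rV (fun _ : Unit => o') (p i)) (G := f) (G' := fun c => f (ψ c))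
    (fun i => let ⟨y, e⟩ := (k.img _).1 (q i); ⟨y, e, Orb.prj e⟩) fun y c c' e e' =>
      Nr.hol_same hs.2.1 (hC.nod.orb (k.mem y) e) (same_iff.2 (e.symm.trans (a2 y c' e')))
  have a4 := Nr.hol_comp ac_tor b hs.1.2.1 a1 hs.2.1
  have a5 := stb_iso ac_tor ac_tor b hs (crv_of k2 (fun i => ⟨mem_image_of_mem _ (q i), fun e =>
      let ⟨_, _, l⟩ := (Xi4.isNode_rV hC hr (q i)).1 e
      (hs.1.2.2.2.2.1 i).2 _ _ (cross_of l)⟩) fun i j s e => (hs.1.2.2.2.2.2 j i (same_iff.2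
        (Xi4.orb_of_rV (r := fun _ : Unit => o') (a := ()) hC (q j) (q i) ⟨s, fun u c =>
          hC.ne_zero _ (q i) o' ((congrFun e u).trans (by simp [c])), e⟩))).symm) a4 a3
  have a6 := cls_tor hC k2 b hπ a4 a3 hc
  have a7 := cls_fp k1
  generalize rV (fun _ : Unit => o') '' C = C₁ at *
  obtain ⟨C₂, rfl⟩ : ∃ C₂ : Set (Fin (M' o') → ℂ), C₁ = {c | c () ∈ C₂} :=
    ⟨{v | (fun _ => v) ∈ C₁}, rfl⟩
  have t : Tk Pub.scal (tor (M := fun _ : Unit => M' o')) C₂ {c | c () ∈ C₂} (clsω _) :=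
    ⟨fun _ _ => rfl, fun _ => .rfl⟩
  obtain ⟨x, hx, θ, a8⟩ := ho _ _ _ _ _ (t.symm.stb a5)
    (cls_scal (fun _ => Iff.rfl) a7 (cls_fp' a7) hπ a4 a6)
  rw [hτ] at a8
  exact ⟨x, hx, _, Nr.iso_comp ac_tor ac_tor ac_tor b a5.1.2.1 (fun i => (a5.1.2.2.2.2.1 i).1) a3
    (cls_iso a8)⟩

namespace Nf

theorem occ (h' : Nf D' sc K TK g o') (ho : Occ D sc K π g β) (hτ : D.τ = I.tor) (b : Ac sc)
    (hπ : ∀ y y' : K, Same sc y.1 y'.1 → π y = π y') (hx : x' ∈ D'.sol K)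
    (hc : Cls D'.τ (D'.C x') π (D'.f x') β) : ∃ x ∈ D.sol K, ∃ φ,
      Iso I.tor I.tor sc (D'.C x') (D.C x) (D'.p · x') (D.p · x) (D'.f x') (D.f x) φ :=
  ho.any hτ b hπ (h'.crv _ hx.1) (h'.tor ▸ (h'.grp _ hx).1.2.1) (h'.tor ▸ hc)

end Nf

variable {N c : ℕ} {F : Fin c → MvPolynomial (Fin (N + 1)) ℂ}

/-- A point of the chart of the class gives a point of the class on the other side. -/
theorem Su.bk {s : Su A W U ι Λ M r n F} (hs : s.Ok) {π : (ci F).cone → Y}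
    (ho : Occ s.D (ci F).act (ci F).cone π s.g β)
    (hπ : ∀ y y' : (ci F).cone, Same (ci F).act y.1 y'.1 → π y = π y') {x₀ : s.ch.W (Fin n)}
    (hx : x₀ ∈ s.Z₀) (hc : Cls tor (crv x₀) π (fld x₀) β) :
    ∃ x ∈ s.Z, Cls s.D.τ (s.D.C x) π (s.D.f x) β :=
  let ⟨x, a, _, b⟩ := hs.nf₀.occ ho hs.nf.tor (ac_ci F) hπ hx hc
  ⟨x, a, (hs.nf₀.cls_iff hs.nf (ac_ci F) hπ hx a b).2 hc⟩

/-- **A point of the chart of the class lies under the roof.** -/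
theorem Su.occ {s : Su A W U ι Λ M r n F} (hs : s.Ok) (onto : ∀ x ∈ s.Z, ∃ z ∈ s.rf.Z, z.1 = x)
    (inv : ∀ u, IsUnit u → ∀ z ∈ s.rf.Z, s.rf.act u z ∈ s.rf.Z) {π : (ci F).cone → Y}
    (ho : Occ s.D (ci F).act (ci F).cone π s.g β)
    (hπ : ∀ y y' : (ci F).cone, Same (ci F).act y.1 y'.1 → π y = π y') {x₀ : s.ch.W (Fin n)}
    (hx : x₀ ∈ s.Z₀) (hc : Cls tor (crv x₀) π (fld x₀) β) :
    ∃ z ∈ s.rf.Z, z.2.1 = x₀ := by
  obtain ⟨x, a, φ, b⟩ := hs.nf₀.occ ho hs.nf.tor (ac_ci F) hπ hx hc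
  obtain ⟨z, hz, rfl⟩ := onto x a
  obtain ⟨-, z0, Γ, ⟨ψ, d, -⟩, -⟩ := id hz
  obtain ⟨_, ⟨⟨u, rfl⟩, e, -⟩, -⟩ := Z2.grp hs.nf₀ hx z0 (Nr.iso_comp ac_tor ac_tor ac_tor (ac_ci F)
    (Z2.sat hs.nf a.1) (Z2.p_mem hs.nf a.1) b d)
  exact ⟨_, inv (1, u⁻¹.1, 1) (Prod.isUnit_iff.2 ⟨isUnit_one, Prod.isUnit_iff.2
    ⟨u⁻¹.isUnit, isUnit_one⟩⟩) z hz, (congrArg (s.D₀.α u⁻¹.1) e.symm).trans
      (Z2.rep_inv hs.nf₀.eqv.1 u x₀)⟩

end Vale.Agent.P269L.K
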