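import Vale.Agent.P269L.K.Cv
import Vale.Agent.P269L.K.Ab

/-!
# The Thom pull-back to a bundle of affine spaces: existence and degree
-/

set_option linter.all false

namespace Vale.Agent.P269L.K

open Set Function Topology Filter Module P291Z P269 P269.Ch P269.Holo P269.Orb

/-- Transport of an orbifold vector bundle along a homeomorphism of the total space. -/
theorem ovb_homeo {E E' B : Type} [TopologicalSpace E] [TopologicalSpace E'] [TopologicalSpace B]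
    {r : ℕ} {p : E → B} {Z : Set E} {ch : (r : ℕ) → ((Fin r → ℂ) → E) → Prop}
    (h : IsOVB r p Z ch) (k : E' ≃ₜ E) :
    IsOVB r (p ∘ k) (k ⁻¹' Z) fun r φ => ch r (k ∘ φ) := by
  refine ⟨h.cont.comp k.continuous, fun x => ?_, fun r φ => h.rank r _, fun φ φ' a b e => ?_⟩
  · obtain ⟨Γ, U, _, _, _, _, a, q, a', Φ, h1, h2, h3⟩ := h.triv x
    refine ⟨Γ, U, _, inferInstance, _, inferInstance, a, q, a', k.symm ∘ Φ, h1,
      ⟨h2.uc, h2.uc'.comp_open k.symm.isOpenEmbedding, h2.lin, ?_, fun w => ?_, fun w => ?_⟩,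
      fun u => ?_⟩
    · rw [range_comp, h2.range_eq, preimage_comp, k.image_symm]
    · exact (congrArg p (k.apply_symm_apply _)).trans (h2.proj w)
    · exact (congrArg (· ∈ Z) (k.apply_symm_apply _)).to_iff.trans (h2.zero w)
    · exact (congrArg (ch r) (funext fun v => k.apply_symm_apply _)).mpr (h3 u)
  · obtain ⟨g, hg⟩ := h.trans _ _ a b e
    exact ⟨g, funext fun v => k.injective (congrFun hg v)⟩

/-- A bijective Gysin map on cohomology is onto on homology, with degrees. -/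
theorem exists_gys_eq {X Z : Type} [TopologicalSpace X] [TopologicalSpace Z] [Nice X] {z : Z → X}
    (hz : IsClosedEmbedding z) {t : Coch X} {k : ℕ} (ht : IsCo (range z) k t)
    (hb : Bijective (Hc.gys hz ht.cocycle ht.supp)) {d : ℤ} {γ : BM Z} (hγ : BM.IsDeg d γ) :
    ∃ γ', BM.IsDeg (d + 2 * k) γ' ∧ gys z t γ' = γ := by
  let e := LinearEquiv.ofBijective _ hb
  refine ⟨γ ∘ₗ e.symm.toLinearMap, BM.isDeg_iff.2 fun j hj c hc => ?_, LinearMap.ext fun c => ?_⟩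
  · obtain ⟨c, rfl⟩ := hb.2 c
    obtain ⟨c', h1, h2⟩ := Hc.exists_deg_of_range (k := j - 2 * k) (c := c)
      (fun k c hc => Hc.gys_deg hz ht.cocycle ht.supp ht.deg hc) (by simpa using hc)
    rw [← h2]
    exact (congrArg γ (e.symm_apply_apply c')).trans (BM.isDeg_iff.1 hγ _ (by omega) _ h1)
  · rw [gys_apply, cgys_eq hz ht.cocycle ht.supp]
    exact congrArg γ (e.symm_apply_apply c)

/-- A section that identifies `Y₂` with the total space of a bundle over `Y`. -/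
theorem gys_bij {Y₂ Y : Ch.Sp} (p : Mor Y₂ Y) (σ : Mor Y Y₂) {E : VB Y₂} {s : Y₂.T → E.W}
    (hs : E.IsSec s) (h1 : ∀ y, p.f (σ.f y) = y) (h2 : ∀ g, σ.ρ (p.ρ g) = g) (h3 : Surjective p.ρ)
    (h4 : ∀ q, E.F (σ.f (p.f q)) = E.F q) (h5 : ∀ q, s q = 0 ↔ q = σ.f (p.f q))
    {j : (E.pb σ).V → Y₂.T} (j1 : Continuous j) (j2 : ∀ v, p.f (j v) = v.1.1 ∧ s (j v) = v.1.2)
    (j3 : ∀ q q', p.f q = p.f q' → s q = s q' → q = q') :
    ∃ (hz : IsClosedEmbedding σ.map) (ht : IsCo (range σ.map) E.r hs.eul),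
      (∀ x, p.map (σ.map x) = x) ∧ Bijective (Hc.gys hz ht.cocycle ht.supp) := by
  have e1 : ∀ x, p.map (σ.map x) = x := fun x => by
    obtain ⟨t, rfl⟩ := Y.surj x
    rw [Mor.map_π, Mor.map_π, h1]
  have hz := (show LeftInverse p.map σ.map from e1).isClosedEmbedding p.map.continuous
    σ.map.continuous
  have e2 : Y₂.π '' {t | s t = 0} = range σ.map := Subset.antisymm (by
    rintro _ ⟨t, ht, rfl⟩
    exact ⟨Y.π (p.f t), (σ.map_π _).trans (congrArg _ ((h5 t).1 ht).symm)⟩) (by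
    rintro _ ⟨x, rfl⟩
    obtain ⟨t, rfl⟩ := Y.surj x
    exact ⟨σ.f t, (h5 _).2 (by rw [h1]), (σ.map_π t).symm⟩)
  have ht : IsCo (range σ.map) E.r hs.eul := e2 ▸ hs.isCo
  have i : Iso p E (E.pb σ) fun _ => LinearMap.id :=
    ⟨Hom.of_continuous (fun t w h => (h4 t).ge h) continuous_snd
      fun g _ (w : E.W) _ => show g • w = σ.ρ (p.ρ g) • w from (h2 g).symm ▸ rfl, fun _ _ _ h => h,
      fun t w h => ⟨w, (h4 t).le h, rfl⟩⟩
  let n : Mor Y₂ (E.pb σ).tot := i.mor.comp hs.mor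
  have c3 : ∀ v, n.f (j v) = v := fun v => Subtype.ext (Prod.ext (j2 v).1 (j2 v).2)
  have c4 : ∀ t, j (n.f t) = t := fun t => j3 _ _ (j2 _).1 (j2 _).2
  obtain ⟨q, hq⟩ := (E.pb σ).tot.isQuo.exists_lift (fun v => Y₂.π (j v))
    fun (g : Y.G) (v : (E.pb σ).V) => by
      obtain ⟨g, rfl⟩ := h3 g
      rw [← Y₂.π_smul g (j v), ← c4 (g • j v), n.eqv, c3]
      rfl
  let k : Y₂.X ≃ₜ (E.pb σ).tot.X := ⟨⟨n.map, q, fun x => by
      obtain ⟨t, rfl⟩ := Y₂.surj x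
      rw [n.map_π, hq, c4], fun x => by
      obtain ⟨v, rfl⟩ := (E.pb σ).tot.surj x
      exact (congrArg n.map (hq v)).trans ((n.map_π _).trans (congrArg _ (c3 v)))⟩,
    n.map.continuous, (E.pb σ).tot.isQuo.continuous_lift (Y₂.cont.comp j1) hq⟩
  have e4 := hs.cohom_pull (i.isThom (E.pb σ).isThom)
  rw [pull_pull, show ⇑i.mor.map ∘ ⇑hs.mor.map = k from
    funext fun x => (DFunLike.congr_fun (Mor.map_comp i.mor hs.mor) x).symm, e2] at e4
  have o := ovb_homeo (E.pb σ).isOVB k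
  have t1 : IsThom (k ⁻¹' (E.pb σ).Z) (fun r φ => (E.pb σ).ch r (k ∘ φ)) (pull k (E.pb σ).th) :=
    (E.pb σ).isThom.pull k.continuous Subset.rfl fun _ _ h => h
  have t2 := e4.supp_subset ht.supp
  have t3 := o.gys_bijective t1 hz (fun x => by
    obtain ⟨t, rfl⟩ := Y.surj x
    exact (congrArg (⇑(E.pb σ).proj.map ∘ k) (σ.map_π t)).trans ((congrArg (E.pb σ).proj.map
      (n.map_π _)).trans (((E.pb σ).proj.map_π _).trans (congrArg Y.π (h1 t))))) t2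
  refine ⟨hz, ht, e1, ?_⟩
  rwa [← cgys_eq hz t1.1 t2, cgys_congr hz t1.1 t2 ht.cocycle ht.supp e4,
    cgys_eq hz ht.cocycle ht.supp] at t3

variable {A W P : Type} [NormedRing A] [NormedAlgebra ℂ A] [NormedAddCommGroup W]
  [NormedSpace ℂ W] [NormedAddCommGroup P] [NormedSpace ℂ P] {act : A → W → W} {ρ : A → P → P}
  {T : Set W} {T' : Set (W × P)} {k : ℕ}

theorem Aff.dir (ha : Aff T T' k) {y : W} (hy : y ∈ T) : ∃ D : Submodule ℂ P, finrank ℂ D = k ∧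
    (∃ c, (y, c) ∈ T') ∧ ∀ c, (y, c) ∈ T' → ∀ c', (y, c') ∈ T' ↔ c - c' ∈ D := by
  obtain ⟨s, l, -, -, l1, l2⟩ := ha.loc y hy
  have l3 := l2.self_of_nhdsWithin hy
  refine ⟨LinearMap.range (l y : (Fin k → ℂ) →ₗ[ℂ] P), by
    rw [LinearMap.finrank_range_of_inj l1, Module.finrank_fin_fun], ⟨_, (l3 _).2 ⟨0, rfl⟩⟩,
    fun c hc c' => ?_⟩
  obtain ⟨e, rfl⟩ := (l3 c).1 hc
  refine (l3 c').trans ⟨?_, fun ⟨x, hx⟩ => ⟨e - x, ?_⟩⟩
  · rintro ⟨e', rfl⟩
    exact ⟨e - e', (map_sub _ _ _).trans (add_sub_add_left_eq_sub _ _ _).symm⟩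
  · rw [map_sub, ← add_sub_assoc, show l y x = _ from hx, sub_sub_cancel]

/-- **Existence and degree of the Thom pull-back.** -/
theorem pull_ex [FiniteDimensional ℂ P] [IsAct act T] [IsAct (Tx.act2 act ρ) T']
    (o : Orb Aˣ (Holo.Sp act T)) (ho : Orb Aˣ (Holo.Sp (Tx.act2 act ρ) T')) (ha : Aff T T' k)
    (p : Quo (Tx.act2 act ρ) T' → Quo act T)
    (hp : ∀ q : T', p (Quo.mk _ q) = Quo.mk act ⟨q.1.1, ha.mem _ q.2⟩) {E : VB (spA ho)}
    {i : E.W →ₗ[ℂ] P} {s : Holo.Sp (Tx.act2 act ρ) T' → E.W} (hs : E.IsSec s) (hr : E.r = k)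
    (hi : Injective i) (hq : ∀ q q' : Holo.Sp (Tx.act2 act ρ) T', q.val.1 = q'.val.1 →
      s q - s q' ∈ E.F q ∧ i (s q - s q') = q.val.2 - q'.val.2) :
    haveI : Nice (Quo (Tx.act2 act ρ) T') := inferInstanceAs (Nice (spA ho).X)
    let t : Coch (Quo (Tx.act2 act ρ) T') := hs.eul
    ∃ (σ : W → P) (hm : ∀ y ∈ T, (y, σ y) ∈ T'), ContinuousOn σ T ∧
      (∀ q, σ q.val.1 = q.val.2 - i (s q)) ∧ (∀ q, s q = 0 ↔ q.val.2 = σ q.val.1) ∧
      (∀ u, IsUnit u → ∀ y ∈ T, σ (act u y) = ρ u (σ y)) ∧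
      (∀ (q : Holo.Sp (Tx.act2 act ρ) T') w, w ∈ E.F q ↔ (q.val.1, q.val.2 + i w) ∈ T') ∧
      Continuous p ∧
      ∃ z : Quo act T → Quo (Tx.act2 act ρ) T', IsClosedEmbedding z ∧
        (∀ y : T, z (Quo.mk act y) = Quo.mk _ ⟨(y.1, σ y.1), hm _ y.2⟩) ∧ (∀ x, p (z x) = x) ∧
        IsCo (range z) k t ∧ ∀ (d : ℕ) γ, BM.IsDeg (2 * d) γ →
          ∃ γ', BM.IsDeg (2 * (d + k : ℕ)) γ' ∧ gys z t γ' = γ ∧
            ∀ a ∈ Zc (Quo act T), pull p a * t ∈ Zc _ ∧ ev γ' (pull p a * t) = ev γ a := by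
  classical
  haveI : Nice (Quo (Tx.act2 act ρ) T') := inferInstanceAs (Nice (spA ho).X)
  intro t
  have kD : ∀ y ∈ T, ∃ D : Submodule ℂ P, ∀ q : Holo.Sp (Tx.act2 act ρ) T', q.val.1 = y →
      (∀ c, (y, c) ∈ T' ↔ q.val.2 - c ∈ D) ∧ ∀ w, w ∈ E.F q ↔ i w ∈ D := fun y hy => by
    obtain ⟨D, d1, -, d2⟩ := ha.dir hy
    refine ⟨D, fun q e => ?_⟩
    subst e
    have d4 := d2 q.val.2 q.val_mem
    have d3 : D = (E.F q).map i := Submodule.eq_of_le_of_finrank_eq (fun c hc => by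
      obtain ⟨a, b⟩ := hq q (Holo.Sp.of _ (q.val.1, q.val.2 - c)
        ((d4 _).2 (by rwa [sub_sub_cancel]))) rfl
      exact ⟨_, a, b.trans (sub_sub_cancel _ _)⟩) (by
      rw [d1, finrank_map_of_inj fun w _ => (map_eq_zero_iff i hi).1, ← hr]
      exact (E.rank q).symm)
    exact ⟨d4, fun w => d3 ▸ ⟨fun h => ⟨w, h, rfl⟩, fun ⟨v, h, e⟩ => hi e ▸ h⟩⟩
  have k1 : ∀ (q : Holo.Sp (Tx.act2 act ρ) T') w, w ∈ E.F q ↔ (q.val.1, q.val.2 + i w) ∈ T' :=
    fun q w => by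
    obtain ⟨D, d⟩ := kD _ (ha.mem _ q.val_mem)
    rw [(d q rfl).2, (d q rfl).1, sub_add_cancel_left, neg_mem_iff]
  have k0 : ∀ y ∈ T, ∃ q : Holo.Sp (Tx.act2 act ρ) T', q.val.1 = y := fun y hy =>
    let ⟨_, _, ⟨c, h⟩, _⟩ := ha.dir hy
    ⟨Holo.Sp.of _ (y, c) h, rfl⟩
  let σ : W → P := fun y => if h : y ∈ T then (k0 y h).choose.val.2 - i (s (k0 y h).choose) else 0
  have k2 : ∀ q : Holo.Sp (Tx.act2 act ρ) T', σ q.val.1 = q.val.2 - i (s q) := fun q => by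
    have := (hq _ q (k0 _ (ha.mem _ q.val_mem)).choose_spec).2
    rw [map_sub] at this
    exact (dif_pos (ha.mem _ q.val_mem)).trans (sub_eq_sub_iff_sub_eq_sub.1 this.symm)
  have hm : ∀ y ∈ T, (y, σ y) ∈ T' := fun y hy => by
    obtain ⟨q, rfl⟩ := k0 y hy
    rw [k2, sub_eq_add_neg, ← map_neg]
    exact (k1 q _).1 (neg_mem (hs.mem q))
  have k3 : ∀ q : Holo.Sp (Tx.act2 act ρ) T', s q = 0 ↔ q.val.2 = σ q.val.1 := fun q => by
    rw [k2, eq_comm (a := q.val.2), sub_eq_self, map_eq_zero_iff i hi]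
  have ci := i.continuous_of_finiteDimensional
  have k4 : ContinuousOn (fun q : W × P => σ q.1) T' := continuousOn_iff_continuous_restrict.2
    ((Holo.Sp.continuous_val.snd.sub (ci.comp hs.cont)).congr fun q => (k2 q).symm)
  have k5 : ContinuousOn σ T := fun y hy => by
    obtain ⟨s₀, l, a, -, -, l2⟩ := ha.loc y hy
    have l3 : ∀ᶠ x in 𝓝[T] y, (x, s₀ x) ∈ T' := l2.mono fun x h => (h _).2 ⟨0, by simp⟩
    exact (k4 _ (l3.self_of_nhdsWithin hy)).tendsto.comp (tendsto_nhdsWithin_iff.2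
      ⟨(continuousAt_id.prodMk a.continuousAt).continuousWithinAt, l3⟩)
  have k6 : ∀ u, IsUnit u → ∀ y ∈ T, σ (act u y) = ρ u (σ y) := by
    rintro _ ⟨g, rfl⟩ y hy
    exact ((k3 (g • Holo.Sp.of _ _ (hm y hy))).1 ((hs.eqv g _).trans
      ((congrArg _ ((k3 _).2 rfl)).trans (smul_zero _)))).symm
  let π : Mor (spA ho) (spA o) := ⟨MonoidHom.id Aˣ, fun z : Holo.Sp (Tx.act2 act ρ) T' =>
    Holo.Sp.of act z.val.1 (ha.mem _ z.val_mem), continuous_id,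
    (continuous_fst.comp Holo.Sp.continuous_val).subtype_mk _, fun _ _ => rfl⟩
  let ζ : Mor (spA o) (spA ho) := ⟨MonoidHom.id Aˣ, fun z : Holo.Sp act T =>
    Holo.Sp.of (Tx.act2 act ρ) (z.val, σ z.val) (hm _ z.val_mem), continuous_id,
    (Holo.Sp.continuous_val.prodMk k5.restrict).subtype_mk _, fun (g : Aˣ) z =>
      Subtype.ext (Prod.ext rfl (k6 _ g.isUnit _ (Holo.Sp.val_mem (act := act) z)))⟩
  obtain rfl : p = π.map := π.map_eq hp
  obtain ⟨z1, z2, z3, z4⟩ := gys_bij π ζ hs (fun _ => rfl) (fun _ => rfl) surjective_id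
    (fun q => Submodule.ext fun w => by
      obtain ⟨D, d⟩ := kD _ (ha.mem _ (Holo.Sp.val_mem (act := Tx.act2 act ρ) q))
      exact ((d (ζ.f (π.f q)) rfl).2 w).trans ((d q rfl).2 w).symm) (fun q => (k3 q).trans
      ⟨fun e => Subtype.ext (Prod.ext rfl e), fun e => congrArg (·.1.2) e⟩)
    (j := fun v => Holo.Sp.of (Tx.act2 act ρ) _ ((k1 (ζ.f v.1.1) v.1.2).1 v.2))
    (Continuous.subtype_mk (by
      have := Holo.Sp.continuous_val.comp (ζ.cf.comp (continuous_fst.comp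
        (continuous_subtype_val (p := fun x => x ∈ (E.pb ζ).V))))
      exact this.fst.prodMk (this.snd.add (ci.comp (continuous_snd.comp continuous_subtype_val)))) _)
    (fun v => ⟨rfl, hi (by
      have := k2 (Holo.Sp.of (Tx.act2 act ρ) _ ((k1 (ζ.f v.1.1) v.1.2).1 v.2))
      exact add_left_cancel (eq_sub_iff_add_eq.1 this))⟩) fun q q' e e' => by
      have e1 : q.val.1 = q'.val.1 := congrArg Subtype.val e
      refine Subtype.ext (Prod.ext e1 (sub_eq_zero.1 ((hq q q' e1).2.symm.trans ?_)))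
      rw [e', sub_self, map_zero]
  subst hr
  refine ⟨σ, hm, k5, k2, k3, k6, k1, π.map.continuous, ζ.map, z1, fun y => ζ.map_π y, z3, z2,
    fun d γ hγ => ?_⟩
  obtain ⟨γ', g1, g2⟩ := exists_gys_eq z1 z2 z4 hγ
  refine ⟨γ', (by push_cast; ring : (2 * d + 2 * E.r : ℤ) = 2 * (d + E.r : ℕ)) ▸ g1, g2, fun a c => ⟨pull_mul_Zc π.map.continuous
    z2.cocycle (prop_of_section z1.continuous z3 (isClosed_supp _) z2.supp) c, ?_⟩⟩
  rw [← g2]
  exact (ev_gys_sec π.map.continuous z1 z3 z2.cocycle z2.supp γ' c).symm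

end Vale.Agent.P269L.K
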