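import Vale.Agent.P269L.K.St
import Vale.Agent.P269L.K.Shk
import Vale.Agent.P269L.I.LNm
import Vale.Agent.P269L.I.LSol

/-!
# The chart: the action on the zero set is proper and the ranks are constant
-/

set_option linter.unusedSectionVars false
set_option linter.unusedVariables false

noncomputable section

namespace Vale.Agent.P269L.K

open Set Function Topology Filter Module P269 P269.Ch P269.Holo I

theorem holSub_rk {T A E : Type} [TopologicalSpace T] [NormedAddCommGroup A] [NormedSpace ℂ A]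
    [NormedAddCommGroup E] [NormedSpace ℂ E] {ι : T → A} {B : Set (T × E)} {r : ℕ} {t : T}
    (h : HolSub ι B r t) {s : Set E} (e : ∀ w, w ∈ s ↔ (t, w) ∈ B) :
    finrank ℂ (Submodule.span ℂ s) = r := by
  obtain ⟨ℓ, a⟩ := h
  rw [show s = LinearMap.range (ℓ t : (Fin r → ℂ) →ₗ[ℂ] E) from
    Set.ext fun w => (e w).trans (a.mem.self_of_nhds w), Submodule.span_eq,
    LinearMap.finrank_range_of_inj a.inj, finrank_fin_fun]

theorem prp_dt {N c : ℕ} {F : Fin c → MvPolynomial (Fin (N + 1)) ℂ} {dg : Fin c → ℕ} {g d : ℤ}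
    {n k D r : ℕ} {jj ρ'} (h : @Hyp N c F g d n k D r jj ρ' dg) :
    (sd (dt F g d n k D jj ρ') (ci F).cone (ci F).tan).Prp := by
  obtain ⟨O, v, w, _, a⟩ := h.kur
  obtain ⟨s1, s2, -⟩ := lSol _ _ _ _ _ _ _ _ _ _ _ _ h
  have b := a.hol _ jj h.crd.inj h.crd.rng
  have := a.dom.isAct
  refine ⟨fun i => (@Nw.prp_iff _ _ _ _ _ _ _ _ _ i).1 fun L e =>
    Nw.prp_iff.2 a.dom.orb.proper L
      (e.trans (s1.le.trans a.dom.sub)), v, v + w, fun x hx =>
    ⟨holSub_rk (b.van ⟨x, a.dom.sub (s1.le hx)⟩) fun κ => ?_,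
      holSub_rk (b.obs ⟨x, s1.le hx⟩) fun κ => ?_⟩⟩
  · exact (Set.ext_iff.1 (s2 x hx.1).1 κ).trans T.mem_van.symm
  · exact (Set.ext_iff.1 (lNm _ _ _ _ _ _ _ _ _ _ _ _ h x (s1.le hx)).2 κ).trans T.mem_obs.symm

end Vale.Agent.P269L.K
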