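import Vale.Agent.P269L.K.Psi0

/-!
# The cotangent line classes correspond under the roof
-/

set_option linter.all false
set_option maxSynthPendingDepth 3

noncomputable section

namespace Vale.Agent.P269L.K.Ps

open Set Function Topology Filter Module MvPolynomial P291Z P269 P269.Base P269.Holo P269.Ch
  P269.Ch.Psi I

section

variable {A W P : Type} [NormedRing A] [NormedAlgebra ℂ A] [NormedAddCommGroup W] [NormedSpace ℂ W]
  [NormedAddCommGroup P] [NormedSpace ℂ P] {act : A → W → W} {ρ ρ' : A → P → P} {Z : Set W}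
  {B N : W → Submodule ℂ P} {k : ℕ}

theorem fam_congr (h : IsFam act ρ Z ⊤ B k) (e : ∀ x ∈ Z, ρ' = ρ) : IsFam act ρ' Z ⊤ B k :=
  ⟨h.le, h.closed, h.rank, fun x hx => (e x hx).symm ▸ h.inv x hx⟩

theorem loc_empty (h : ∀ x, x ∉ Z) {σ e} (he : Pub.IsLoc act ρ Z B N σ e) :
    Pub.IsLoc act ρ' Z B N σ e := by
  have k : ∀ z : Pub.Quo act Z, False := fun z => h _ (Quot.out z).2
  have k' : ∀ z : Pub.Tot act ρ' Z B N, False := fun z => h _ (Quot.out z).2.1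
  obtain ⟨s, t, ⟨⟨t0, -⟩, -⟩, rfl, -⟩ := he
  refine ⟨fun z => (k z).elim, 0, ⟨⟨rfl, 0, fun _ _ => rfl⟩,
    eq_empty_of_forall_notMem fun z _ => k' z, fun z _ => (k' z).elim,
    fun _ φ => (k' (φ 0)).elim⟩, funext fun l => ?_, fun z => (k z).elim⟩
  cases l with
  | nil => exact t0
  | cons z _ => exact (k z).elim

end

section

variable {A W U X B ι Λ : Type} [NormedRing A] [NormedAlgebra ℂ A] [NormedAddCommGroup W]
  [NormedSpace ℂ W] [NormedAddCommGroup U] [NormedSpace ℂ U] [NormedAddCommGroup X] [NormedSpace ℂ X]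
  [Monoid B] [Fintype ι] [DecidableEq ι] {M : ι → ℕ} {r n : ℕ}
  {D : Dat A (ι → ℂ) W (V M) U (Fin r → ℂ) X ι Λ n} {sc : B → X → X} {K : Set X} {TK : X → Set X}
  {g : ℤ} {o : ι}

theorem exists_rho (h : Nf D sc K TK g o) (i : Fin n) : ∃ ρ' : A → V M → V M, I.Rep ρ' ∧
    (∀ x ∈ D.sol K, ρ' = rho D i) ∧ ∀ e,
      Pub.IsLoc D.α (rho D i) (D.sol K) (tB D i) (tN D i) (fun _ => 0) e →
      Pub.IsLoc D.α ρ' (D.sol K) (tB D i) (tN D i) (fun _ => 0) e := by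
  by_cases k : ∃ x, x ∈ D.sol K
  · exact ⟨_, rep_rho h k.choose_spec.1 i, fun _ _ => rfl, fun _ => id⟩
  · exact ⟨D.ε, h.eqv.2.1, fun x hx => (k ⟨x, hx⟩).elim, fun e => loc_empty (not_exists.1 k)⟩

end

variable {N c : ℕ} {F : Fin c → MvPolynomial (Fin (N + 1)) ℂ} {A W U ι Λ : Type} [NormedRing A]
  [NormedAlgebra ℂ A] [NormedAddCommGroup W] [NormedSpace ℂ W] [NormedAddCommGroup U]
  [NormedSpace ℂ U] [Fintype ι] [DecidableEq ι] {M : ι → ℕ} {r n : ℕ} (s : Su A W U ι Λ M r n F)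

/-- The two components of a vector. -/
def sp : V s.MM ≃ₗ[ℂ] V M × V s.ch.M :=
  LinearEquiv.sumPiEquivProdPi ℂ ι (Option Unit) fun i => Fin (s.MM i) → ℂ

theorem sp_apply (q : V s.MM) : sp s q = (s.L q, s.R q) := rfl

/-- The marked point of the graph. -/
def jp (i : Fin n) (z : W × s.ch.W (Fin n) × s.Q) : V s.MM :=
  (sp s).symm (s.D.p i z.1, s.D₀.p i z.2.1)

/-- The tangent space of the multicone of the graph at the marked point. -/
def tG (i : Fin n) (z : W × s.ch.W (Fin n) × s.Q) : Submodule ℂ (V M × V s.ch.M) :=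
  (Tg (jc z.2.2.1) (jp s i z)).map (sp s).toLinearMap

theorem L_jp (i z) : rV (M := s.MM) .inl (jp s i z) = s.D.p i z.1 := rfl

theorem R_jp (i z) : rV (M := s.MM) .inr (jp s i z) = s.D₀.p i z.2.1 := rfl

variable {s}

theorem mem_tG {i z v} : v ∈ tG s i z ↔ (sp s).symm v ∈ Tg (jc z.2.2.1) (jp s i z) :=
  Submodule.mem_map_equiv _

/-- The curve of a point of the roof. -/
structure Cv (z : W × s.ch.W (Fin n) × s.Q) : Prop where
  cur : IsCurve (.inl s.o) s.g s.mm (jc z.2.2.1)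
  nod : Nod (.inr none) (jc z.2.2.1)
  hp : HP z.2.2.1 (jc z.2.2.1)
  left : MapsTo (rV (M := s.MM) .inl) (jc z.2.2.1) (s.D.C z.1)
  right : MapsTo (rV (M := s.MM) .inr) (jc z.2.2.1) (s.D₀.C z.2.1)
  mem : ∀ i, jp s i z ∈ jc z.2.2.1

theorem cv (hE : s.HasEx) {z} (hz : z ∈ s.rf.Z) : Cv z := by
  obtain ⟨hx, θ, Γ, lk, Qf, v, Lf, e⟩ := hE.2 z hz
  obtain ⟨a, -, b⟩ := e.hp.self_of_nhds
  have q := e.eqQ
  simp only [q] at a b
  obtain ⟨p, -, d⟩ := e.th.mark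
  refine ⟨b ▸ e.th.cur.self_of_nhds, b ▸ e.th.fam₀.nod, b ▸ a, fun y hy => ?_, fun y hy => ?_,
    fun i => ?_⟩
  · exact e.th.left.self_of_nhds.1.le ⟨y, b ▸ hy, rfl⟩
  · have := e.th.right.self_of_nhds.1.le ⟨y, b ▸ hy, rfl⟩
    rwa [e.eqθ] at this
  · obtain ⟨d1, d2, d3⟩ := d.self_of_nhds i
    rw [e.eqθ] at d3
    rw [b, show jp s i z = p z.1 i from (sp s).symm_apply_eq.2 (Prod.ext d2.symm d3.symm)]
    exact d1

variable (hs : s.Ok) (hE : s.HasEx) {d d₀ K K₀ : ℕ} (hO : s.rf.Ok d d₀ K K₀)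
include hs hE hO

theorem smooth {z} (hz : z ∈ s.rf.Z) (i : Fin n) :
    ¬IsNode (.inl s.o) (jc z.2.2.1) (jp s i z) :=
  not_node (cv hE hz).left (p_mem hs.nf (hO.mem z hz).1.1 i).2

theorem locFam (z : s.rf.Z) : LocFam (.inl s.o) (fun z : s.rf.Z => jc z.1.2.2.1)
    (fun z => z.1.2.2.1) z :=
  (ext_of_hilb (Q := id) (g := s.g) (m := s.mm) (C := fun z : s.rf.Z => jc z.1.2.2.1)
    (π := fun z => z.1.2.2.1) (t₀ := z) (fun _ => le_rfl)
    (.of_forall fun _ => Continuous.continuousAt (by fun_prop)) analyticAt_id (cv hE z.2).hp.1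
    (fun μ => ((cv hE z.2).hp.2 μ).2)
    (.of_forall fun y => ⟨(cv hE y.2).cur, fun μ => ((cv hE y.2).hp.2 μ).1⟩)).locFam

theorem famG (i : Fin n) : IsFam s.rf.act
    (fun u c => (rho s.D i u.1 c.1, rho s.D₀ i u.2.1 c.2)) s.rf.Z ⊤ (tG s i)
    (Fintype.card (ι ⊕ Option Unit) + 1) := by
  have f1 : Continuous (sp s).symm := (sp s).symm.toLinearMap.continuous_of_finiteDimensional
  have hp : Continuous fun z : s.rf.Z => jp s i z := f1.comp
    (((hs.nf.fam.2.1 i).continuous.comp (continuous_fst.comp continuous_subtype_val)).prodMk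
      ((hs.nf₀.fam.2.1 i).continuous.comp
        (continuous_fst.comp (continuous_snd.comp continuous_subtype_val))))
  have k := (closed_Tg hp (locFam hs hE hO) fun y => ⟨(cv hE y.2).mem i, smooth hs hE hO y.2 i⟩).preimage
    (f := fun z : s.rf.Z × V M × V s.ch.M => (z.1, (sp s).symm z.2))
    (continuous_fst.prodMk (f1.comp continuous_snd))
  refine ⟨fun _ _ => le_top, ?_, fun z hz => ?_, fun z hz u hu q hq => ?_⟩
  · convert k using 1
    exact Set.ext fun z => mem_tG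
  · rw [tG, LinearEquiv.finrank_map_eq]
    exact rank_Tg (cv hE hz).cur.nod ((cv hE hz).mem i) (smooth hs hE hO hz i)
  · have u1 := (Prod.isUnit_iff.1 hu).1
    have u2 := (Prod.isUnit_iff.1 (Prod.isUnit_iff.1 hu).2).1
    have u3 := (Prod.isUnit_iff.1 (Prod.isUnit_iff.1 (Prod.isUnit_iff.1 hu).2).2).1
    have x1 := (hO.mem z hz).1.1
    have x2 := (hO.mem z hz).2.1.1
    let E : V s.MM →L[ℂ] V s.MM := LinearMap.toContinuousLinearMap ((sp s).symm.toLinearMap ∘ₗ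
      LinearMap.prodMap ((rho_lin hs.nf u1 i).mk' _) ((rho_lin hs.nf₀ u2 i).mk' _) ∘ₗ
        (sp s).toLinearMap)
    have e1 : ∀ y, E y = (sp s).symm (rho s.D i u.1 (sp s y).1, rho s.D₀ i u.2.1 (sp s y).2) :=
      fun _ => rfl
    have e2 : MapsTo E (jc z.2.2.1) (jc (s.rf.act u z).2.2.1) := fun y hy => by
      refine ⟨fun j => ?_, fun μ hμ => ?_⟩
      · rcases j with j | j
        · exact (hs.nf.crv _ (hs.nf.α_mem u1 x1)).ne_zero _
            (rho_mem hs.nf u1 x1 i ((cv hE hz).left hy)) j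
        · exact (hs.nf₀.crv _ (hs.nf₀.α_mem u2 x2)).ne_zero _
            (rho_mem hs.nf₀ u2 x2 i ((cv hE hz).right hy)) j
      · obtain ⟨w, hw⟩ := u3.exists_left_inv
        have a : z.2.2.1 (s.sb u.1 u.2.1 _ μ) = 0 := by
          have b := congrArg w hμ
          rw [map_zero] at b
          exact (congr($hw _)).symm.trans b
        have b := hy.2 _ a
        rw [show E y = Sum.elim (s.D.t i u.1) (s.D₀.t i u.2.1) • fun j => (Sum.rec (eps s.D u.1)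
          u.2.1.1 j : (Fin (s.MM j) → ℂ) →L[ℂ] Fin (s.MM j) → ℂ) (y j) from funext fun j => ?_,
          val_smul]
        · exact mul_eq_zero_of_right _ b
        · rcases j with j | j
          · exact (congrFun (rho_eq hs.nf i u.1 (s.L y)) j).trans
              (congrArg (s.D.t i u.1 j • ·) (Z2.eps_apply hs.nf u1 (s.L y) j).symm)
          · rfl
    have e3 := Tg_map E e2 (mem_tG.1 hq)
    rw [e1, e1, (sp s).apply_symm_apply, jp, (sp s).apply_symm_apply, ← p_act hs.nf u1 x1,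
      ← p_act hs.nf₀ u2 x2] at e3
    exact mem_tG.2 e3

theorem sups {z} (hz : z ∈ s.rf.Z) (i : Fin n) :
    (tG s i z).map (.fst ℂ _ _) ⊔ tN s.D i z.1 = tB s.D i z.1 ∧
      (tG s i z).map (.snd ℂ _ _) ⊔ tN s.D₀ i z.2.1 = tB s.D₀ i z.2.1 ∧
      ∀ c ∈ tG s i z, c.1 ∈ tN s.D i z.1 ↔ c.2 ∈ tN s.D₀ i z.2.1 := by
  have x1 := (hO.mem z hz).1.1
  have x2 := (hO.mem z hz).2.1.1
  have k := cv hE hz
  rw [tN_eq hs.nf x1, tN_eq hs.nf₀ x2, tB_eq hs.nf x1, tB_eq hs.nf₀ x2]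
  refine ⟨?_, ?_, fun c hc => ?_⟩
  · rw [tG, ← Submodule.map_comp]
    exact map_sup (r := .inl) k.cur.nod (hs.nf.crv _ x1).nod k.left (k.mem i) (p_mem hs.nf x1 i).2
  · rw [tG, ← Submodule.map_comp]
    exact map_sup (r := .inr) k.nod (hs.nf₀.crv _ x2).nod k.right (k.mem i) (p_mem hs.nf₀ x2 i).2
  · exact (prj_iff (r := .inl) k.cur.nod (k.mem i) (smooth hs hE hO hz i) (mem_tG.1 hc)).trans
      (prj_iff (r := .inr) k.nod (k.mem i) (not_node k.right (p_mem hs.nf₀ x2 i).2)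
        (mem_tG.1 hc)).symm

/-- **The Euler cocycles of the tangent lines correspond.** -/
theorem psi (hL : LEu) (i : Fin n) (h) (hh : s.rf.Map h) (e e₀)
    (he : Pub.IsEuler s.D.α (fun u c => s.D.τ (s.D.t i u) (s.D.ε u c)) s.Z
      (fun x => Tan (s.D.C x) (s.D.p i x)) (fun x => dir s.D.τ (s.D.p i x)) e)
    (he₀ : Pub.IsEuler s.D₀.α (fun u c => s.D₀.τ (s.D₀.t i u) (s.D₀.ε u c)) s.Z₀
      (fun x => Tan (s.D₀.C x) (s.D₀.p i x)) (fun x => dir s.D₀.τ (s.D₀.p i x)) e₀) :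
    ∃ (c : Coch (Quo s.D.α s.Z)) (c₀ : Coch (Quo s.D₀.α s.Z₀)), c.1 = e ∧ c₀.1 = e₀ ∧
      supp (δ c) = ∅ ∧ supp (δ c₀) = ∅ ∧ hcls c = hcls (pull h c₀) := by
  obtain ⟨ρ, a1, a2, a3⟩ := exists_rho hs.nf i
  obtain ⟨ρ₀, b1, b2, b3⟩ := exists_rho hs.nf₀ i
  exact hL _ _ _ _ _ _ _ _ _ _ _ s.rf d d₀ K K₀ hO _ _ ρ ρ₀ _ _ _ _ (tG s i) _ _ _ _ _ a1 b1
    (fam_congr (famB hs.nf i) a2) (fam_congr (famN hs.nf i) a2) (fam_congr (famB hs.nf₀ i) b2)
    (fam_congr (famN hs.nf₀ i) b2) (fam_congr (famG hs hE hO i) fun z hz => by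
      rw [a2 _ (hO.mem z hz).1, b2 _ (hO.mem z hz).2.1])
    (fun x hx => tN_le hs.nf₀ hx.1 i) (fun z hz => sups hs hE hO hz i) h hh e e₀ (a3 e he)
    (b3 e₀ he₀)

end Vale.Agent.P269L.K.Ps
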