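import Vale.Agent.P269L.K.St
import Vale.Agent.P269L.K.Nb
import Vale.Agent.P269L.K.Eu
import Vale.Agent.P269L.K.Gen
import Vale.Agent.P269L.I.Crv

/-!
# Normal data: the action on the factors, isomorphisms given by the group
-/

set_option linter.unusedSectionVars false
set_option maxSynthPendingDepth 3

noncomputable section

namespace Vale.Agent.P269L.K.Z2

open Set Function Topology Filter Module P269 P269.Base P269.Holo I

section rep

variable {A E : Type} [NormedRing A] [NormedAlgebra ℂ A] [NormedAddCommGroup E] [NormedSpace ℂ E]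
  {act : A → E → E} {u w : A}

theorem rep_fd (h : I.Rep act) (hu : IsUnit u) (v : E) : fderiv ℂ (act u) 0 v = act u v :=
  haveI := Eu.fdW h
  congrArg (· v) (LinearMap.toContinuousLinearMap (IsLinearMap.mk' _ (h.2.2 u hu).1)).fderiv

theorem rep_an (h : I.Rep act) (hu : IsUnit u) :
    AnalyticAt ℂ (fun u => fderiv ℂ (act u) 0) u := by
  have := Eu.fdW h
  have := Eu.fdA h
  have := FiniteDimensional.complete ℂ A
  refine analyticAt_of_apply fun v => AnalyticAt.congr (f := fun u => act u v)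
    (((h.2.2 u hu).2 v).1.comp (f := fun u => (u, v)) (analyticAt_id.prod analyticAt_const)) ?_
  exact Eventually.mono (Units.isOpen.mem_nhds hu) fun w a => (rep_fd h a v).symm

theorem rep_mul (h : I.Rep act) (hu : IsUnit u) (hw : IsUnit w) (v : E) :
    act (u * w) v = act u (act w v) := ((h.2.2 u hu).2 v).2 w hw

theorem rep_inv (h : I.Rep act) (u : Aˣ) (v : E) : act u⁻¹.1 (act u v) = v := by
  rw [← rep_mul h u⁻¹.isUnit u.isUnit, u.inv_mul, h.2.1]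

theorem rep_inv' (h : I.Rep act) (u : Aˣ) (v : E) : act u (act u⁻¹.1 v) = v := rep_inv h u⁻¹ v

theorem rep_an₂ (h : I.Rep act) (hu : IsUnit u) (v : E) : AnalyticAt ℂ (act u) v :=
  ((h.2.2 u hu).2 v).1.comp (f := fun v => (u, v)) (analyticAt_const.prod analyticAt_id)

end rep

section iso

variable {B B' B₀ E E' X : Type} [Monoid B] [Monoid B'] [Monoid B₀] [NormedAddCommGroup E]
  [NormedSpace ℂ E] [NormedAddCommGroup E'] [NormedSpace ℂ E'] [NormedAddCommGroup X]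
  [NormedSpace ℂ X] {n : ℕ} {τ : B → E → E} {τ' : B' → E' → E'} {sc : B₀ → X → X} {C : Set E}
  {C' : Set E'} {φ : E → E'} {p : Fin n → E} {p' : Fin n → E'} {f : E → X} {f' : E' → X} {K : Set X}

/-- The inverse of an isomorphism. -/
theorem iso_symm (a : Ac τ) (b : Ac sc) (hp : ∀ i, p' i ∈ C')
    (hq : ∀ i, p i ∈ C) (hf : Hol τ' sc C' K f') (h : Iso τ τ' sc C C' p p' f f' φ) :
    ∃ ψ, Iso τ' τ sc C' C p' p f' f ψ ∧ (∀ c ∈ C, Same τ c (ψ (φ c))) ∧
      ∀ c ∈ C', Same τ' c (φ (ψ c)) := by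
  obtain ⟨h1, ⟨ψ, h2, h3, h4⟩, h5, h6⟩ := h
  exact ⟨ψ, ⟨h2, ⟨φ, h1, h4, h3⟩, fun i => a.trans (h3 _ (hq i))
    (a.symm (Nr.hol_same h2 (hp i) (h5 i))), fun c hc =>
      b.trans (Nr.hol_same hf hc (h4 c hc)) (b.symm (h6 _ (h2 c hc).1))⟩, h3, h4⟩

end iso

variable {A W U X B ι Λ : Type} [NormedRing A] [NormedAlgebra ℂ A] [NormedAddCommGroup W]
  [NormedSpace ℂ W] [NormedAddCommGroup U] [NormedSpace ℂ U] [NormedAddCommGroup X] [NormedSpace ℂ X]
  [Monoid B] [Fintype ι] [DecidableEq ι] {M : ι → ℕ} {r n : ℕ}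
  {D : Dat A (ι → ℂ) W (V M) U (Fin r → ℂ) X ι Λ n} {sc : B → X → X} {K : Set X} {TK : X → Set X}
  {g : ℤ} {o : ι} {u w : A} {x : W}

section

variable (h : Nf D sc K TK g o)
include h

theorem rε : I.Rep D.ε := h.eqv.2.1

theorem eps_smul (hu : IsUnit u) (t : ι → ℂ) (c : V M) : D.ε u (t • c) = t • D.ε u c := by
  have := ((h.eqv.2.2.2.2.2.2 u hu).2.1 c).1 t
  rwa [h.tor] at this

theorem eps_apply (hu : IsUnit u) (c : V M) (i : ι) : eps D u i (c i) = D.ε u c i := by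
  have e : (Pi.single i (c i) : V M) = (Pi.single i 1 : ι → ℂ) • c := funext fun k => by
    by_cases b : k = i
    · subst b
      simp
    · simp [b]
  change fderiv ℂ (D.ε u) 0 (Pi.single i (c i)) i = _
  rw [rep_fd (rε h) hu, e, eps_smul h hu]
  simp

theorem eps_one (i : ι) : eps D 1 i = 1 := ContinuousLinearMap.ext fun v => by
  have := eps_apply h isUnit_one (Pi.single i v) i
  rwa [(rε h).2.1, Pi.single_eq_same] at this

theorem eps_mul (hu : IsUnit u) (hw : IsUnit w) (i : ι) :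
    eps D (u * w) i = eps D u i * eps D w i := ContinuousLinearMap.ext fun v => by
  have a := eps_apply h (hu.mul hw) (Pi.single i v) i
  have b := eps_apply h hw (Pi.single i v) i
  rw [rep_mul (rε h) hu hw, ← eps_apply h hu, ← b, Pi.single_eq_same] at a
  exact a

theorem an_eps (hu : IsUnit u) (i : ι) : AnalyticAt ℂ (fun u => eps D u i) u :=
  an_comp analyticAt_const (an_comp (rep_an (rε h) hu) analyticAt_const)

theorem same_eps (hu : IsUnit u) {c c' : V M} (e : Same tor c c') :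
    Same tor (D.ε u c) (D.ε u c') :=
  let ⟨t, a, b⟩ := e
  ⟨t, a, b ▸ eps_smul h hu t c⟩

theorem act_S (hu : IsUnit u) (hx : x ∈ D.S) : D.α u x ∈ D.S :=
  ((h.eqv.2.2.2.2.2.2 u hu).2.2 x hx).1

theorem act_C (hu : IsUnit u) (hx : x ∈ D.S) : D.C (D.α u x) = D.ε u '' D.C x :=
  ((h.eqv.2.2.2.2.2.2 u hu).2.2 x hx).2.1

theorem act_sol (hu : IsUnit u) (hx : x ∈ D.sol K) : D.α u x ∈ D.sol K := by
  refine ⟨act_S h hu hx.1, ?_⟩
  rw [act_C h hu hx.1]
  rintro _ ⟨c, hc, rfl⟩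
  obtain ⟨y, a, b⟩ := hx.2 c hc
  refine ⟨y, a, ?_⟩
  rw [(((h.eqv.2.2.2.2.2.2 u hu).2.2 x hx.1).2.2.2 c hc).1, ← b]
  exact ((h.eqv.2.2.2.2.2.2 u hu).2.1 c).2.1 y

theorem sat (hx : x ∈ D.S) : Nr.Sat tor (D.C x) := fun _ hc _ e =>
  (h.crv x hx).nod.orb hc (same_orb.1 e)

theorem p_mem (hx : x ∈ D.S) (i : Fin n) : D.p i x ∈ D.C x :=
  ((h.fam.2.2.2 x hx).2.2.1.2.2.2.2.1 i).1

theorem hol_f (hx : x ∈ D.sol K) : Hol tor sc (D.C x) K (D.f x) := h.tor ▸ (h.grp x hx).1.2.1.2.1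

theorem f_act (hu : IsUnit u) (hx : x ∈ D.sol K) {c : V M} (hc : c ∈ D.C x) :
    D.f (D.α u x) (D.ε u c) = D.f x c := by
  have a : D.ε u c ∈ D.C (D.α u x) := act_C h hu hx.1 ▸ mem_image_of_mem _ hc
  refine ((h.emb.2.2 (D.ε u c)).2.2 (h.tor ▸ inj_iff.2
    ((h.crv _ (act_S h hu hx.1)).ne_zero _ a))).1 ?_
  change D.j _ = D.j _
  rw [← (h.grp _ (act_sol h hu hx)).1.1 _ a, (((h.eqv.2.2.2.2.2.2 u hu).2.2 x hx.1).2.2.2 c hc).1,
    (h.grp x hx).1.1 c hc, ((h.eqv.2.2.2.2.2.2 u hu).2.1 c).2.1]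

theorem hol_eps (hu : IsUnit u) (hx : x ∈ D.S) :
    Hol tor tor (D.C x) (D.C (D.α u x)) (D.ε u) := fun c hc =>
  ⟨act_C h hu hx ▸ mem_image_of_mem _ hc, fun t ht => same_eps h hu ⟨t, ht, rfl⟩, _,
    rep_an₂ (rε h) hu c, .of_forall fun _ => ac_tor.refl _⟩

/-- The elements of the group are isomorphisms. -/
theorem iso_act (b : Ac sc) (hu : IsUnit u) (hx : x ∈ D.sol K) :
    Iso tor tor sc (D.C x) (D.C (D.α u x)) (D.p · x) (D.p · (D.α u x)) (D.f x) (D.f (D.α u x))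
      (D.ε u) := by
  refine ⟨hol_eps h hu hx.1, ?_, fun i => ac_tor.symm ⟨D.t i u,
    (h.eqv.2.2.2.2.2.2 u hu).1 i, ?_⟩, fun c hc => (f_act h hu hx hc).symm ▸ b.refl _⟩
  · obtain ⟨u, rfl⟩ := hu
    have := hol_eps h u⁻¹.isUnit (act_S h u.isUnit hx.1)
    rw [rep_inv h.eqv.1] at this
    exact ⟨_, this, fun c _ => (rep_inv (rε h) u c).symm ▸ ac_tor.refl _,
      fun c _ => (rep_inv' (rε h) u c).symm ▸ ac_tor.refl _⟩
  · have := ((h.eqv.2.2.2.2.2.2 u hu).2.2 x hx.1).2.2.1 i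
    rwa [h.tor] at this

theorem grp (hx : x ∈ D.sol K) {y : W} (hy : y ∈ D.sol K) {φ}
    (a : Iso tor tor sc (D.C x) (D.C y) (D.p · x) (D.p · y) (D.f x) (D.f y) φ) :
    ∃! u, IsUnit u ∧ D.α u x = y ∧ ∀ c ∈ D.C x, Same tor (D.ε u c) (φ c) := by
  have := (h.grp x hx).1.2.2 y hy φ
  rw [h.tor] at this
  exact this a

end

end Vale.Agent.P269L.K.Z2
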