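import Vale.Agent.P269L.K.Fr0
import Vale.Agent.P269L.K.Z0
import Vale.Agent.P269L.I.Tan
import Vale.Agent.P269.Map.Psi

/-!
# The tangent lines at the marked points of a presentation in normal form
-/

set_option linter.all false

noncomputable section

namespace Vale.Agent.P269L.K.Ps

open Set Function Topology Filter Module P269 P269.Base P269.Holo P269.Ch P269.Ch.Psi I

section

variable {ι ι' T P : Type} [Fintype ι] [DecidableEq ι] [Fintype ι'] [DecidableEq ι'] {M : ι → ℕ}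
  {o : ι} [TopologicalSpace T] [NormedAddCommGroup P] [NormedSpace ℂ P] [FiniteDimensional ℂ P]

theorem closed_Tg {C : T → Set (V M)} {π : T → P} {p : T → V M} (hp : Continuous p)
    (hf : ∀ t, LocFam o C π t) (hm : ∀ t, p t ∈ C t ∧ ¬IsNode o (C t) (p t)) :
    IsClosed {z : T × V M | z.2 ∈ Tg (C z.1) (p z.1)} := by
  refine isClosed_span (κ := Option ι) (B := fun t => Tg (C t) (p t)) fun t => ?_
  obtain ⟨v, v1, v2⟩ := ((hf t).smAt (hm t).1 (hm t).2).exists_tangent (hf t)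
  have h3 := (continuous_id.prodMk hp).continuousAt.eventually v2
  refine ⟨fun y => fr (p y) (v (π y, p y)), continuousAt_pi.2 fun j => ?_, ?_,
    h3.mono fun y hy => ?_⟩
  · cases j
    exacts [v1.continuousAt.comp_of_eq ((hf t).cont.self_of_nhds.prodMk hp.continuousAt) rfl,
      continuousAt_single hp.continuousAt _]
  · obtain ⟨γ, a, b, c⟩ := h3.self_of_nhds (hm t).1
    have := li_fr (hf t).nod a
    rwa [b, c] at this
  · obtain ⟨γ, a, b, c⟩ := hy (hm y).1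
    have := Tg_eq (hf y).nod a (b ▸ (hm y).2)
    rwa [b, c] at this

theorem closed_Nr {p : T → V M} (hp : Continuous p) (h0 : ∀ t i, p t i ≠ 0) :
    IsClosed {z : T × V M | z.2 ∈ Psi.Nr (p z.1)} :=
  isClosed_span (B := fun t => Psi.Nr (p t)) fun t => ⟨fun t i => Pi.single i (p t i),
    continuousAt_pi.2 (continuousAt_single hp.continuousAt), li (h0 t), .of_forall fun _ => rfl⟩

theorem rank_Tg {C : Set (V M)} {c : V M} (h : Nod o C) (hc : c ∈ C) (hn : ¬IsNode o C c) :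
    finrank ℂ (Tg C c) = Fintype.card ι + 1 := by
  obtain ⟨γ, a, b⟩ := exists_br h hc
  have := finrank_span_eq_card (li_fr h a)
  rwa [← Tg_eq h a (b ▸ hn), b, Fintype.card_option] at this

variable {M' : ι' → ℕ} {r : ι → ι'} {G : Set (V M')} {C : Set (V fun i => M' (r i))} {q : V M'}

theorem br_prj (hm : MapsTo (rV r) G C) {γ : ℂ → V M'} (h : IsBranch (r o) G γ) :
    IsBranch o C fun t => rV r (γ t) :=
  ⟨((rV (M := M') r).analyticAt _).comp h.holo, h.mem.mono fun _ a => hm a, by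
    rw [deriv_rV h.holo]
    exact h.imm⟩

theorem not_node (hm : MapsTo (rV r) G C) (hn : ¬IsNode o C (rV r q)) : ¬IsNode (r o) G q := by
  rintro ⟨γ, δ, a, b, c, d, e⟩
  refine hn ⟨_, _, br_prj hm a, br_prj hm b, congrArg (rV r) c, congrArg (rV r) d, ?_⟩
  rw [deriv_rV a.holo, deriv_rV b.holo]
  exact e

theorem Nr_prj {v : V M'} (h : v ∈ Psi.Nr q) : rV r v ∈ Psi.Nr (rV r q) :=
  let ⟨b, e⟩ := mem_Nr.1 h
  mem_Nr.2 ⟨fun i => b (r i), e ▸ rfl⟩

theorem map_sup (hG : Nod (r o) G) (hC : Nod o C) (hm : MapsTo (rV r) G C) (hq : q ∈ G)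
    (hn : ¬IsNode o C (rV r q)) :
    (Tg G q).map (rV r : V M' →L[ℂ] V fun i => M' (r i)).toLinearMap ⊔ Psi.Nr (rV r q) =
      Tg C (rV r q) := by
  refine le_antisymm (sup_le ?_ (Nr_le hC (hm hq))) fun v hv => ?_
  · rintro _ ⟨v, hv, rfl⟩
    exact Tg_map (rV r) hm hv
  · obtain ⟨γ, a, rfl⟩ := exists_br hG hq
    obtain ⟨s, hs⟩ := (mem_Tg hC (br_prj hm a) hn).1 hv
    rw [deriv_rV a.holo] at hs
    rw [← add_sub_cancel (s • rV r (deriv γ 0)) v]
    exact Submodule.add_mem_sup (Submodule.smul_mem _ _ ⟨_, Submodule.subset_span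
      ⟨γ, a.holo, a.mem, rfl, rfl⟩, rfl⟩) hs

theorem prj_iff (hG : Nod (r o) G) (hq : q ∈ G) (hn : ¬IsNode (r o) G q) {v : V M'}
    (hv : v ∈ Tg G q) : rV r v ∈ Psi.Nr (rV r q) ↔ v ∈ Psi.Nr q := by
  refine ⟨fun h => ?_, Nr_prj⟩
  obtain ⟨γ, a, rfl⟩ := exists_br hG hq
  obtain ⟨s, hs⟩ := (mem_Tg hG a hn).1 hv
  obtain ⟨t, h5⟩ := mem_Nr.1 hs
  obtain ⟨t', h6⟩ := mem_Nr.1 h
  have h7 : v (r o) = t' o • γ 0 (r o) := congrFun h6 o
  have h8 : v (r o) - s • deriv γ 0 (r o) = t _ • γ 0 (r o) := congrFun h5 _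
  rwa [eq_zero a (a := s) (s := t' o - t (r o)) (by
    rw [sub_smul, ← h7, ← h8, sub_sub_cancel]), zero_smul, sub_zero] at hs

end

variable {A W U X B ι Λ : Type} [NormedRing A] [NormedAlgebra ℂ A] [NormedAddCommGroup W]
  [NormedSpace ℂ W] [NormedAddCommGroup U] [NormedSpace ℂ U] [NormedAddCommGroup X] [NormedSpace ℂ X]
  [Monoid B] [Fintype ι] [DecidableEq ι] {M : ι → ℕ} {r n : ℕ}
  {D : Dat A (ι → ℂ) W (V M) U (Fin r → ℂ) X ι Λ n} {sc : B → X → X} {K : Set X} {TK : X → Set X}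
  {g : ℤ} {o : ι} {u w : A} {x : W}

variable (D) in
/-- The action on the tangent vectors at the marked point `i`. -/
abbrev rho (i : Fin n) (u : A) (c : V M) : V M := D.τ (D.t i u) (D.ε u c)

variable (D) in
/-- The tangent space of the multicone at the marked point. -/
abbrev tB (i : Fin n) (x : W) : Submodule ℂ (V M) := Submodule.span ℂ (Tan (D.C x) (D.p i x))

variable (D) in
/-- The tangent space of the orbit of the marked point. -/
abbrev tN (i : Fin n) (x : W) : Submodule ℂ (V M) := Submodule.span ℂ (dir D.τ (D.p i x))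

variable (h : Nf D sc K TK g o)
include h

theorem p_mem (hx : x ∈ D.S) (i : Fin n) : D.p i x ∈ D.C x ∧ ¬IsNode o (D.C x) (D.p i x) := by
  have := (h.fam.2.2.2 x hx).2.2.1.2.2.2.2.1 i
  rw [h.tor] at this
  exact ⟨this.1, fun ⟨γ, δ, a⟩ => this.2 γ δ (cross_of a)⟩

theorem tB_eq (hx : x ∈ D.S) (i : Fin n) : tB D i x = Tg (D.C x) (D.p i x) :=
  (lPsi _ _ _ _ _ _ _ (h.crv x hx) (p_mem h hx i).1 (p_mem h hx i).2).1

theorem tN_eq (hx : x ∈ D.S) (i : Fin n) : tN D i x = Psi.Nr (D.p i x) := by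
  rw [tN, h.tor]
  exact (lPsi _ _ _ _ _ _ _ (h.crv x hx) (p_mem h hx i).1 (p_mem h hx i).2).2

theorem rho_eq (i : Fin n) (u : A) (c : V M) : rho D i u c = D.t i u • D.ε u c := h.τ_eq _ _

theorem p_act (hu : IsUnit u) (hx : x ∈ D.S) (i : Fin n) :
    D.p i (D.α u x) = rho D i u (D.p i x) := ((h.eqv.2.2.2.2.2.2 u hu).2.2 x hx).2.2.1 i

theorem t_unit (hu : IsUnit u) (i : Fin n) : IsUnit (D.t i u) := (h.eqv.2.2.2.2.2.2 u hu).1 i

theorem an_p (i : Fin n) (x : W) : AnalyticAt ℂ (D.p i) x :=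
  have := h.fdW
  an_of_diff (h.fam.2.1 i) x

theorem rho_lin (hu : IsUnit u) (i : Fin n) : IsLinearMap ℂ (rho D i u) := by
  have l := (h.eqv.2.1.2.2 u hu).1
  refine ⟨fun a b => ?_, fun s a => ?_⟩
  · rw [rho_eq h, rho_eq h, rho_eq h, l.map_add, smul_add]
  · rw [rho_eq h, rho_eq h, l.map_smul]
    exact funext fun j => smul_comm (D.t i u j) s (D.ε u a j)

theorem t_ext (hx : x ∈ D.S) {c : V M} (hc : c ∈ D.C x) {t t' : ι → ℂ} (e : t • c = t' • c) :
    t = t' := h.free hx hc ((h.τ_eq _ _).trans (e.trans (h.τ_eq _ _).symm))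

theorem rep_rho (hx : x ∈ D.S) (i : Fin n) : I.Rep (rho D i) := by
  have := h.fdA
  have := FiniteDimensional.complete ℂ A
  have hp := (p_mem h hx i).1
  have t1 : D.t i 1 = 1 := t_ext h hx hp (by
    have := p_act h isUnit_one hx i
    rw [h.eqv.1.2.1, rho_eq h, h.eqv.2.1.2.1] at this
    rw [one_smul, ← this])
  have tm : ∀ u w, IsUnit u → IsUnit w → D.t i (u * w) = D.t i u * D.t i w := fun u w hu hw =>
    t_ext h (h.α_mem (hu.mul hw) hx) (h.ε_mem (hu.mul hw) hx hp) (by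
      rw [← rho_eq h, ← p_act h (hu.mul hw) hx, Z2.rep_mul h.eqv.1 hu hw,
        p_act h hu (h.α_mem hw hx), p_act h hw hx, rho_eq h, rho_eq h, h.ε_smul hu,
        Z2.rep_mul h.eqv.2.1 hu hw, mul_smul])
  have ta : ∀ u, IsUnit u → AnalyticAt ℂ (D.t i) u := fun u hu => AnalyticAt.pi fun j => by
    obtain ⟨k, hk⟩ := Function.ne_iff.1 ((h.crv _ (h.α_mem hu hx)).ne_zero _ (h.ε_mem hu hx hp) j)
    have a1 : AnalyticAt ℂ (fun w => D.p i (D.α w x) j k) u := analyticAt_pi_iff.1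
      (analyticAt_pi_iff.1 ((an_p h i _).comp (f := fun w => D.α w x)
        (((h.eqv.1.2.2 u hu).2 x).1.comp (f := fun w => (w, x))
          (analyticAt_id.prod analyticAt_const))) j) k
    have a2 : AnalyticAt ℂ (fun w => D.ε w (D.p i x) j k) u := analyticAt_pi_iff.1
      (analyticAt_pi_iff.1 (((h.eqv.2.1.2.2 u hu).2 _).1.comp (f := fun w => (w, D.p i x))
          (analyticAt_id.prod analyticAt_const)) j) k
    refine (a1.div a2 hk).congr ?_
    filter_upwards [Units.isOpen.mem_nhds hu, a2.continuousAt.eventually_ne hk] with w a b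
    rw [Pi.div_apply, p_act h a hx, rho_eq h]
    exact mul_div_cancel_right₀ _ b
  refine ⟨h.eqv.2.1.1, fun c => by rw [rho_eq h, t1, one_smul, h.eqv.2.1.2.1], fun u hu =>
    ⟨rho_lin h hu i, fun c => ⟨?_, fun w hw => ?_⟩⟩⟩
  · rw [show uncurry (rho D i) = fun q => D.t i q.1 • uncurry D.ε q from
      funext fun q => rho_eq h i q.1 q.2]
    exact an_smul ((ta u hu).comp_of_eq analyticAt_fst rfl) ((h.eqv.2.1.2.2 u hu).2 c).1
  · rw [rho_eq h, rho_eq h, rho_eq h, tm u w hu hw, h.ε_smul hu, Z2.rep_mul h.eqv.2.1 hu hw,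
      mul_smul]

theorem rho_mem (hu : IsUnit u) (hx : x ∈ D.S) (i : Fin n) {c : V M} (hc : c ∈ D.C x) :
    rho D i u c ∈ D.C (D.α u x) :=
  rho_eq h i u c ▸ h.smul_mem (h.α_mem hu hx) (h.ε_mem hu hx hc) (t_unit h hu i)

theorem famB (i : Fin n) :
    IsFam D.α (rho D i) (D.sol K) ⊤ (tB D i) (Fintype.card ι + 1) := by
  have := h.fdW
  have hp : Continuous fun y : D.S => D.p i y := (h.fam.2.1 i).continuous.comp continuous_subtype_val
  have k := (closed_Tg hp (fun y : D.S => h.locFam y.2) fun y => p_mem h y.2 i).preimage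
    (f := fun z : D.sol K × V M => ((⟨z.1, z.1.2.1⟩ : D.S), z.2))
    (((continuous_subtype_val.comp continuous_fst).subtype_mk _).prodMk continuous_snd)
  refine ⟨fun _ _ => le_top, ?_, fun x hx => ?_, fun x hx u hu q hq => ?_⟩
  · convert k using 1
    exact Set.ext fun z => by rw [mem_setOf_eq, tB_eq h z.1.2.1]; rfl
  · rw [tB_eq h hx.1]
    exact rank_Tg (h.crv x hx.1).nod (p_mem h hx.1 i).1 (p_mem h hx.1 i).2
  · rw [tB_eq h hx.1] at hq
    rw [tB_eq h (h.α_mem hu hx.1), p_act h hu hx.1]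
    exact Tg_map (LinearMap.toContinuousLinearMap ((rho_lin h hu i).mk' _))
      (fun c hc => rho_mem h hu hx.1 i hc) hq

theorem famN (i : Fin n) : IsFam D.α (rho D i) (D.sol K) ⊤ (tN D i) (Fintype.card ι) := by
  have hp : Continuous fun y : D.sol K => D.p i y :=
    (h.fam.2.1 i).continuous.comp continuous_subtype_val
  have h0 := fun x hx => (h.crv x hx).ne_zero _ (p_mem h hx i).1
  refine ⟨fun _ _ => le_top, ?_, fun x hx => ?_, fun x hx u hu q hq => ?_⟩
  · convert closed_Nr hp fun y => h0 _ y.2.1 using 1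
    exact Set.ext fun z => by rw [mem_setOf_eq, tN_eq h z.1.2.1]; rfl
  · rw [tN_eq h hx.1]
    exact finrank_span_eq_card (li (h0 x hx.1))
  · rw [tN_eq h hx.1] at hq
    rw [tN_eq h (h.α_mem hu hx.1), p_act h hu hx.1]
    obtain ⟨b, rfl⟩ := mem_Nr.1 hq
    refine mem_Nr.2 ⟨b, ?_⟩
    rw [rho_eq h, rho_eq h, h.ε_smul hu, smul_comm]

theorem tN_le (hx : x ∈ D.S) (i : Fin n) : tN D i x ≤ tB D i x := by
  rw [tN_eq h hx, tB_eq h hx]
  exact Nr_le (h.crv x hx).nod (p_mem h hx i).1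

end Vale.Agent.P269L.K.Ps
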