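import Vale.Agent.P269L.K.Gd
import Vale.Agent.P269L.K.LStab
import Vale.Agent.P269L.K.Mul

/-!
# One side of a roof: the local description of the third cone
-/

set_option linter.all false

namespace Vale.Agent.P269L.K

open Set Function Topology Filter Module P291Z P287Q.H3 P269 P269.Ch P269.Holo P269.Orb

theorem aff_eq {P P₂ E : Type} [AddCommGroup P] [Module ℂ P] [AddCommGroup P₂] [Module ℂ P₂]
    [AddCommGroup E] [Module ℂ E] [FiniteDimensional ℂ P₂] {ob : Submodule ℂ P₂}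
    {obs : Submodule ℂ P} {L : P₂ →ₗ[ℂ] P} (sur : ∀ ξ, ξ ∈ obs ↔ ∃ c ∈ ob, L c = ξ)
    {l : E →ₗ[ℂ] P₂} (hl : Injective l) (hL : ∀ t, L (l t) = 0) {s : P₂} (hs : ∀ t, s + l t ∈ ob)
    (rk : finrank ℂ ob = finrank ℂ obs + finrank ℂ E) {c : P₂} (hc : c ∈ ob) (e : L c = L s) :
    ∃ t, c = s + l t := by
  have s0 : s ∈ ob := by simpa using hs 0
  have k := LinearMap.finrank_range_add_finrank_ker (L.domRestrict ob)
  rw [LinearMap.range_domRestrict, show ob.map L = obs from Submodule.ext fun ξ => (sur ξ).symm,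
    ← Submodule.finrank_map_subtype_eq] at k
  have k2 : LinearMap.range l = (LinearMap.ker (L.domRestrict ob)).map ob.subtype :=
    Submodule.eq_of_le_of_finrank_eq (by
      rintro _ ⟨t, rfl⟩
      exact ⟨⟨l t, by simpa using sub_mem (hs t) s0⟩, hL t, rfl⟩)
      (by rw [LinearMap.finrank_range_of_inj hl]; omega)
  obtain ⟨t, ht⟩ := k2.ge ⟨⟨c - s, sub_mem hc s0⟩, (map_sub L c s).trans (sub_eq_zero.2 e), rfl⟩
  exact ⟨t, by rw [ht]; exact (add_sub_cancel s c).symm⟩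

variable {A W W' Ω Γ F R R' P' P₂ X X' ι : Type} [NormedRing A] [NormedAlgebra ℂ A]
  [NormedAddCommGroup W] [NormedSpace ℂ W] [NormedAddCommGroup W'] [NormedSpace ℂ W']
  [NormedAddCommGroup Ω] [NormedSpace ℂ Ω] [NormedAddCommGroup Γ] [NormedSpace ℂ Γ]
  [NormedAddCommGroup F] [NormedSpace ℂ F] [NormedAddCommGroup R] [NormedSpace ℂ R]
  [NormedAddCommGroup R'] [NormedSpace ℂ R'] [NormedAddCommGroup P'] [NormedSpace ℂ P']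
  [NormedAddCommGroup P₂] [NormedSpace ℂ P₂] [NormedAddCommGroup X] [NormedSpace ℂ X]
  [NormedAddCommGroup X'] [NormedSpace ℂ X'] [Fintype ι]

theorem mem_BM_lin (j : P' ≃L[ℂ] P₂) {M : Set (Ω × P₂)} {z : Ω} {p : P'} {ε : ℂ} :
    ((z, p), ε) ∈ D.BM {q : Ω × P' | (q.1, j q.2) ∈ M} ↔ ((z, j p), ε) ∈ D.BM M := by
  have k := (((Homeomorph.refl Ω).prodCongr j.toHomeomorph).prodCongr
    (Homeomorph.refl ℂ)).preimage_closure {b | b.2 ≠ 0 ∧ (b.1.1, b.2 • b.1.2) ∈ M}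
  refine .trans ?_ (Set.ext_iff.1 k ((z, p), ε)).symm
  refine iff_of_eq (congrArg (fun S => _ ∈ closure S) (Set.ext fun b => and_congr_right' ?_))
  show (b.1.1, j (b.2 • b.1.2)) ∈ M ↔ (b.1.1, b.2 • j b.1.2) ∈ M
  rw [map_smul]

/-- The isomorphism of the special fibres. -/
theorem LI.sf {B : Set (X × ℂ)} {B' : Set (X' × ℂ)} {x : X} {x' : X'} {f : F} {Φ Ψ}
    (h : LI B' (B ×ˢ univ) (x', 0) ((x, 0), f) Φ Ψ) (e : ∀ q, (Φ q).1.2 = q.2) :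
    LI {z | (z, (0 : ℂ)) ∈ B'} ({z | (z, (0 : ℂ)) ∈ B} ×ˢ univ) x' (x, f)
      (fun z => ((Φ (z, 0)).1.1, (Φ (z, 0)).2)) fun z => (Ψ ((z.1, 0), z.2)).1 := by
  have a : AnalyticAt ℂ (fun z : X' => Φ (z, 0)) x' :=
    h.an.comp_of_eq (analyticAt_id.prod analyticAt_const) rfl
  have b0 : AnalyticAt ℂ (fun z : X × F => ((z.1, (0 : ℂ)), z.2)) (x, f) :=
    (analyticAt_fst.prod analyticAt_const).prod analyticAt_snd
  refine ⟨(an1 (an1 a)).prod (an2 a), an1 (h.an'.comp_of_eq b0 rfl), by rw [h.pt], by rw [h.pt'],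
    (((Continuous.prodMk_left (0 : ℂ)).tendsto x').eventually h.fw).mono fun z c d => ?_,
    (b0.continuousAt.tendsto.eventually h.fr).mono fun z c d => ?_⟩
  · have k : (((Φ (z, 0)).1.1, (0 : ℂ)), (Φ (z, 0)).2) = Φ (z, 0) :=
      Prod.ext (Prod.ext rfl (e (z, 0)).symm) rfl
    exact ⟨⟨(congrArg Prod.fst k ▸ (c d).1.1 :), trivial⟩,
      congrArg Prod.fst ((congrArg Ψ k).trans (c d).2)⟩
  · obtain ⟨c1, c2⟩ := c ⟨d.1, trivial⟩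
    have k : ((Ψ ((z.1, 0), z.2)).1, (0 : ℂ)) = Ψ ((z.1, 0), z.2) :=
      Prod.ext rfl ((congrArg (·.1.2) c2).symm.trans (e _))
    exact ⟨(k ▸ c1 :), by rw [k, c2]⟩

/-- What one side of the roof says about the deformation space of `M` near `ω`. -/
structure Side (D : Sd A W ι) (Z : Set W') (ob : W' → Submodule ℂ P₂) (f : W' →L[ℂ] W)
    (L : P₂ →L[ℂ] ι → ℂ) (B : Set Ω) (ω : Ω) (ζ : Ω → W') (M : Set (Ω × P₂)) (a : W → R) (w : Ω → F)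
    (Γ : Type) [NormedAddCommGroup Γ] [NormedSpace ℂ Γ] (k : ℕ) : Prop where
  key : ∀ᶠ z in 𝓝[B] ω, ∀ c, ((z, c), (0 : ℂ)) ∈ P269L.D.BM M ↔ c ∈ ob (ζ z) ∧ (f (ζ z), L c) ∈ D.C
  aff : ∃ (s : W' → (ι → ℂ) →L[ℂ] P₂) (l : W' → (Fin k → ℂ) →L[ℂ] P₂), AnalyticAt ℂ s (ζ ω) ∧
    AnalyticAt ℂ l (ζ ω) ∧ Injective (l (ζ ω)) ∧ ∀ᶠ z in 𝓝[Z] (ζ ω), ∀ ξ, (f z, ξ) ∈ D.C → ∀ c,
      (c ∈ ob z ∧ L c = ξ) ↔ ∃ t, c = s z ξ + l z t
  iso : ∀ c, ((ω, c), (0 : ℂ)) ∈ P269L.D.BM M → ∃ (t : Γ × (Fin k → ℂ)) (Φ Ψ : _),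
    GIso (P269L.D.BM M) ((ω, c), 0) (P269L.D.BM D.M ×ˢ univ) (((f (ζ ω), L c), 0), t) Φ Ψ ∧
      ∀ q, (Φ q).1.2 = q.2
  an : An M (ω, 0)
  base : ∀ c, ∀ᶠ q in 𝓝 (ω, c), (q, (0 : ℂ)) ∈ P269L.D.BM M → a (f (ζ q.1)) = 0 ∧ w q.1 = 0

theorem side [FiniteDimensional ℂ Ω] [FiniteDimensional ℂ Γ] [FiniteDimensional ℂ F]
    [FiniteDimensional ℂ R] [FiniteDimensional ℂ R'] [FiniteDimensional ℂ P'] {D : Sd A W ι}
    {d k : ℕ} (hD : D.Gd d) {Z : Set W'} {ob : W' → Submodule ℂ P₂} {f : W' →L[ℂ] W}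
    {L : P₂ →L[ℂ] ι → ℂ} (j : ((ι → ℂ) × P') ≃L[ℂ] P₂) (hL : ∀ p, L (j p) = p.1) {B : Set Ω} {ω : Ω}
    {ζ : Ω → W'} {ϱ : W' → Ω} {M : Set (Ω × P₂)} {η : W → (ι → ℂ) →L[ℂ] R} {a : W → R} {γ : Ω → Γ}
    {w : Ω → F} {b : Ω → R'} {e : W × Γ × F → Ω} {η' : Ω → P' →L[ℂ] R'} (fr : D.Fr (f (ζ ω)) η a)
    (st : Stab D.S a ω (fun z => f (ζ z)) γ w b e) (h1 : AnalyticAt ℂ η' ω) (h2 : Surjective (η' ω))
    (hM : ∀ᶠ z in 𝓝 ω, ∀ ξ c, (z, j (ξ, c)) ∈ M ↔ η (f (ζ z)) ξ = a (f (ζ z)) ∧ η' z c = b z)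
    (iso : GIso B ω Z (ζ ω) ζ ϱ) (hB : ∀ᶠ z in 𝓝[B] ω, a (f (ζ z)) = 0 ∧ w z = 0)
    (lim : ∀ᶠ z in 𝓝[B] ω, ∀ c, ((z, c), (0 : ℂ)) ∈ P269L.D.BM M → c ∈ ob (ζ z))
    (mem : ∀ z ∈ Z, f z ∈ D.Z) (sur : ∀ z ∈ Z, ∀ ξ, ξ ∈ D.obs (f z) ↔ ∃ c ∈ ob z, L c = ξ)
    (rk : ∀ z ∈ Z, finrank ℂ (ob z) = finrank ℂ (D.obs (f z)) + k)
    (hk : k + finrank ℂ R' = finrank ℂ P' + finrank ℂ F) :
    Side D Z ob f L B ω ζ M a w Γ k := by
  have := hD.fdW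
  have : FiniteDimensional ℂ P₂ := j.toLinearEquiv.finiteDimensional
  obtain ⟨k', s, l, k0, as, al, il, k1, k2⟩ := lStab Ω Γ F W R R' (ι → ℂ) P' D.S a ω _ γ w b e η η'
    D.M {q | (q.1, j q.2) ∈ M} st fr.an fr.surj h1 h2 fr.ev_M hM
  obtain rfl : k' = k := by omega
  have lin : ∀ z ξ t, j (ξ, s z ξ + l z t) = j (ξ, s z ξ) + j (0, l z t) := fun z ξ t => by
    rw [← map_add, Prod.mk_add_mk, add_zero]
  have key : ∀ᶠ z in 𝓝[B] ω, ∀ ξ, (∀ c, ((z, j (ξ, c)), (0 : ℂ)) ∈ P269L.D.BM M ↔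
      (f (ζ z), ξ) ∈ D.C ∧ ∃ t, c = s z ξ + l z t) ∧ ((f (ζ z), ξ) ∈ D.C → ∀ c,
        j (ξ, c) ∈ ob (ζ z) ↔ ∃ t, c = s z ξ + l z t) := by
    filter_upwards [hB, lim, iso.ev, nhdsWithin_le_nhds k1,
      nhdsWithin_le_nhds (eventually_injective al.continuousAt il)] with z b1 b2 b3 b4 b5 ξ
    have c1 : ∀ c, ((z, j (ξ, c)), (0 : ℂ)) ∈ P269L.D.BM M ↔
        (f (ζ z), ξ) ∈ D.C ∧ ∃ t, c = s z ξ + l z t := fun c =>
      (mem_BM_lin j).symm.trans ((b4 b1.1 b1.2 ξ c).trans (and_congr_left'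
        ⟨fun b => hD.mem_cone.2 ⟨mem _ b3.1, b⟩, fun b => (hD.mem_cone.1 b).2⟩))
    refine ⟨c1, fun c2 c => ⟨fun c3 => ?_, fun c3 => b2 _ ((c1 c).2 ⟨c2, c3⟩)⟩⟩
    obtain ⟨t, ht⟩ := aff_eq (L := (L : P₂ →ₗ[ℂ] ι → ℂ)) (sur _ b3.1)
      (l := j.toLinearEquiv.toLinearMap ∘ₗ .inr ℂ _ _ ∘ₗ (l z : (Fin k' → ℂ) →ₗ[ℂ] P'))
      (j.injective.comp (LinearMap.inr_injective.comp b5)) (fun t => hL _) (s := j (ξ, s z ξ))
      (fun t => (lin z ξ t ▸ b2 _ ((c1 _).2 ⟨c2, t, rfl⟩) :)) (by rw [finrank_fin_fun, rk _ b3.1]) c3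
      ((hL _).trans (hL (ξ, s z ξ)).symm)
    exact ⟨t, congrArg Prod.snd (j.injective (ht.trans (lin z ξ t).symm))⟩
  have am : An M (ω, 0) := by
    have a1 : AnalyticAt ℂ (fun q : Ω × P₂ => f (ζ q.1)) (ω, 0) := st.anπ.comp_of_eq analyticAt_fst rfl
    have a2 : AnalyticAt ℂ (fun q : Ω × P₂ => j.symm q.2) (ω, 0) :=
      (j.symm.toContinuousLinearMap.analyticAt _).comp analyticAt_snd
    refine An.of_fd (((an_apply (fr.an.comp_of_eq a1 rfl) (an1 a2)).sub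
      (fr.ana.comp_of_eq a1 rfl)).prod ((an_apply (h1.comp_of_eq analyticAt_fst rfl) (an2 a2)).sub
        (st.anb.comp_of_eq analyticAt_fst rfl))) ((continuousAt_fst.eventually hM).mono fun q c => ?_)
    have c1 := c (j.symm q.2).1 (j.symm q.2).2
    rw [Prod.mk.eta, j.apply_symm_apply] at c1
    exact c1.trans ((and_congr sub_eq_zero sub_eq_zero).symm.trans Prod.mk_eq_zero.symm)
  have aϱ : ∀ {Y : Type} [NormedAddCommGroup Y] [NormedSpace ℂ Y] {g : Ω → Y},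
      AnalyticAt ℂ g ω → AnalyticAt ℂ (fun z => g (ϱ z)) (ζ ω) := fun c =>
    c.comp_of_eq iso.an' iso.eq'
  refine ⟨key.and lim |>.mono fun z b c => ?_, ⟨fun z => j.toContinuousLinearMap ∘L
    (ContinuousLinearMap.id ℂ _).prod (s (ϱ z)), fun z => j.toContinuousLinearMap ∘L .inr ℂ _ _ ∘L
      l (ϱ z), an_comp analyticAt_const (analyticAt_of_apply fun v => analyticAt_const.prod
        (an_apply (aϱ as) analyticAt_const)), an_comp analyticAt_const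
      (an_comp analyticAt_const (aϱ al)), ?_, ?_⟩, fun c hc => ?_, am, fun c => ?_⟩
  · obtain ⟨⟨ξ, c⟩, rfl⟩ := j.surjective c
    rw [hL]
    exact ⟨fun h => ⟨b.2 _ h, (((b.1 ξ).1 c).1 h).1⟩,
      fun h => ((b.1 ξ).1 c).2 ⟨h.2, ((b.1 ξ).2 h.2 c).1 h.1⟩⟩
  · exact j.injective.comp (LinearMap.inr_injective.comp (iso.eq'.symm ▸ il :))
  · filter_upwards [iso.ev', (tendsto_nhdsWithin_iff.2 ⟨iso.li.tendsto'.mono_left
      nhdsWithin_le_nhds, iso.ev'.mono fun _ b => b.1⟩).eventually key] with z b1 b2 ξ b3 c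
    obtain ⟨⟨ξ', c⟩, rfl⟩ := j.surjective c
    rw [b1.2] at b2
    rw [hL]
    refine ⟨fun ⟨b4, b5⟩ => ?_, fun ⟨t, ht⟩ => ?_⟩
    · obtain rfl : ξ' = ξ := b5
      obtain ⟨t, rfl⟩ := ((b2 _).2 b3 c).1 b4
      exact ⟨t, lin _ _ t⟩
    · obtain ⟨rfl, rfl⟩ := Prod.mk.inj (j.injective (ht.trans (lin _ ξ t).symm))
      exact ⟨((b2 _).2 b3 _).2 ⟨t, rfl⟩, rfl⟩
  · obtain ⟨⟨ξ, c⟩, rfl⟩ := j.surjective c
    obtain ⟨t, Φ, Ψ, b1, b2⟩ := k2 ξ c ((mem_BM_lin j).2 hc)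
    have b3 : LI (P269L.D.BM M) (P269L.D.BM {q : Ω × (ι → ℂ) × P' | (q.1, j q.2) ∈ M})
        ((ω, j (ξ, c)), 0) ((ω, ξ, c), 0) (fun q => ((q.1.1, j.symm q.1.2), q.2))
        fun q => ((q.1.1, j q.1.2), q.2) :=
      ⟨((an1 analyticAt_fst).prod ((j.symm.toContinuousLinearMap.analyticAt _).comp
        (an2 analyticAt_fst))).prod analyticAt_snd, ((an1 analyticAt_fst).prod
        ((j.toContinuousLinearMap.analyticAt _).comp (an2 analyticAt_fst))).prod analyticAt_snd,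
        by simp, rfl, .of_forall fun q h => ⟨(mem_BM_lin j).2 (by simpa using h), by simp⟩,
        .of_forall fun q h => ⟨(mem_BM_lin j).1 h, by simp⟩⟩
    rw [hL]
    exact ⟨t, _, _, (b1.li.trans b3).gIso, fun q => b2 _⟩
  · obtain ⟨G', -, g⟩ := st.g2
    rw [nhdsWithin_univ] at g
    filter_upwards [G.lim_near (ξ := c) am, continuousAt_fst.eventually (hM.and g)] with q b1 b2 b3
    have b4 := (b2.1 0 0).1 (by rw [Prod.mk_zero_zero, map_zero]; exact b1 b3)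
    rw [map_zero, map_zero] at b4
    exact ⟨b4.1.symm, by rw [b2.2, ← b4.1, ← b4.2, Prod.mk_zero_zero, map_zero]⟩

end Vale.Agent.P269L.K
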