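import Vale.Agent.P269L.K.Di
import Vale.Agent.P269.Holo.Bundle

/-!
# Stabilisation of deformations to the normal cone
-/

open Filter Topology Set Function
open Vale.Agent.P269.Holo

set_option linter.unusedSectionVars false

noncomputable section

namespace Vale.Agent.P269L.K

variable {W W' W'' E E' E'' F G N C : Type} [NormedAddCommGroup W] [NormedSpace ℂ W]
  [NormedAddCommGroup W'] [NormedSpace ℂ W'] [NormedAddCommGroup W''] [NormedSpace ℂ W'']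
  [NormedAddCommGroup E] [NormedSpace ℂ E] [NormedAddCommGroup E'] [NormedSpace ℂ E']
  [NormedAddCommGroup E''] [NormedSpace ℂ E''] [NormedAddCommGroup F] [NormedSpace ℂ F]
  [NormedAddCommGroup G] [NormedSpace ℂ G] [NormedAddCommGroup N] [NormedSpace ℂ N]
  [NormedAddCommGroup C] [NormedSpace ℂ C]

/-- An isomorphism of the germs of `M` at `(x, 0)` and of `M'` at `(x', 0)` which is linear in the
second variable. -/
structure FL (M : Set (W × E)) (M' : Set (W' × E')) (x : W) (x' : W') (f : W → W') (g : W' → W)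
    (L : W → E →L[ℂ] E') (L' : W' → E' →L[ℂ] E) : Prop where
  af : AnalyticAt ℂ f x
  ag : AnalyticAt ℂ g x'
  aL : AnalyticAt ℂ L x
  aL' : AnalyticAt ℂ L' x'
  e : f x = x'
  e' : g x' = x
  h : ∀ᶠ p in 𝓝 (x, (0 : E)), p ∈ M →
    (f p.1, L p.1 p.2) ∈ M' ∧ g (f p.1) = p.1 ∧ L' (f p.1) (L p.1 p.2) = p.2
  h' : ∀ᶠ p in 𝓝 (x', (0 : E')), p ∈ M' →
    (g p.1, L' p.1 p.2) ∈ M ∧ f (g p.1) = p.1 ∧ L (g p.1) (L' p.1 p.2) = p.2

theorem an1 {f : W → E × F} {x : W} (h : AnalyticAt ℂ f x) : AnalyticAt ℂ (fun y => (f y).1) x :=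
  analyticAt_fst.comp h

theorem an2 {f : W → E × F} {x : W} (h : AnalyticAt ℂ f x) : AnalyticAt ℂ (fun y => (f y).2) x :=
  analyticAt_snd.comp h

theorem tendsto_sc (x : W) (ξ : E) :
    Tendsto (D.sc : (W × E) × ℂ → W × E) (𝓝 ((x, ξ), 0)) (𝓝 (x, 0)) :=
  D.cont_sc.continuousAt.tendsto.mono_right (congrArg 𝓝 (D.sc_zero (x, ξ))).le

namespace FL

variable {M : Set (W × E)} {M' : Set (W' × E')} {M'' : Set (W'' × E'')} {x : W} {x' : W'}
  {x'' : W''} {f : W → W'} {g : W' → W} {L : W → E →L[ℂ] E'} {L' : W' → E' →L[ℂ] E}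
  {f' : W' → W''} {g' : W'' → W'} {K : W' → E' →L[ℂ] E''} {K' : W'' → E'' →L[ℂ] E'}
  (h : FL M M' x x' f g L L')
include h

theorem symm : FL M' M x' x g f L' L := ⟨h.ag, h.af, h.aL', h.aL, h.e', h.e, h.h', h.h⟩

theorem an (ξ : E) : AnalyticAt ℂ (fun p : W × E => (f p.1, L p.1 p.2)) (x, ξ) :=
  (h.af.comp_of_eq analyticAt_fst rfl).prod
    (an_apply (h.aL.comp_of_eq analyticAt_fst rfl) analyticAt_snd)

theorem tendsto : Tendsto (fun p : W × E => (f p.1, L p.1 p.2)) (𝓝 (x, 0)) (𝓝 (x', 0)) :=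
  (h.an 0).continuousAt.tendsto.mono_right (congrArg 𝓝 (Prod.ext h.e (map_zero _))).le

theorem half (k : FL M' M'' x' x'' f' g' K K') : ∀ᶠ p in 𝓝 (x, (0 : E)), p ∈ M →
    (f' (f p.1), (K (f p.1) ∘L L p.1) p.2) ∈ M'' ∧ g (g' (f' (f p.1))) = p.1 ∧
      (L' (g' (f' (f p.1))) ∘L K' (f' (f p.1))) ((K (f p.1) ∘L L p.1) p.2) = p.2 := by
  filter_upwards [h.h, h.tendsto.eventually k.h] with p a b c
  obtain ⟨a1, a2, a3⟩ := a c
  obtain ⟨b1, b2, b3⟩ := b a1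
  exact ⟨b1, by rw [b2, a2], by simp only [ContinuousLinearMap.comp_apply, b2, b3, a3]⟩

theorem trans (k : FL M' M'' x' x'' f' g' K K') : FL M M'' x x'' (fun y => f' (f y))
    (fun y => g (g' y)) (fun y => K (f y) ∘L L y) fun y => L' (g' y) ∘L K' y :=
  ⟨k.af.comp_of_eq h.af h.e, h.ag.comp_of_eq k.ag k.e', an_comp (k.aL.comp_of_eq h.af h.e) h.aL,
    an_comp (h.aL'.comp_of_eq k.ag k.e') k.aL', by rw [h.e, k.e], by rw [k.e', h.e'], h.half k,
    k.symm.half h.symm⟩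

theorem congr {M₁ : Set (W × E)} {M₁' : Set (W' × E')}
    (a : ∀ᶠ p in 𝓝 (x, (0 : E)), p ∈ M ↔ p ∈ M₁) (b : ∀ᶠ p in 𝓝 (x', (0 : E')), p ∈ M' ↔ p ∈ M₁') :
    FL M₁ M₁' x x' f g L L' := by
  refine ⟨h.af, h.ag, h.aL, h.aL', h.e, h.e', ?_, ?_⟩
  · filter_upwards [h.h, a, h.tendsto.eventually b] with p k1 k2 k3 k4
    exact ⟨k3.1 (k1 (k2.2 k4)).1, (k1 (k2.2 k4)).2⟩
  · filter_upwards [h.h', b, h.symm.tendsto.eventually a] with p k1 k2 k3 k4
    exact ⟨k3.1 (k1 (k2.2 k4)).1, (k1 (k2.2 k4)).2⟩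

theorem gr (ξ : E) : ∀ᶠ p in 𝓝 (((x, ξ), 0) : (W × E) × ℂ), p ∈ Gr M →
    ((f p.1.1, L p.1.1 p.1.2), p.2) ∈ Gr M' ∧
      (g (f p.1.1), L' (f p.1.1) (L p.1.1 p.1.2)) = p.1 := by
  filter_upwards [(tendsto_sc x ξ).eventually h.h] with p a b
  obtain ⟨a1, a2, a3⟩ := a b.2
  simp only [D.sc, map_smul] at a1 a2 a3
  exact ⟨⟨b.1, a1⟩, Prod.ext a2 (smul_right_injective _ b.1 a3)⟩

variable [CompleteSpace W] [CompleteSpace W'] [CompleteSpace E] [CompleteSpace E']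

theorem di {ξ : E} {ξ' : E'} (k : L x ξ = ξ') (k' : L' x' ξ' = ξ) :
    DI (D.BM M) (D.BM M') (x, ξ) (x', ξ') (fun p => (f p.1.1, L p.1.1 p.1.2))
      fun q => (g q.1.1, L' q.1.1 q.1.2) :=
  DI.closure ⟨(h.an ξ).comp_of_eq analyticAt_fst rfl, (h.symm.an ξ').comp_of_eq analyticAt_fst rfl,
    Prod.ext h.e k, Prod.ext h.e' k', h.gr ξ, h.symm.gr ξ'⟩

theorem inv_of_mem {ξ : E} (k : ((x, ξ), (0 : ℂ)) ∈ D.BM M) : L' x' (L x ξ) = ξ := by
  have a : AnalyticAt ℂ (fun p : (W × E) × ℂ => L' (f p.1.1) (L p.1.1 p.1.2) - p.1.2) ((x, ξ), 0) :=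
    (an_apply (h.aL'.comp_of_eq (f := fun p : (W × E) × ℂ => f p.1.1)
      (h.af.comp_of_eq (an1 analyticAt_fst) rfl) h.e)
      (an2 ((h.an ξ).comp_of_eq analyticAt_fst rfl))).fun_sub (an2 analyticAt_fst)
  have b := (D.ev_closure (A' := {0}) (A := Gr M)
    (a.eventually_analyticAt.mono fun _ b => b.continuousAt)
    ((h.gr ξ).mono fun _ a b => sub_eq_zero.2 (congrArg Prod.snd (a b).2))).self_of_nhds k
  rw [closure_singleton, mem_singleton_iff, sub_eq_zero] at b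
  rwa [← h.e]

theorem di_of_mem {ξ : E} (k : ((x, ξ), (0 : ℂ)) ∈ D.BM M) :
    DI (D.BM M) (D.BM M') (x, ξ) (x', L x ξ) (fun p => (f p.1.1, L p.1.1 p.1.2))
      fun q => (g q.1.1, L' q.1.1 q.1.2) := h.di rfl (h.inv_of_mem k)

theorem mem_BM {ξ : E} (k : ((x, ξ), (0 : ℂ)) ∈ D.BM M) : ((x', L x ξ), (0 : ℂ)) ∈ D.BM M' :=
  (h.di_of_mem k).mem_iff.1 k

/-- The isomorphism persists at nearby points of the zero section. -/
theorem eventually : ∀ᶠ y in 𝓝 x, (y, (0 : E)) ∈ M → FL M M' y (f y) f g L L' := by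
  have c : Tendsto (fun y : W => (y, (0 : E))) (𝓝 x) (𝓝 (x, 0)) :=
    (continuous_id.prodMk continuous_const).tendsto x
  have c' : Tendsto (fun y : W' => (y, (0 : E'))) (𝓝 x') (𝓝 (x', 0)) :=
    (continuous_id.prodMk continuous_const).tendsto x'
  have t : Tendsto f (𝓝 x) (𝓝 x') := h.e ▸ h.af.continuousAt.tendsto
  filter_upwards [h.af.eventually_analyticAt, h.aL.eventually_analyticAt,
    c.eventually h.h.eventually_nhds, t.eventually h.ag.eventually_analyticAt,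
    t.eventually h.aL'.eventually_analyticAt, (c'.comp t).eventually h.h'.eventually_nhds]
    with y a1 a2 a3 a4 a5 a6 k
  exact ⟨a1, a4, a2, a5, rfl, (a3.self_of_nhds k).2.1, a3, a6⟩

end FL

variable (G) in
/-- The extension of `M` by `G × F` in the base and the graph of `φ : N → F` in the fibre. -/
def Ex (φ : N →L[ℂ] F) (M : Set (W × E)) : Set ((W × G × F) × E × N) :=
  {q | (q.1.1, q.2.1) ∈ M ∧ φ q.2.2 = q.1.2.2}

/-- The deformation of the extension is the product of the deformation with a vector space. -/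
theorem di_ex [CompleteSpace W] [CompleteSpace E] [CompleteSpace F] [CompleteSpace G]
    [CompleteSpace N] (φ : N →L[ℂ] F) (M : Set (W × E)) (x : W) (ξ : E) (u : G) (ν : N) :
    DI (D.BM (Ex G φ M)) (Pd (G × N) (D.BM M)) ((x, u, 0), (ξ, ν)) ((x, ξ), (u, ν))
      (fun q => ((q.1.1.1, q.1.2.1), (q.1.1.2.1, q.1.2.2)))
      fun p => ((p.1.1.1, p.1.2.1, p.2 • φ p.1.2.2), (p.1.1.2, p.1.2.2)) := by
  rw [BM_eq M, ← closure_Pd]
  refine DI.closure ⟨((an1 (an1 analyticAt_fst)).prod (an1 (an2 analyticAt_fst))).prod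
      ((an1 (an2 (an1 analyticAt_fst))).prod (an2 (an2 analyticAt_fst))),
    ((an1 (an1 analyticAt_fst)).prod ((an1 (an2 analyticAt_fst)).prod (analyticAt_snd.fun_smul
      ((φ.analyticAt _).comp (an2 (an2 analyticAt_fst)))))).prod
      ((an2 (an1 analyticAt_fst)).prod (an2 (an2 analyticAt_fst))), rfl, by simp,
    .of_forall fun q a => ⟨⟨a.1, a.2.1⟩, ?_⟩,
    .of_forall fun p a => ⟨⟨a.1, a.2, map_smul φ _ _⟩, rfl⟩⟩
  exact Prod.ext (Prod.ext rfl (Prod.ext rfl ((map_smul φ _ _).symm.trans a.2.2))) rfl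

end Vale.Agent.P269L.K
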