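import Vale.Agent.P269L.K.Cv
import Vale.Agent.P269L.K.Ab

/-!
# One side of a roof: the statement
-/

set_option linter.unusedVariables false

namespace Vale.Agent.P269L.K

open Set Function Topology Filter Module P291Z P269 P269.Holo P269.Orb P269.Ch

/-- Leaf: `C' → C` is the pull-back along a principal bundle `Z' → Z` and along a surjection
`ob' → ob`; cycles lift, compatibly with the intersection with the zero section. -/
def LSide : Prop := AllA fun A _ _ _ => AllA fun A' _ _ _ => AllV fun W _ _ _ => AllV fun W' _ _ _ =>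
  AllV fun P _ _ _ => AllV fun P' _ _ _ => AllV fun P'' _ _ _ =>
  ∀ (act : A → W → W) (act' : A' → W' → W') (ρ : A → P → P) (ρ' : A' → P' → P')
    (ρ'' : A' → P'' → P'') (Z : Set W) (Z' : Set W') (C : Set (W × P)) (C' : Set (W' × P'))
    (ob : W → Submodule ℂ P) (ob' : W' → Submodule ℂ P') (r k : ℕ) (θ : A' →L[ℂ] A) (f : W' →L[ℂ] W)
    (e : P' ≃L[ℂ] P × P'') (h : Cn act ρ Z C ob r) (h' : Cn act' ρ' Z' C' ob' (r + k))
    (hp : Pr act' act Z' Z θ f), I.Rep ρ'' →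
    (∀ u, IsUnit u → ∀ c, e (ρ' u c) = (ρ (θ u) (e c).1, ρ'' u (e c).2)) →
    (∀ z ∈ Z', ∀ ξ ∈ ob (f z), ∃ c ∈ ob' z, (e c).1 = ξ) →
    (∀ z ∈ Z', ∀ c ∈ ob' z, (e c).1 ∈ ob (f z)) →
    (∀ q, q ∈ C' ↔ q.1 ∈ Z' ∧ q.2 ∈ ob' q.1 ∧ (f q.1, (e q.2).1) ∈ C) →
    Aff {y : W' × P | y.1 ∈ Z' ∧ (f y.1, y.2) ∈ C}
      {q : (W' × P) × P'' | (q.1.1, e.symm (q.1.2, q.2)) ∈ C'} k →
    ∀ J : Quo act' Z' → Quo act Z,
    (∀ z : Z', J (Quo.mk act' z) = Quo.mk act ⟨f z, hp.mem _ z.2⟩) →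
    haveI := h.actC
    haveI := h'.actC
    haveI := h.niceZ
    ∀ m γ, U.Cy (Tx.act2 act ρ) C m γ → ∃ γ', U.Cy (Tx.act2 act' ρ') C'
      (fun q => m (f q.1, (e q.2).1)) γ' ∧ h'.zb γ' = res J (h.zb γ)

end Vale.Agent.P269L.K
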