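import Vale.Agent.P269L.K.Sb
import Vale.Agent.P269L.K.Defs

/-!
# A submersion onto the product of a manifold and a vector space
-/

open Filter Topology Set Function Module
open Vale.Agent.P269.Holo

noncomputable section

namespace Vale.Agent.P269L.K

variable {Ω W F : Type} [NormedAddCommGroup Ω] [NormedSpace ℂ Ω] [NormedAddCommGroup W]
  [NormedSpace ℂ W] [NormedAddCommGroup F] [NormedSpace ℂ F] [FiniteDimensional ℂ Ω]
  [FiniteDimensional ℂ F]

theorem exists_stab0 {S : Set W} {ω : Ω} {π : Ω → W} {w : Ω → F} {d k : ℕ} (hπ : AnalyticAt ℂ π ω)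
    (hw : AnalyticAt ℂ w ω) (h0 : w ω = 0) (hm : ∀ᶠ z in 𝓝 ω, π z ∈ S) (hS : MfdAt S d (π ω))
    (K : Submodule ℂ Ω) (hK : ∀ v, fderiv ℂ π ω v = 0 → fderiv ℂ w ω v = 0 → v ∈ K)
    (hk : finrank ℂ K ≤ k) (hd : finrank ℂ Ω = d + finrank ℂ F + k) :
    ∃ (γ : Ω → Fin k → ℂ) (e : W × (Fin k → ℂ) × F → Ω),
      GIso univ ω (S ×ˢ univ) (π ω, γ ω, 0) (fun z => (π z, γ z, w z)) e := by
  obtain ⟨p, q, h⟩ := D.par_of_mfd hS
  have tπ : Tendsto π (𝓝 ω) (𝓝[S] π ω) :=
    tendsto_nhdsWithin_iff.2 ⟨hπ.continuousAt.tendsto, hm⟩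
  have a1 : AnalyticAt ℂ (fun z => q (π z)) ω := h.qa.comp hπ
  have a2 : AnalyticAt ℂ (fun z => (q (π z), w z)) ω := a1.prod hw
  have e1 : fderiv ℂ π ω = (fderiv ℂ p (q (π ω))).comp (fderiv ℂ (fun z => q (π z)) ω) := by
    rw [← fderiv_comp_an (h.q0.symm ▸ h.pa) a1]
    exact EventuallyEq.fderiv_eq ((tπ.eventually h.pq).mono fun _ b => b.symm)
  have hs : Surjective (fderiv ℂ (fun z => (q (π z), w z)) ω) := by
    have b := (fderiv ℂ (fun z => (q (π z), w z)) ω).toLinearMap.finrank_range_add_finrank_ker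
    have c : LinearMap.ker (fderiv ℂ (fun z => (q (π z), w z)) ω).toLinearMap ≤ K := fun v hv => by
      have := a1.differentiableAt.fderiv_prodMk hw.differentiableAt
      rw [LinearMap.mem_ker, ContinuousLinearMap.coe_coe, this] at hv
      exact hK v (by rw [e1, ContinuousLinearMap.comp_apply,
        show fderiv ℂ (fun z => q (π z)) ω v = 0 from congrArg Prod.fst hv, map_zero])
        (congrArg Prod.snd hv)
    have c' := (Submodule.finrank_mono c).trans hk
    refine LinearMap.range_eq_top.1 (Submodule.eq_top_of_finrank_eq (le_antisymm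
      (Submodule.finrank_le _) ?_))
    rw [finrank_prod, finrank_fin_fun]
    omega
  obtain ⟨σ, τ, s1, s2, s3, s4, -, s5, s6, s7⟩ := submersion_form a2 hs (n := k)
    (by rw [finrank_prod, finrank_fin_fun]; omega)
  have g0 : (τ ω).1 = 0 := congrArg Prod.fst s4
  have a3 : AnalyticAt ℂ (fun y : W × (Fin k → ℂ) × F => (y.2.1, q y.1, y.2.2)) (π ω, (τ ω).1, 0) :=
    (an1 analyticAt_snd).prod ((h.qa.comp_of_eq analyticAt_fst rfl).prod (an2 analyticAt_snd))
  have e3 : ((τ ω).1, q (π ω), (0 : F)) = (0, q (π ω), w ω) := by rw [g0, h0]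
  refine ⟨fun z => (τ z).1, fun y => σ (y.2.1, q y.1, y.2.2), hπ.prod ((an1 s3).prod hw),
    s1.comp_of_eq a3 e3, by rw [h0], e3 ▸ s2, ?_, ?_⟩
  · rw [nhdsWithin_univ]
    filter_upwards [hm, s5] with z k1 k2
    exact ⟨⟨k1, trivial⟩, (congrArg (fun u => σ ((τ z).1, u)) (s7 z).symm).trans k2⟩
  · have t3 := a3.continuousAt.tendsto.mono_right (congrArg 𝓝 e3).le
    have t4 := (s1.continuousAt.tendsto.mono_right (congrArg 𝓝 s2).le).comp t3
    refine eventually_nhdsWithin_iff.2 ?_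
    filter_upwards [t3.eventually s6, (tπ.comp t4).eventually h.pq,
      continuousAt_fst.eventually (eventually_nhdsWithin_iff.1 h.pq)] with y k1 k2 k3 k4
    have k5 := (s7 _).symm.trans (congrArg Prod.snd k1)
    refine ⟨trivial, Prod.ext ?_ (Prod.ext (congrArg Prod.fst k1 :) (congrArg Prod.snd k5 :))⟩
    exact k2.symm.trans ((congrArg p (congrArg Prod.fst k5)).trans (k3 k4.1))

end Vale.Agent.P269L.K
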