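import Vale.Agent.P269L.K.St
import Vale.Agent.P269L.K.Shk
import Vale.Agent.P269L.I.LEqv
import Vale.Agent.P269L.I.LFam
import Vale.Agent.P269L.I.LSol
import Vale.Agent.P269L.I.LNm
import Vale.Agent.P269L.I.LOnto
import Vale.Agent.P269L.I.LKer
import Vale.Agent.P269L.I.LIsoG
import Vale.Agent.P269L.I.LOcc

/-!
# A normal presentation together with a good chart
-/

set_option linter.unusedSectionVars false

noncomputable section

namespace Vale.Agent.P269L.K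

open Set Function Topology Filter Module MvPolynomial P291Z P269 P269.Ch P269.Base P269.Holo I

/-- Transport of forms along an equality of degrees. -/
def cst {ι : Type} [Fintype ι] (M : ι → ℕ) {a b : ι → ℕ} (h : a = b) : Tens M a →L[ℂ] Tens M b :=
  h ▸ ContinuousLinearMap.id ℂ _

theorem cst_spec {ι J ν : Type} [Fintype ι] [DecidableEq ι] [Fintype J] [Fintype ν] (ch : Ch ι J)
    {a b : ι → ℕ} (h : a = b) : Bijective (cst ch.M h) ∧ (∀ μ q, val (cst ch.M h μ) q = val μ q) ∧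
      ∀ (u : ch.A ν) μ, cst ch.M h (sub u _ μ) = sub u _ (cst ch.M h μ) := by
  subst h
  exact ⟨bijective_id, fun _ _ => rfl, fun _ _ => rfl⟩

variable {N c : ℕ} {F : Fin c → MvPolynomial (Fin (N + 1)) ℂ} {A W U ι Λ : Type} [NormedRing A]
  [NormedAlgebra ℂ A] [NormedAddCommGroup W] [NormedSpace ℂ W] [NormedAddCommGroup U]
  [NormedSpace ℂ U] [Fintype ι] [DecidableEq ι] {M : ι → ℕ} {r n r₀ k D : ℕ} {g d : ℤ} {jj ρ'}
  {dg : Fin c → ℕ} (h : @Hyp N c F g d n k D r₀ jj ρ' dg)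

section

include h

theorem hyp_num : (cH F g d n k D).Num := by
  obtain ⟨_, _, -, hk⟩ := h.big
  have e : ∀ o, (cH F g d n k D).m o = k * (2 * g - 2 + n + 3 * d) + o.elim 0 fun _ => d :=
    fun o => by simp [Tgt.chart, ci]
  have b : ∀ o, 3 ≤ (cH F g d n k D).m o + 1 - g := fun o => by
    have := h.g0
    have := h.d0
    have := h.pos
    have := mul_le_mul_of_nonneg_right (show (20 : ℤ) ≤ k by omega) h.pos.le
    rw [e]
    cases o <;> simp only [Option.elim] <;> omega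
  have a : ∀ o, ((cH F g d n k D).M o : ℤ) = (cH F g d n k D).m o + 1 - g :=
    fun o => Int.toNat_of_nonneg ((by norm_num : (0 : ℤ) ≤ 3).trans (b o))
  exact ⟨h.num.a_ne, h.num.cut, h.num.k_ne, Int.ofNat_le.1 ((b _).trans_eq (a _).symm), a, h.num.chi⟩

/-- The chart is a normal presentation. -/
theorem hyp_nf : Nf (dt F g d n k D jj ρ') (ci F).act (ci F).cone (ci F).tan g none := by
  obtain ⟨s1, -, s3⟩ := lSol _ _ _ _ _ _ _ _ _ _ _ _ h
  refine ⟨rfl, lEqv _ _ _ _ _ _ _ _ _ _ _ _ h, lEmb _ _ _ _ _ _ _ _ _ _ _ _ h,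
    lFam _ _ _ _ _ _ _ _ _ _ _ _ h, fun x hx => ?_, fun x hx => hx.2.2.1, (hyp_num h).three⟩
  have hx' := s1.le hx
  exact ⟨⟨fun c hc => ((s3 x hx).2 c hc).2, lStb _ _ _ _ _ _ _ _ _ _ _ _ h x hx',
    fun y hy => lIsoG _ _ _ _ _ _ _ _ _ _ _ _ h x hx' y (s1.le hy)⟩, (s3 x hx).1,
    (lNm _ _ _ _ _ _ _ _ _ _ _ _ h x hx').1, lOnto lKer _ _ _ _ _ _ _ _ _ _ _ _ h x hx',
    lKer _ _ _ _ _ _ _ _ _ _ _ _ h x hx'⟩

theorem hyp_prp : (sd (dt F g d n k D jj ρ') (ci F).cone (ci F).tan).Prp := by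
  obtain ⟨s1, s2, -⟩ := lSol _ _ _ _ _ _ _ _ _ _ _ _ h
  obtain ⟨O, v, r', _, a⟩ := h.kur
  have := a.dom.isAct
  have z : ∀ x ∈ (dt F g d n k D jj ρ').sol (ci F).cone, x ∈ O := fun x hx => a.dom.sub (s1.le hx)
  have e : ∀ {B : Submodule ℂ _}, B ≤ LinearMap.range jj →
      finrank ℂ (Submodule.span ℂ (jj ⁻¹' B)) = finrank ℂ B := fun b => by
    rw [← Submodule.comap_coe, Submodule.span_eq,
      (Submodule.equivMapOfInjective jj h.crd.inj _).finrank_eq, Submodule.map_comap_eq_self b]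
  refine ⟨fun i => (@Nw.prp_iff _ _ _ _ _ _ _ _ _ i).1 fun L b => (@Nw.prp_iff _ _ _ _ _ _ _ _ _
    this).2 a.dom.orb.proper L fun x hx => z x (b hx), v, v + r', fun x hx => ⟨?_, ?_⟩⟩
  · refine (congrArg (fun B => finrank ℂ (Submodule.span ℂ B)) ((s2 x hx.1).1.trans
      (congrArg _ (T.coe_van x).symm))).trans ((e ?_).trans (a.ok.fam.rank x (z x hx)))
    exact h.crd.rng ▸ a.le x hx.1
  · have b := (a.dom.zero x (z x hx)).2 (s1.le hx)
    refine (congrArg (fun B => finrank ℂ (Submodule.span ℂ B)) ((lNm _ _ _ _ _ _ _ _ _ _ _ _ h x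
      (s1.le hx)).2.trans (congrArg _ (T.coe_obs x).symm))).trans
        ((e ?_).trans (a.ok.obs_rank x (z x hx) b))
    exact h.crd.rng ▸ a.ok.obs_le x (z x hx) b

end

variable (𝒟 : Dat A (ι → ℂ) W (V M) U (Fin r → ℂ) (Fin (N + 1) → ℂ) ι Λ n) (o : ι)

variable (g d k D jj ρ') in
/-- The presentation `𝒟` together with the chart. -/
def su : Su A W U ι Λ M r n F where
  D := 𝒟
  o := o
  g := g
  ch := cH F g d n k D
  e := eH F g d n k D
  r₀ := r₀
  jj := jj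
  ρ' := ρ'
  cs j := cst _ (cH_b F g d n k D j).symm

theorem su_csq (j) (u : (cH F g d n k D).A (Fin n)) (μ) : (su k D g d jj ρ' 𝒟 o).cs j (sub u _ μ) =
    sub u _ ((su k D g d jj ρ' 𝒟 o).cs j μ) := (cst_spec _ (cH_b F g d n k D j).symm).2.2 u μ

variable {𝒟 o}

include h in
/-- **The standing hypotheses hold.** -/
theorem su_ok (hD : Nf 𝒟 (ci F).act (ci F).cone (ci F).tan g o) : (su k D g d jj ρ' 𝒟 o).Ok where
  nf := hD
  nf₀ := hyp_nf h
  prp := hyp_prp h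
  sm := ⟨dg, h.sm⟩
  eo := rfl
  eg := rfl
  ea := cH_a F g d n k D
  eb := cH_b F g d n k D
  num := hyp_num h
  cs j := (cst_spec (ν := Fin n) _ (cH_b F g d n k D j).symm).imp_right And.left
  sol := (lSol _ _ _ _ _ _ _ _ _ _ _ _ h).1

end Vale.Agent.P269L.K
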