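import Vale.Agent.P269.Base.Uni
import Vale.Agent.P269.Base.Push
import Vale.Agent.P269.Base.FMer
import Vale.Agent.P269.Spl.Prj

/-!
# Vector fields on an arbitrary family; projections as isomorphisms of curves
-/

set_option linter.unusedSectionVars false

namespace Vale.Agent.P269L.K

open Set Function Topology Filter Vale.Agent.P269 Vale.Agent.P269.Base Vale.Agent.P269.Holo

section T1

variable {ι ν : Type} [Fintype ι] [DecidableEq ι] [Fintype ν] {M : ι → ℕ} {o : ι} {g : ℤ}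
  {m : ι → ℤ} {T P : Type} [TopologicalSpace T] [NormedAddCommGroup P] [NormedSpace ℂ P]
  [FiniteDimensional ℂ P] {C : T → Set (V M)} {π : T → P} {t₀ : T}

/-- Every family of pointed curves carries a family of logarithmic vector fields. -/
theorem exists_vfam (hf : LocFam o C π t₀) (h0 : IsCurve o g m (C t₀)) (ho : 3 ≤ M o)
    (hM : ∀ i, M i ≠ 0) {p : P → ν → V M} (hp : AnalyticAt ℂ p (π t₀))
    (hm : ∀ᶠ t in 𝓝 t₀, ∀ n, p (π t) n ∈ C t) (hn : ∀ n, ¬IsNode o (C t₀) (p (π t₀) n))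
    (hi : ∀ n n', Orb (p (π t₀) n) (p (π t₀) n') → n = n') (B : ℕ) :
    ∃ (w : ι → ℕ) (ξ : P → V M → V M) (κ : Type) (_ : Fintype κ) (z : P → κ → V M),
      VFam o C π t₀ w ξ (fun y => Sum.elim (z y) (p y)) ∧ ∀ i, B ≤ w i := by
  obtain ⟨Q, _, _, _, y₀, D, q, w, ξ, κ, _, z, d0, q0, hU, hV, hw, -⟩ :=
    h0.exists_uni (a := fun _ => 4) (fun _ => le_rfl) ho hM
      (fun n => ⟨hm.self_of_nhds n, hn n⟩) hi B
  obtain ⟨k, k1, k2, k3⟩ := hU.univ T P C π t₀ p hf d0.symm hp q0.symm hm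
  have hπ := hf.cont.self_of_nhds
  have h1 := (VFam.comp (π := id) (u := fun t => k (π t)) (t' := t₀) (π' := π) (k := k)
    (k2 ▸ hV) (k1.continuousAt.comp hπ) k1 (.of_forall fun _ => rfl)).congr
    (k3.mono fun t ht => ht.1)
  refine ⟨w, fun y => ξ (k y), κ, ‹_›, fun y => z (k y), ⟨?_, ?_, h1.loc⟩, hw⟩
  · rintro (j | j)
    exacts [h1.an (.inl j), analyticAt_pi_iff.1 hp j]
  · filter_upwards [h1.vf, k3] with t e1 e2
    rwa [e2.2]

end T1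

section T3

variable {ι ι' : Type} [Fintype ι] [Fintype ι'] [DecidableEq ι] [DecidableEq ι'] {M : ι' → ℕ}
  {r : ι → ι'} {o : ι} {G : Set (V M)}

theorem tan_prj (hG : Nod (r o) G) {γ : ℂ → V fun i => M (r i)} {δ : ℂ → V M}
    (hγ : AnalyticAt ℂ γ 0) (hδ : AnalyticAt ℂ δ 0)
    (h : ∀ᶠ t in 𝓝 0, δ t ∈ G ∧ Orb (rV r (δ t)) (γ t)) : ∃ s a : ℂ, s ≠ 0 ∧ δ 0 (r o) ≠ 0 ∧
      γ 0 o = s • δ 0 (r o) ∧ deriv γ 0 o = s • deriv δ 0 (r o) + a • δ 0 (r o) := by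
  have h0 := hG.ne_zero _ h.self_of_nhds.1
  obtain ⟨s, a, k1, k2, k3⟩ := orb_deriv (an_rV (r := r) hδ) hγ (fun i => h0 _)
    (h.mono fun _ k => k.2)
  rw [deriv_rV hδ] at k3
  exact ⟨s o, a o, k1 o, h0 _, congrFun k2 o, congrFun k3 o⟩

/-- A projection that is injective on orbits is an isomorphism of curves. -/
theorem ciso (hG : Nod (r o) G) (hr : Injective r)
    (hi : ∀ c ∈ G, ∀ c' ∈ G, Orb (rV r c) (rV r c') → Orb c c') :
    CIso o (r o) (rV r '' G) G fun c q => q ∈ G ∧ Orb (rV r q) c := by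
  have br : ∀ γ δ, IsBranch o (rV r '' G) γ → AnalyticAt ℂ δ 0 →
      (∀ᶠ t in 𝓝 0, δ t ∈ G ∧ Orb (rV r (δ t)) (γ t)) → IsBranch (r o) G δ := fun γ δ h1 h2 h3 => by
    obtain ⟨s, a, k1, k2, k3, k4⟩ := tan_prj hG h1.holo h2 h3
    refine ⟨h2, h3.mono fun _ k => k.1, li_pair k2 fun e x hx => ?_⟩
    have := h1.imm
    rw [k3, k4] at this
    refine (mul_eq_zero.1 (of_li_pair this (e := e * s) (s := s * x + e * a) ?_)).resolve_right k1
    linear_combination (norm := module) (s * s) • hx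
  refine ⟨fun c c' y y' h1 h2 h3 => ⟨hG.orb h1.1 h3, (h3.prj.symm.trans h1.2).trans h2⟩,
    fun y => ⟨fun h => ⟨_, ⟨y, h, rfl⟩, h, .refl _⟩, fun ⟨_, _, h⟩ => h.1⟩,
    fun c _ y y' h1 h2 => hi _ h1.1 _ h2.1 (h1.2.trans h2.2.symm),
    fun c _ c' _ y h1 h2 => h1.2.symm.trans h2.2, fun γ hγ => ?_, br,
    fun c γ₁ γ₂ δ₁ δ₂ hx h1 h2 h3 h4 h5 => ⟨br _ _ hx.1 h1 h4, br _ _ hx.2.1 h2 h5, rfl, h3.symm, ?_⟩⟩
  · obtain ⟨c, hc, e⟩ := hγ.mem.self_of_nhds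
    obtain ⟨Λ, k1, -, k3, k4⟩ := (hG.locFam (t₀ := (0 : ℂ)) (id : ℂ → ℂ)
      (.of_forall fun _ => continuousAt_id)).exists_lam hr hi hc
    rw [e] at k1 k4
    have k5 : AnalyticAt ℂ (fun t => ((0 : ℂ), γ t)) 0 := analyticAt_const.prod hγ.holo
    refine ⟨fun t => Λ (0, γ t), k1.comp_of_eq k5 rfl, ?_⟩
    filter_upwards [k5.continuousAt.tendsto.eventually k4, hγ.mem] with t e1 e2
    exact ⟨e1 e2, k3 _ ▸ .refl _⟩
  · obtain ⟨s, a, k1, k2, k3, k4⟩ := tan_prj hG hx.1.holo h1 h4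
    obtain ⟨s', a', -, -, k3', k4'⟩ := tan_prj hG hx.2.1.holo h2 h5
    have := hx.2.2.2.2
    rw [hx.2.2.2.1, ← h3, ← hx.2.2.1, k3] at k3'
    obtain rfl := smul_left_injective ℂ k2 k3'
    rw [← hx.2.2.1, k3, k4, k4', ← h3] at this
    refine li_triple k2 fun e e' x hx => ?_
    have := of_li_triple this (e := e * s) (e' := e' * s) (s := s * x + e * a + e' * a') (by
      linear_combination (norm := module) (s * s) • hx)
    simpa [k1] using this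

end T3

end Vale.Agent.P269L.K
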