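import Vale.Agent.P269L.K.Th0

/-!
# The graph of a family of maps to a product of projective spaces
-/

set_option linter.unusedSectionVars false

namespace Vale.Agent.P269L.K

open Set Function Topology Filter Vale.Agent.P269 Vale.Agent.P269.Base Vale.Agent.P269.Holo

variable {ι ι₀ : Type} [Fintype ι] [Fintype ι₀] [DecidableEq ι] [DecidableEq ι₀] {M : ι ⊕ ι₀ → ℕ}
  {o : ι} {T P E : Type*} [TopologicalSpace T] [NormedAddCommGroup P] [NormedSpace ℂ P]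
  [FiniteDimensional ℂ P] [NormedAddCommGroup E] [NormedSpace ℂ E]
  {C : T → Set (V fun i => M (.inl i))} {π : T → P} {t₀ : T}
  {Rel : T → V (fun i => M (.inl i)) → V (fun i => M (.inr i)) → Prop}

/-- A pair of points as a point of the product. -/
def jw (c : V fun i => M (.inl i)) (y : V fun i => M (.inr i)) : V M :=
  Sum.rec (motive := fun i => Fin (M i) → ℂ) c y

@[simp] theorem L_jw (c : V fun i => M (.inl i)) (y : V fun i => M (.inr i)) :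
    rV .inl (jw c y) = c := rfl

@[simp] theorem R_jw (c : V fun i => M (.inl i)) (y : V fun i => M (.inr i)) :
    rV .inr (jw c y) = y := rfl

theorem jw_eta (q : V M) : jw (rV .inl q) (rV .inr q) = q :=
  funext (Sum.rec (fun _ => rfl) fun _ => rfl)

theorem an_jw {Y : Type*} [NormedAddCommGroup Y] [NormedSpace ℂ Y]
    {f : Y → V fun i => M (.inl i)} {g : Y → V fun i => M (.inr i)} {y : Y}
    (hf : AnalyticAt ℂ f y) (hg : AnalyticAt ℂ g y) : AnalyticAt ℂ (fun z => jw (f z) (g z)) y :=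
  analyticAt_pi_iff.2 (Sum.rec (analyticAt_pi_iff.1 hf) (analyticAt_pi_iff.1 hg))

theorem eq_smul_LR {q q' : V M} {s : ι → ℂ} {r : ι₀ → ℂ} (h : rV .inl q = s • rV .inl q')
    (h' : rV .inr q = r • rV .inr q') : q = Sum.elim s r • q' :=
  funext (Sum.rec (congrFun h) (congrFun h'))

theorem orb_LR {q q' : V M} (h : Orb (rV .inl q) (rV .inl q')) (h' : Orb (rV .inr q) (rV .inr q')) :
    Orb q q' :=
  let ⟨s, a, b⟩ := h
  let ⟨r, c, d⟩ := h'
  ⟨Sum.elim s r, Sum.rec a c, eq_smul_LR b d⟩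

variable (C Rel) in
/-- The graph of a family of relations. -/
def Gph (t : T) : Set (V M) := {q | rV .inl q ∈ C t ∧ Rel t (rV .inl q) (rV .inr q)}

variable (C π t₀ Rel) in
/-- Near `(t₀, c)` the relation is given by the holomorphic map `Φ`. -/
structure Rv (c : V fun i => M (.inl i)) (Φ : P × V (fun i => M (.inl i)) → V fun i => M (.inr i)) :
    Prop where
  an : AnalyticAt ℂ Φ (π t₀, c)
  ne : ∀ i, Φ (π t₀, c) i ≠ 0
  ev : ∀ᶠ q : T × V fun i => M (.inl i) in 𝓝 (t₀, c), q.2 ∈ C q.1 →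
    ∀ y, Rel q.1 q.2 y ↔ Orb (Φ (π q.1, q.2)) y

variable (C π t₀ Rel) in
/-- A relation that is locally a holomorphic map modulo the tori. -/
structure Rl : Prop where
  inv : ∀ᶠ t in 𝓝 t₀, ∀ c ∈ C t, ∀ c' y y', Orb c c' → Orb y y' → Rel t c y → Rel t c' y'
  loc : ∀ c ∈ C t₀, ∃ c', Orb c' c ∧ ∃ Φ, Rv C π t₀ Rel c' Φ

namespace Rl

theorem iff (h : Rl C π t₀ Rel) (hf : LocFam o C π t₀) : ∀ᶠ t in 𝓝 t₀, ∀ c ∈ C t, ∀ c' y,
    Orb c c' → (Rel t c y ↔ Rel t c' y) := by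
  filter_upwards [h.inv, hf.eventually] with t k1 k2 c hc c' y e
  exact ⟨k1 c hc _ _ _ e (.refl _), k1 c' (k2.nod.orb hc e) _ _ _ e.symm (.refl _)⟩

theorem loc' (h : Rl C π t₀ Rel) (hf : LocFam o C π t₀) {c} (hc : c ∈ C t₀) :
    ∃ Φ, Rv C π t₀ Rel c Φ := by
  obtain ⟨c', h1, Φ, h2⟩ := h.loc c hc
  obtain ⟨s, hs, rfl⟩ := h1.symm
  refine ⟨fun q => Φ (q.1, s • q.2), h2.an.comp_of_eq
    (analyticAt_fst.prod (an_smul analyticAt_const analyticAt_snd)) rfl, h2.ne, ?_⟩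
  filter_upwards [(Tendsto.prodMk_nhds continuousAt_fst (tendsto_smul tendsto_const_nhds
    (continuousAt_snd (p := (t₀, c))))).eventually h2.ev, continuousAt_fst.eventually hf.cone,
    continuousAt_fst.eventually (h.iff hf)] with q k1 k2 k3 k4 y
  exact (k3 _ k4 _ _ (.smul _ hs)).trans (k1 (k2 s hs _ k4) y)

theorem loc'' (h : Rl C π t₀ Rel) (hf : LocFam o C π t₀) {c y} (hc : c ∈ C t₀) (hy : Rel t₀ c y) :
    ∃ Φ, Rv C π t₀ Rel c Φ ∧ Φ (π t₀, c) = y := by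
  obtain ⟨Φ, h2⟩ := h.loc' hf hc
  obtain ⟨s, hs, rfl⟩ := (h2.ev.self_of_nhds hc y).1 hy
  exact ⟨fun q => s • Φ q, ⟨an_smul analyticAt_const h2.an, smul_ne hs h2.ne, h2.ev.mono
    fun q k1 k2 y => (k1 k2 y).trans ⟨(Orb.smul _ hs).symm.trans, (Orb.smul _ hs).trans⟩⟩, rfl⟩

theorem key (h : Rl C π t₀ Rel) (hf : LocFam o C π t₀) : ∀ᶠ t in 𝓝 t₀, ∀ c ∈ C t,
    ∃ y' : V fun i => M (.inr i), (∀ i, y' i ≠ 0) ∧ ∀ y, Rel t c y ↔ Orb y' y := by
  refine (hf.compact' (p := fun q => q.2 ∈ C q.1 → ∃ y' : V fun i => M (.inr i),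
    (∀ i, y' i ≠ 0) ∧ ∀ y, Rel q.1 q.2 y ↔ Orb y' y) (fun c hc => ?_) ?_).mono
      fun t k c hc => k c hc hc
  · obtain ⟨Φ, h2⟩ := h.loc' hf hc
    refine ⟨c, .refl _, ?_⟩
    filter_upwards [h2.ev, (tendsto_pm hf.cont.self_of_nhds c).eventually (eventually_all.2
      fun i => (continuousAt_pi.1 h2.an.continuousAt i).eventually_ne (h2.ne i))] with q k1 k2 k3 _
    exact ⟨_, k2, k1 k3⟩
  · filter_upwards [h.iff hf, hf.eventually] with t k1 k2 c c' e k3 k4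
    obtain ⟨y', k5, k6⟩ := k3 (k2.nod.orb k4 e.symm)
    exact ⟨y', k5, fun y => (k1 _ k4 _ _ e.symm).trans (k6 y)⟩

theorem img (h : Rl C π t₀ Rel) (hf : LocFam o C π t₀) :
    ∀ᶠ t in 𝓝 t₀, rV .inl '' Gph C Rel t = C t := by
  filter_upwards [h.key hf] with t k
  refine Subset.antisymm (by rintro _ ⟨q, hq, rfl⟩; exact hq.1) fun c hc => ?_
  obtain ⟨y, -, k1⟩ := k c hc
  exact ⟨jw c y, ⟨hc, (k1 y).2 (.refl _)⟩, rfl⟩

theorem inj (h : Rl C π t₀ Rel) (hf : LocFam o C π t₀) : ∀ᶠ t in 𝓝 t₀, ∀ q ∈ Gph C Rel t,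
    ∀ q' ∈ Gph C Rel t, Orb (rV .inl q) (rV .inl q') → Orb q q' := by
  filter_upwards [h.key hf, h.iff hf] with t k k' q hq q' hq' e
  obtain ⟨y, -, k1⟩ := k _ hq.1
  exact orb_LR e (((k1 _).1 hq.2).symm.trans ((k1 _).1 ((k' _ hq.1 _ _ e).2 hq'.2)))

theorem chart (h : Rl C π t₀ Rel) (hf : LocFam o C π t₀) {σ : P × E → V fun i => M (.inl i)}
    {X : P → Set E} (a : Chart o C π t₀ σ X) {Ψ : P × E → V fun i => M (.inr i)}
    (h1 : AnalyticAt ℂ Ψ (π t₀, 0)) (h2 : ∀ᶠ q : T × E in 𝓝 (t₀, 0), q.2 ∈ X (π q.1) →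
      ∀ y, Rel q.1 (σ (π q.1, q.2)) y ↔ Orb (Ψ (π q.1, q.2)) y) :
    Chart (.inl o) (Gph C Rel) π t₀ (fun q => jw (σ q) (Ψ q)) X := by
  refine ⟨an_jw a.an h1, fun e s he => a.imm e s ?_, ?_, fun U hU => ?_⟩
  · exact (congrFun (fderiv_rV (r := Sum.inl) (f := fun z => jw (σ (π t₀, z)) (Ψ (π t₀, z)))
      ((an_jw a.an h1).comp_of_eq (analyticAt_const.prod analyticAt_id) rfl) e) o).trans he
  · filter_upwards [a.mem, h2] with q k1 k2 k3
    exact ⟨k1 k3, (k2 k3 _).2 (.refl _)⟩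
  · have k6 := a.mem.and h2
    rw [nhds_prod_eq] at k6
    obtain ⟨A, hA, B, hB, k7⟩ := eventually_prod_iff.1 k6
    have k8 : Tendsto (fun q : T × V M => (q.1, rV .inl q.2))
        (𝓝 (t₀, jw (σ (π t₀, 0)) (Ψ (π t₀, 0)))) (𝓝 (t₀, σ (π t₀, 0))) :=
      ContinuousAt.tendsto (f := fun q : T × V M => (q.1, rV .inl q.2)) (by fun_prop)
    filter_upwards [k8.eventually (a.sub _ (inter_mem hU hB)), continuousAt_fst.eventually hA,
      continuousAt_fst.eventually (h.iff hf), continuousAt_fst.eventually hf.ne_zero]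
      with q e1 e2 e3 e4 e5
    obtain ⟨s, z, e6, e7, e8⟩ := e1 e5.1
    have e9 := k7 e2 e6.2
    obtain ⟨r, -, e10⟩ := (e9.2 e7 _).1 ((e3 _ (e9.1 e7) _ _ (.of_smul (e4 _ e5.1) e8)).2 e5.2)
    exact ⟨_, z, e6.1, e7, eq_smul_LR (q' := jw _ _) e8 e10⟩

theorem chart' (h : Rl C π t₀ Rel) (hf : LocFam o C π t₀) {σ : P × E → V fun i => M (.inl i)}
    {X : P → Set E} (a : Chart o C π t₀ σ X) {Φ} (h1 : Rv C π t₀ Rel (σ (π t₀, 0)) Φ) :
    Chart (.inl o) (Gph C Rel) π t₀ (fun q => jw (σ q) (Φ (q.1, σ q))) X := by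
  refine h.chart hf a (h1.an.comp_of_eq (analyticAt_fst.prod a.an) rfl) ?_
  filter_upwards [a.mem, (continuousAt_fst.tendsto.prodMk_nhds
    (a.tendsto hf.cont.self_of_nhds)).eventually h1.ev] with q k1 k2 k3 using k2 (k1 k3)

/-- **The graphs form a holomorphic family.** -/
theorem locFam (h : Rl C π t₀ Rel) (hf : LocFam o C π t₀) : LocFam (.inl o) (Gph C Rel) π t₀ := by
  have hπ := hf.cont.self_of_nhds
  refine ⟨hf.cont, ?_, ?_, fun q₀ h1 h2 => ?_, fun q hq => ?_⟩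
  · filter_upwards [h.key hf, hf.ne_zero] with t k1 k2 q hq
    obtain ⟨y, k3, k4⟩ := k1 _ hq.1
    exact Sum.rec (k2 _ hq.1) (((k4 _).1 hq.2).ne k3)
  · filter_upwards [h.inv, hf.cone] with t k1 k2 s hs q hq
    exact ⟨k2 _ (fun i => hs (.inl i)) _ hq.1, k1 _ hq.1 _ _ _ (Orb.smul q hs).prj
      (Orb.smul q hs).prj hq.2⟩
  · have k8 : Tendsto (fun q : T × V M => (q.1, rV .inl q.2)) (𝓝 (t₀, q₀))
        (𝓝 (t₀, rV .inl q₀)) :=
      ContinuousAt.tendsto (f := fun q : T × V M => (q.1, rV .inl q.2)) (by fun_prop)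
    by_cases hc : rV .inl q₀ ∈ C t₀
    swap
    · exact (k8.eventually (hf.usc _ (fun i => h1 _) hc)).mono fun q k1 k2 => k1 k2.1
    obtain ⟨Φ, k1⟩ := h.loc' hf hc
    filter_upwards [k8.eventually k1.ev, ev_not_orb
      ((k1.an.continuousAt.tendsto.comp (tendsto_pm hπ _)).comp k8)
      (ContinuousAt.tendsto (f := fun q : T × V M => rV .inr q.2) (by fun_prop)) k1.ne
      (fun i => h1 _) fun e => h2 ⟨hc, (k1.ev.self_of_nhds hc _).2 e⟩] with q k2 k3 k4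
    exact k3 ((k2 k4.1 _).1 k4.2)
  · obtain ⟨Φ, k1, k2⟩ := h.loc'' hf hq.1 hq.2
    rcases hf.chart _ hq.1 with ⟨σ, e, d⟩ | ⟨τ, σ, e, d1, d2, d⟩
    · exact .inl ⟨_, by rw [e, k2, jw_eta], h.chart' hf d (e ▸ k1)⟩
    · exact .inr ⟨τ, _, by rw [e, k2, jw_eta], d1, d2, h.chart' hf d (e ▸ k1)⟩

end Rl

theorem chz_elim (a : ι → ℤ) (b : ι₀ → ℤ) (s : ι ⊕ ι₀ → ℂ) :
    chz (Sum.elim a b) s = chz a (fun i => s (.inl i)) * chz b fun i => s (.inr i) :=
  Fintype.prod_sum_type _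

theorem chz_single (i : ι₀) (r : ι₀ → ℂ) : chz (Pi.single i 1) r = r i := by
  rw [chz, Finset.prod_eq_single i (fun j _ e => by simp [e]) (by simp)]
  simp

variable {β : Type*} [Finite β] {σ : β → P × ℂ → V fun i => M (.inl i)} {χ : ι₀ → ι → ℤ}
  {u : ι₀ → β → ℤ} {F : T → V (fun i => M (.inl i)) → V fun i => M (.inr i)}

variable (o C π t₀ σ χ u F) in
/-- `Γ` is the closure of the graph of `F`, and `l` compares the second component with `F`. -/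
structure Grf (Γ : T → Set (V M)) (σ' : β → P × ℂ → V M) (l : ι₀ → T → V M → ℂ) : Prop where
  fam : LocFam (.inl o) Γ π t₀
  pts : Pts (.inl o) Γ π t₀ σ'
  L_pts : ∀ k q, rV .inl (σ' k q) = σ k q
  mer : ∀ i, FMer (.inl o) Γ π t₀ (Sum.elim (-χ i) (Pi.single i 1)) σ' (-u i) (l i)
  triv : ∀ i, Triv (.inl o) (Γ t₀) (Sum.elim (-χ i) (Pi.single i 1)) (ctr σ' (π t₀)) (-u i) (l i t₀)
  img : ∀ᶠ t in 𝓝 t₀, rV .inl '' Γ t = C t
  inj : ∀ᶠ t in 𝓝 t₀, ∀ q ∈ Γ t, ∀ q' ∈ Γ t, Orb (rV .inl q) (rV .inl q') → Orb q q'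
  eq : ∀ᶠ t in 𝓝 t₀, ∀ q ∈ Γ t, Off (ctr σ (π t)) (rV .inl q) →
    rV .inr q = (fun i => l i t q) • F t (rV .inl q)
  sub : ∀ᶠ t in 𝓝 t₀, ∀ c ∈ C t, Off (ctr σ (π t)) c → jw c (F t c) ∈ Γ t

/-- **The graph of a family of meromorphic sections without common zeros.** -/
theorem exists_graph (hf : LocFam o C π t₀) (hσ : Pts o C π t₀ σ)
    (hF : ∀ i j, FMer o C π t₀ (χ i) σ (u i) fun t c => F t c i j)
    (h1 : ∀ c ∈ C t₀, Off (ctr σ (π t₀)) c → ∀ i, F t₀ c i ≠ 0)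
    (h2 : ∀ i k, ∃ j γ, IsBranch o (C t₀) γ ∧ Orb (ctr σ (π t₀) k) (γ 0) ∧
      ∃ a ≠ 0, Vz (u i k) (fun t => F t₀ (γ t) i j) a) :
    ∃ Γ σ' l, Grf o C π t₀ σ χ u F Γ σ' l := by
  classical
  have hπ := hf.cont.self_of_nhds
  choose g g1 g2 using fun k i j => (hF i j).ord k
  let G : β → P × ℂ → V fun i => M (.inr i) := fun k q i j => g k i j q
  have G1 : ∀ k, AnalyticAt ℂ (G k) (π t₀, 0) := fun k =>
    analyticAt_pi_iff.2 fun i => analyticAt_pi_iff.2 fun j => g1 k i j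
  have G2 : ∀ k, ∀ᶠ q : T × ℂ in 𝓝 (t₀, 0), q.2 ≠ 0 →
      F q.1 (σ k (π q.1, q.2)) = (fun i => q.2 ^ u i k) • G k (π q.1, q.2) := fun k =>
    (eventually_all.2 fun i => eventually_all.2 fun j => g2 k i j).mono fun q a b =>
      funext₂ fun i j => a i j b
  have G3 : ∀ k i, G k (π t₀, 0) i ≠ 0 := fun k i e => by
    obtain ⟨j, γ, a1, a2, a, a3, a4⟩ := h2 i k
    obtain ⟨s, hs, a5⟩ := a2.symm
    obtain ⟨r, hr, a6⟩ := hf.nod.vz (f := fun c => F t₀ c i j) (hF i j).hom.self_of_nhds a1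
      (hσ.isBranch hf k) ((hσ.spt hf).sm k) hs a5
    exact mul_ne_zero (chz_ne_zero hs) (mul_ne_zero (zpow_ne_zero _ hr) a3)
      (((a6 _ _ a4).unique (FMer.vz (f := fun t c => F t c i j) (g1 k i j) (g2 k i j))).trans
        (congrFun e j))
  have hom : ∀ᶠ t in 𝓝 t₀, ∀ s : ι → ℂ, (∀ i, s i ≠ 0) → ∀ c ∈ C t,
      F t (s • c) = (fun i => chz (χ i) s) • F t c :=
    (eventually_all.2 fun i => eventually_all.2 fun j => (hF i j).hom).mono fun t a s b c d =>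
      funext₂ fun i j => a i j s b c d
  have reg : ∀ c ∈ C t₀, Off (ctr σ (π t₀)) c → ∃ Φ : P × V (fun i => M (.inl i)) →
      V fun i => M (.inr i), AnalyticAt ℂ Φ (π t₀, c) ∧ (∀ i, Φ (π t₀, c) i ≠ 0) ∧
      ∀ᶠ q : T × V fun i => M (.inl i) in 𝓝 (t₀, c), q.2 ∈ C q.1 → F q.1 q.2 = Φ (π q.1, q.2) :=
    fun c hc ho => by
      choose Φ a b using fun i j => (hF i j).reg c hc ho
      have d := (eventually_all.2 fun i => eventually_all.2 fun j => b i j).mono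
        fun q a (b : q.2 ∈ C q.1) => funext₂ fun i j => a i j b
      exact ⟨fun q i j => Φ i j q, analyticAt_pi_iff.2 fun i => analyticAt_pi_iff.2 (a i),
        fun i e => h1 c hc ho i ((congrFun (d.self_of_nhds hc) i).trans e), d⟩
  let Rel : T → V (fun i => M (.inl i)) → V (fun i => M (.inr i)) → Prop := fun t c y =>
    Off (ctr σ (π t)) c ∧ Orb (F t c) y ∨ ∃ k, Orb (σ k (π t, 0)) c ∧ Orb (G k (π t, 0)) y
  have r1 : ∀ t c y, Off (ctr σ (π t)) c → (Rel t c y ↔ Orb (F t c) y) := fun t c y ho =>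
    ⟨fun a => a.elim (·.2) fun ⟨k, b, _⟩ => (ho k b).elim, fun a => .inl ⟨ho, a⟩⟩
  have inv : ∀ᶠ t in 𝓝 t₀, ∀ c ∈ C t, ∀ c' y y', Orb c c' → Orb y y' → Rel t c y →
      Rel t c' y' := by
    filter_upwards [hom] with t a c hc c' y y' e e'
    refine Or.imp (fun b => ⟨b.1.orb e, ?_⟩) fun ⟨k, b, d⟩ => ⟨k, b.trans e, d.trans e'⟩
    obtain ⟨s, hs, rfl⟩ := e
    rw [a s hs c hc]
    exact ((Orb.smul _ fun i => chz_ne_zero hs).symm.trans b.2).trans e'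
  have r2 : ∀ k, ∀ᶠ q : T × ℂ in 𝓝 (t₀, 0),
      ∀ y, Rel q.1 (σ k (π q.1, q.2)) y ↔ Orb (G k (π q.1, q.2)) y := fun k => by
    filter_upwards [G2 k, hσ.eventually_off' hf k, continuousAt_fst.eventually (hσ.eventually hf)]
      with q a b d y
    by_cases e : q.2 = 0
    · rw [e]
      exact ⟨fun a => a.elim (fun b => (b.1 k (.refl _)).elim) fun ⟨k', b, b'⟩ =>
        d.inj _ _ b ▸ b', fun a => .inr ⟨k, .refl _, a⟩⟩
    · rw [r1 _ _ _ (b e), a e]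
      exact ⟨(Orb.smul _ fun i => zpow_ne_zero _ e).trans,
        (Orb.smul _ fun i => zpow_ne_zero _ e).symm.trans⟩
  have hR : Rl C π t₀ Rel := ⟨inv, fun c hc => by
    by_cases ho : Off (ctr σ (π t₀)) c
    · obtain ⟨Φ, a, b, d⟩ := reg c hc ho
      refine ⟨c, .refl _, Φ, a, b, ?_⟩
      filter_upwards [d, hσ.eventually_off hf (hf.ne_zero.self_of_nhds c hc) ho] with q e1 e2 e3 y
      rw [r1 _ _ _ e2, e1 e3]
    obtain ⟨k, hk⟩ := not_forall_not.1 ho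
    obtain ⟨S, W, -, a2, -, a4, a5⟩ := (hσ.chart k).normal hf (f := fun _ _ => 0) (χ := 0)
      (.of_forall fun _ _ _ _ _ => (mul_zero _).symm) ((r2 k).and (hσ.chart k).mem)
    refine ⟨_, hk, fun q => G k (q.1, W q), (G1 k).comp_of_eq (analyticAt_fst.prod a2)
      (congrArg _ a4), fun i => (congrArg (fun w => G k (π t₀, w) i) a4).trans_ne (G3 k i), ?_⟩
    filter_upwards [a5, continuousAt_fst.eventually inv] with q ⟨e1, e2, e3⟩ e4 e5 y
    have e6 : Orb (σ k (π q.1, W (π q.1, q.2))) q.2 := ⟨_, e1, (e3 e5).1⟩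
    exact Iff.trans ⟨e4 _ e5 _ _ _ e6.symm (.refl _), e4 _ (e2.2 trivial) _ _ _ e6 (.refl _)⟩
      (e2.1 y)⟩
  have hΓ := hR.locFam hf
  have hP : Pts (.inl o) (Gph C Rel) π t₀ fun k q => jw (σ k q) (G k q) :=
    ⟨fun k => hR.chart hf (hσ.chart k) (G1 k) ((r2 k).mono fun _ a _ => a),
      fun k k' e => hσ.inj k k' (e.prj (r := Sum.inl))⟩
  have nz : ∀ᶠ t in 𝓝 t₀, ∀ c ∈ C t, Off (ctr σ (π t)) c → ∀ i, F t c i ≠ 0 := by
    filter_upwards [hR.key hf] with t a c hc ho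
    obtain ⟨y, b, d⟩ := a c hc
    exact ((d _).1 ((r1 _ _ _ ho).2 (.refl _))).ne b
  let l : ι₀ → T → V M → ℂ := fun i t q => if Off (ctr σ (π t)) (rV .inl q) then
    Classical.epsilon fun s : ℂ => rV .inr q i = s • F t (rV .inl q) i else 0
  have l1 : ∀ᶠ t in 𝓝 t₀, ∀ q : V M, rV .inl q ∈ C t → Off (ctr σ (π t)) (rV .inl q) →
      ∀ i s, rV .inr q i = s • F t (rV .inl q) i → l i t q = s := by
    filter_upwards [nz] with t a q hq ho i s e
    exact (if_pos ho).trans (smul_left_injective ℂ (a _ hq ho i) ((Classical.epsilon_spec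
      (p := fun s : ℂ => rV .inr q i = s • F t (rV .inl q) i) ⟨s, e⟩).symm.trans e))
  have l2 : ∀ᶠ t in 𝓝 t₀, ∀ q ∈ Gph C Rel t, Off (ctr σ (π t)) (rV .inl q) →
      (∀ i, l i t q ≠ 0) ∧ rV .inr q = (fun i => l i t q) • F t (rV .inl q) := by
    filter_upwards [l1] with t a q hq ho
    obtain ⟨s, hs, e⟩ := (r1 _ _ _ ho).1 hq.2
    rw [show (fun i => l i t q) = s from funext fun i => a q hq.1 ho i _ (congrFun e i)]
    exact ⟨fun i => (a q hq.1 ho i _ (congrFun e i)).trans_ne (hs i), e⟩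
  have off : ∀ q ∈ Gph C Rel t₀, Off (ctr (fun k q => jw (σ k q) (G k q)) (π t₀)) q →
      Off (ctr σ (π t₀)) (rV .inl q) := fun q hq ho k e =>
    ho k ((hR.inj hf).self_of_nhds _ (hP.mem k) _ hq e)
  have ord : ∀ i k, ∀ᶠ q : T × ℂ in 𝓝 (t₀, 0), q.2 ≠ 0 →
      l i q.1 (jw (σ k (π q.1, q.2)) (G k (π q.1, q.2))) = q.2 ^ (-u i) k * 1 := fun i k => by
    filter_upwards [G2 k, hσ.eventually_off' hf k, continuousAt_fst.eventually l1,
      (hσ.chart k).mem] with q a b d e h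
    refine d _ (e trivial) (b h) i _ ?_
    rw [L_jw, R_jw, a h, Pi.smul_apply', smul_smul, Pi.neg_apply, mul_one, zpow_neg,
      inv_mul_cancel₀ (zpow_ne_zero _ h), one_smul]
  have mer : ∀ i, FMer (.inl o) (Gph C Rel) π t₀ (Sum.elim (-χ i) (Pi.single i 1))
      (fun k q => jw (σ k q) (G k q)) (-u i) (l i) := fun i => by
    refine ⟨?_, fun q₀ hq ho => ?_, fun k => ⟨fun _ => 1, analyticAt_const, ord i k⟩⟩
    · filter_upwards [l1, l2, hom, hf.cone] with t a b d e s hs q hq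
      have hs' : ∀ i, s (.inl i) ≠ 0 := fun i => hs _
      by_cases ho : Off (ctr σ (π t)) (rV .inl q)
      · refine a _ (e _ hs' _ hq.1) (ho.orb (Orb.smul q hs).prj) i _ ?_
        rw [rV_smul, rV_smul, d _ hs' _ hq.1, (b q hq ho).2, chz_elim, chz_single, chz_neg]
        simp only [Pi.smul_apply', smul_smul]
        congr 1
        have := chz_ne_zero (χ := χ i) hs'
        field_simp
      · exact (if_neg fun a => ho (a.orb (Orb.smul q hs).prj.symm)).trans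
          ((congrArg _ (if_neg ho)).trans (mul_zero _)).symm
    · obtain ⟨Φ, a, b, d⟩ := reg _ hq.1 (off q₀ hq ho)
      have k8 : Tendsto (fun q : T × V M => (q.1, rV .inl q.2)) (𝓝 (t₀, q₀))
          (𝓝 (t₀, rV .inl q₀)) :=
        ContinuousAt.tendsto (f := fun q : T × V M => (q.1, rV .inl q.2)) (by fun_prop)
      obtain ⟨s, s1, s2⟩ := exists_unit (u := fun y : P × V M => Φ (y.1, rV .inl y.2))
        (v := fun y => rV .inr y.2) (x := (π t₀, q₀))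
        (a.comp_of_eq (analyticAt_fst.prod (an_rV analyticAt_snd)) rfl) (an_rV analyticAt_snd) b
      refine ⟨fun y => s y i, analyticAt_pi_iff.1 s1 i, ?_⟩
      filter_upwards [(tendsto_pm hπ _).eventually s2, k8.eventually d,
        continuousAt_fst.eventually l2, k8.eventually (hσ.eventually_off hf
          (hf.ne_zero.self_of_nhds _ hq.1) (off q₀ hq ho))] with q e1 e2 e3 e4 e5
      exact (congrFun (e1 _ (e2 e5.1 ▸ (e3 _ e5 e4).2)) i).symm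
  exact ⟨_, _, l, hΓ, hP, fun _ _ => rfl, mer, fun i => ((mer i).mer hΓ hP).triv hΓ.nod (hP.spt hΓ)
    (fun q hq ho => (l2.self_of_nhds q hq (off q hq ho)).1 i) fun k => ⟨_, hP.isBranch hΓ k,
      .refl _, 1, one_ne_zero, FMer.vz (f := l i) (τ := fun q => jw (σ k q) (G k q))
        (g := fun _ => 1) analyticAt_const (ord i k)⟩, hR.img hf,
    hR.inj hf, l2.mono fun t a q b d => (a q b d).2,
    .of_forall fun t c a b => ⟨a, (r1 _ _ _ b).2 (.refl _)⟩⟩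

end Vale.Agent.P269L.K
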