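import Vale.Agent.P269L.K.Gam
import Vale.Agent.P269L.I.KsB
import Vale.Agent.P269.Base.MerPar

/-!
# The pluricanonical map of a stable map and its graph
-/

set_option linter.unusedSectionVars false

namespace Vale.Agent.P269L.K

open Set Function Topology Filter Vale.Agent.P269 Vale.Agent.P269.Cv Vale.Agent.P269.Base
  Vale.Agent.P269L.I Vale.Agent.P269.Cv.Xi

variable {X : Type} [TopologicalSpace X] [T2Space X] [CompactSpace X] {R : RS X}
  {N : Finset (X × X)} {ι κ ν β : Type} [Fintype ι] [Fintype κ] [Fintype ν] [Fintype β] {o : ι}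
  {g : ℤ} {m : ι → ℤ} {w : ι → ℕ}

section

variable {M : ι → ℕ} {C : Set (V M)} {A : ι → LB R} {π : X → V M} {ξ : V M → V M}

open Classical in
/-- **a vector field trivialises `O(w) / ω_log`** -/
theorem vf_sec (h : Par o C N A π) {ζ : β → V M} (hv : VF o C w ξ ζ) {y : β → X}
    (hy : ∀ k, Sm N (y k) ∧ Orb (π (y k)) (ζ k)) : ∃ u : X → ℂ → ℂ,
      (∀ x, AnalyticAt ℂ (u x) 0 ∧ u x 0 ≠ 0 ∧
        Along ξ (br A π x) fun t => Xi.lg N (Finset.univ.image y) x t * u x t) ∧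
      (fun x => u x 0) ∈ H0 N ((bz A fun i => w i) / omega R N (Finset.univ.image y)) := by
  set P := Finset.univ.image y with hP
  have hS : ∀ p ∈ P, Sm N p := fun p hp => by
    obtain ⟨k, -, rfl⟩ := Finset.mem_image.1 hp
    exact (hy k).1
  have nd : ∀ x, IsNode o C (br A π x 0) ↔ ¬Sm N x := fun x => by
    rw [br_zero, ← h.isNode_iff (t := 1) fun _ => one_ne_zero, one_smul]
  have mk : ∀ x, (∀ k, ¬Orb (ζ k) (br A π x 0)) ↔ x ∉ P := fun x => by
    rw [br_zero]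
    simpa [hP, eq_comm, Off] using h.off_iff hy (x := x)
  have : ∀ x, ∃ u : ℂ → ℂ, AnalyticAt ℂ u 0 ∧ u 0 ≠ 0 ∧
      Along ξ (br A π x) fun t => Xi.lg N P x t * u t := fun x => by
    by_cases e : Sm N x ∧ x ∉ P
    · obtain ⟨u, a, b⟩ := hv.reg _ (h.isBranch x) (fun k => (nd x).1 k e.1) ((mk x).2 e.2)
      exact ⟨u, b.an, a, by simpa [Xi.lg, e] using b⟩
    · obtain ⟨u, a, b, c⟩ := hv.van _ (h.isBranch x) (by
        by_contra k
        push Not at k
        exact e ⟨not_not.1 (mt (nd x).2 k.1), (mk x).1 k.2⟩)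
      refine ⟨fun t => sg N x * u t, analyticAt_const.mul a, mul_ne_zero (sg_ne x) b, ?_⟩
      convert c using 2 with t
      rw [Xi.lg, if_neg e, mul_mul_mul_comm, sg_sq, one_mul]
  choose u a b c using this
  refine ⟨u, fun x => ⟨a x, b x, c x⟩, fun x => (a x).congr ?_, fun n hn => ?_⟩
  · change ∀ᶠ t in _, _
    rw [← nhdsNE_sup_pure, eventually_sup, eventually_pure]
    refine ⟨?_, by simp⟩
    filter_upwards [omega_φ (R := R) h.nd hS x, R.ev_ne_iff.1 (ev_sm N P x), self_mem_nhdsWithin,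
      ((R.tgt_nhds x).and ((c x).2.and (R.ev_iff.1 (Ks.deriv_br h.sec x)))).filter_mono
        nhdsWithin_le_nhds] with t e1 e2 e0 ⟨e3, ⟨α, e4⟩, γ, e5⟩
    obtain ⟨α', e6⟩ := (c (R.i x t)).2.self_of_nhds
    have n := fun i => (A i).ne x (R.i x t)
    obtain ⟨α'', e7⟩ := hv.hom _ (h.br_mem x t) _ n
    have e8 := br_e (A := A) (π := π) (R.i_mem e3)
    have n1 := RS.d_e_ne (R.i_mem e3)
    rw [R.e_i e3] at e5 e8
    rw [br_zero] at e6
    have k : Xi.lg N P (R.i x t) 0 * u (R.i x t) 0 = Base.chr w (fun i => (A i).φ x (R.i x t)) *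
        (Xi.lg N P x t * u x t) / R.d (R.e x) (R.i x t) := by
      refine coef_unique (h.imm (R.i x t)) (α := α') (α' := α'' * (fun i => (A i).φ x (R.i x t))⁻¹ +
        Base.chr w (fun i => (A i).φ x (R.i x t)) • α - (Base.chr w (fun i => (A i).φ x (R.i x t)) *
        (Xi.lg N P x t * u x t) / R.d (R.e x) (R.i x t)) • γ) ?_
      rw [← e6, e5, e8, e7, e4]
      funext i
      have := n i
      simp only [Pi.add_apply, Pi.smul_apply, Pi.smul_apply', Pi.mul_apply, Pi.sub_apply,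
        Pi.inv_apply, smul_eq_mul]
      match_scalars
      · field_simp
        ring
      · field_simp
    have n2 := (omega R N P).ne x (R.i x t)
    have n3 := chr_ne_zero (a := w) n
    have n4 := lg_ne (N := N) (P := P) (y := x) e0
    rw [Xi.lg, if_pos e2, one_mul] at k
    rw [LB.loc, k, ← e1, LB.div_φ, bz_φ]
    simp only [zpow_natCast]
    change _ = _ / (Base.chr w (fun i => (A i).φ x (R.i x t)) / _)
    field_simp
  · have := hv.res _ _ _ _ _ (h.isCross hn) (c n.1) (c n.2)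
    have d : ∀ x, ¬Sm N x → deriv (fun t => Xi.lg N P x t * u x t) 0 = sg N x * u x 0 := fun x e => by
      simp only [Xi.lg, if_neg fun k : _ ∧ _ => e k.1]
      simpa using (((hasDerivAt_id' (0 : ℂ)).const_mul (sg N x)).fun_mul
        (a x).differentiableAt.hasDerivAt).deriv
    rw [d _ (not_sm_fst hn), d _ (not_sm_snd hn), sg_fst h.nd hn, sg_snd hn] at this
    simpa using this

open Classical in
theorem vf_deg (h : Par o C N A π) {ζ : β → V M} (hv : VF o C w ξ ζ) {y : β → X}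
    (hy : ∀ k, Sm N (y k) ∧ Orb (π (y k)) (ζ k)) (U : Set X) :
    degOn (bz A fun i => w i) U = degOn (omega R N ∅) U + ∑ k, degOn (R.pt (y k)) U := by
  obtain ⟨u, a, b⟩ := vf_sec h hv hy
  have := degOn_of_ne (U := U) (fun x _ => b.1 x) fun x _ => (a x).2.1
  rw [degOn_div, degOn_omega, Finset.sum_image (g := y) fun k _ k' _ (e : y k = y k') =>
    hv.inj _ _ ((hy k).2.symm.trans (e ▸ (hy k').2))] at this
  rw [degOn_omega, Finset.sum_empty]
  omega

theorem _root_.Vale.Agent.P269.Base.VF.spt {ζ : β → V M} (hv : VF o C w ξ ζ) : Spt o C ζ :=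
  ⟨fun k => (hv.mem k).1, fun k => (hv.mem k).2, hv.inj⟩

/-- **the degree of a vector field** -/
theorem vf_dg (hC : IsCurve o g m C) {ζ : β → V M} (hv : VF o C w ξ ζ) :
    (dgz m fun i => w i) = 2 * g - 2 + Fintype.card β := by
  classical
  obtain ⟨X, _, _, _, R, N, A, π, h⟩ := hC.isNodal.exists_par
  obtain ⟨y, -, hy⟩ := h.exists_pt hv.spt
  obtain ⟨a, b, -⟩ := h.numbers hC
  simpa [degOn_univ, deg_bz, deg_omega, deg_pt, a, b, dgz] using vf_deg h hv hy univ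

/-- the sections given by a basis -/
theorem bas_sec (h : Par o C N A π) {z : β → V M} {y : β → X} (hi : Injective y)
    (hy : ∀ k, Sm N (y k) ∧ Orb (π (y k)) (z k)) {χ : ι → ℤ} {u : β → ℤ} {G : κ → V M → ℂ}
    (hG : Bas o C χ z u G) : ∃ σ : κ → X → ℂ,
      (∀ j, σ j ∈ H0 N (bz A χ / ∏ k, R.pt (y k) ^ u k)) ∧
      (∀ j x, (∀ k, x ≠ y k) → σ j x = G j (π x)) ∧
      (∀ j k, Vz (u k) (fun t => G j (br A π (y k) t)) (σ j (y k))) ∧
      ∀ s ∈ H0 N (bz A χ / ∏ k, R.pt (y k) ^ u k), ∃ c : κ → ℂ, ∀ x, s x = ∑ j, c j * σ j x := by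
  choose σ a b c using fun i => h.exists_sec hi hy (hG.mer i)
  refine ⟨σ, a, b, c, fun s hs => ?_⟩
  obtain ⟨f, d, e, -⟩ := h.exists_mer hi hy hs
  obtain ⟨v, k⟩ := hG.span f d
  have := MerP.eq_zero (y := y) (sub_mem hs (Submodule.sum_mem (t := Finset.univ) _ fun j _ =>
    Submodule.smul_mem _ (v j) (a j))).1 fun x hx => by
      simp [e x hx, k _ (h.mem x) ((h.off_iff hy).2 hx), b _ x hx]
  exact ⟨v, fun x => by simpa [sub_eq_zero] using congrFun this x⟩

variable {J K : Type} [Fintype J] [Fintype K] {F : K → MvPolynomial J ℂ} {χ₀ : K → Unit → ℤ}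
  {z : κ → V M} {p : ν → V M} {f : V M → J → ℂ} {lam : ι → ℤ} {k : ℕ}

variable (F o g m C w ξ z p lam f) in
/-- A stable map with a vector field: `f` is given by sections of `O(lam)`. -/
structure Stm : Prop where
  cur : IsCurve o g m C
  vf : VF o C w ξ (Sum.elim z p)
  sec : ∀ j, IsSecZ o C lam fun c => f c j
  mem : ∀ c ∈ C, f c ∈ (ciK F).cone
  fin : {E | SIso o C p f o C p f E}.Finite

/-- The multidegrees of the pluricanonical bundles. -/
def chi0 (w : ι → ℕ) (lam : ι → ℤ) (k : ℕ) (i : Option Unit) : ι → ℤ :=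
  fun j => k * w j + (3 * k + i.elim 0 1) * lam j

/-- Their degrees. -/
def dg0 (g n d : ℤ) (k : ℕ) (i : Option Unit) : ℤ := k * (2 * g - 2 + n + 3 * d) + i.elim 0 fun _ => d

theorem Stm.hmap (H : Stm o g m w C ξ F z p f lam) : HMap o C f :=
  ⟨fun c hc => (H.mem c hc).1, fun c hc t ht => ⟨_, funext fun j => (H.sec j).hom t ht c hc⟩,
    fun γ hγ => ⟨fun t => f (γ t), analyticAt_pi_iff.2 fun j => (H.sec j).holo γ hγ,
      .of_forall fun _ => ⟨1, (one_smul _ _).symm⟩⟩⟩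

/-- **uniform positivity** -/
theorem Stm.near (H : Stm o g m w C ξ F z p f lam) (hF : ((ciK F).fam χ₀).Good) (h : Par o C N A π)
    {y : κ → X} (hy : ∀ j, Sm N (y j) ∧ Orb (π (y j)) (z j)) (k : ℕ) :
    ∃ B : LB R, Ge B 1 ∧ Ge (B / omega R N ∅) 0 ∧ ∀ i,
      Near (bz A (chi0 w lam k i) / ∏ j, R.pt (y j) ^ (k : ℤ)) B k 1 ∧
      Ge (bz A (chi0 w lam k i) / (∏ j, R.pt (y j) ^ (k : ℤ)) / B ^ k) 0 ∧
      deg (bz A (chi0 w lam k i) / ∏ j, R.pt (y j) ^ (k : ℤ)) =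
        dg0 g (Fintype.card ν) (dgz m lam) k i := by
  classical
  have sp := H.vf.spt
  obtain ⟨q, b, c⟩ := h.exists_pt (z := p) ⟨fun n => sp.mem (.inr n), fun n => sp.sm (.inr n),
    fun n n' e => Sum.inr_injective (sp.inj (.inr n) (.inr n') e)⟩
  have s := fun j => h.mem_of_isSecZ (H.sec j)
  have st := Prs.stable (χ := χ₀) (m := ⟨⟨X, R, N, q ∘ Br.em ν Empty _, h.nd,
    b.comp (Equiv.injective _), fun _ => (c _).1⟩, fun _ => bz A lam, 0, fun j z => f (π z) j⟩)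
    ⟨h, fun n => (c n).2, fun _ _ => rfl, s⟩ hF H.hmap H.mem H.fin
  have d := vf_deg h H.vf (y := Sum.elim y q) (Sum.rec hy c)
  have l : Ge (bz A lam) 0 := ge_of_bpf fun x =>
    let ⟨j, e⟩ := ne_iff.1 (H.mem _ (h.mem x)).1
    ⟨_, (s j).1, e⟩
  have B : Ge (omega R N (Finset.univ.image q) * bz A lam ^ 3) 1 := fun U u v => by
    have := st U u v
    simp only [AC.ω, AC.P, degOn_mul, degOn_cst, ← Finset.image_image, Finset.image_univ_equiv,
      degOn_bz (fun _ : Unit => bz A lam), Fintype.sum_unique] at this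
    rw [degOn_mul, degOn_pow]
    exact this.trans_eq (by rw [add_zero]; rfl)
  have T := ge_of_ample (n := 1) one_pos (by rwa [pow_one]) B
  have e : ∀ i U, degOn (bz A (chi0 w lam k i) / ∏ j, R.pt (y j) ^ (k : ℤ)) U =
      k * degOn (omega R N (Finset.univ.image q) * bz A lam ^ 3) U +
        i.elim 0 fun _ => degOn (bz A lam) U := fun i U => by
    have := d U
    rw [degOn_omega, Fintype.sum_sum_type, degOn_bz] at this
    simp only [degOn_div, degOn_prod, degOn_zpow, degOn_mul, degOn_pow, degOn_bz, degOn_omega,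
      Finset.sum_image b.injOn, chi0, add_mul, mul_assoc, Finset.sum_add_distrib,
      ← Finset.mul_sum, this]
    cases i <;> simp <;> ring
  refine ⟨_, B, fun U u v => ?_, fun i => ⟨⟨fun U u v => ?_, fun U u v => ?_⟩, fun U u v => ?_, ?_⟩⟩
  rotate_right
  · obtain ⟨a1, a2, -⟩ := h.numbers H.cur
    rw [← degOn_univ, e]
    simp only [degOn_univ, deg_mul, deg_pow, deg_omega, deg_bz, a1, a2,
      Finset.card_image_of_injective _ b]
    rfl
  all_goals
    have := l U u v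
    have := B U u v
    have := T U u v
    have := ge_omega N (Finset.univ.image q) (R := R) U u v
  · simp only [degOn_div, degOn_mul, degOn_pow] at *
    omega
  all_goals
    generalize omega R N (Finset.univ.image q) * bz A lam ^ 3 = B' at *
    simp only [degOn_div (_ * _), degOn_div (_ / _), degOn_div B', degOn_mul, degOn_pow, e] at *
    cases i <;> simp only [Option.elim] <;> omega

theorem isSecZ_of_mer [IsEmpty β] {ζ : β → V M} {u : β → ℤ} {s : V M → ℂ} (hC : Nod o C)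
    (h : Mer o C lam ζ u s) : IsSecZ o C lam s :=
  ⟨fun _ hc => let ⟨_, a, b⟩ := h.hol hC hc isEmptyElim
    a.continuousAt.continuousWithinAt.congr_of_eventuallyEq_of_mem b hc,
    h.hom, fun γ hγ => h.reg γ hγ isEmptyElim⟩

theorem vf_orb {ζ ζ' : β → V M} (hC : Nod o C) (h : VF o C w ξ ζ) (e : ∀ j, Orb (ζ j) (ζ' j)) :
    VF o C w ξ ζ' :=
  ⟨h.hom, fun j => ⟨hC.orb (h.mem j).1 (e j), fun a => (h.mem j).2 (hC.isNode_orb a (e j).symm)⟩,
    fun j j' a => h.inj _ _ (((e j).trans a).trans (e j').symm),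
    fun γ a b c => h.reg γ a b fun j d => c j ((e j).symm.trans d),
    fun γ a b => h.van γ a (b.imp_right fun ⟨j, d⟩ => ⟨j, (e j).trans d⟩), h.res⟩

theorem Stm.orb (H : Stm o g m w C ξ F z p f lam) {z' : κ → V M} (e : ∀ j, Orb (z j) (z' j)) :
    Stm o g m w C ξ F z' p f lam :=
  ⟨H.cur, vf_orb H.cur.nod H.vf (Sum.rec e fun _ => .refl _), H.sec, H.mem, H.fin⟩

theorem Stm.spt (H : Stm o g m w C ξ F z p f lam) : Spt o C z :=
  ⟨fun n => H.vf.spt.mem (.inl n), fun n => H.vf.spt.sm (.inl n),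
    fun n n' e => Sum.inl_injective (H.vf.inj (.inl n) (.inl n') e)⟩

theorem Stm.dgz_chi (H : Stm o g m w C ξ F z p f lam) (k : ℕ) (i : Option Unit) :
    dgz m (chi0 w lam k i) - ∑ _ : κ, (k : ℤ) = dg0 g (Fintype.card ν) (dgz m lam) k i := by
  have := vf_dg H.cur H.vf
  simp only [dgz, Fintype.card_sum] at this
  simp only [dgz, chi0, dg0, add_mul, mul_assoc, Finset.sum_add_distrib, ← Finset.mul_sum, this]
  cases i <;> simp <;> ring

theorem ge_of_div {L B : LB R} (hB : Ge B 1) (hω : Ge (B / omega R N ∅) 0) (h : Ge (L / B ^ k) 0)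
    {n : ℤ} (hk : k ≠ 0) (hn : n + 1 ≤ k) : Ge (L / omega R N ∅) n := by
  obtain ⟨k, rfl⟩ := Nat.exists_eq_succ_of_ne_zero hk
  exact (ge_omega_of h hB hω).mono (by push_cast at hn; omega)

/-- **the dimension of the space of sections; no base points** -/
theorem Stm.bas (H : Stm o g m w C ξ F z p f lam) (hF : ((ciK F).fam χ₀).Good) (hk : 3 ≤ k)
    {i : Option Unit} {G : β → V M → ℂ} (hG : Bas o C (chi0 w lam k i) z (fun _ => k) G) :
    (Fintype.card β : ℤ) = dgz m (chi0 w lam k i) - ∑ _ : κ, (k : ℤ) + 1 - g ∧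
      (Fintype.card β : ℤ) = dg0 g (Fintype.card ν) (dgz m lam) k i + 1 - g ∧
      (∀ c ∈ C, Off z c → ∃ j, G j c ≠ 0) ∧
      ∀ l, ∃ j γ, IsBranch o C γ ∧ Orb (z l) (γ 0) ∧ ∃ a ≠ 0, Vz k (fun t => G j (γ t)) a := by
  classical
  obtain ⟨X, _, _, _, R, N, A, π, h⟩ := H.cur.isNodal.exists_par
  obtain ⟨y, hi, hy⟩ := h.exists_pt H.spt
  obtain ⟨B, a, b, c⟩ := H.near hF h hy k
  have d := ge_of_div a b (c i).2.1 (n := 2) (by omega) (by omega)
  have e := (h.card_bas_iff H.cur hi hy hG).2 (h1_eq_zero h.nd (d.mono one_le_two))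
  obtain ⟨σ, -, s1, s2, s3⟩ := bas_sec h hi hy hG
  have n : ∀ x, ∃ j, σ j x ≠ 0 := fun x => by
    obtain ⟨s, u, v⟩ := exists_ne h.nd d x
    obtain ⟨r, e⟩ := s3 s u
    obtain ⟨j, -, e⟩ := Finset.exists_ne_zero_of_sum_ne_zero (e x ▸ v)
    exact ⟨j, right_ne_zero_of_mul e⟩
  refine ⟨e, H.dgz_chi k i ▸ e, fun c hc ho => ?_, fun l => ?_⟩
  · obtain ⟨x, t, ht, rfl⟩ := (h.img c).1 hc
    obtain ⟨j, e⟩ := n x
    refine ⟨j, ?_⟩
    rw [(hG.mer j).hom t ht _ (h.mem x), ← s1 j x ((h.off_iff hy).1 (ho.orb (Orb.symm ⟨t, ht, rfl⟩)))]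
    exact mul_ne_zero (chz_ne_zero ht) e
  · obtain ⟨j, e⟩ := n (y l)
    exact ⟨j, _, h.isBranch (y l), br_zero (A := A) (y l) ▸ (hy l).2.symm, _, e, s2 j l⟩

theorem Stm.exists_bas (H : Stm o g m w C ξ F z p f lam) (hF : ((ciK F).fam χ₀).Good) (hk : 3 ≤ k)
    (i : Option Unit) {r : ℕ} (hr : r = (dg0 g (Fintype.card ν) (dgz m lam) k i + 1 - g).toNat) :
    ∃ G : Fin r → V M → ℂ, Bas o C (chi0 w lam k i) z (fun _ => k) G := by
  obtain ⟨r', G, a, -⟩ := H.cur.exists_bas' H.spt (chi0 w lam k i) fun _ => k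
  have := (H.bas hF hk a).2.1
  rw [Fintype.card_fin] at this
  obtain rfl : r' = r := by omega
  exact ⟨G, a⟩

end

variable {M : ι ⊕ Option Unit → ℕ} {C : Set (V fun i => M (.inl i))} {J K : Type} [Fintype J]
  [Fintype K] {F : K → MvPolynomial J ℂ} {χ₀ : K → Unit → ℤ} {ξ : (V fun i => M (.inl i)) → _}
  {z : κ → V fun i => M (.inl i)} {p : ν → V fun i => M (.inl i)}
  {f : (V fun i => M (.inl i)) → J → ℂ} {lam : ι → ℤ} {k : ℕ}

/-- **the graph of the pluricanonical map** -/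
theorem Stm.graph (H : Stm o g m w C ξ F z p f lam) (hF : ((ciK F).fam χ₀).Good) (hk : 9 ≤ k)
    (hm : ∀ i, m i + 2 ≤ k) {Φ : (V fun i => M (.inl i)) → V fun i => M (.inr i)}
    (hΦ : ∀ i, Bas o C (chi0 w lam k i) z (fun _ => k) fun j c => Φ c i j) {G : Set (V M)}
    (hG : Nod (.inl o) G) (h1 : ∀ q ∈ G, rV .inl q ∈ C)
    (h2 : ∀ q ∈ G, ∀ q' ∈ G, Orb (rV .inl q) (rV .inl q') → Orb q q')
    (h3 : ∀ c ∈ C, Off z c → ∃ q ∈ G, rV .inl q = c ∧ rV .inr q = Φ c) :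
    IsCurve (.inl o) g (Sum.elim m (dg0 g (Fintype.card ν) (dgz m lam) k)) G ∧
      Nod (.inr none) G ∧ (∀ q ∈ G, ∀ q' ∈ G, Orb (rV .inr q) (rV .inr q') → Orb q q') ∧
      IsCurve none g (dg0 g (Fintype.card ν) (dgz m lam) k) (rV .inr '' G) := by
  classical
  obtain ⟨X, _, _, _, R, N, A, π, h⟩ := H.cur.isNodal.exists_par
  obtain ⟨y, hi, hy⟩ := h.exists_pt H.spt
  obtain ⟨B, a, b, c⟩ := H.near hF h hy k
  choose σ s0 s1 _ s3 using fun i => bas_sec h hi hy (hΦ i)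
  let π' : X → V M := fun x => Sum.rec (motive := fun i => Fin (M i) → ℂ) (π x) fun i j => σ i j x
  have fu : Full N _ fun x => rV .inr (π' x) := ⟨s0, fun i s hs =>
    let ⟨r, e⟩ := s3 i s hs
    ⟨∑ j, r j • .proj j, fun x => (e x).trans (by simp [π'])⟩⟩
  obtain ⟨P, Q⟩ := fu.isCurve (o := none) h.nd a b (k := k) (c := 1) hk (fun i => (c i).1.1)
    fun i => (c i).1.2
  rw [(h.numbers H.cur).1, funext fun i => (c i).2.2] at Q
  obtain ⟨c1, c2, c3⟩ := par_joint (A := Sum.elim A _) (π := π') h H.cur P Q fun i i' =>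
    ge_of_div a b (c i').2.1 (by omega) (by have := hm i; omega)
  have m1 : ∀ x, (∀ l, x ≠ y l) → π' x ∈ G := fun x hx => by
    obtain ⟨q, u, v, v'⟩ := h3 _ (h.mem x) ((h.off_iff hy).2 hx)
    exact (show q = π' x from funext (Sum.rec (congrFun v) fun i => (congrFun v' i).trans
      (funext fun j => (s1 i j x hx).symm))) ▸ u
  have m2 : ∀ x, π' x ∈ G := fun x => hG.closed _ (mem_closure_of_tendsto
    (((an_br c1.sec x).continuousAt.tendsto.mono_right (by rw [br_zero])).mono_left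
      (nhdsWithin_le_nhds (s := {0}ᶜ))) ((MerP.ev_off' (y := y) x).mono fun t ht =>
        hG.orb (m1 _ ht) (MerP.orb_br x t))) (c1.ne x)
  obtain rfl : G = cone π' := Set.ext fun q => ⟨fun hq =>
    let ⟨x, e⟩ := (h.img _).1 (h1 q hq)
    ⟨x, h2 _ (m2 x) _ hq e⟩, fun ⟨x, e⟩ => hG.orb (m2 x) e⟩
  refine ⟨c3, c2.isNodal.nod, fun q ⟨x, e⟩ q' ⟨x', e'⟩ u => ?_, ?_⟩
  · obtain ⟨t, -, v⟩ := ((Orb.prj (r := .inr) e).trans u).trans (Orb.prj e').symm
    exact (Orb.symm e).trans (c1.π_eq (P.inj _ _ _ v) ▸ e')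
  · convert Q using 1
    refine Set.ext fun q => ⟨?_, fun ⟨x, t, u, v⟩ => ⟨Sum.elim (fun _ => (1 : ℂ)) t • π' x, ⟨x, _, ?_, rfl⟩, v.symm⟩⟩
    · rintro ⟨q, ⟨x, e⟩, rfl⟩
      exact ⟨x, Orb.prj e⟩
    · exact Sum.rec (fun _ => one_ne_zero) u

end Vale.Agent.P269L.K
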