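import Vale.Agent.P269L.K.Th1
import Vale.Agent.P269L.K.Th2
import Vale.Agent.P269L.K.Th4
import Vale.Agent.P269.Base.Cbc

/-!
# The pluricanonical lift of a family of stable maps to the chart
-/

set_option linter.unusedSectionVars false

namespace Vale.Agent.P269L.K

open Set Function Topology Filter Vale.Agent.P269 Vale.Agent.P269.Base Vale.Agent.P269.Holo
  Vale.Agent.P269.Ch Vale.Agent.P269L.I Xi4

variable {T P : Type} [TopologicalSpace T] [NormedAddCommGroup P] [NormedSpace ℂ P]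
  [FiniteDimensional ℂ P] {π : T → P} {t₀ : T}

/-- A family of trivialisations without zeros and poles needs no special points. -/
theorem remove_all {ι β : Type} [Fintype ι] [Finite β] {M : ι → ℕ} {o : ι} {C : T → Set (V M)}
    {σ : β → P × ℂ → V M} {χ : ι → ℤ} {f : T → V M → ℂ} (h : FMer o C π t₀ χ σ 0 f)
    (hf : LocFam o C π t₀) (hσ : Pts o C π t₀ σ) (h0 : Triv o (C t₀) χ (ctr σ (π t₀)) 0 (f t₀)) :
    ∃ f', FMer o C π t₀ χ Empty.elim Empty.elim f' ∧ (∀ c ∈ C t₀, f' t₀ c ≠ 0) ∧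
      ∀ t c, Off (ctr σ (π t)) c → f' t c = f t c := by
  obtain ⟨f', a, b⟩ := FMer.remove (σ := (Empty.elim : Empty → P × ℂ → V M)) (σ' := σ)
    (u := Empty.elim) (w := 0) ⟨h.hom, fun c hc ho => h.reg c hc fun k => ho (.inr k), by
      rintro (k | k)
      exacts [k.elim, h.ord k]⟩ hf ⟨by rintro (k | k); exacts [k.elim, hσ.chart k], by
      rintro (k | k) (k' | k') e
      exacts [k.elim, k.elim, k'.elim, congrArg _ (hσ.inj k k' e)]⟩ le_rfl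
  refine ⟨f', a, fun c hc => ?_, b⟩
  by_cases ho : Off (ctr σ (π t₀)) c
  · exact b _ _ ho ▸ h0.ne c hc ho
  obtain ⟨k, s, hs, rfl⟩ := not_forall_not.1 ho
  have d := hσ.isBranch hf k
  rw [a.hom.self_of_nhds s hs (ctr σ (π t₀) k) (hσ.mem k)]
  exact mul_ne_zero (chz_ne_zero hs) (h0.exact k _ _ d (.refl _) ((Vz.of_an
    ((a.mer hf ⟨fun k => k.elim, fun k => k.elim⟩).reg _ d fun k => k.elim)).congr
      ((d.eventually_off hf.nod).mono fun t e => b _ _ e)))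

variable {ι ν J K J' : Type} [Fintype ι] [DecidableEq ι] [Fintype ν] [Fintype J] [Fintype K]
  [Fintype J'] {M : ι → ℕ} {o : ι} {g : ℤ} {m : ι → ℤ} {C : T → Set (V M)} {p : P → ν → V M}
  {F : K → MvPolynomial J ℂ} {χ₀ : K → Unit → ℤ} {f : V M → J → ℂ} {lam : ι → ℤ}
  {ch : Ch (Option Unit) J'}

variable (ch g m) in
/-- The numbers of a pluricanonical chart. -/
structure Plu (n d : ℤ) : Prop where
  eo : ch.o = none
  eg : ch.g = g
  em : ch.m = dg0 g n d ch.k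
  eM : ∀ i, ch.M i = (ch.m i + 1 - ch.g).toNat
  eh : ∀ l, ch.h l = (dg ch.m (ch.a l) + 1 - ch.g).toNat
  chi : ∀ i, ch.χ i = i.elim (1 + 3 * ch.k : ℤ) fun _ => -(3 * ch.k)
  a_ne : ∀ l, ch.a l ≠ 0
  cut : ∃ l, ∀ i, 4 ≤ ch.a l i
  nine : 9 ≤ ch.k
  big : ∀ i, m i + 2 ≤ ch.k

variable (o g m C π t₀ p lam) in
/-- A holomorphic lift of the family to the chart. -/
structure Lft (θ : P → ch.W ν) (Γ : T → Set (V (Sum.elim M ch.M)))
    (lk : T → V (Sum.elim M ch.M) → ℂ) : Prop where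
  an : AnalyticAt ℂ θ (π t₀)
  fam : LocFam (.inl o) Γ π t₀
  fam₀ : LocFam (.inr none) Γ π t₀
  cur : ∀ᶠ t in 𝓝 t₀, IsCurve (.inl o) g (Sum.elim m ch.m) (Γ t)
  base : ∀ᶠ t in 𝓝 t₀, θ (π t) ∈ ch.base ν
  left : ∀ᶠ t in 𝓝 t₀, pL '' Γ t = C t ∧ ∀ q ∈ Γ t, ∀ q' ∈ Γ t, Orb (pL q) (pL q') → Orb q q'
  right : ∀ᶠ t in 𝓝 t₀, pR '' Γ t = crv (θ (π t)) ∧
    ∀ q ∈ Γ t, ∀ q' ∈ Γ t, Orb (pR q) (pR q') → Orb q q'
  mark : ∃ q : P → ν → V (Sum.elim M ch.M), AnalyticAt ℂ q (π t₀) ∧ ∀ᶠ t in 𝓝 t₀, ∀ i,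
    q (π t) i ∈ Γ t ∧ pL (q (π t) i) = p (π t) i ∧ pR (q (π t) i) = (θ (π t)).p i
  lnk : FMer (.inl o) Γ π t₀ (Sum.elim lam fun o => o.elim 1 fun _ => -1) Empty.elim Empty.elim lk
  ne : ∀ q ∈ Γ t₀, lk t₀ q ≠ 0

/-- **The lift exists.** -/
theorem exists_lft (hf : LocFam o C π t₀) (h0 : IsCurve o g m (C t₀)) (ho : 3 ≤ M o)
    (hM : ∀ i, M i ≠ 0) (hp : AnalyticAt ℂ p (π t₀)) (hm : ∀ᶠ t in 𝓝 t₀, ∀ n, p (π t) n ∈ C t)
    (hn : ∀ n, ¬IsNode o (C t₀) (p (π t₀) n))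
    (hi : ∀ n n', Orb (p (π t₀) n) (p (π t₀) n') → n = n')
    (sec : ∀ j, Cv.IsSecZ o (C t₀) lam fun c => f c j) (mem : ∀ c ∈ C t₀, f c ∈ (ciK F).cone)
    (fin : {E | SIso o (C t₀) (p (π t₀)) f o (C t₀) (p (π t₀)) f E}.Finite)
    (hF : ((ciK F).fam χ₀).Good) (hc : Plu g m ch (Fintype.card ν) (dgz m lam)) :
    ∃ (θ : P → ch.W ν) (Γ lk : _), Lft π t₀ o g m C p lam θ Γ lk := by
  classical
  have hπ := hf.cont.self_of_nhds
  have k3 : 3 ≤ ch.k := le_trans (by norm_num) hc.nine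
  obtain ⟨w, ξ, κ, _, z, hV, -⟩ := exists_vfam hf h0 ho hM hp hm hn hi 0
  have H : Stm o g m w (C t₀) (ξ (π t₀)) F (z (π t₀)) (p (π t₀)) f lam :=
    ⟨h0, hV.vf.self_of_nhds, sec, mem, fin⟩
  obtain ⟨σ, s1, s2⟩ := hf.exists_pts (y := fun k y => z y k)
    (fun k => ⟨hV.an (.inl k), hV.vf.mono fun t a => (a.mem (.inl k)).1⟩) H.spt
  rw [← show ctr σ (π t₀) = z (π t₀) from funext fun k => (s2 k).self_of_nhds] at H
  choose G₀ g0 using fun i => H.exists_bas hF k3 i (r := ch.M i) (by rw [hc.eM, hc.em, hc.eg])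
  choose Φ f1 f2 using fun i => hf.exists_frame' h0 s1 (g0 i) (H.bas hF k3 (g0 i)).1
  have f3 := fun i => (f2 i).self_of_nhds
  obtain ⟨Γ, σ', l, hG⟩ := exists_graph (M := Sum.elim M ch.M) (o := o) (C := C) (σ := σ)
    (F := fun t c i j => Φ i j t c) (χ := chi0 w lam ch.k) (u := fun _ _ => ch.k) hf s1
    (fun i j => (f1 i j).1) (fun c a b i e =>
      let ⟨j, d⟩ := (H.bas hF k3 (f3 i)).2.2.1 c a b
      d (congrFun e j)) fun i => (H.bas hF k3 (f3 i)).2.2.2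
  obtain ⟨c1, c2, -, c4⟩ := Stm.graph (M := Sum.elim M ch.M) (Φ := fun c i j => Φ i j t₀ c) H hF
    hc.nine hc.big f3 hG.fam.nod (fun q a => hG.img.self_of_nhds ▸ mem_image_of_mem _ a)
    hG.inj.self_of_nhds fun c a b => ⟨_, hG.sub.self_of_nhds c a b, rfl, rfl⟩
  rw [← hc.em] at c1 c4
  have hR := hG.fam.of_nod c2
  have e1 : Sum.elim (-chi0 w lam ch.k none) (Pi.single none 1) +
      -Sum.elim (-chi0 w lam ch.k (some ())) (Pi.single (some ()) 1) =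
      Sum.elim lam fun o : Option Unit => o.elim (1 : ℤ) fun _ => -1 := funext fun i => by
    rcases i with i | _ | _ <;> simp [chi0]
    ring
  have l1 := ((hG.mer none).mul ((hG.mer (some ())).inv hG.fam hG.pts (hG.triv _))).cast e1
    (add_neg_cancel _)
  have l2 := ((hG.triv none).mul (hG.triv (some ())).inv).cast e1 (add_neg_cancel _)
  obtain ⟨lk, l3, l4, -⟩ := remove_all l1 hG.fam hG.pts l2
  choose c b1 b2 using fun n => show p (π t₀) n ∈ rV Sum.inl '' Γ t₀ from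
    hG.img.self_of_nhds ▸ hm.self_of_nhds n
  choose Λ a1 _ a3 a4 using fun n => hG.fam.exists_lam Sum.inl_injective hG.inj.self_of_nhds (b1 n)
  simp only [b2] at a1 a4
  have a5 := analyticAt_pi_iff.1 hp
  have q1 : AnalyticAt ℂ (fun y n => Λ n (y, p y n)) (π t₀) := AnalyticAt.pi fun n =>
    (a1 n).comp_of_eq (analyticAt_id.prod (a5 n)) rfl
  have q2 : ∀ᶠ t in 𝓝 t₀, ∀ n, Λ n (π t, p (π t) n) ∈ Γ t := by
    filter_upwards [eventually_all.2 fun n => (tendsto_id.prodMk_nhds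
      ((a5 n).continuousAt.tendsto.comp hπ)).eventually (a4 n), hm, hG.img] with t a b d n
    exact a n (d ▸ b n)
  obtain ⟨l₀, cut⟩ := hc.cut
  obtain ⟨Q, Ξ, x1, x2, x3⟩ := exists_theta (ch := ch) (o := o) (ξ := ξ) (z := z) (w := w)
    (q := fun y n => Λ n (y, p y n)) hG.fam (hc.eo ▸ hR) (hc.eg ▸ c1) (fun _ => rfl) q1 q2 hG.pts
    ((eventually_all.2 s2).mono fun t a k => by
      rw [← a k, ← hG.L_pts k]
      exact .refl _)
    (by simp only [a3]; exact hV.congr hG.img)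
    ((hG.mer none).mul (l1.zpow hG.fam hG.pts l2 (3 * ch.k)))
    ((hG.triv none).mul (l2.zpow (3 * ch.k))) (fun i => by simp [chi0])
    (fun i => by rcases i with _ | _ <;> simp [hc.chi]) (fun k => by simp) hc.a_ne cut fun l => by
      have := c4.finrank_Hs (hc.a_ne l)
      rw [hc.eh, hc.eg]
      omega
  have cur := hG.fam.isCurve c1
  refine ⟨fun y => W.mk' (Q y) (fun n => pR (Λ n (y, p y n))) (Ξ y) 0, Γ, lk, W.an_iff.2
    ⟨analyticAt_pi_iff.1 x1, fun n => an_rV (analyticAt_pi_iff.1 q1 n), x2,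
      fun _ => analyticAt_const⟩, hG.fam, hR, cur, x3.mono fun t a => (a 0).2.1, hG.img.and hG.inj,
    ?_, ⟨_, q1, q2.mono fun t a n => ⟨a n, a3 n _, rfl⟩⟩, l3, l4⟩
  filter_upwards [x3, cur, hR.eventually] with t a b d
  exact ⟨(a 0).1.symm, fun q u q' v => orb_of_rV (r := Sum.inr) (b.of_nod d.nod) u v⟩

end Vale.Agent.P269L.K
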