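import Vale.Agent.P269.Base.TwB
import Vale.Agent.P269.Spl.Prj

/-!
# A logarithmic vector field as a section on the normalisation
-/

set_option linter.unusedSectionVars false

namespace Vale.Agent.P269L.K.Xi4

open Set Function Topology Filter P269 P269.Holo P269.Base P269.Cv P269.Cv.Xi

variable {X : Type} [TopologicalSpace X] [T2Space X] [CompactSpace X] {R : RS X}
  {ι κ ν : Type} [Fintype ι] [Fintype κ] [Fintype ν] {M : ι → ℕ} {o : ι} {C : Set (V M)}
  {N : Finset (X × X)} {A : ι → LB R} {π : X → V M} {w : ι → ℕ} {ξ : V M → V M} {z : κ → V M}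
  {q : ν → V M} {y : κ → X} {p : ν → X}

theorem vf_trans {β : Type} {z : β → V M} (h : Par o C N A π) (hV : VF o C w ξ z) {x : X}
    {φ : ℂ → ℂ} (hφ : Along ξ (br A π x) φ) : ∀ᶠ t in 𝓝 0, ∀ ψ,
      Along ξ (br A π (R.i x t)) ψ → ψ 0 * R.d (R.e x) (R.i x t) =
        (bz A fun i => w i).φ x (R.i x t) * φ t := by
  filter_upwards [R.tgt_nhds x, R.ev_iff.1 (eventually_all.2 fun i => (A i).hol x), hφ.shift,
    Nrm.branch_sh (h.isBranch x)] with t c e k1 k2 ψ k3
  have a1 : AnalyticAt ℂ (fun τ => R.e x (R.i (R.i x t) τ)) 0 := RS.hol_e (R.i_mem c)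
  have a2 : deriv (fun τ => R.e x (R.i (R.i x t) τ) - t) 0 = R.d (R.e x) (R.i x t) :=
    deriv_sub_const _
  have a3 : R.d (R.e x) (R.i x t) ≠ 0 := by
    rw [← RS.K_φ (R.i_mem c)]
    exact R.K.ne _ _
  have k4 := k1.reparam hV.hom k2 (δ := br A π (R.i x t))
    (s := fun τ i => (A i).φ x (R.i (R.i x t) τ) / (A i).φ (R.i x t) (R.i (R.i x t) τ))
    (ψ := fun τ => R.e x (R.i (R.i x t) τ) - t) (analyticAt_pi_iff.2 e)
    (a1.sub analyticAt_const) (fun i => div_ne_zero ((A i).ne _ _) ((A i).ne _ _))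
    (by rw [R.i_zero, R.e_i c, sub_self]) (a2 ▸ a3)
    ((R.ev_iff.1 (R.src_nhds' (R.i_mem c))).mono fun τ hτ => by
      rw [add_sub_cancel, br_eq, br_e (A := A) (π := π) hτ, smul_smul]
      congr 1
      funext i
      exact (div_eq_inv_mul _ _).symm)
  have k5 := (k3.unique k4 (h.isBranch _)).self_of_nhds
  simp only [R.i_zero, R.e_i c, LB.self, div_one, sub_self, add_zero, a2] at k5
  rw [k5, div_mul_cancel₀ _ a3, bz_φ]
  simp [chr]

open Classical in
/-- **The vector field is a trivialisation of `ω_log⁻¹ ⊗ O(w)(-z)`.** -/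
theorem exists_vf (h : Par o C N A π) (hV : VF o C w ξ (Sum.elim z q))
    (hy : ∀ k, Orb (π (y k)) (z k)) (hp : ∀ n, Orb (π (p n)) (q n)) :
    (Injective y ∧ ∀ k, Sm N (y k)) ∧ (Injective p ∧ ∀ n, Sm N (p n)) ∧
    ∃ v ∈ H0 N ((omega R N (Finset.univ.image p))⁻¹ * (bz A fun i => w i) /
      ∏ k, R.pt (y k) ^ (1 : ℤ)), (∀ x, v x ≠ 0) ∧ ∀ x, Sm N x ∧ x ∉ Finset.univ.image p →
        (∀ k, x ≠ y k) → ∀ φ, Along ξ (br A π x) φ → v x = φ 0 := by
  have h0 : ∀ j, Orb (π (Sum.elim y p j)) (Sum.elim z q j) := by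
    rintro (j | j)
    exacts [hy j, hp j]
  have h1 : Injective (Sum.elim y p) := fun j j' e =>
    hV.inj j j' ((h0 j).symm.trans (e ▸ h0 j'))
  have h2 : ∀ j, Sm N (Sum.elim y p j) := fun j => by_contra fun e => by
    obtain ⟨t, a, b⟩ := h0 j
    exact (hV.mem j).2 (b ▸ (h.isNode_iff a).2 e)
  have h3 : ∀ j x, Orb (Sum.elim z q j) (br A π x 0) ↔ x = Sum.elim y p j := fun j x => by
    rw [br_zero]
    exact ⟨fun e => (h.eq_of_orb (h2 j) ((h0 j).trans e)).symm, fun e => e ▸ (h0 j).symm⟩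
  have h4 : ∀ x, IsNode o C (br A π x 0) ↔ ¬Sm N x := fun x => by
    rw [br_zero, ← h.isNode_iff (t := 1) fun _ => one_ne_zero, one_smul]
  have hi : Injective y := fun k k' e => Sum.inl_injective (h1 (a₁ := .inl k) (a₂ := .inl k') e)
  have hP : ∀ x ∈ Finset.univ.image p, Sm N x := Finset.forall_mem_image.2 fun n _ => h2 (.inr n)
  have h5 : ∀ k, Sm N (y k) ∧ y k ∉ Finset.univ.image p := fun k => ⟨h2 (.inl k), fun e => by
    obtain ⟨n, -, e⟩ := Finset.mem_image.1 e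
    exact Sum.inr_ne_inl (h1 (a₁ := .inr n) (a₂ := .inl k) e)⟩
  refine ⟨⟨hi, fun k => h2 (.inl k)⟩, ⟨fun k k' e =>
    Sum.inr_injective (h1 (a₁ := .inr k) (a₂ := .inr k') e), fun n => h2 (.inr n)⟩, ?_⟩
  have key : ∀ x, ∃ f, AnalyticAt ℂ f 0 ∧ f 0 ≠ 0 ∧ Along ξ (br A π x) fun t =>
      Xi.lg N (Finset.univ.image p) x t * ((if ∀ k, x ≠ y k then 1 else t) * f t) := fun x => by
    by_cases a : Sm N x ∧ x ∉ Finset.univ.image p
    · by_cases b : ∀ k, x ≠ y k
      · obtain ⟨u, u1, u2⟩ := hV.reg _ (h.isBranch x) (fun e => (h4 x).1 e a.1) (by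
          rintro (j | j) e
          · exact b j ((h3 (.inl j) x).1 e)
          · exact a.2 (Finset.mem_image.2 ⟨j, Finset.mem_univ _, ((h3 (.inr j) x).1 e).symm⟩))
        exact ⟨u, u2.an, u1, by simpa only [Xi.lg, if_pos a, if_pos b, one_mul] using u2⟩
      · obtain ⟨k, e⟩ : ∃ k, x = y k := by simpa using b
        obtain ⟨u, u1, u2, u3⟩ := hV.van _ (h.isBranch x) (.inr ⟨.inl k, (h3 (.inl k) x).2 e⟩)
        exact ⟨u, u1, u2, by simpa only [Xi.lg, if_pos a, if_neg b, one_mul] using u3⟩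
    · have b : ∀ k, x ≠ y k := fun k e => a (e ▸ h5 k)
      obtain ⟨u, u1, u2, u3⟩ := hV.van _ (h.isBranch x) (by
        rcases not_and_or.1 a with c | c
        · exact .inl ((h4 x).2 c)
        · obtain ⟨n, -, e⟩ := Finset.mem_image.1 (not_not.1 c)
          exact .inr ⟨.inr n, (h3 (.inr n) x).2 e.symm⟩)
      refine ⟨fun t => sg N x * u t, analyticAt_const.mul u1, mul_ne_zero (sg_ne x) u2,
        u3.congr .rfl (.of_forall fun t => ?_)⟩
      simp only [Xi.lg, if_neg a, if_pos b, one_mul]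
      linear_combination (-t * u t) * sg_sq (N := N) x
  choose f f1 f2 f3 using key
  have e0 : ∀ x, Sm N x ∧ x ∉ Finset.univ.image p → (∀ k, x ≠ y k) →
      ∀ φ, Along ξ (br A π x) φ → f x 0 = φ 0 := fun x a b φ c => by
    simpa only [Xi.lg, if_pos a, if_pos b, one_mul] using
      ((f3 x).unique c (h.isBranch x)).self_of_nhds
  have e1 : ∀ x, ∀ᶠ t in 𝓝[≠] 0,
      ((omega R N (Finset.univ.image p))⁻¹ * bz A fun i => w i).loc (fun x => f x 0) x t =
        (if ∀ k, x ≠ y k then 1 else t) * f x t := fun x => by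
    filter_upwards [omega_φ (R := R) h.nd hP x, R.ev_ne_iff.1 (ev_sm N (Finset.univ.image p) x),
      MerP.ev_off' (R := R) (y := y) x, self_mem_nhdsWithin,
      mem_nhdsWithin_of_mem_nhds (vf_trans h hV (f3 x))] with t a b c d e
    have k1 := e _ (f3 (R.i x t))
    rw [← e0 _ b c _ (f3 _), ← a] at k1
    refine mul_left_cancel₀ (lg_ne (N := N) (P := Finset.univ.image p) (y := x) d) ?_
    rw [LB.loc, LB.mul_φ, LB.inv_φ, ← mul_div_assoc, div_eq_iff (mul_ne_zero
      (inv_ne_zero (LB.ne _ _ _)) (LB.ne _ _ _)), ← mul_assoc, mul_comm _ (LB.φ (bz _ _) _ _),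
      ← mul_assoc, ← k1]
    have := (omega R N (Finset.univ.image p)).ne x (R.i x t)
    field_simp
  refine ⟨fun x => f x 0, ⟨fun x => (f1 x).congr (eventuallyEq_nhds_of_eventuallyEq_nhdsNE ?_
    (LB.loc_zero (s := fun x => f x 0)).symm), fun n hn => ?_⟩, f2, e0⟩
  · by_cases b : ∀ k, x ≠ y k
    · rw [MerP.loc_off (u := fun _ => 1) b]
      exact (e1 x).mono fun t e => by rw [e, if_pos b, one_mul]
    · obtain ⟨k, rfl⟩ : ∃ k, x = y k := by simpa using b
      filter_upwards [e1 (y k), MerP.loc_at (u := fun _ => 1) (s := fun x => f x 0)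
        (L := (omega R N (Finset.univ.image p))⁻¹ * bz A fun i => w i) hi k, self_mem_nhdsWithin]
        with t c d e
      rw [c, if_neg b, zpow_one] at d
      exact mul_left_cancel₀ e d
  · have e2 : ∀ x, ¬Sm N x → deriv (fun t => Xi.lg N (Finset.univ.image p) x t *
        ((if ∀ k, x ≠ y k then 1 else t) * f x t)) 0 = sg N x * f x 0 := fun x a => by
      have b : ∀ k, x ≠ y k := fun k e => a (e ▸ (h5 k).1)
      simp only [Xi.lg, if_neg fun c : Sm N x ∧ x ∉ Finset.univ.image p => a c.1, if_pos b, one_mul]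
      rw [((((hasDerivAt_id' (0 : ℂ)).const_mul (sg N x)).fun_mul
        (f1 x).differentiableAt.hasDerivAt)).deriv]
      simp
    have := hV.res _ _ _ _ _ (h.isCross hn) (f3 n.1) (f3 n.2)
    rw [e2 _ (not_sm_fst hn), e2 _ (not_sm_snd hn), sg_fst h.nd hn, sg_snd hn] at this
    simpa using this

end Vale.Agent.P269L.K.Xi4
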