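import Vale.Agent.P269L.K.Fr0
import Vale.Agent.P269L.K.Th2
import Vale.Agent.P269L.K.Imm

/-!
# The solutions of a presentation in normal form are stable maps
-/

set_option linter.unusedSectionVars false

namespace Vale.Agent.P269L.K

open Set Function Topology Filter P269 P269.Base P269.Cv I

variable {ι : Type} [Fintype ι] {M : ι → ℕ}

variable {A W U X B Λ : Type} [NormedRing A] [NormedAlgebra ℂ A] [NormedAddCommGroup W]
  [NormedSpace ℂ W] [NormedAddCommGroup U] [NormedSpace ℂ U] [NormedAddCommGroup X] [NormedSpace ℂ X]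
  [Monoid B] {r n : ℕ} {D : Dat A (ι → ℂ) W (V M) U (Fin r → ℂ) X ι Λ n} {sc : B → X → X}
  {K : Set X} {TK : X → Set X} {g : ℤ} {o : ι}

namespace Nf

variable (h : Nf D sc K TK g o)
include h

theorem an_p (x : W) : AnalyticAt ℂ (fun y i => D.p i y) x :=
  have := h.fdW
  analyticAt_pi_iff.2 fun i => an_of_diff (h.fam.2.1 i) x

theorem spt {x : W} (hx : x ∈ D.S) : Spt o (D.C x) (D.p · x) :=
  have a := ((imm_of (h.crv x hx).nod).isCurve (h.tor ▸ (h.fam.2.2.2 x hx).2.2.1 :)).2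
  ⟨fun i => (a.1 i).1, fun i => (a.1 i).2, fun _ _ ⟨s, _, e⟩ => (a.2 _ _ s e).symm⟩

theorem f_chz {x : W} (hx : x ∈ D.sol K) {c : V M} (hc : c ∈ D.C x) {t : ι → ℂ}
    (ht : ∀ i, t i ≠ 0) : D.f x (t • c) = chz (fun i => D.a i - D.b i) t • D.f x c := by
  refine smul_right_injective X (chr_ne_zero (a := D.b) ht) ?_
  refine (h.f_smul hx hc (isUnit_pi_iff.2 ht)).trans ?_
  simp only [smul_smul, I.chr, Base.chr, chz, ← Finset.prod_mul_distrib]
  congr 1
  exact Finset.prod_congr rfl fun i _ => by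
    rw [← zpow_natCast, ← zpow_natCast, ← zpow_add₀ (ht i), add_sub_cancel]

/-- The map to the target is holomorphic on the multicone. -/
theorem f_ext [FiniteDimensional ℂ X] {x : W} (hx : x ∈ D.sol K) {c : V M} (hc : c ∈ D.C x) :
    ∃ q, AnalyticAt ℂ q c ∧ ∀ᶠ y in 𝓝[D.C x] c, D.f x y = q y := by
  have := h.fdU
  obtain ⟨J, a, b⟩ := exists_clm h.emb.1 fun c => (h.emb.2.2 c).1
  obtain ⟨R, d, e⟩ := exists_an_leftInv (a c) ((funext (b c) : ⇑(J c) = _) ▸
    h.j_inj hx.1 hc)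
  obtain ⟨s, u, v⟩ := ((h.fam.2.2.2 x hx.1).2.2.2.2 c hc).1
  have t : Tendsto (fun y => (x, y)) (𝓝[D.C x] c) (𝓝[D.U] (x, c)) :=
    (Continuous.prodMk_right x).continuousWithinAt.tendsto_nhdsWithin fun y hy => ⟨hx.1, hy⟩
  refine ⟨fun y => R y (s (x, y)), (ContinuousLinearMap.id ℂ (U →L[ℂ] X)).analyticAt_bilinear _ |>.comp₂
    d (u.comp (f := fun y => (x, y)) (analyticAt_const.prod analyticAt_id)), ?_⟩
  filter_upwards [t.eventually v, mem_nhdsWithin_of_mem_nhds e, self_mem_nhdsWithin] with y k l m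
  rw [← k, (h.grp x hx).1.1 y m, ← b, l]

end Nf

variable {J K' κ : Type} [Fintype J] [Fintype K'] [Fintype κ] {F : K' → MvPolynomial J ℂ}
  {D : Dat A (ι → ℂ) W (V M) U (Fin r → ℂ) (J → ℂ) ι Λ n} {TK : (J → ℂ) → Set (J → ℂ)} {x : W}

theorem Nf.isSecZ {sc : B → (J → ℂ) → J → ℂ} {K : Set (J → ℂ)} (h : Nf D sc K TK g o)
    (hx : x ∈ D.sol K) (j : J) :
    IsSecZ o (D.C x) (fun i => D.a i - D.b i) fun c => D.f x c j :=
  ⟨fun _ hc => let ⟨_, a, b⟩ := h.f_ext hx hc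
    (continuous_apply j).continuousAt.comp_continuousWithinAt
      (a.continuousAt.continuousWithinAt.congr_of_eventuallyEq_of_mem b hc),
    fun _ ht _ hc => congrFun (h.f_chz hx hc ht) j, fun _ hγ =>
    let ⟨_, a, b⟩ := h.f_ext hx hγ.mem.self_of_nhds
    (analyticAt_pi_iff.1 (a.comp hγ.holo) j).congr
      ((hγ.tendsto.eventually b).mono fun _ e => (congrFun e j).symm)⟩

/-- **The solutions are stable maps.** -/
theorem Nf.stm (h : Nf D (ciK F).act (ciK F).cone TK g o) (hx : x ∈ D.sol (ciK F).cone)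
    {w : ι → ℕ} {ξ : V M → V M} {z : κ → V M} (hv : VF o (D.C x) w ξ (Sum.elim z (D.p · x))) :
    Stm o g D.m w (D.C x) ξ F z (D.p · x) (D.f x) fun i => D.a i - D.b i := by
  obtain ⟨-, a, Φ, b⟩ := (h.grp x hx).1.2.1
  rw [h.tor] at b
  exact ⟨h.crv x hx.1, hv, h.isSecZ hx, fun c hc => (a c hc).1, finite_siso (h.crv x hx.1).nod b⟩

end Vale.Agent.P269L.K
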