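import Vale.Agent.P269L.K.Th3
import Vale.Agent.P269L.K.Fr0

/-!
# Every solution of a presentation in normal form lifts to a large chart
-/

set_option linter.unusedSectionVars false

namespace Vale.Agent.P269L.K

open Set Function Topology Filter P269 P269.Base P269.Holo I

namespace Th6

variable {A W U X B ι Λ : Type} [NormedRing A] [NormedAlgebra ℂ A] [NormedAddCommGroup W]
  [NormedSpace ℂ W] [NormedAddCommGroup U] [NormedSpace ℂ U] [NormedAddCommGroup X] [NormedSpace ℂ X]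
  [Monoid B] [Fintype ι] {M : ι → ℕ} {r n : ℕ}
  {D : Dat A (ι → ℂ) W (V M) U (Fin r → ℂ) X ι Λ n} {sc : B → X → X} {K : Set X} {TK : X → Set X}
  {g : ℤ} {o : ι} {x : W} (h : Nf D sc K TK g o)
include h

theorem crv (hx : x ∈ D.S) : Crv tor (D.C x) I.chr g D.m (D.p · x) :=
  h.tor ▸ (h.fam.2.2.2 x hx).2.2.1

theorem p_mem (hx : x ∈ D.S) (i : Fin n) : D.p i x ∈ D.C x := ((crv h hx).2.2.2.2.1 i).1

theorem p_sm (hx : x ∈ D.S) (i : Fin n) : ¬IsNode o (D.C x) (D.p i x) := fun ⟨_, _, e⟩ =>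
  ((crv h hx).2.2.2.2.1 i).2 _ _ (cross_of e)

theorem p_inj (hx : x ∈ D.S) (i j : Fin n) (e : Base.Orb (D.p i x) (D.p j x)) : i = j :=
  (crv h hx).2.2.2.2.2 i j (same_orb.2 e)

theorem p_an (y : W) : AnalyticAt ℂ (fun y i => D.p i y) y :=
  have := h.fdW
  AnalyticAt.pi fun i => an_of_diff (h.fam.2.1 i) y

theorem stb (hx : x ∈ D.sol K) : Stb tor sc (D.C x) K I.chr g D.m (D.p · x) (D.f x) :=
  h.tor ▸ (h.grp x hx).1.2.1

theorem f_smul (hx : x ∈ D.sol K) {c : V M} (hc : c ∈ D.C x) {t : ι → ℂ} (ht : ∀ i, t i ≠ 0) :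
    D.f x (t • c) = chz (fun i => D.a i - D.b i) t • D.f x c := by
  have hb : I.chr D.b t ≠ 0 := Finset.prod_ne_zero_iff.2 fun i _ => pow_ne_zero _ (ht i)
  refine smul_right_injective X hb ((h.f_smul hx hc (Pi.isUnit_iff.2 fun i => (ht i).isUnit)).trans ?_)
  simp only [I.chr, chz, smul_smul, ← Finset.prod_mul_distrib, ← zpow_natCast, ← zpow_add₀ (ht _),
    add_sub_cancel]

theorem f_ext [FiniteDimensional ℂ X] (hx : x ∈ D.sol K) {c : V M} (hc : c ∈ D.C x) :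
    ∃ q, AnalyticAt ℂ q c ∧ ∀ᶠ y in 𝓝[D.C x] c, D.f x y = q y := by
  have := h.fdU
  obtain ⟨J, a1, a2⟩ := exists_clm h.emb.1 fun c => (h.emb.2.2 c).1
  obtain ⟨R, b1, b2⟩ := exists_an_leftInv (a1 c) (by
    simpa only [funext (a2 c)] using h.j_inj hx.1 hc)
  obtain ⟨k, d1, d2⟩ := ((h.fam.2.2.2 x hx.1).2.2.2.2 c hc).1
  have d3 : AnalyticAt ℂ (fun y : V M => (x, y)) c := analyticAt_const.prod analyticAt_id
  have d4 : Tendsto (fun y : V M => (x, y)) (𝓝[D.C x] c) (𝓝[D.U] (x, c)) :=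
    d3.continuousAt.continuousWithinAt.tendsto_nhdsWithin fun y hy => ⟨hx.1, hy⟩
  refine ⟨fun y => R y (k (x, y)), an_apply b1 (d1.comp_of_eq d3 rfl), ?_⟩
  filter_upwards [d4.eventually d2, nhdsWithin_le_nhds b2, self_mem_nhdsWithin] with y e1 e2 e3
  rw [← e1, h.s_eq hx e3, ← a2, e2]

omit h in
/-- The components of the map are sections of `O(a - b)`. -/
theorem f_mer {J : Type} [Fintype J] {D : Dat A (ι → ℂ) W (V M) U (Fin r → ℂ) (J → ℂ) ι Λ n}
    {sc : B → (J → ℂ) → J → ℂ} {K : Set (J → ℂ)} {TK : (J → ℂ) → Set (J → ℂ)}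
    (h : Nf D sc K TK g o) (hx : x ∈ D.sol K) (j : J) :
    Mer o (D.C x) (fun i => D.a i - D.b i) Empty.elim Empty.elim fun c => D.f x c j := by
  refine ⟨fun t ht c hc => congrFun (f_smul h hx hc ht) j, fun γ hγ _ => ?_, fun k => k.elim⟩
  obtain ⟨q, a, b⟩ := f_ext h hx hγ.mem.self_of_nhds
  exact (analyticAt_pi_iff.1 (a.comp hγ.holo) j).congr
    ((hγ.tendsto.eventually b).mono fun t e => (congrFun e j).symm)

omit h in
theorem of_empty [DecidableEq ι] {m : ι → ℤ} (o' : ι) (h : IsCurve o g m (∅ : Set (V M))) :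
    g = 1 ∧ m = 0 := by
  have k : ∀ i (e : ℕ), e ≠ 0 → e * m i + 1 - g = 0 := fun i e he => by
    have := h.hilbert (Pi.single i e) (by simpa using he)
    rw [Module.finrank_zero_of_subsingleton, Finset.sum_eq_single i (fun j _ b => by simp [b])
      (by simp), Pi.single_eq_same] at this
    exact this.symm
  have k' := fun i => And.intro (k i 1 one_ne_zero) (k i 2 two_ne_zero)
  exact ⟨by have := k' o'; omega, funext fun i => by have := k' i; simp only [Pi.zero_apply]; omega⟩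

end Th6

variable {N c : ℕ} {F : Fin c → MvPolynomial (Fin (N + 1)) ℂ} {A W U ι Λ : Type} [NormedRing A]
  [NormedAlgebra ℂ A] [NormedAddCommGroup W] [NormedSpace ℂ W] [NormedAddCommGroup U]
  [NormedSpace ℂ U] [Fintype ι] [DecidableEq ι] {M : ι → ℕ} {r n : ℕ}

/-- **Holomorphic lifts exist for a large pluricanonical chart.** -/
theorem Su.hasTh (s : Su A W U ι Λ M r n F) (hs : s.Ok) (hc : Plu s.g s.D.m s.ch n s.d) :
    s.HasTh := fun x hx => by
  have h := hs.nf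
  have := h.fdW
  obtain ⟨dg, hF⟩ := hs.sm
  have h0 := h.crv x hx.1
  have hM : ∀ i, M i ≠ 0 := fun i e => by
    rcases (s.D.C x).eq_empty_or_nonempty with b | ⟨q, b⟩
    · obtain ⟨b1, b2⟩ := Th6.of_empty i (b ▸ h0)
      obtain rfl : n = 0 := Nat.eq_zero_of_not_pos fun d =>
        notMem_empty _ (b ▸ Th6.p_mem h hx.1 ⟨0, d⟩)
      have := hs.num.three
      rw [hc.eM, hc.em, hc.eo, hc.eg, b1] at this
      simp [dg0, Su.d, dgz, b2] at this
    · exact h0.ne_zero q b i (funext fun j => (e ▸ j).elim0)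
  obtain ⟨-, -, Φ, hΦ⟩ := Th6.stb h hx
  obtain ⟨θ, Γ, lk, k⟩ := exists_lft (T := s.D.S) (π := Subtype.val) (t₀ := ⟨x, hx.1⟩)
    (p := fun y i => s.D.p i y) (F := F) (f := s.D.f x) (ch := s.ch) (h.locFam hx.1) h0 h.three hM
    (Th6.p_an h x) (.of_forall fun y => Th6.p_mem h y.2) (Th6.p_sm h hx.1) (Th6.p_inj h hx.1)
    (fun j => isSecZ_of_mer h0.nod (Th6.f_mer h hx j)) (fun _ => h.f_mem hx)
    (finite_siso (F := F) h0.isNodal.nod hΦ) hF.good (by rwa [Fintype.card_fin])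
  exact ⟨θ, Γ, lk, k.an, k.fam, k.fam₀, k.cur, k.base, k.left, k.right, k.mark, k.lnk, k.ne⟩

/-- The numbers of the chart. -/
theorem plu_cH {dg : Fin c → ℕ} {g d : ℤ} {k D : ℕ} {m : ι → ℤ} (hD : (ciF F dg).BigD k D)
    (h9 : 9 ≤ k) (hk : ∀ i, m i + 2 ≤ k) : Plu g m (cH F g d n k D) n d := by
  refine ⟨rfl, rfl, funext fun i => ?_, fun _ => rfl, fun _ => rfl, fun i => ?_,
    Cv.chart_a_ne (F := ciF F dg) g n _ (by have := hD.le; omega), ⟨none, fun _ => hD.le⟩, h9, hk⟩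
  · rcases i with _ | _ <;> simp [Tgt.chart, ci, dg0]
  · refine (congrFun (Cv.chart_χ g n (fun _ => d) hD) i).trans ?_
    rcases i with _ | _ <;> simp [Tgt.hat, ciF, ciK, Tgt.fam, Tgt.chart, mul_comm]

theorem plu_eventually (dg : Fin c → ℕ) (g d : ℤ) (m : ι → ℤ) :
    ∀ᶠ k : ℕ in atTop, ∀ D, (ciF F dg).BigD k D → Plu g m (cH F g d n k D) n d := by
  filter_upwards [eventually_ge_atTop 9, eventually_all.2 fun i =>
    eventually_ge_atTop (m i + 2).toNat] with k a b D e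
  exact plu_cH e a fun i => by have := b i; omega

end Vale.Agent.P269L.K
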