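import Vale.Agent.P269L.K.Gd
import Vale.Agent.P269L.K.Ab
import Vale.Agent.P269L.T.Gd

/-!
# Proper actions through ultrafilters; principal bundles
-/

set_option linter.all false

namespace Vale.Agent.P269L.K.Tp

open Set Function Topology Filter Module P291Z P287Q.H3 P269 P269.Holo P269.Orb

variable {A A' W W' : Type} [NormedRing A] [NormedAlgebra ℂ A] [NormedRing A'] [NormedAlgebra ℂ A']
  [NormedAddCommGroup W] [NormedSpace ℂ W] [NormedAddCommGroup W'] [NormedSpace ℂ W']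
  {act : A → W → W} {act' : A' → W' → W'} {Z : Set W} {Z' : Set W'}

/-- Properness along ultrafilters. -/
def PrU (act : A → W → W) (Z : Set W) : Prop :=
  ∀ (I : Type) (U : Ultrafilter I) (g : I → A) (p : I → W) (x y : W), x ∈ Z → y ∈ Z →
    (∀ᶠ i in (U : Filter I), IsUnit (g i) ∧ p i ∈ Z) → Tendsto p U (𝓝 x) →
    Tendsto (fun i => act (g i) (p i)) U (𝓝 y) → ∃ u, IsUnit u ∧ Tendsto g U (𝓝 u)

theorem PrU.proper [CompleteSpace A] [IsAct act Z] (h : PrU act Z) :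
    ProperSMul Aˣ (Holo.Sp act Z) := by
  refine properSMul_iff_continuousSMul_ultrafilter_tendsto_t2.2 ⟨inferInstance, fun U x y hU => ?_⟩
  obtain ⟨_, ⟨u, rfl⟩, hu⟩ := h _ U (fun q => (q.1 : A)) (fun q => q.2.val) y.val x.val y.val_mem
    x.val_mem (.of_forall fun q => ⟨q.1.isUnit, q.2.val_mem⟩)
    ((Holo.Sp.continuous_val.tendsto _).comp ((continuous_snd.tendsto _).comp hU))
    ((Holo.Sp.continuous_val.tendsto _).comp ((continuous_fst.tendsto _).comp hU))
  exact ⟨u, Units.isOpenEmbedding_val.isInducing.tendsto_nhds_iff.2 hu⟩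

theorem prU_of [IsAct act Z] (h : ProperSMul Aˣ (Holo.Sp act Z)) : PrU act Z := by
  classical
  intro I U g p x y hx hy hm hp hq
  let g' : I → Aˣ := fun i => if h : IsUnit (g i) then h.unit else 1
  let p' : I → Holo.Sp act Z := fun i => if h : p i ∈ Z then .of act _ h else .of act _ hx
  have e : ∀ᶠ i in (U : Filter I), (g' i : A) = g i ∧ (p' i).val = p i := hm.mono fun i a =>
    ⟨by simp only [g', dif_pos a.1, IsUnit.unit_spec], by simp only [p', dif_pos a.2, Holo.Sp.val_of]⟩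
  have k := Holo.Sp.isEmbedding_val (act := act) (S := Z) |>.isInducing
  obtain ⟨u, hu⟩ := (properSMul_iff_continuousSMul_ultrafilter_tendsto_t2.1 h).2
    (U.map fun i => (g' i, p' i)) (.of act y hy) (.of act x hx) (by
      rw [Ultrafilter.coe_map, tendsto_map'_iff]
      refine Tendsto.prodMk_nhds (k.tendsto_nhds_iff.2 (hq.congr' (e.mono fun i a => ?_)))
        (k.tendsto_nhds_iff.2 (hp.congr' (e.mono fun i a => a.2.symm)))
      show _ = act (g' i) (p' i).val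
      rw [a.1, a.2])
  rw [Ultrafilter.coe_map, tendsto_map'_iff] at hu
  exact ⟨u, u.isUnit, ((Units.continuous_val.tendsto _).comp hu).congr' (e.mono fun i a => a.1)⟩

/-- A proper action with finite stabilisers on a locally closed set. -/
theorem orb_rep (h : I.Rep act) [IsAct act Z] (hp : PrU act Z) (hl : IsLocallyClosed Z)
    (hf : ∀ x ∈ Z, {u | IsUnit u ∧ act u x = x}.Finite) : Orb Aˣ (Holo.Sp act Z) := by
  haveI := rep_fdA h
  haveI := rep_fdW h
  haveI := FiniteDimensional.complete ℂ A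
  haveI := FiniteDimensional.complete ℂ W
  haveI := FiniteDimensional.proper ℂ W
  haveI : LocallyCompactSpace Z := hl.locallyCompactSpace
  haveI := rep_isAct h
  refine ⟨inferInstance, hp.proper, ⟨inferInstance, inferInstance, inferInstance⟩, fun t => ?_⟩
  let j := Holo.Sp.incl act (subset_univ Z)
  have hj : Continuous j := (Holo.Sp.isEmbedding_incl _).continuous
  have hm : IsMfd (Holo.Sp.val : Holo.Sp act univ → W) (finrank ℂ W) (j t) :=
    (MfdAt.univ t.val).isMfd trivial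
  have hs : Finite (MulAction.stabilizer Aˣ (j t)) := by
    haveI := (hf _ t.val_mem).to_subtype
    exact Finite.of_injective (β := {u | IsUnit u ∧ act u t.val = t.val})
      (fun g => ⟨g.1.1, g.1.isUnit, congrArg Holo.Sp.val g.2⟩) fun a b e =>
        Subtype.ext (Units.ext (congrArg Subtype.val e))
  obtain ⟨n, hn⟩ := Nat.exists_eq_add_of_le
    (hm.finrank_le isExp_expU (Holo.Sp.holAct _) (Holo.Sp.inf_injective_of_finite hs))
  obtain ⟨φ, h0, hφ⟩ := Holo.Sp.exists_slK hm hs hn.symm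
  obtain ⟨τ, h1, h2⟩ := (hφ.isSl isExp_expU).locFree
  rw [h0] at h1 h2
  refine ⟨τ ∘ j, (hj.continuousAt.eventually h1).mono fun x hx => hx.comp hj.continuousAt, ?_⟩
  exact ((continuous_id.prodMap hj).tendsto ((1 : Aˣ), t)).eventually h2

section pr

variable {θ : A' →L[ℂ] A} {f : W' →L[ℂ] W} (h : Pr act' act Z' Z θ f)
include h

theorem unit {u : A'} (hu : IsUnit u) : IsUnit (θ u) :=
  hu.map (⟨⟨θ, h.one⟩, h.mul⟩ : A' →* A)

theorem fin_up {z : W'} (hz : z ∈ Z') (hf : {u | IsUnit u ∧ act u (f z) = f z}.Finite) :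
    {u | IsUnit u ∧ act' u z = z}.Finite := by
  have k : ∀ u ∈ {u | IsUnit u ∧ act' u z = z}, act (θ u) (f z) = f z := fun u a =>
    (h.eqv u a.1 z hz).symm.trans (congrArg f a.2)
  refine hf.of_injOn (f := θ) (fun u a => And.intro (unit h a.1) (k u a)) (fun u a v b e => ?_)
  exact (h.tr z hz z hz _ (unit h a.1) (k u a).symm).unique ⟨a.1, rfl, a.2⟩ ⟨b.1, e.symm, b.2⟩

theorem prU_down (hs : ∀ x ∈ Z, ∃ z ∈ Z', f z = x) (hi : ∀ u, IsUnit u → ∀ x ∈ Z, act u x ∈ Z)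
    (hp : PrU act' Z') : PrU act Z := by
  classical
  intro I U g p x y hx hy hm h1 h2
  obtain ⟨z, hz, rfl⟩ := hs x hx
  obtain ⟨z', hz', rfl⟩ := hs y hy
  obtain ⟨s, a1, a2, a3⟩ := h.sec z hz
  obtain ⟨s', b1, b2, b3⟩ := h.sec z' hz'
  have c1 := (tendsto_nhdsWithin_iff.2 ⟨h1, hm.mono fun _ a => a.2⟩).eventually a3
  have c2 := (tendsto_nhdsWithin_iff.2 ⟨h2, hm.mono fun _ a => hi _ a.1 _ a.2⟩).eventually b3
  have c3 : ∀ᶠ i in (U : Filter I), ∃ u, IsUnit u ∧ θ u = g i ∧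
      act' u (s (p i)) = s' (act (g i) (p i)) := by
    filter_upwards [hm, c1, c2] with i a b c
    exact (h.tr _ b.1 _ c.1 _ a.1 (by rw [b.2, c.2])).exists
  obtain ⟨u, hu⟩ := c3.choice
  obtain ⟨v, hv, k⟩ := hp I U u (fun i => s (p i)) z z' hz hz'
    ((hu.and c1).mono fun _ a => ⟨a.1.1, a.2.1⟩) (a2 ▸ a1.continuousAt.tendsto.comp h1)
    (Tendsto.congr' (hu.mono fun _ a => a.2.2.symm) (b2 ▸ b1.continuousAt.tendsto.comp h2))
  exact ⟨θ v, unit h hv, ((θ.continuous.tendsto _).comp k).congr' (hu.mono fun _ a => a.2.1)⟩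

end pr

section gIso

variable {B : Set W} {B' : Set W'} {b : W} {b' : W'} {Φ : W → W'} {Ψ : W' → W}

theorem gIso_an [FiniteDimensional ℂ W'] (h : GIso B b B' b' Φ Ψ) (ha : An B b) : An B' b' := by
  have h1 : An (Ψ ⁻¹' B) b' := An.preimage h.an' (h.eq'.symm ▸ ha)
  have h2 : An {y | Φ (Ψ y) - y = 0} b' :=
    an_zero ((h.an.comp_of_eq h.an' h.eq').sub analyticAt_id)
  have h3 : Tendsto Ψ (𝓝 b') (𝓝 b) := h.eq' ▸ h.an'.continuousAt.tendsto
  refine (h1.inter h2).congr ?_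
  filter_upwards [eventually_nhdsWithin_iff.1 h.ev', h3.eventually (eventually_nhdsWithin_iff.1 h.ev)]
    with y c e
  exact ⟨fun k => sub_eq_zero.1 k.2 ▸ (e k.1).1, fun k => ⟨(c k).1, sub_eq_zero.2 (c k).2⟩⟩

end gIso

theorem gen_zero {Ω E E' : Type} [NormedAddCommGroup Ω] [NormedSpace ℂ Ω] [NormedAddCommGroup E]
    [NormedSpace ℂ E] [NormedAddCommGroup E'] [NormedSpace ℂ E'] {ω : Ω} {f : Ω → E} {g : Ω → E'}
    (h : Gen univ ω f g) : ∀ᶠ z in 𝓝 ω, g z = 0 → f z = 0 := by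
  obtain ⟨L, -, k⟩ := h
  rw [nhdsWithin_univ] at k
  exact k.mono fun z a b => by rw [a, b, map_zero]

theorem anZ {ι : Type} [Fintype ι] {D : Sd A W ι} {d : ℕ} (h : D.Gd d) {x : W} (hx : x ∈ D.Z) :
    An D.Z x := by
  haveI := h.fdW
  obtain ⟨r, η, a, f⟩ := h.fr x hx
  refine ((T.an_of_mfd (h.mfd x hx)).inter (an_zero f.ana)).congr ?_
  filter_upwards [eventually_nhdsWithin_iff.1 ((h.zero x hx).and f.ev)] with y c
  exact ⟨fun k => (c k.1).1.2 (((c k.1).2.1 _).1 ((c k.1).2.2.trans k.2)), fun k =>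
    ⟨h.sub k, (c (h.sub k)).2.2.symm.trans (((c (h.sub k)).2.1 _).2 ((c (h.sub k)).1.1 k))⟩⟩

theorem zero_ev {ι R : Type} [Fintype ι] [NormedAddCommGroup R] [NormedSpace ℂ R] {D : Sd A W ι}
    {d : ℕ} (h : D.Gd d) {x : W} (hx : x ∈ D.Z) {η : W → (ι → ℂ) →L[ℂ] R} {a : W → R}
    (f : D.Fr x η a) : ∀ᶠ y in 𝓝 x, y ∈ D.Z → a y = 0 := by
  filter_upwards [eventually_nhdsWithin_iff.1 ((h.zero x hx).and f.ev)] with y c k
  exact (c (h.sub k)).2.2.symm.trans (((c (h.sub k)).2.1 _).2 ((c (h.sub k)).1.1 k))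

end Vale.Agent.P269L.K.Tp
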