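import Vale.Agent.P269L.K.Z0
import Vale.Agent.P269L.I.LIsoG

/-!
# The roof is a principal bundle over both sides
-/

set_option linter.unusedSectionVars false
set_option maxSynthPendingDepth 3

noncomputable section

namespace Vale.Agent.P269L.K.Tr

open Set Function Topology Filter Module MvPolynomial P269 P269.Ch P269.Base P269.Holo I

section lin

variable {ι : Type} [Fintype ι] {M : ι → ℕ} {e : ι → ℕ} {h : ℕ}
  {Q Q' : Tens M e →L[ℂ] Fin h → ℂ} {Γ : Set (V M)}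

theorem fac (a : HP Q Γ) (b : HP Q' Γ) : ∃ g : (Fin h → ℂ) →L[ℂ] Fin h → ℂ, g ∘L Q = Q' := by
  obtain ⟨σ, k⟩ := LinearMap.exists_rightInverse_of_surjective Q.toLinearMap
    (LinearMap.range_eq_top.2 a.1)
  refine ⟨Q' ∘L LinearMap.toContinuousLinearMap σ, ContinuousLinearMap.ext fun μ => ?_⟩
  have : Q (σ (Q μ) - μ) = 0 := by
    rw [map_sub, sub_eq_zero]
    exact congr($k (Q μ))
  exact sub_eq_zero.1 ((map_sub Q' _ _).symm.trans ((b.2 _).2 ((a.2 _).1 this)))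

theorem canc (a : Surjective Q) {g g' : (Fin h → ℂ) →L[ℂ] Fin h → ℂ} (k : g ∘L Q = g' ∘L Q) :
    g = g' := ContinuousLinearMap.ext (a.forall.2 fun μ => congr($k μ))

theorem hp_uniq (a : HP Q Γ) (b : HP Q' Γ) : ∃ g, IsUnit g ∧ g ∘L Q = Q' := by
  obtain ⟨g, k⟩ := fac a b
  obtain ⟨g', k'⟩ := fac b a
  exact ⟨g, ⟨⟨g, g', canc b.1 (ContinuousLinearMap.ext fun μ => (congrArg g congr($k' μ)).trans
    congr($k μ)), canc a.1 (ContinuousLinearMap.ext fun μ => (congrArg g' congr($k μ)).trans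
    congr($k' μ))⟩, rfl⟩, k⟩

end lin

variable {N c : ℕ} {F : Fin c → MvPolynomial (Fin (N + 1)) ℂ} {A W U ι Λ : Type} [NormedRing A]
  [NormedAlgebra ℂ A] [NormedAddCommGroup W] [NormedSpace ℂ W] [NormedAddCommGroup U]
  [NormedSpace ℂ U] [Fintype ι] [DecidableEq ι] {M : ι → ℕ} {r n : ℕ}
  {s : Su A W U ι Λ M r n F} {u : A} {u₀ : s.ch.A (Fin n)} {x x' : W}
  {y y' : s.ch.W (Fin n)} {φ φ' : V M → V s.ch.M}

variable (s) in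
/-- A point of the product. -/
def pr (a : V M) (b : V s.ch.M) : V s.MM := Sum.rec (motive := fun i => Fin (s.MM i) → ℂ) a b

variable (s) in
/-- The graph. -/
def gph (x : W) (φ : V M → V s.ch.M) : Set (V s.MM) :=
  {q | s.L q ∈ s.D.C x ∧ Base.Orb (φ (s.L q)) (s.R q)}

variable (s) in
/-- Isomorphisms of a solution with a solution of the chart. -/
abbrev Is (x : W) (y : s.ch.W (Fin n)) (φ : V M → V s.ch.M) : Prop :=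
  Iso tor tor (ci F).act (s.D.C x) (s.D₀.C y) (s.D.p · x) (s.D₀.p · y) (s.D.f x) (s.D₀.f y) φ

variable (s) in
/-- The action on the product. -/
def mv (u : A) (u₀ : s.ch.A (Fin n)) (q : V s.MM) : V s.MM :=
  pr s (s.D.ε u (s.L q)) (s.D₀.ε u₀ (s.R q))

variable (s) in
/-- The two isomorphisms are related by the group elements. -/
def Cp (u : A) (u₀ : s.ch.A (Fin n)) (x : W) (φ φ' : V M → V s.ch.M) : Prop :=
  ∀ a ∈ s.D.C x, Same tor (φ' (s.D.ε u a)) (s.D₀.ε u₀ (φ a))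

variable (hs : s.Ok)
include hs

theorem val_sb (hu : IsUnit u) (e) (μ : Tens s.MM e) (q : V s.MM) :
    val (s.sb u u₀ e μ) q = val μ (mv s u u₀ q) :=
  congrArg μ (funext fun t => by
    rcases t with ⟨i | i, j⟩
    · exact Z2.eps_apply hs.nf hu (s.L q) i
    · rfl)

theorem gph_ne (hx : x ∈ s.Z) (hy : y ∈ s.Z₀) (a : Is s x y φ) {q} (hq : q ∈ gph s x φ) (i) :
    q i ≠ 0 := by
  rcases i with i | i
  · exact (hs.nf.crv x hx.1).ne_zero _ hq.1 i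
  · exact hq.2.ne ((hs.nf₀.crv y hy.1).ne_zero _ (a.1 _ hq.1).1) i

theorem jc_eq (hE : s.HasEx) {z} (hz : z ∈ s.rf.Z) (a : Is s z.1 z.2.1 φ)
    (b : HP z.2.2.1 (gph s z.1 φ)) : jc z.2.2.1 = gph s z.1 φ := by
  have k : gph s z.1 φ ⊆ jc z.2.2.1 := fun q hq =>
    ⟨gph_ne hs hz.1 hz.2.1 a hq, fun μ e => (b.2 μ).1 e q hq⟩
  obtain ⟨_, θ, Γ, lk, Qf, v, Lf, E⟩ := hE.2 z hz
  have e := E.hp.self_of_nhds.2.2
  obtain ⟨l1, l2⟩ := E.th.left.self_of_nhds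
  rw [E.eqQ, ] at e
  rw [← e] at l1 l2
  refine Subset.antisymm (fun q hq => ?_) k
  have m : s.L q ∈ s.D.C z.1 := l1 ▸ mem_image_of_mem _ hq
  obtain ⟨t, t1, t2⟩ := l2 _ (k (a := pr s (s.L q) (φ (s.L q))) ⟨m, .refl _⟩) q hq (.refl _)
  exact ⟨m, fun i => t (.inr i), fun i => t1 _, funext fun i => congrFun t2 (.inr i)⟩

theorem mv_img (hu : IsUnit u) (hu₀ : IsUnit u₀) (hx : x ∈ s.Z) (e : s.D.α u x = x')
    (k : Cp s u u₀ x φ φ') : mv s u u₀ '' gph s x φ = gph s x' φ' := by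
  have c := Z2.act_C hs.nf hu hx.1
  rw [e] at c
  refine Subset.antisymm ?_ fun q hq => ?_
  · rintro _ ⟨q, hq, rfl⟩
    exact ⟨c ▸ mem_image_of_mem _ hq.1, same_orb.1 (ac_tor.trans (k _ hq.1)
      (Z2.same_eps hs.nf₀ hu₀ (same_orb.2 hq.2)))⟩
  · obtain ⟨a, a1, a2⟩ := c.le hq.1
    obtain ⟨u₀, rfl⟩ := hu₀
    have b := Z2.same_eps hs.nf₀ u₀⁻¹.isUnit
      (ac_tor.trans (ac_tor.symm (k a a1)) (a2 ▸ same_orb.2 hq.2))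
    rw [Z2.rep_inv (Z2.rε hs.nf₀)] at b
    refine ⟨pr s a (s.D₀.ε u₀⁻¹.1 (s.R q)), ⟨a1, same_orb.1 b⟩, funext fun i => ?_⟩
    rcases i with i | i
    · exact congrFun a2 i
    · exact congrFun (Z2.rep_inv' (Z2.rε hs.nf₀) u₀ (s.R q)) i

theorem sb_surj (hu : IsUnit u) (hu₀ : IsUnit u₀) (e) : Surjective (s.sb u u₀ e) := fun μ => by
  obtain ⟨u, rfl⟩ := hu
  obtain ⟨u₀, rfl⟩ := hu₀
  refine ⟨s.sb u⁻¹.1 u₀⁻¹.1 e μ, ContinuousMultilinearMap.ext fun v => congrArg μ (funext fun t => ?_)⟩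
  rcases t with ⟨i | i, j⟩
  · have := Z2.eps_mul hs.nf u⁻¹.isUnit u.isUnit i
    rw [u.inv_mul, Z2.eps_one hs.nf] at this
    exact congr($this (v ⟨.inl i, j⟩)).symm
  · exact congr(($u₀.inv_mul).1 i (v ⟨.inr i, j⟩))

theorem hp_mv (hu : IsUnit u) (hu₀ : IsUnit u₀) {e h} {Q : Tens s.MM e →L[ℂ] Fin h → ℂ} {Γ}
    (a : HP Q Γ) : HP (Q ∘L s.sb u u₀ e) (mv s u u₀ '' Γ) :=
  ⟨a.1.comp (sb_surj hs hu hu₀ e), fun μ => (a.2 _).trans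
    ((forall₂_congr fun q _ => iff_of_eq (congrArg (· = 0) (val_sb hs hu e μ q))).trans
      ⟨fun k _ ⟨q, a, b⟩ => b ▸ k q a, fun k q a => k _ ⟨q, a, rfl⟩⟩)⟩

/-- Related isomorphisms give Hilbert points in the same orbit. -/
theorem ex_g {z z'} (hz : z.1 ∈ s.Z) (b : HP z.2.2.1 (gph s z.1 φ) ∧ HP z.2.2.2 (gph s z.1 φ))
    (b' : HP z'.2.2.1 (gph s z'.1 φ') ∧ HP z'.2.2.2 (gph s z'.1 φ')) (hu : IsUnit u)
    (hu₀ : IsUnit u₀) (e : s.D.α u z.1 = z'.1) (e₀ : s.D₀.α u₀ z.2.1 = z'.2.1)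
    (k : Cp s u u₀ z.1 φ φ') : ∃ g, IsUnit g ∧ s.rf.act (u, u₀, g) z = z' := by
  have c := mv_img hs hu hu₀ hz e k
  obtain ⟨g, g1, g2⟩ := hp_uniq (c ▸ hp_mv hs hu hu₀ b.1) b'.1
  obtain ⟨g', g3, g4⟩ := hp_uniq (c ▸ hp_mv hs hu hu₀ b.2) b'.2
  exact ⟨(g, g'), Prod.isUnit_iff.2 ⟨g1, g3⟩, Prod.ext e (Prod.ext e₀ (Prod.ext g2 g4))⟩

theorem g_uniq {z} (hz : z ∈ s.rf.Z) (hu : IsUnit u) (hu₀ : IsUnit u₀) {g g'}
    (e : s.rf.act (u, u₀, g) z = s.rf.act (u, u₀, g') z) : g = g' :=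
  let ⟨_, _, _, _, a, b⟩ := hz
  Prod.ext (canc (hp_mv hs hu hu₀ a).1 congr(($e).2.2.1))
    (canc (hp_mv hs hu hu₀ b).1 congr(($e).2.2.2))

/-- Points in the same orbit have related isomorphisms. -/
theorem cp_of (hE : s.HasEx) {z z'} (hz : z ∈ s.rf.Z) (hz' : z' ∈ s.rf.Z) (a : Is s z.1 z.2.1 φ)
    (a' : Is s z'.1 z'.2.1 φ') (b : HP z.2.2.1 (gph s z.1 φ)) (b' : HP z'.2.2.1 (gph s z'.1 φ'))
    (hu : IsUnit u) (hu₀ : IsUnit u₀) {g} (hg : IsUnit g) (e : s.rf.act (u, u₀, g) z = z') :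
    Cp s u u₀ z.1 φ φ' := fun c hc => by
  have k : mv s u u₀ (pr s c (φ c)) ∈ jc z'.2.2.1 := by
    subst e
    refine ⟨fun i => ?_, fun μ m => (val_sb hs hu _ μ _).symm.trans ((b.2 _).1 ?_ _ ⟨hc, .refl _⟩)⟩
    · rcases i with i | i
      · exact (hs.nf.crv _ hz'.1.1).ne_zero _ (Z2.hol_eps hs.nf hu hz.1.1 c hc).1 i
      · exact (hs.nf₀.crv _ hz'.2.1.1).ne_zero _
          (Z2.hol_eps hs.nf₀ hu₀ hz.2.1.1 _ (a.1 c hc).1).1 i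
    · obtain ⟨g₁, e⟩ := (Prod.isUnit_iff.1 hg).1
      have := congrArg g₁⁻¹.1 (show g₁.1 (z.2.2.1 (s.sb u u₀ _ μ)) = 0 from e ▸ m)
      rw [map_zero] at this
      exact congr($g₁.inv_mul _).symm.trans this
  rw [jc_eq hs hE hz' a' b'] at k
  exact same_orb.2 k.2

theorem sym (hx : x ∈ s.Z) (hy : y ∈ s.Z₀) (a : Is s x y φ) :
    ∃ ψ, Iso tor tor (ci F).act (s.D₀.C y) (s.D.C x) (s.D₀.p · y) (s.D.p · x) (s.D₀.f y) (s.D.f x) ψ ∧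
      (∀ c ∈ s.D.C x, Same tor c (ψ (φ c))) ∧ ∀ c ∈ s.D₀.C y, Same tor c (φ (ψ c)) :=
  Z2.iso_symm ac_tor (ac_ci F) (Z2.p_mem hs.nf₀ hy.1) (Z2.p_mem hs.nf hx.1) (Z2.hol_f hs.nf₀ hy) a

/-- **The fibres over the first side are free orbits.** -/
theorem t1 (hE : s.HasEx) : ∀ z ∈ s.rf.Z, ∀ z' ∈ s.rf.Z, z.1 = z'.1 →
    ∃! u : s.ch.A (Fin n) × s.A₃, IsUnit u ∧ s.rf.act (1, u) z = z' := by
  intro z hz z' hz' e
  obtain ⟨h1, h2, _, ⟨φ, a, rfl⟩, b⟩ := id hz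
  obtain ⟨h1', h2', _, ⟨φ', a', rfl⟩, b'⟩ := id hz'
  obtain ⟨ψ, p1, p2, p3⟩ := sym hs h1 h2 a
  have a'' : Is s z.1 z'.2.1 φ' := e ▸ a'
  obtain ⟨u₀, ⟨k1, k2, k3⟩, k4⟩ := Z2.grp hs.nf₀ h2 h2' (Nr.iso_comp ac_tor ac_tor ac_tor (ac_ci F)
    (Z2.sat hs.nf h1.1) (Z2.p_mem hs.nf h1.1) p1 a'')
  have o := (Z2.rε hs.nf).2.1
  obtain ⟨g, g1, g2⟩ := ex_g hs h1 b b' isUnit_one k1 ((hs.nf.eqv.1.2.1 _).trans e) k2 fun c hc => by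
    rw [o]
    exact ac_tor.trans (Nr.hol_same a''.1 hc (p2 c hc)) (ac_tor.symm (k3 _ (a.1 c hc).1))
  refine ⟨(u₀, g), ⟨Prod.isUnit_iff.2 ⟨k1, g1⟩, g2⟩, fun ⟨v, g'⟩ ⟨l1, l2⟩ => ?_⟩
  obtain ⟨l3, l4⟩ := Prod.isUnit_iff.1 l1
  obtain rfl : v = u₀ := k4 v ⟨l3, congr(($l2).2.1), fun c hc => by
    have := cp_of hs hE hz hz' a a' b.1 b'.1 isUnit_one l3 l4 l2 _ (p1.1 c hc).1
    rw [o] at this
    exact ac_tor.trans (Z2.same_eps hs.nf₀ l3 (p3 c hc)) (ac_tor.symm this)⟩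
  exact Prod.ext rfl (g_uniq hs hz isUnit_one l3 (l2.trans g2.symm))

/-- **The fibres over the second side are free orbits.** -/
theorem t0 (hE : s.HasEx) : ∀ z ∈ s.rf.Z, ∀ z' ∈ s.rf.Z, z.2.1 = z'.2.1 →
    ∃! u : A × s.A₃, IsUnit u ∧ s.rf.act (u.1, 1, u.2) z = z' := by
  intro z hz z' hz' e
  obtain ⟨h1, h2, _, ⟨φ, a, rfl⟩, b⟩ := id hz
  obtain ⟨h1', h2', _, ⟨φ', a', rfl⟩, b'⟩ := id hz'
  have a'' : Is s z'.1 z.2.1 φ' := e ▸ a'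
  obtain ⟨ψ, p1, p2, p3⟩ := sym hs h1' h2 a''
  obtain ⟨u, ⟨k1, k2, k3⟩, k4⟩ := Z2.grp hs.nf h1 h1' (Nr.iso_comp ac_tor ac_tor ac_tor (ac_ci F)
    (Z2.sat hs.nf₀ h2.1) (Z2.p_mem hs.nf₀ h2.1) a p1)
  have o := (Z2.rε hs.nf₀).2.1
  have m : ∀ v, IsUnit v → s.D.α v z.1 = z'.1 → ∀ c ∈ s.D.C z.1, s.D.ε v c ∈ s.D.C z'.1 :=
    fun v hv k c hc => k ▸ (Z2.hol_eps hs.nf hv h1.1 c hc).1
  obtain ⟨g, g1, g2⟩ := ex_g hs h1 b b' k1 isUnit_one k2 ((hs.nf₀.eqv.1.2.1 _).trans e)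
    fun c hc => by
      rw [o]
      exact ac_tor.trans (Nr.hol_same a''.1 (m u k1 k2 c hc) (k3 c hc))
        (ac_tor.symm (p3 _ (a.1 c hc).1))
  refine ⟨(u, g), ⟨Prod.isUnit_iff.2 ⟨k1, g1⟩, g2⟩, fun ⟨v, g'⟩ ⟨l1, l2⟩ => ?_⟩
  obtain ⟨l3, l4⟩ := Prod.isUnit_iff.1 l1
  obtain rfl : v = u := k4 v ⟨l3, congr(($l2).1), fun c hc => by
    have := cp_of hs hE hz hz' a a' b.1 b'.1 l3 isUnit_one l4 l2 c hc
    rw [o] at this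
    have d := m v l3 congr(($l2).1) c hc
    exact ac_tor.trans (p2 _ d) (Nr.hol_same p1.1 (a''.1 _ d).1 this)⟩
  exact Prod.ext rfl (g_uniq hs hz l3 isUnit_one (l2.trans g2.symm))

end Vale.Agent.P269L.K.Tr
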