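import Vale.Agent.P269L.K.Un0
import Vale.Agent.P269L.K.Nz
import Vale.Agent.P269L.K.Su0
import Vale.Agent.P269L.Pm.Br
import Vale.Agent.P269.Asm.Fin

/-!
# The independence of the presentation, from the comparison with the chart
-/

set_option linter.unusedSectionVars false
set_option linter.unusedVariables false

namespace Vale.Agent.P269L.K

open Set Function Topology Filter MvPolynomial P291Z P269 P269.Base P269.Ch P269.Tf I

/-- All normal presentations with all good charts. -/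
def AllS (p : ∀ {N c : ℕ} {F : Fin c → MvPolynomial (Fin (N + 1)) ℂ} {A W U ι Λ : Type} [NormedRing A]
    [NormedAlgebra ℂ A] [NormedAddCommGroup W] [NormedSpace ℂ W] [NormedAddCommGroup U]
    [NormedSpace ℂ U] [Fintype ι] [DecidableEq ι] {M : ι → ℕ} {r n : ℕ}
    (_ : Su A W U ι Λ M r n F), Prop) : Prop :=
  ∀ (N c : ℕ) (F : Fin c → MvPolynomial (Fin (N + 1)) ℂ) (A W U ι Λ : Type) [NormedRing A]
    [NormedAlgebra ℂ A] [NormedAddCommGroup W] [NormedSpace ℂ W] [NormedAddCommGroup U]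
    [NormedSpace ℂ U] [Fintype ι] [DecidableEq ι] (M : ι → ℕ) (r n : ℕ) (s : Su A W U ι Λ M r n F),
    s.Ok → (∀ j (u : s.ch.A (Fin n)) μ, s.cs j (sub u _ μ) = sub u _ (s.cs j μ)) → p s

/-- The integrals of a presentation and of a large chart of the same degree agree. -/
def LCmp : Prop := AllS fun {_ _ F _ _ _ _ _} _ _ _ _ _ _ _ _ {_ _ n} s =>
  Plu s.g s.D.m s.ch n s.d → s.Z.Nonempty → ∀ β : Pub.Bm (ci F).X,
    Occ s.D (ci F).act (ci F).cone (Quo.mk (ci F).act) s.g β → ∀ z₁,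
    Itg s.D (ci F).cone (ci F).tan (Quo.mk (ci F).act) β (fun _ => (0, Pub.unit)) z₁ →
    ∀ l z z₀, (∀ i, Pub.Zc (l i).2) → Itg s.D (ci F).cone (ci F).tan (Quo.mk (ci F).act) β l z →
      Itg s.D₀ (ci F).cone (ci F).tan (Quo.mk (ci F).act) β l z₀ → z = z₀

/-- A point of the chart of class `β` gives a point of the presentation of class `β`. -/
def LBk : Prop := AllS fun {_ _ F _ _ _ _ _} _ _ _ _ _ _ _ _ {_ _ _} s =>
  ∀ β : Pub.Bm (ci F).X, Occ s.D (ci F).act (ci F).cone (Quo.mk (ci F).act) s.g β →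
    ∀ x₀ ∈ s.Z₀, Cls tor (crv x₀) (Quo.mk (ci F).act) (fld x₀) β →
      ∃ x ∈ s.Z, Cls s.D.τ (s.D.C x) (Quo.mk (ci F).act) (s.D.f x) β

variable {N c : ℕ} {F : Fin c → MvPolynomial (Fin (N + 1)) ℂ} {dg : Fin c → ℕ}

theorem val_eq (hC : LCmp) (hB : LBk) (h : SmCI F dg) (h0 : (ci F).cone.Nonempty) {g : ℤ}
    (hg : 0 ≤ g) {β : BM (ci F).X} {n : ℕ} {V : (Fin n → ℕ × Pub.Co (ci F).X) → ℤ → ℂ}
    (hV : ∀ l d z, (∀ i, Pub.Zc (l i).2) → (Pub.IsGW (Y := (ci F).X) F (ci F).cone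
      (Quo.mk (ci F).act) g (Tf.fn β) n l d z ↔ z = V l d)) {T : (Fin n → ℕ × Pub.Co (ci F).X) → ℂ}
    (hT : I.IsGW (Y := (ci F).X) (ci F).act (ci F).cone (ci F).tan (Quo.mk (ci F).act) g (Tf.fn β) n T)
    {l : Fin n → ℕ × Pub.Co (ci F).X} (hl : ∀ i, Pub.Zc (l i).2) : T l = ∑ᶠ d, V l d := by
  obtain ⟨A, W, U, ι, Λ, _, _, _, _, _, _, _, _, M, r, D, o, a1, a2, a3⟩ :=
    exists_nf (π := Quo.mk (ci F).act) (ac_ci F) (fun _ _ e => Quot.sound e) hT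
  obtain ⟨e, e0, e1, e2⟩ := J.exists_deg (J.deg (ci F) (fun k _ => dg k) β) hg n
  obtain ⟨k, k1, k2⟩ := ((plu_eventually (F := F) (n := n) dg g e D.m).and
    (eventually_ge_atTop 30)).exists
  obtain ⟨E, hE⟩ := ((ciF F dg).eventually_bigD k).exists
  obtain ⟨r₀, jj, ρ', H⟩ := J.hyp_big n h h0 hg e0 e1 (ciF_big k2) hE
  have b := ((J.lv.pres H e2 hV).2.2.2.2.2 l _ hl).2 rfl
  have b' := (a3 l _ hl).2 rfl
  have := compact_ci h
  by_cases q : ∃ x ∈ D.sol (ci F).cone, Cls D.τ (D.C x) (Quo.mk (ci F).act) (D.f x) (Tf.fn β)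
  · obtain ⟨x, hx, q⟩ := q
    obtain ⟨d1, d2, d3⟩ := a1.deg_eq h hx hg q rfl
    obtain rfl := e2 _ d1 d2 d3
    exact hC _ _ _ _ _ _ _ _ _ _ _ _ (su_ok H a1) (su_csq D o) (k1 E hE) ⟨x, hx⟩ _ a2 _
      ((a3 _ _ fun _ => zc_val.2 Loc.one_mem_Zc).2 rfl) l _ _ hl b' b
  · refine (intg_zero (fun x hx a => q ⟨x, hx, a⟩) b').trans (intg_zero (fun x hx a => ?_) b).symm
    exact q (hB _ _ _ _ _ _ _ _ _ _ _ _ (su_ok H a1) (su_csq D o) _ a2 x hx a)

/-- **All presentations give the same invariants.** -/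
theorem uniq_of (hC : LCmp) (hB : LBk) (hF : ∀ k, (F k).IsHomogeneous (dg k))
    (hs : ∀ x ∈ Pub.cone F, LinearIndependent ℂ fun k j => eval x (pderiv j (F k)))
    (hc : ConnectedSpace (Pub.Var F)) : J.Uniq F := by
  obtain ⟨V, -, hV, -⟩ := Tf.conj N c dg F hF hs hc
  revert hs hc V
  refine transport (F := F) (P := fun act S => (∀ x ∈ S, LinearIndependent ℂ fun k j =>
    eval x (pderiv j (F k))) → ConnectedSpace (Pub.Quo act S) →
    ∀ V : ℤ → Pub.Bm (Pub.Quo act S) → ∀ n, (Fin n → ℕ × Pub.Co (Pub.Quo act S)) → ℤ → ℂ,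
      (∀ g β n l d z, 0 ≤ g → Pub.IsBM β → (∀ i, Pub.Zc (l i).2) →
        (Pub.IsGW F S (Y := Pub.Quo act S) (Quot.mk _) g β n l d z ↔ z = V g β n l d)) →
      ∀ g β n (T T' : (Fin n → ℕ × Pub.Co (Pub.Quo act S)) → ℂ), 0 ≤ g → Pub.IsBM β →
        I.IsGW (Y := Pub.Quo act S) act S (ci F).tan (Quot.mk _) g β n T →
        I.IsGW (Y := Pub.Quo act S) act S (ci F).tan (Quot.mk _) g β n T' →
        ∀ l, (∀ i, Pub.Zc (l i).2) → T' l = T l)
    fun hs (hc : ConnectedSpace (ci F).X) V hV g β n T T' hg hβ a a' l hl => ?_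
  obtain ⟨⟨x, hx⟩, -⟩ := Quot.exists_rep (Classical.arbitrary (ci F).X)
  obtain ⟨β, rfl⟩ := (isBM_iff (X := (ci F).X)).1 hβ
  have k := fun l d z => hV g _ n l d z hg hβ
  exact (val_eq hC hB (smCI hF hs hx) ⟨x, hx⟩ hg k a' hl).trans
    (val_eq hC hB (smCI hF hs hx) ⟨x, hx⟩ hg k a hl).symm

end Vale.Agent.P269L.K
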