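import Vale.Agent.P269L.K.Cls
import Vale.Agent.P269L.K.Th5
import Vale.Agent.P269L.K.Th6
import Vale.Agent.P269L.J.Fin

/-!
# The degree of a presentation in normal form; integrals over an empty locus
-/

set_option linter.unusedSectionVars false

namespace Vale.Agent.P269L.K

open Set Function Topology Filter P291Z P269 P269.Cv P269.Base P269.Ch P269.Tf I

/-- The integral over an empty locus vanishes. -/
theorem intg_zero {A W P E Y : Type} [NormedRing A] [NormedAlgebra ℂ A] [NormedAddCommGroup W]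
    [NormedSpace ℂ W] [NormedAddCommGroup E] [NormedSpace ℂ E] [NormedAddCommGroup P]
    [NormedSpace ℂ P] [TopologicalSpace Y] {n : ℕ} {act : A → W → W} {ρ : A → P → P}
    {S sol : Set W} {van obs : W → Set P} {σ : W → P} {q : W → Prop}
    {val : Fin n → W → Y → Prop} {ρ' : Fin n → A → E → E} {T D : Fin n → W → Set E}
    {l : Fin n → ℕ × Pub.Co Y} {z : ℂ} (hq : ∀ x ∈ sol, ¬q x)
    (h : Intg act ρ S sol van obs σ q val ρ' T D l z) : z = 0 := by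
  obtain ⟨v, u, e, ⟨-, -, -, -, -, β, e', π, -, -, -, k, -⟩, -, -, -, -, rfl⟩ := h
  obtain ⟨w, rfl⟩ := (isBM_iff (X := Quo act sol)).1 k
  refine (congrArg (Tf.fn w) (funext fun l => ?_)).trans ((Tf.fn_val w 0).trans (ev_zero_right w))
  refine Finset.sum_eq_zero fun p _ => mul_eq_zero_of_left (if_neg ?_) _
  exact fun ⟨y, a, _⟩ => hq _ (Quot.out y).2 a

variable {N c : ℕ} {F : Fin c → MvPolynomial (Fin (N + 1)) ℂ} {dg : Fin c → ℕ} {A W U ι Λ : Type}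
  [NormedRing A] [NormedAlgebra ℂ A] [NormedAddCommGroup W] [NormedSpace ℂ W] [NormedAddCommGroup U]
  [NormedSpace ℂ U] [Fintype ι] [DecidableEq ι] {M : ι → ℕ} {r n : ℕ}
  {D : Dat A (ι → ℂ) W (V M) U (Fin r → ℂ) (Fin (N + 1) → ℂ) ι Λ n} {g : ℤ} {o : ι} {x : W}

namespace Nf

variable (h : Nf D (ci F).act (ci F).cone (ci F).tan g o) (hF : SmCI F dg)
  (hx : x ∈ D.sol (ci F).cone)
include h hF hx

/-- A solution with a non-empty curve occurs in the chart of its degree. -/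
theorem exists_pt (ne : (D.C x).Nonempty) {k E : ℕ} (hk : (ciF F dg).Big k)
    (hE : (ciF F dg).BigD k E) {d : ℤ} (hd : d = dgz D.m fun i => D.a i - D.b i) :
    0 ≤ d ∧ 0 < 2 * g - 2 + n + 3 * d ∧ ∃ x₀ ∈ (cH F g d n k E).sol (Fin n) (ci F), ∃ φ,
      I.Iso I.tor I.tor (ci F).act (D.C x) (Ch.crv x₀) (D.p · x) x₀.p (D.f x) (fld x₀) φ := by
  obtain ⟨-, b, Φ, e⟩ := Th6.stb h hx
  have a1 := h.crv x hx.1
  have hy := Hol.hmap (F := F) (o := o) b
  have hc := fun c hc => (b c hc).1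
  obtain ⟨X, _, _, _, R, Nd, L, π, a⟩ := a1.isNodal.exists_par
  obtain ⟨q, q1, q2, q3⟩ := exists_marks a (fun i => ⟨Th6.p_mem h hx.1 i, Th6.p_sm h hx.1 i⟩)
    fun i j s e => (Th6.p_inj h hx.1 j i (.of_smul (a1.ne_zero _ (Th6.p_mem h hx.1 i)) e)).symm
  have e' : Prs o (D.C x) (D.p · x) (D.f x) ⟨⟨X, R, Nd, q ∘ Br.em (Fin n) Empty _, a.nd,
      q1.comp (Equiv.injective _), fun _ => q2 _⟩, fun _ => bz L fun i => D.a i - D.b i, 0,
      fun j z => D.f x (π z) j⟩ L π := ⟨a, q3, fun _ _ => rfl, fun j => a.mem_of_isSecZ (h.isSecZ hx j)⟩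
  have hs := e'.sol (F := F) (χ := fun k _ => dg k) hc
  have hb := e'.stable hF.good hy hc (finite_siso (F := F) a1.isNodal.nod e)
  have ht := And.intro (a.numbers a1).1 fun _ : Unit => show deg (bz L fun i => D.a i - D.b i) = d by
    simp [hd, deg_bz, (a.numbers a1).2.1, dgz]
  obtain ⟨z, hz⟩ := ne
  obtain ⟨w, -⟩ := (a.img _).1 hz
  have : Nonempty X := ⟨w⟩
  obtain ⟨x₀, h0, -, G, s⟩ := e'.exists_pt (d := fun _ => d) hF.good.toInv hk hE (Fintype.card_fin n)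
    hy hs hb ht
  obtain ⟨φ, s, -⟩ := s.symm.exists_iso (F := F) a1.isNodal.nod h0.1.2.2.1.isNodal.nod
  exact ⟨by simpa using (hs.eff (d := fun _ => d) ciF_ample ht).1,
    by simpa [Tgt.fam, ciK] using hb.pos (d := fun _ => d) ht, x₀, h0, φ, s⟩

/-- **The degree of the class.** -/
theorem deg_eq (hg : 0 ≤ g) {β : BM (ci F).X}
    (a : Cls D.τ (D.C x) (Quo.mk (ci F).act) (D.f x) (Tf.fn β)) {d : ℤ}
    (hd : d = dgz D.m fun i => D.a i - D.b i) :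
    J.deg (ci F) (fun k _ => dg k) β = d ∧ 0 ≤ d ∧ 0 < 2 * g - 2 + n + 3 * d := by
  obtain ⟨E, hE⟩ := ((ciF F dg).eventually_bigD 30).exists
  obtain ⟨a1, a2, x₀, h0, φ, b⟩ := h.exists_pt hF hx a.1.nonempty (ciF_big le_rfl) hE hd
  obtain ⟨z, hz⟩ := a.1.nonempty
  obtain ⟨r, jj, ρ', H⟩ := J.hyp_big n hF ⟨_, h.f_mem hx hz⟩ hg a1 a2 (ciF_big le_rfl) hE
  rw [h.tor] at a
  exact ⟨J.deg_of_class (T := ci F) (χ := fun k _ => dg k) hF.tg hE ⟨x₀, h0⟩
    ((lCls' _ _ _ _ _ _ _ _ _ _ _ _ H ⟨x₀, h0⟩ β).1 (cls_tor (h.crv x hx.1) h0.1.2.2.1 (ac_ci F)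
      (fun _ _ w => Quot.sound w) (lStb _ _ _ _ _ _ _ _ _ _ _ _ H x₀ h0).2.1 b a)).2, a1, a2⟩

end Nf

end Vale.Agent.P269L.K
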