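import Vale.Agent.P269L.K.Uq0
import Vale.Agent.P269L.K.Id5
import Vale.Agent.P269L.K.Ker
import Vale.Agent.P269L.K.MemZ

/-!
# Independence of the presentation
-/

set_option linter.all false
set_option maxSynthPendingDepth 3

namespace Vale.Agent.P269L.K

open Set Function Topology Filter Module MvPolynomial P291Z P269 P269.Base P269.Ch I

/-- The local models exist. -/
theorem lLocU : LLoc := by
  intro N c F A W U ι Λ _ _ _ _ _ _ _ _ M r n s hs csq hE z hz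
  obtain ⟨_, hF⟩ := hs.sm
  have := hs.nf.fdU
  obtain ⟨hx, θ, Γ, lk, Qf, v, Lf, e⟩ := hE.2 z hz
  obtain ⟨m, η, a, f⟩ := (hs.nf.gd_ci hF).fr _ hz.1
  obtain ⟨m₀, η₀, a₀, f₀⟩ := (hs.nf₀.gd_ci hF).fr _ hz.2.1
  let b : (Fin (finrank ℂ s.ch.Fld) → ℂ) ≃L[ℂ] s.ch.Fld :=
    ContinuousLinearEquiv.ofFinrankEq (finrank_fin_fun ℂ)
  let b' : (Fin s.hA → U) ≃L[ℂ] Fin (finrank ℂ U * s.hA) → ℂ :=
    ContinuousLinearEquiv.ofFinrankEq (by
      rw [finrank_fin_fun, finrank_pi_fintype, Finset.sum_const, Finset.card_fin, smul_eq_mul,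
        mul_comm])
  obtain ⟨X, w, x1, x2, x3, x4, x5, x6, x7, g1, g2, g3, g4⟩ := e.relC hs f f₀ b b'
  have mz : ∀ᶠ y in 𝓝[s.Z] z.1, (y, s.sec θ Qf X (y, b.toContinuousLinearMap 0)) ∈ s.rf.Z := by
    rw [map_zero]
    exact e.memZ hs x7
  refine ⟨m, m₀, fun ω => s.sec θ Qf X (ω.1, b ω.2), _, w, η, a, η₀, a₀, x3, f,
    (congrArg Prod.fst x3).symm ▸ f₀, x4, x5, x6, ?_, mz, g1, g2, g3, g4,
    e.ker' hs x1 x2 b.toContinuousLinearMap, hs.lim e x1 b.toContinuousLinearMap mz⟩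
  have t : Tendsto Prod.fst (𝓝[s.D.S ×ˢ univ] (z.1, (0 : Fin (finrank ℂ s.ch.Fld) → ℂ)))
      (𝓝[s.D.S] z.1) := continuous_fst.continuousWithinAt.tendsto_nhdsWithin fun _ e => e.1
  exact (ev_pull e.th.base t).mono fun _ b => b.2

/-- **All presentations give the same invariants.** -/
theorem uniq {N c : ℕ} {F : Fin c → MvPolynomial (Fin (N + 1)) ℂ} {dg : Fin c → ℕ}
    (hF : ∀ k, (F k).IsHomogeneous (dg k))
    (hs : ∀ x ∈ Pub.cone F, LinearIndependent ℂ fun k j => eval x (pderiv j (F k)))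
    (hc : ConnectedSpace (Pub.Var F)) : J.Uniq F :=
  uniq_of_loc lLocU hF hs hc

end Vale.Agent.P269L.K
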