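import Vale.Agent.P269L.K.Cmp
import Vale.Agent.P269L.K.Occ

/-!
# Independence of the presentation from the local models
-/

set_option linter.all false
set_option maxSynthPendingDepth 3

namespace Vale.Agent.P269L.K

open MvPolynomial P269

theorem lOc : LOc := fun _ _ _ _ _ _ _ _ _ _ _ _ _ _ _ _ _ _ _ _ hs _ hE _ ho _ hx hc =>
  Su.occ hs hE.1 (Z2.inv hs) ho (fun _ _ e => Quot.sound e) hx hc

theorem uniq_of_loc (hL : LLoc) {N c : ℕ} {F : Fin c → MvPolynomial (Fin (N + 1)) ℂ}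
    {dg : Fin c → ℕ} (hF : ∀ k, (F k).IsHomogeneous (dg k))
    (hs : ∀ x ∈ Pub.cone F, LinearIndependent ℂ fun k j => eval x (pderiv j (F k)))
    (hc : ConnectedSpace (Pub.Var F)) : J.Uniq F :=
  uniq_of (lCmp_of hL lOc) (fun _ _ _ _ _ _ _ _ _ _ _ _ _ _ _ _ _ _ _ _ hs _ _ ho _ hx hc =>
    Su.bk hs ho (fun _ _ e => Quot.sound e) hx hc) hF hs hc

end Vale.Agent.P269L.K
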