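import Vale.Agent.P269L.K.Z0

/-!
# The roof: representations, Hilbert points, properness of the changes of frames
-/

set_option linter.unusedSectionVars false
set_option maxSynthPendingDepth 3

noncomputable section

namespace Vale.Agent.P269L.K.Z2

open Set Function Topology Filter Module MvPolynomial P269 P269.Ch P269.Base P269.Holo I

section hp

variable {ι : Type} [Fintype ι] {M : ι → ℕ} {e : ι → ℕ} {h : ℕ} {Q Q' : Tens M e →L[ℂ] Fin h → ℂ}
  {Γ : Set (V M)}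

theorem isUnit_of_surj {g : (Fin h → ℂ) →L[ℂ] Fin h → ℂ} (a : Surjective g) : IsUnit g :=
  ContinuousLinearMap.isUnit_iff_bijective.2
    ⟨(LinearMap.injective_iff_surjective (f := g.toLinearMap)).2 a, a⟩

theorem bij_of_unit {E : Type} [NormedAddCommGroup E] [NormedSpace ℂ E] {g : E →L[ℂ] E}
    (a : IsUnit g) : Bijective g := by
  obtain ⟨g, rfl⟩ := a
  exact ⟨LeftInverse.injective (g := g⁻¹.1) fun v => DFunLike.congr_fun g.inv_mul v,
    RightInverse.surjective (g := g⁻¹.1) fun v => DFunLike.congr_fun g.mul_inv v⟩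

/-- Two frames differ by a unique invertible matrix. -/
theorem hp_unique (a : HP Q Γ) (b : HP Q' Γ) : ∃! g, IsUnit g ∧ g ∘L Q = Q' := by
  obtain ⟨r, hr⟩ := exists_rightInv a.1
  have e : (Q' ∘L r) ∘L Q = Q' := ContinuousLinearMap.ext fun μ => by
    have := (b.2 _).2 ((a.2 (r (Q μ) - μ)).1 (by rw [map_sub, hr, sub_self]))
    rwa [map_sub, sub_eq_zero] at this
  refine ⟨Q' ∘L r, ⟨isUnit_of_surj (.of_comp (g := Q) (by rw [← ContinuousLinearMap.coe_comp, e]; exact b.1)), e⟩,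
    fun g c => ContinuousLinearMap.ext fun v => ?_⟩
  rw [← c.2]
  exact (congrArg g (hr v)).symm

theorem hp_tr (a : HP Q Γ) {g : (Fin h → ℂ) →L[ℂ] Fin h → ℂ} (hg : IsUnit g)
    {σ : Tens M e →L[ℂ] Tens M e} (hσ : Surjective σ)
    {t : V M → V M} (ht : ∀ μ q, val (σ μ) q = val μ (t q)) : HP (g ∘L Q ∘L σ) (t '' Γ) :=
  ⟨(bij_of_unit hg).2.comp (a.1.comp hσ), fun μ => by
    rw [forall_mem_image]
    simp only [← ht]
    exact (map_eq_zero_iff g (bij_of_unit hg).1).trans (a.2 _)⟩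

end hp

section prop

variable {E F : Type} [NormedAddCommGroup E] [NormedSpace ℂ E] [NormedAddCommGroup F]
  [NormedSpace ℂ F] [FiniteDimensional ℂ F] {α : Type} {l : Filter α}

theorem tendsto_left {g : α → F →L[ℂ] F} {Q : α → E →L[ℂ] F} {Q₁ Q₂ : E →L[ℂ] F}
    (h : Surjective Q₂) (a : Tendsto (fun n => g n ∘L Q n) l (𝓝 Q₁)) (b : Tendsto Q l (𝓝 Q₂)) :
    ∃ g₀, Tendsto g l (𝓝 g₀) ∧ g₀ ∘L Q₂ = Q₁ ∨ l = ⊥ := by
  obtain ⟨r, h1, h2⟩ := exists_an_rightInv (L := fun Q : E →L[ℂ] F => Q) analyticAt_id h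
  have c : Tendsto g l (𝓝 (Q₁ ∘L r Q₂)) :=
    ((ContinuousLinearMap.compL ℂ F E F).continuous₂.tendsto (Q₁, r Q₂)).comp
      (a.prodMk_nhds (h1.continuousAt.tendsto.comp b)) |>.congr' ((b.eventually h2).mono
        fun n e => ContinuousLinearMap.ext fun v => show g n (Q n (r (Q n) v)) = _ by
          rw [show Q n (r (Q n) v) = v from e v])
  refine ⟨_, or_iff_not_imp_right.2 fun e => ⟨c, ?_⟩⟩
  have := neBot_iff.2 e
  exact tendsto_nhds_unique (((ContinuousLinearMap.compL ℂ E F F).continuous₂.tendsto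
    (Q₁ ∘L r Q₂, Q₂)).comp (c.prodMk_nhds b)) a

end prop

variable {N c : ℕ} {F : Fin c → MvPolynomial (Fin (N + 1)) ℂ} {A W U ι Λ : Type} [NormedRing A]
  [NormedAlgebra ℂ A] [NormedAddCommGroup W] [NormedSpace ℂ W] [NormedAddCommGroup U]
  [NormedSpace ℂ U] [Fintype ι] [DecidableEq ι] {M : ι → ℕ} {r n : ℕ} {s : Su A W U ι Λ M r n F}
  {u w : A} {u₀ w₀ : s.ch.A (Fin n)} {e : ι ⊕ Option Unit → ℕ}

variable (s) in
/-- The action on the joint ambient space. -/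
def tr (u : A) (u₀ : s.ch.A (Fin n)) (q : V s.MM) : V s.MM := fun i =>
  (Sum.rec (eps s.D u) u₀.1 i : (Fin (s.MM i) → ℂ) →L[ℂ] Fin (s.MM i) → ℂ) (q i)

theorem val_sb (μ : Tens s.MM e) (q : V s.MM) : val (s.sb u u₀ e μ) q = val μ (tr s u u₀ q) := rfl

theorem R_tr (q : V s.MM) : s.R (tr s u u₀ q) = s.D₀.ε u₀ (s.R q) := rfl

section

variable (h : s.Ok)
include h

theorem L_tr (hu : IsUnit u) (q : V s.MM) : s.L (tr s u u₀ q) = s.D.ε u (s.L q) :=
  funext fun i => eps_apply h.nf hu (s.L q) i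

theorem sb_one : s.sb 1 1 e = .id ℂ _ := ContinuousLinearMap.ext fun μ =>
  ContinuousMultilinearMap.ext fun v => congrArg μ (funext fun t => by
    obtain ⟨i | i, k⟩ := t
    exacts [DFunLike.congr_fun (eps_one h.nf i) _, rfl])

theorem sb_mul (hu : IsUnit u) (hw : IsUnit w) :
    s.sb (u * w) (u₀ * w₀) e = s.sb w w₀ e ∘L s.sb u u₀ e := ContinuousLinearMap.ext fun μ =>
  ContinuousMultilinearMap.ext fun v => congrArg μ (funext fun t => by
    obtain ⟨i | i, k⟩ := t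
    exacts [DFunLike.congr_fun (eps_mul h.nf hu hw i) _, rfl])

theorem sb_surj (hu : IsUnit u) (hu₀ : IsUnit u₀) : Surjective (s.sb u u₀ e) := by
  obtain ⟨u, rfl⟩ := hu
  obtain ⟨u₀, rfl⟩ := hu₀
  refine RightInverse.surjective (g := s.sb u⁻¹.1 u₀⁻¹.1 e) fun μ => ?_
  have := sb_mul h (e := e) (u₀ := u₀⁻¹.1) (w₀ := u₀) u⁻¹.isUnit u.isUnit
  rw [u.inv_mul, u₀.inv_mul, sb_one h] at this
  exact (DFunLike.congr_fun this μ).symm

theorem an_sb {P : Type} [NormedAddCommGroup P] [NormedSpace ℂ P] {a : P → A}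
    {b : P → s.ch.A (Fin n)} {z : P} (ha : AnalyticAt ℂ a z) (hb : AnalyticAt ℂ b z)
    (hu : IsUnit (a z)) : AnalyticAt ℂ (fun y => s.sb (a y) (b y) e) z :=
  analyticAt_of_apply fun μ => by
    have h1 := AnalyticAt.comp (f := fun y => ((fun t : Σ i, Fin (e i) =>
        (Sum.rec (eps s.D (a y)) (b y).1 t.1 :
          (Fin (s.MM t.1) → ℂ) →L[ℂ] Fin (s.MM t.1) → ℂ)), μ)) (x := z)
      ContinuousMultilinearMap.analyticAt_uncurry_compContinuousLinearMap
      ((AnalyticAt.pi fun t => by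
        obtain ⟨i | i, k⟩ := t
        exacts [(an_eps h.nf hu i).comp ha, analyticAt_pi_iff.1 (analyticAt_fst.comp hb) i]).prod
        analyticAt_const)
    exact h1

theorem repq : I.Rep s.rf.aq := by
  have := Eu.fdA h.nf.eqv.1
  refine ⟨inferInstance, fun q => ?_, fun u hu => ⟨⟨fun q q' => Prod.ext
    (ContinuousLinearMap.ext fun μ => map_add u.2.2.1 _ _)
    (ContinuousLinearMap.ext fun μ => map_add u.2.2.2 _ _), fun t q => Prod.ext
    (ContinuousLinearMap.ext fun μ => map_smul u.2.2.1 _ _)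
    (ContinuousLinearMap.ext fun μ => map_smul u.2.2.2 _ _)⟩, fun q => ⟨?_, fun w hw => ?_⟩⟩⟩
  · change (_ ∘L _ ∘L s.sb 1 1 _, _ ∘L _ ∘L s.sb 1 1 _) = q
    rw [sb_one h, sb_one h]
    rfl
  · have a : AnalyticAt ℂ (fun y : (A × s.ch.A (Fin n) × s.A₃) × s.Q => y.1.2) (u, q) :=
      analyticAt_snd.comp analyticAt_fst
    have b := fun e => an_sb h (e := e) (analyticAt_fst.comp (analyticAt_fst (p := (u, q))))
      (analyticAt_fst.comp a) (Prod.isUnit_iff.1 hu).1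
    exact (an_comp (analyticAt_fst.comp (analyticAt_snd.comp a))
      (an_comp (analyticAt_fst.comp analyticAt_snd) (b _))).prod
      (an_comp (analyticAt_snd.comp (analyticAt_snd.comp a))
        (an_comp (analyticAt_snd.comp analyticAt_snd) (b _)))
  · change (_ ∘L _ ∘L s.sb (u.1 * w.1) (u.2.1 * w.2.1) _,
      _ ∘L _ ∘L s.sb (u.1 * w.1) (u.2.1 * w.2.1) _) = _
    rw [sb_mul h (Prod.isUnit_iff.1 hu).1 (Prod.isUnit_iff.1 hw).1,
      sb_mul h (Prod.isUnit_iff.1 hu).1 (Prod.isUnit_iff.1 hw).1]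
    rfl

theorem rep₃ : I.Rep s.rf.ρ₃ := by
  have := Eu.fdA h.nf.eqv.1
  have rν : I.Rep s.D.ν := h.nf.eqv.2.2.1
  have := Eu.fdW rν
  have := FiniteDimensional.complete ℂ U
  refine ⟨inferInstance, fun κ => ContinuousLinearMap.ext fun μ => ContinuousLinearMap.ext fun v =>
    (rep_fd rν isUnit_one _).trans (rν.2.1 _), fun u hu => ⟨⟨fun κ κ' =>
      ContinuousLinearMap.ext fun μ => ContinuousLinearMap.ext fun v => map_add (fderiv ℂ (s.D.ν u.1) 0) _ _,
      fun t κ => ContinuousLinearMap.ext fun μ => ContinuousLinearMap.ext fun v =>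
        map_smul (fderiv ℂ (s.D.ν u.1) 0) _ _⟩, fun κ => ⟨?_, fun w hw => ?_⟩⟩⟩
  · have a : AnalyticAt ℂ (fun y : (A × s.ch.A (Fin n) × s.A₃) × s.P₃ => y.1.2) (u, κ) :=
      analyticAt_snd.comp analyticAt_fst
    refine analyticAt_of_apply fun μ => analyticAt_of_apply fun v => ?_
    have b : AnalyticAt ℂ (fun y : (A × s.ch.A (Fin n) × s.A₃) × s.P₃ =>
        fderiv ℂ (s.D.ν y.1.1) 0) (u, κ) := (rep_an rν (Prod.isUnit_iff.1 hu).1).fun_comp_of_eq
      (analyticAt_fst.comp analyticAt_fst) rfl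
    have c : AnalyticAt ℂ (fun y : (A × s.ch.A (Fin n) × s.A₃) × s.P₃ =>
        y.2 (sub y.1.2.1 _ μ)) (u, κ) :=
      an_apply analyticAt_snd (an_apply (an_sub (analyticAt_fst.comp a) _) analyticAt_const)
    have d : AnalyticAt ℂ (fun y : (A × s.ch.A (Fin n) × s.A₃) × s.P₃ => v ∘L y.1.2.2.2) (u, κ) :=
      an_comp analyticAt_const (analyticAt_snd.comp (analyticAt_snd.comp a))
    simp only [uncurry, Su.ρ₃_apply]
    exact an_apply b (an_apply c d)
  · have a := (Prod.isUnit_iff.1 hu).1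
    have b := (Prod.isUnit_iff.1 hw).1
    refine ContinuousLinearMap.ext fun μ => ContinuousLinearMap.ext fun v => ?_
    rw [s.ρ₃_apply, s.ρ₃_apply, s.ρ₃_apply, rep_fd rν a, rep_fd rν b]
    exact (rep_fd rν (a.mul b) _).trans (rep_mul rν a b _)

theorem invO (u) (hu : IsUnit u) : ∀ q ∈ s.rf.O, s.rf.aq u q ∈ s.rf.O := fun _ hq =>
  have a := Prod.isUnit_iff.1 hu
  have b := Prod.isUnit_iff.1 a.2
  have c := Prod.isUnit_iff.1 b.2
  ⟨(bij_of_unit c.1).2.comp (hq.1.comp (sb_surj h a.1 b.1)),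
    (bij_of_unit c.2).2.comp (hq.2.comp (sb_surj h a.1 b.1))⟩

theorem aq_one (g : s.A₃) (q : s.Q) : s.rf.aq (1, 1, g) q = (g.1 ∘L q.1, g.2 ∘L q.2) := by
  change (_ ∘L _ ∘L s.sb 1 1 _, _ ∘L _ ∘L s.sb 1 1 _) = _
  rw [sb_one h, sb_one h]
  rfl

theorem prop₃ (_ : IsAct (fun u => s.rf.aq (1, 1, u)) s.rf.O) :
    ProperSMul s.A₃ˣ (Holo.Sp (fun u => s.rf.aq (1, 1, u)) s.rf.O) := by
  refine properSMul_iff_continuousSMul_ultrafilter_tendsto_t2.2 ⟨inferInstance,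
    fun 𝒰 x₁ x₂ a => ?_⟩
  have b := (Holo.Sp.continuous_val.tendsto _).comp ((continuous_fst.tendsto _).comp a)
  have c := (Holo.Sp.continuous_val.tendsto _).comp ((continuous_snd.tendsto _).comp a)
  simp only [comp_def, Holo.Sp.val_smul, aq_one h] at b c
  obtain ⟨g₁, ⟨k1, k2⟩ | k⟩ := tendsto_left x₂.val_mem.1 ((continuous_fst.tendsto _).comp b)
    ((continuous_fst.tendsto _).comp c)
  swap
  · exact (𝒰.neBot.ne k).elim
  obtain ⟨g₂, ⟨k3, k4⟩ | k⟩ := tendsto_left x₂.val_mem.2 ((continuous_snd.tendsto _).comp b)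
    ((continuous_snd.tendsto _).comp c)
  swap
  · exact (𝒰.neBot.ne k).elim
  have u : IsUnit ((g₁, g₂) : s.A₃) := Prod.isUnit_iff.2
    ⟨isUnit_of_surj (.of_comp (g := x₂.val.1) (by
      rw [← ContinuousLinearMap.coe_comp, k2]; exact x₁.val_mem.1)),
    isUnit_of_surj (.of_comp (g := x₂.val.2) (by
      rw [← ContinuousLinearMap.coe_comp, k4]; exact x₁.val_mem.2))⟩
  exact ⟨u.unit, Units.isOpenEmbedding_val.isEmbedding.tendsto_nhds_iff.2 (k1.prodMk_nhds k3)⟩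

end

end Vale.Agent.P269L.K.Z2
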